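import Crest.Agent.R163.SKLPot

/-!
Row 163: the symmetrised functionals `E f_k cos (t log (f_i / f_j))` for `q = 3` and the explicit
three-variable form of the pointwise inequality.
-/

set_option autoImplicit false

universe u

namespace Crest.Agent.R163

/-- symmetrisation of an `LMul` functional over a list of permutations -/
lemma LMul.sym {q : ℕ} [NeZero q] {h : (Fin q → ℝ) → ℝ} (hh : LMul.{u} h) {m : ℕ} [NeZero m]
    (σ : Fin m → Equiv.Perm (Fin q)) :
    LMul.{u} (fun v => (∑ k, h (fun i => v (σ k i))) / m) := by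
  have hm : (m : ℝ) ≠ 0 := Nat.cast_ne_zero.mpr (NeZero.ne m)
  have hb : ∀ k, Bdd (fun v => h (fun i => v (σ k i))) := by
    intro k
    obtain ⟨K, hK, hb⟩ := hh.bdd
    refine ⟨K, hK, fun v hv => ?_⟩
    have h1 := hb (fun i => v (σ k i)) fun i => hv _
    have h2 : avg (fun i => v (σ k i)) = avg v := by
      unfold avg; rw [Equiv.sum_comp (σ k) v]
    rwa [h2] at h1
  have key : ∀ {Ω : Type u} {L : Ω → Fin q → ℝ}, IsChan L →
      J (fun v => (∑ k, h (fun i => v (σ k i))) / m) L = J h L := by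
    intro Ω L hL
    have h1 : HasSum (fun o => (∑ k, h (fun i => L o (σ k i))) / (m : ℝ))
        ((∑ _k : Fin m, J h L) / m) := by
      refine HasSum.div_const (hasSum_sum fun k _ => ?_) _
      rw [← hL.tsum_perm h (σ k)]
      exact (hL.summable (hb k)).hasSum
    unfold J
    rw [h1.tsum_eq]
    simp only [Finset.sum_const, Finset.card_univ, Fintype.card_fin, nsmul_eq_mul]
    rw [mul_div_cancel_left₀ _ hm]
    rfl
  refine ⟨?_, ?_, ?_, ?_⟩
  · have h1 : Bdd (fun v : Fin q → ℝ => ∑ k, h (fun i => v (σ k i))) := by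
      choose K hK hb' using hb
      refine ⟨∑ k, K k, Finset.sum_nonneg fun k _ => hK k, fun v hv => ?_⟩
      rw [Finset.sum_mul]
      exact (Finset.abs_sum_le_sum_abs _ _).trans (Finset.sum_le_sum fun k _ => hb' k v hv)
    have h2 := h1.const_mul (1 / (m : ℝ))
    refine h2.congr fun v _ => ?_
    ring
  · intro c v hc hv
    change (∑ k, h (fun i => c * v (σ k i))) / (m : ℝ) = c * ((∑ k, h (fun i => v (σ k i))) / m)
    have : ∀ k, h (fun i => c * v (σ k i)) = c * h (fun i => v (σ k i)) := fun k =>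
      hh.hom c (fun i => v (σ k i)) hc fun i => hv _
    simp only [this, ← Finset.mul_sum]
    rw [mul_div_assoc]
  · simp only [hh.one, Finset.sum_const, Finset.card_univ, Fintype.card_fin, nsmul_eq_mul, mul_one]
    exact div_self hm
  · intro Ω₁ Ω₂ L₁ L₂ h₁ h₂
    rw [key h₁, key h₂, key (h₁.mrg h₂)]
    exact hh.mul L₁ L₂ h₁ h₂

/-- exponents `(1, it, -it)` -/
noncomputable def cexp3 (t : ℝ) : Fin 3 → ℂ := ![1, t * Complex.I, -(t * Complex.I)]

lemma cexp3_swap (t : ℝ) (i : Fin 3) :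
    cexp3 t (Equiv.swap (1 : Fin 3) 2 i) = (starRingEnd ℂ) (cexp3 t i) := by
  fin_cases i
  · have : Equiv.swap (1 : Fin 3) 2 0 = 0 := by decide
    simp [cexp3, this]
  · have : Equiv.swap (1 : Fin 3) 2 1 = 2 := by decide
    simp [cexp3, this]
  · have : Equiv.swap (1 : Fin 3) 2 2 = 1 := by decide
    simp [cexp3, this]

lemma lmul_cexp3 (t : ℝ) : LMul.{u} (rmon (cexp3 t)) := by
  refine lmul_rmon (fun i => ?_) ?_ (cexp3_swap t)
  · fin_cases i <;> simp [cexp3]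
  · simp [cexp3, Fin.sum_univ_three]

/-- the three rotations of `Fin 3` -/
def rot3 (k : Fin 3) : Equiv.Perm (Fin 3) := Equiv.addRight k

/-- symmetrised `E f_k cos (t log (f_i / f_j))` -/
noncomputable def ctf (t : ℝ) (v : Fin 3 → ℝ) : ℝ :=
  (∑ k : Fin 3, rmon (cexp3 t) (fun i => v (rot3 k i))) / (3 : ℕ)

lemma lmul_ctf (t : ℝ) : LMul.{u} (ctf t) := (lmul_cexp3 t).sym rot3

lemma rmon_cexp3 (t : ℝ) {v : Fin 3 → ℝ} (hv : ∀ i, 0 < v i) :
    rmon (cexp3 t) v = v 0 * Real.cos (t * (Real.log (v 1) - Real.log (v 2))) := by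
  unfold rmon cmon
  rw [Fin.prod_univ_three]
  have h1 : (v 1 : ℂ) ≠ 0 := by exact_mod_cast (hv 1).ne'
  have h2 : (v 2 : ℂ) ≠ 0 := by exact_mod_cast (hv 2).ne'
  simp only [cexp3, Matrix.cons_val_zero, Matrix.cons_val_one, Matrix.cons_val, Complex.cpow_one]
  rw [Complex.cpow_def_of_ne_zero h1, Complex.cpow_def_of_ne_zero h2, mul_assoc, ← Complex.exp_add]
  rw [← Complex.ofReal_log (hv 1).le, ← Complex.ofReal_log (hv 2).le]
  have : ((Real.log (v 1) : ℝ) : ℂ) * (t * Complex.I) + (Real.log (v 2) : ℝ) * -(t * Complex.I) =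
      ((t * (Real.log (v 1) - Real.log (v 2)) : ℝ) : ℂ) * Complex.I := by
    push_cast; ring
  rw [this, Complex.re_ofReal_mul, Complex.exp_ofReal_mul_I_re]

lemma ctf_eq (t : ℝ) {v : Fin 3 → ℝ} (hv : ∀ i, 0 < v i) :
    ctf t v = (v 0 * Real.cos (t * (Real.log (v 1) - Real.log (v 2))) +
      v 1 * Real.cos (t * (Real.log (v 2) - Real.log (v 0))) +
      v 2 * Real.cos (t * (Real.log (v 0) - Real.log (v 1)))) / 3 := by
  unfold ctf
  rw [Fin.sum_univ_three]
  rw [rmon_cexp3 t fun i => hv _, rmon_cexp3 t fun i => hv _, rmon_cexp3 t fun i => hv _]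
  have e00 : rot3 0 0 = 0 := by decide
  have e01 : rot3 0 1 = 1 := by decide
  have e02 : rot3 0 2 = 2 := by decide
  have e10 : rot3 1 0 = 1 := by decide
  have e11 : rot3 1 1 = 2 := by decide
  have e12 : rot3 1 2 = 0 := by decide
  have e20 : rot3 2 0 = 2 := by decide
  have e21 : rot3 2 1 = 0 := by decide
  have e22 : rot3 2 2 = 1 := by decide
  rw [e00, e01, e02, e10, e11, e12, e20, e21, e22]
  norm_num

/-! ### explicit form -/

/-- `(1/2) ∑ (x_i - 1) log x_i` -/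
noncomputable def sx (x y z : ℝ) : ℝ :=
  ((x - 1) * Real.log x + (y - 1) * Real.log y + (z - 1) * Real.log z) / 2

/-- `(1/3) ∑ x_k cos (t log (x_i / x_j))` -/
noncomputable def cx (t x y z : ℝ) : ℝ :=
  (x * Real.cos (t * (Real.log y - Real.log z)) + y * Real.cos (t * (Real.log z - Real.log x)) +
    z * Real.cos (t * (Real.log x - Real.log y))) / 3

lemma skl_three {f : Fin 3 → ℝ} (hf : ∀ i, 0 < f i) (h1 : avg f = 1) :
    skl f = sx (f 0) (f 1) (f 2) := by
  have hs : f 0 + f 1 + f 2 = 3 := by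
    unfold avg at h1
    rw [Fin.sum_univ_three] at h1
    push_cast at h1
    linarith
  unfold skl sx
  simp only [Fin.sum_univ_three]
  have l : ∀ i j, Real.log (f i / f j) = Real.log (f i) - Real.log (f j) := fun i j =>
    Real.log_div (hf i).ne' (hf j).ne'
  simp only [l]
  have : f 2 = 3 - f 0 - f 1 := by linarith
  push_cast
  rw [this]
  ring

lemma chi_three {f : Fin 3 → ℝ} (h1 : avg f = 1) :
    chi f = ((f 0 - 1) ^ 2 + (f 1 - 1) ^ 2 + (f 2 - 1) ^ 2) / 3 := by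
  rw [chi_eq (by rw [h1]; norm_num), h1, div_one]
  unfold avg
  rw [Fin.sum_univ_three]
  norm_num

lemma W_three {lam : ℝ} {f : Fin 3 → ℝ} (h1 : avg f = 1) (i : Fin 3) :
    W lam f i = 1 + lam * (f i - 1) := by
  unfold W
  rw [h1]
  ring

/-- the explicit pointwise inequality, `κ = -lam` -/
def Ineq3 {m : ℕ} (μ t : Fin m → ℝ) (κ θ a c1 c2 x0 : ℝ) : Prop :=
  ∀ x y z : ℝ, 0 < x → 0 < y → 0 < z → x + y + z = 3 →
    c1 * (((x - 1) ^ 2 + (y - 1) ^ 2 + (z - 1) ^ 2) / 3 - x0) + c2 ≤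
      a * (sx x y z - θ * sx (1 - κ * (x - 1)) (1 - κ * (y - 1)) (1 - κ * (z - 1))) +
      ∑ j, μ j * (cx (t j) x y z - Real.exp (-θ * (1 -
        cx (t j) (1 - κ * (x - 1)) (1 - κ * (y - 1)) (1 - κ * (z - 1)))))

lemma Ineq3.pointwise {m : ℕ} {μ t : Fin m → ℝ} {κ θ a c1 c2 x0 : ℝ}
    (H : Ineq3 μ t κ θ a c1 c2 x0) (h0 : 0 ≤ κ) (h1 : κ < 1 / 2) (f : Fin 3 → ℝ)
    (hf : ∀ i, 0 < f i) (hf1 : avg f = 1) :
    c1 * (chi f - x0) + c2 ≤ a * (skl f - θ * skl (W (-κ) f)) +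
        ∑ j, μ j * (ctf (t j) f - Real.exp (-θ * (1 - ctf (t j) (W (-κ) f)))) := by
  have hs : f 0 + f 1 + f 2 = 3 := by
    have h2 := hf1
    unfold avg at h2
    rw [Fin.sum_univ_three] at h2
    push_cast at h2
    linarith
  have hW : ∀ i, 0 < W (-κ) f i := fun i => by
    have h2 := W_lower (lam := -κ) (by linarith) (fun i => (hf i).le) i
    rw [hf1] at h2
    push_cast at h2
    linarith
  have hWavg : avg (W (-κ) f) = 1 := by rw [avg_W, hf1]
  have hWi : ∀ i, W (-κ) f i = 1 - κ * (f i - 1) := fun i => by rw [W_three hf1]; ring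
  have h3 := H (f 0) (f 1) (f 2) (hf 0) (hf 1) (hf 2) hs
  rw [chi_three hf1, skl_three hf hf1, skl_three hW hWavg]
  simp only [ctf_eq _ hf, ctf_eq _ hW, hWi]
  exact h3

lemma adm3_neg {κ : ℝ} (h0 : 0 ≤ κ) (h1 : κ ≤ 1 / 2) : Adm 3 (-κ) :=
  adm_three (by linarith) (by linarith)

/-- Poisson trees -/
theorem exists_lt_gw {m : ℕ} {μ t : Fin m → ℝ} {κ d a c1 c2 x0 : ℝ} (hd : 0 ≤ d)
    (h0 : 0 ≤ κ) (h1 : κ < 1 / 2) (ha : 0 ≤ a) (hc1 : 0 ≤ c1) (hc2 : 0 < c2) (hμ : ∀ j, 0 ≤ μ j)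
    (H : Ineq3 μ t κ d a c1 c2 x0) : ∃ n, J chi (gw 3 (-κ) d n) < x0 :=
  skl_gw hd (adm3_neg h0 h1.le) (by linarith) (by push_cast; linarith) ha hc1 hc2 hμ
    (fun j => lmul_ctf (t j)) (H.pointwise h0 h1)

/-- regular trees -/
theorem exists_lt_reg {m : ℕ} {μ t : Fin m → ℝ} {b : ℕ} {κ a c1 c2 x0 : ℝ}
    (h0 : 0 ≤ κ) (h1 : κ < 1 / 2) (ha : 0 ≤ a) (hc1 : 0 ≤ c1) (hc2 : 0 < c2) (hμ : ∀ j, 0 ≤ μ j)
    (hpos : ∀ j, ∀ x y z : ℝ, 0 ≤ x → 0 ≤ y → 0 ≤ z → x + y + z = 3 →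
      0 ≤ cx (t j) (1 - κ * (x - 1)) (1 - κ * (y - 1)) (1 - κ * (z - 1)))
    (H : Ineq3 μ t κ b a c1 c2 x0) : ∃ n, J chi (reg 3 b (-κ) n) < x0 := by
  refine skl_reg (adm3_neg h0 h1.le) (by linarith) (by push_cast; linarith) ha hc1 hc2 hμ
    (fun j => lmul_ctf (t j)) (fun j v hv => ?_) (H.pointwise h0 h1)
  rcases (avg_nonneg hv).eq_or_lt with hA | hA
  · have hz := eq_zero_of_avg hv hA.symm
    have : W (-κ) v = fun i => 0 * (0 : ℝ) := by
      funext i
      unfold W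
      rw [← hA, hz]
      ring
    rw [this, (lmul_ctf.{0} (t j)).hom 0 (fun _ => 0) le_rfl fun _ => le_rfl]
    simp
  · set f : Fin 3 → ℝ := fun i => (avg v)⁻¹ * v i with hf
    have hf0 : ∀ i, 0 ≤ f i := fun i => mul_nonneg (inv_nonneg.2 hA.le) (hv i)
    have hvf : v = fun i => avg v * f i := by
      funext i; rw [hf]; field_simp
    have hf1 : avg f = 1 := by
      have : avg f = (avg v)⁻¹ * avg v := by
        conv_lhs => unfold avg
        conv_rhs => rw [show avg v = (∑ i, v i) / (3 : ℕ) from rfl]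
        rw [hf, ← Finset.mul_sum, mul_div_assoc]
        rfl
      rw [this, inv_mul_cancel₀ hA.ne']
    have hs : f 0 + f 1 + f 2 = 3 := by
      have h2 := hf1
      unfold avg at h2
      rw [Fin.sum_univ_three] at h2
      push_cast at h2
      linarith
    have hW : ∀ i, 0 < W (-κ) f i := fun i => by
      have h2 := W_lower (lam := -κ) (by linarith) hf0 i
      rw [hf1] at h2
      push_cast at h2
      linarith
    have hWi : ∀ i, W (-κ) f i = 1 - κ * (f i - 1) := fun i => by rw [W_three hf1]; ring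
    have h3 := hpos j (f 0) (f 1) (f 2) (hf0 0) (hf0 1) (hf0 2) hs
    have h4 : ctf (t j) (W (-κ) f) = cx (t j) (1 - κ * (f 0 - 1)) (1 - κ * (f 1 - 1))
        (1 - κ * (f 2 - 1)) := by
      rw [ctf_eq _ hW]
      simp only [hWi]
      rfl
    have h5 : W (-κ) v = fun i => avg v * W (-κ) f i := by
      conv_lhs => rw [hvf]
      rw [W_const_mul]
    rw [h5, (lmul_ctf.{0} (t j)).hom _ _ hA.le fun i => (hW i).le, h4]
    exact mul_nonneg hA.le h3

end Crest.Agent.R163
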