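import Crest.Agent.R163.Q3Ferro

/-!
Row 163, three states, ferromagnetic case: `PairHyp 3` and the resulting non-reconstruction for
`0 ≤ lam ≤ 1`.
-/

set_option autoImplicit false

namespace Crest.Agent.R163.Q3

open Crest.Agent.R163

lemma univ_perm3 : (Finset.univ : Finset (Equiv.Perm (Fin 3))) =
    {1, Equiv.swap 1 2, Equiv.swap 0 1, finRotate 3, (finRotate 3)⁻¹, Equiv.swap 0 2} := by decide

lemma orb_eq {φ : (Fin 3 → ℝ) → ℝ} {Q : ℝ → ℝ → ℝ → ℝ} (hφ : ∀ v, φ v = Q (v 0) (v 1) (v 2))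
    (u v : Fin 3 → ℝ) : orb φ u v = S6 Q (u 0) (u 1) (u 2) (v 0) (v 1) (v 2) / 6 := by
  unfold orb
  simp only [hφ]
  rw [univ_perm3]
  rw [Finset.sum_insert (by decide), Finset.sum_insert (by decide), Finset.sum_insert (by decide),
    Finset.sum_insert (by decide), Finset.sum_insert (by decide), Finset.sum_singleton]
  have r0 : finRotate 3 0 = 1 := by decide
  have r1 : finRotate 3 1 = 2 := by decide
  have r2 : finRotate 3 2 = 0 := by decide
  have s0 : (finRotate 3)⁻¹ 0 = 2 := by decide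
  have s1 : (finRotate 3)⁻¹ 1 = 0 := by decide
  have s2 : (finRotate 3)⁻¹ 2 = 1 := by decide
  have t0 : Equiv.swap (1 : Fin 3) 2 0 = 0 := by decide
  have t1 : Equiv.swap (1 : Fin 3) 2 1 = 2 := by decide
  have t2 : Equiv.swap (1 : Fin 3) 2 2 = 1 := by decide
  have w0 : Equiv.swap (0 : Fin 3) 1 0 = 1 := by decide
  have w1 : Equiv.swap (0 : Fin 3) 1 1 = 0 := by decide
  have w2 : Equiv.swap (0 : Fin 3) 1 2 = 2 := by decide
  have z0 : Equiv.swap (0 : Fin 3) 2 0 = 2 := by decide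
  have z1 : Equiv.swap (0 : Fin 3) 2 1 = 1 := by decide
  have z2 : Equiv.swap (0 : Fin 3) 2 2 = 0 := by decide
  rw [r0, r1, r2, s0, s1, s2, t0, t1, t2, w0, w1, w2, z0, z1, z2]
  simp only [Equiv.Perm.coe_one, id_eq, S6]
  have : ((Nat.factorial 3 : ℕ) : ℝ) = 6 := by norm_num [Nat.factorial]
  rw [this]
  ring

lemma avg3 (v : Fin 3 → ℝ) : avg v = (v 0 + v 1 + v 2) / 3 := by
  simp only [avg, Fin.sum_univ_three]; norm_num

lemma chi3 (v : Fin 3 → ℝ) : chi v = X3 (v 0) (v 1) (v 2) := by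
  simp only [chi, avg3, X3]

/-- the class functional -/
noncomputable def psi (v : Fin 3 → ℝ) : ℝ := P3 (v 0) (v 1) (v 2)

/-- the closure multiplier -/
noncomputable def theta (v : Fin 3 → ℝ) : ℝ := (v 0 * v 1 * v 2) ^ 2 / (avg v) ^ 5

/-- the subadditivity multiplier -/
noncomputable def Bm (v : Fin 3 → ℝ) : ℝ :=
  chi v * (4/5 - 3/8 * (((v 0 - avg v) * (v 1 - avg v) * (v 2 - avg v)) / (avg v) ^ 3))

lemma avg_smul (k : ℝ) (v : Fin 3 → ℝ) : avg (fun i => k * v i) = k * avg v := by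
  simp only [avg3]; ring

lemma chi_smul {k : ℝ} {v : Fin 3 → ℝ} (hv : ∀ i, 0 ≤ v i) :
    chi (fun i => k * v i) = k * chi v := by
  rcases eq_or_ne k 0 with rfl | hk
  · simp [chi3, X3]
  by_cases hm : avg v = 0
  · have := eq_zero_of_avg hv hm
    subst this
    simp [chi3, X3]
  · simp only [chi]
    rw [avg_smul]
    have : avg (fun i => (k * v i) ^ 2) = k ^ 2 * avg (fun i => v i ^ 2) := by
      simp only [avg3]; ring
    rw [this]
    field_simp

lemma psi_smul {k : ℝ} {v : Fin 3 → ℝ} (hv : ∀ i, 0 ≤ v i) :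
    psi (fun i => k * v i) = k * psi v := by
  rcases eq_or_ne k 0 with rfl | hk
  · simp [psi, P3]
  by_cases hm : avg v = 0
  · have := eq_zero_of_avg hv hm
    subst this
    simp [psi, P3]
  · rw [avg3] at hm
    have e : (k * v 0 + k * v 1 + k * v 2) / 3 = k * ((v 0 + v 1 + v 2) / 3) := by ring
    simp only [psi, P3, e]
    field_simp

lemma theta_smul {k : ℝ} {v : Fin 3 → ℝ} (hv : ∀ i, 0 ≤ v i) :
    theta (fun i => k * v i) = k * theta v := by
  rcases eq_or_ne k 0 with rfl | hk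
  · simp [theta]
  by_cases hm : avg v = 0
  · have := eq_zero_of_avg hv hm
    subst this
    simp [theta]
  · simp only [theta, avg_smul]
    field_simp

lemma Bm_smul {k : ℝ} {v : Fin 3 → ℝ} (hv : ∀ i, 0 ≤ v i) :
    Bm (fun i => k * v i) = k * Bm v := by
  rcases eq_or_ne k 0 with rfl | hk
  · simp [Bm, chi3, X3]
  by_cases hm : avg v = 0
  · have := eq_zero_of_avg hv hm
    subst this
    simp [Bm, chi3, X3]
  · simp only [Bm, avg_smul, chi_smul hv]
    have : (k * v 0 - k * avg v) * (k * v 1 - k * avg v) * (k * v 2 - k * avg v) / (k * avg v) ^ 3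
        = ((v 0 - avg v) * (v 1 - avg v) * (v 2 - avg v)) / (avg v) ^ 3 := by
      field_simp
    rw [this]; ring

/-- normalisation -/
lemma normalise {v : Fin 3 → ℝ} (hv : ∀ i, 0 ≤ v i) :
    ∃ (m : ℝ) (f : Fin 3 → ℝ), 0 ≤ m ∧ (∀ i, 0 ≤ f i) ∧ avg f = 1 ∧ v = fun i => m * f i := by
  by_cases hm : avg v = 0
  · refine ⟨0, fun _ => 1, le_rfl, fun _ => zero_le_one, by rw [avg3]; norm_num, ?_⟩
    rw [eq_zero_of_avg hv hm]; simp
  · have hpos : 0 < avg v := lt_of_le_of_ne (avg_nonneg hv) (Ne.symm hm)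
    refine ⟨avg v, fun i => (avg v)⁻¹ * v i, hpos.le, fun i => mul_nonneg (inv_nonneg.2 hpos.le) (hv i),
      ?_, ?_⟩
    · rw [avg_smul]; exact inv_mul_cancel₀ hm
    · funext i
      rw [← mul_assoc, mul_inv_cancel₀ hm, one_mul]

lemma bdd_of_norm {φ : (Fin 3 → ℝ) → ℝ}
    (hs : ∀ (k : ℝ) (v : Fin 3 → ℝ), (∀ i, 0 ≤ v i) → φ (fun i => k * v i) = k * φ v) {K : ℝ}
    (hK : 0 ≤ K) (h : ∀ v : Fin 3 → ℝ, (∀ i, 0 ≤ v i) → avg v = 1 → |φ v| ≤ K) : Bdd φ := by
  refine ⟨K, hK, fun v hv => ?_⟩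
  obtain ⟨m, f, hm, hf, h1, rfl⟩ := normalise hv
  rw [hs m f hf, avg_smul, h1, abs_mul, abs_of_nonneg hm]
  nlinarith [h f hf h1]

lemma sum3_of_avg {f : Fin 3 → ℝ} (h : avg f = 1) : f 0 + f 1 + f 2 = 3 := by
  rw [avg3] at h; linarith

lemma Cham.bounds {s c : ℝ} (h : Cham s c) : 0 ≤ s ∧ s ≤ 2 ∧ -s ≤ c ∧ c ≤ 2 := by
  obtain ⟨α, β, γ, hα, hβ, hγ, h1, rfl, rfl⟩ := h
  have k1 : β + 2 * γ ≤ 1 := by linarith
  have k0 : 0 ≤ β + 2 * γ := by positivity
  have hβ1 : β ≤ 1 := by linarith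
  have hβ2 : β ^ 2 ≤ 1 := by nlinarith
  refine ⟨by positivity, ?_, ?_, ?_⟩
  · nlinarith [mul_nonneg hβ hγ]
  · have : (β * γ + γ ^ 2) * (β + 2 * γ) ≤ (β * γ + γ ^ 2) * 1 :=
      mul_le_mul_of_nonneg_left k1 (by positivity)
    have h2 : 0 ≤ 2 * β ^ 2 * (β + 2 * γ) := by positivity
    nlinarith [sq_nonneg β, sq_nonneg γ, mul_nonneg hβ hγ]
  · have : 2 * β ^ 2 * (β + 2 * γ) ≤ 2 * β ^ 2 * 1 :=
      mul_le_mul_of_nonneg_left k1 (by positivity)
    have h2 : 0 ≤ (β * γ + γ ^ 2) * (β + 2 * γ) := by positivity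
    nlinarith

/-- the data of a normalised vector -/
lemma norm_data {f : Fin 3 → ℝ} (hf : ∀ i, 0 ≤ f i) (h : avg f = 1) :
    ∃ s c : ℝ, Cham s c ∧ chi f = s ∧ psi f = c - s ^ 2 / 4 ∧ theta f = (1 - 3/2 * s + c) ^ 2 ∧
      Bm f = s * (4/5 - 3/8 * c) ∧ s = i2 (f 0) (f 1) (f 2) ∧ c = i3 (f 0) (f 1) (f 2) := by
  have hs := sum3_of_avg h
  refine ⟨i2 (f 0) (f 1) (f 2), i3 (f 0) (f 1) (f 2), cham (hf 0) (hf 1) (hf 2) hs, ?_, ?_, ?_, ?_,
    rfl, rfl⟩
  · rw [chi3, X3_norm hs]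
  · rw [psi, P3_norm hs]
  · rw [theta, h, prod_eq hs]; ring
  · rw [Bm, chi3, X3_norm hs, h]
    simp only [i3]; ring

lemma W_smul (lam m : ℝ) (f : Fin 3 → ℝ) :
    W lam (fun i => m * f i) = fun i => m * W lam f i := by
  funext i
  simp only [W, avg_smul]; ring

lemma psi_edge {lam : ℝ} (h0 : 0 ≤ lam) (h1 : lam ≤ 1) {v : Fin 3 → ℝ} (hv : ∀ i, 0 ≤ v i) :
    lam ^ 3 * psi v ≤ psi (W lam v) := by
  obtain ⟨m, f, hm, hf, h, rfl⟩ := normalise hv
  have hadm : Adm 3 lam := ⟨h1, by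
    have : 0 ≤ 1 - lam := by linarith
    push_cast
    positivity⟩
  have hW : ∀ i, 0 ≤ W lam f i := fun i => W_nonneg hadm hf i
  rw [W_smul, psi_smul hf, psi_smul hW]
  have hs := sum3_of_avg h
  have hW0 : ∀ i, W lam f i = 1 + lam * (f i - 1) := fun i => by simp only [W, h]; ring
  have key : lam ^ 3 * psi f ≤ psi (W lam f) := by
    have hs2 : W lam f 0 + W lam f 1 + W lam f 2 = 3 := by
      rw [hW0, hW0, hW0]; linear_combination lam * hs
    rw [psi, psi, P3_norm hs, P3_norm hs2]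
    have e2 : i2 (W lam f 0) (W lam f 1) (W lam f 2) = lam ^ 2 * i2 (f 0) (f 1) (f 2) := by
      rw [hW0, hW0, hW0]; simp only [i2]; ring
    have e3 : i3 (W lam f 0) (W lam f 1) (W lam f 2) = lam ^ 3 * i3 (f 0) (f 1) (f 2) := by
      rw [hW0, hW0, hW0]; simp only [i3]; ring
    rw [e2, e3]
    have h4 : lam ^ 4 ≤ lam ^ 3 := pow_le_pow_of_le_one h0 h1 (by norm_num)
    nlinarith [mul_le_mul_of_nonneg_right h4 (sq_nonneg (i2 (f 0) (f 1) (f 2)))]
  calc lam ^ 3 * (m * psi f) = m * (lam ^ 3 * psi f) := by ring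
    _ ≤ m * psi (W lam f) := mul_le_mul_of_nonneg_left key hm

lemma orb_smul {φ : (Fin 3 → ℝ) → ℝ}
    (hs : ∀ (k : ℝ) (v : Fin 3 → ℝ), (∀ i, 0 ≤ v i) → φ (fun i => k * v i) = k * φ v)
    (m n : ℝ) {f h : Fin 3 → ℝ} (hf : ∀ i, 0 ≤ f i) (hh : ∀ i, 0 ≤ h i) :
    orb φ (fun i => m * f i) (fun i => n * h i) = m * n * orb φ f h := by
  unfold orb
  rw [← mul_div_assoc, Finset.mul_sum]
  congr 1
  refine Finset.sum_congr rfl fun σ _ => ?_
  rw [← hs (m * n) (fun i => f i * h (σ i)) fun i => mul_nonneg (hf i) (hh _)]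
  congr 1
  funext i
  ring

theorem pairHyp3 : PairHyp 3 psi theta Bm (1/100) 5 (1/20) where
  bψ := bdd_of_norm (fun k v hv => psi_smul hv) (K := 10) (by norm_num) fun v hv h => by
    obtain ⟨s, c, hc, -, e, -⟩ := norm_data hv h
    obtain ⟨h1, h2, h3, h4⟩ := hc.bounds
    rw [e, abs_le]
    constructor <;> nlinarith
  bθ := bdd_of_norm (fun k v hv => theta_smul hv) (K := 100) (by norm_num) fun v hv h => by
    obtain ⟨s, c, hc, -, -, e, -⟩ := norm_data hv h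
    obtain ⟨h1, h2, h3, h4⟩ := hc.bounds
    rw [e, abs_of_nonneg (sq_nonneg _)]
    nlinarith
  bB := bdd_of_norm (fun k v hv => Bm_smul hv) (K := 100) (by norm_num) fun v hv h => by
    obtain ⟨s, c, hc, -, -, -, e, -⟩ := norm_data hv h
    obtain ⟨h1, h2, h3, h4⟩ := hc.bounds
    rw [e, abs_le]
    constructor <;> nlinarith
  hψ := fun c v _ hv => psi_smul hv
  δpos := by norm_num
  Cnn := by norm_num
  βpos := by norm_num
  one := by norm_num [psi, P3]
  perfect := by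
    have a1 : ((0 : Fin 3) = 1) = False := by decide
    have a2 : ((0 : Fin 3) = 2) = False := by decide
    have a3 : ((1 : Fin 3) = 0) = False := by decide
    have a4 : ((1 : Fin 3) = 2) = False := by decide
    have a5 : ((2 : Fin 3) = 0) = False := by decide
    have a6 : ((2 : Fin 3) = 1) = False := by decide
    rw [Fin.sum_univ_three]
    simp only [psi, P3, a1, a2, a3, a4, a5, a6, if_true, if_false]
    norm_num
  edge := fun lam h0 h1 v hv => psi_edge h0 h1 hv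
  θ0 := fun v hv => by
    have := avg_nonneg hv
    unfold theta; positivity
  θ1 := fun v hv => by
    obtain ⟨m, f, hm, hf, h, rfl⟩ := normalise hv
    rw [avg_smul, chi_smul hf, theta_smul hf, h]
    obtain ⟨s, c, hc, e1, -, e2, -⟩ := norm_data hf h
    obtain ⟨h1, h2, h3, h4⟩ := hc.bounds
    rw [e1, e2]
    have key : 1 - 5 * s ≤ (1 - 3/2 * s + c) ^ 2 := by nlinarith [sq_nonneg (- 3/2 * s + c)]
    nlinarith [mul_le_mul_of_nonneg_left key hm]
  B1 := fun v hv => by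
    obtain ⟨m, f, hm, hf, h, rfl⟩ := normalise hv
    rw [chi_smul hf, Bm_smul hf]
    obtain ⟨s, c, hc, e1, -, -, e2, -⟩ := norm_data hf h
    obtain ⟨h1, h2, h3, h4⟩ := hc.bounds
    rw [e1, e2]
    have key : 1/20 * s ≤ s * (4/5 - 3/8 * c) := by nlinarith
    nlinarith [mul_le_mul_of_nonneg_left key hm]
  closure := fun u v hu hv => by
    obtain ⟨m, f, hm, hf, h, rfl⟩ := normalise hu
    obtain ⟨n, g, hn, hg, h', rfl⟩ := normalise hv
    rw [orb_smul (fun k v hv => psi_smul hv) m n hf hg, orb_eq (φ := psi) (Q := P3) (fun _ => rfl),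
      theta_smul hf, theta_smul hg, psi_smul hf, psi_smul hg, chi_smul hf, chi_smul hg]
    have key := closure_norm (hf 0) (hf 1) (hf 2) (hg 0) (hg 1) (hg 2) (sum3_of_avg h)
      (sum3_of_avg h')
    have t1 : theta f = (f 0 * f 1 * f 2) ^ 2 := by simp [theta, h]
    have t2 : theta g = (g 0 * g 1 * g 2) ^ 2 := by simp [theta, h']
    rw [← t1, ← t2, ← chi3, ← chi3] at key
    have := mul_le_mul_of_nonneg_left key (mul_nonneg hm hn)
    simp only [psi] at *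
    linarith
  chisub := fun u v hu hv => by
    obtain ⟨m, f, hm, hf, h, rfl⟩ := normalise hu
    obtain ⟨n, g, hn, hg, h', rfl⟩ := normalise hv
    rw [orb_smul (fun k v hv => chi_smul hv) m n hf hg, orb_eq (Q := X3) chi3,
      avg_smul, avg_smul, h, h', Bm_smul hf, Bm_smul hg, psi_smul hf, psi_smul hg, chi_smul hf,
      chi_smul hg]
    have key := chisub_norm (hf 0) (hf 1) (hf 2) (hg 0) (hg 1) (hg 2) (sum3_of_avg h)
      (sum3_of_avg h')
    obtain ⟨s, c, -, -, -, -, e1, e2, e3⟩ := norm_data hf h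
    obtain ⟨s', c', -, -, -, -, e1', e2', e3'⟩ := norm_data hg h'
    rw [← e2, ← e3, ← e2', ← e3', ← e1, ← e1', ← chi3, ← chi3] at key
    have := mul_le_mul_of_nonneg_left key (mul_nonneg hm hn)
    simp only [psi] at *
    linarith

/-- three-state ferromagnetic non-reconstruction at and below the Kesten–Stigum bound -/
theorem ferro3 :
    (∀ b : ℕ, 2 ≤ b → ∀ lam : ℝ, 0 ≤ lam → lam ≤ 1 → (b : ℝ) * lam ^ 2 ≤ 1 →
      Filter.Tendsto (Crest.ProbabilityR.Broadcast.advantage 3 b lam) Filter.atTop (nhds 0)) ∧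
    (∀ d : ℝ, 0 < d → ∀ lam : ℝ, 0 ≤ lam → lam ≤ 1 → d * lam ^ 2 ≤ 1 →
      Filter.Tendsto (Crest.ProbabilityR.Broadcast.gwAdvantage 3 lam d) Filter.atTop (nhds 0)) :=
  pairHyp3.nonreconstruction

end Crest.Agent.R163.Q3
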