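import Crest.Agent.R163.Main
import Crest.Agent.R163.MonoPair
import Crest.Agent.R163.Q3Pair

/-!
Row 163: final assembly of S0244 from the local lemma and the finitely many certificates.
-/

set_option autoImplicit false

namespace Crest.Agent.R163

open Crest.ProbabilityR.Broadcast

/-- the local lemma for the critical antiferromagnetic regular tree -/
def LocReg (b : ℕ) (x0 : ℝ) : Prop :=
  RegLt b (1 / Real.sqrt b) x0 →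
    Filter.Tendsto (advantage 3 b (-(1 / Real.sqrt b))) Filter.atTop (nhds 0)

/-- the local lemma for the critical antiferromagnetic Poisson tree -/
def LocGw (d x0 : ℝ) : Prop :=
  GwLt (1 / Real.sqrt d) d x0 →
    Filter.Tendsto (gwAdvantage 3 (-(1 / Real.sqrt d)) d) Filter.atTop (nhds 0)

/-- S0244 from the local lemma and `χ < x0` at some level, with arbitrary thresholds -/
theorem main244_anti {xR : ℕ → ℝ} {xP : ℝ → ℝ}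
    (locR : ∀ b : ℕ, 4 ≤ b → LocReg b (xR b)) (locP : ∀ d : ℝ, 4 ≤ d → LocGw d (xP d))
    (hR : ∀ b : ℕ, 4 ≤ b → RegLt b (1 / Real.sqrt b) (xR b))
    (hP : ∀ d : ℝ, 4 ≤ d → GwLt (1 / Real.sqrt d) d (xP d)) :
    (∀ b : ℕ, 2 ≤ b → ∀ lam : ℝ, -(1 / 2 : ℝ) ≤ lam → lam ≤ 1 → (b : ℝ) * lam ^ 2 ≤ 1 →
      Filter.Tendsto (advantage 3 b lam) Filter.atTop (nhds 0)) ∧
    (∀ d : ℝ, 1 < d → ∀ lam : ℝ, -(1 / 2 : ℝ) ≤ lam → lam ≤ 1 → d * lam ^ 2 ≤ 1 →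
      Filter.Tendsto (gwAdvantage 3 lam d) Filter.atTop (nhds 0)) := by
  refine main244 Q3.pairHyp3 ?_ (fun b hb => locR b (by omega) (hR b (by omega)))
    (fun d hd => locP d hd (hP d hd))
  have h := locR 4 le_rfl (hR 4 le_rfl)
  rwa [inv_sqrt_four] at h

/-- the same with thresholds given as separate numbers for `b = 4, 5, 6, 7` and `b ≥ 8` -/
theorem regAll {xR : ℕ → ℝ} {κ₅ κ₆ κ₇ : ℝ}
    (h4 : RegLt 4 (1 / 2) (xR 4))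
    (hκ₅ : 0 ≤ κ₅ ∧ κ₅ ≤ 1 / 2 ∧ 1 ≤ κ₅ ^ 2 * 5) (h5 : RegLt 5 κ₅ (xR 5))
    (hκ₆ : 0 ≤ κ₆ ∧ κ₆ ≤ 1 / 2 ∧ 1 ≤ κ₆ ^ 2 * 6) (h6 : RegLt 6 κ₆ (xR 6))
    (hκ₇ : 0 ≤ κ₇ ∧ κ₇ ≤ 1 / 2 ∧ 1 ≤ κ₇ ^ 2 * 7) (h7 : RegLt 7 κ₇ (xR 7))
    (h8 : ∀ b : ℕ, 8 ≤ b → RegLt b (1 / Real.sqrt b) (xR b)) :
    ∀ b : ℕ, 4 ≤ b → RegLt b (1 / Real.sqrt b) (xR b) := by
  intro b hb
  rcases lt_or_ge b 8 with h | h
  · interval_cases b
    · rwa [inv_sqrt_four]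
    · exact h5.crit hκ₅.1 hκ₅.2.1 (by exact_mod_cast hκ₅.2.2) le_rfl
    · exact h6.crit hκ₆.1 hκ₆.2.1 (by exact_mod_cast hκ₆.2.2) le_rfl
    · exact h7.crit hκ₇.1 hκ₇.2.1 (by exact_mod_cast hκ₇.2.2) le_rfl
  · exact h8 b h

/-- all critical Poisson parameters in `[D₁, D₂]` are controlled -/
def GwCell (xP : ℝ → ℝ) (D₁ D₂ : ℝ) : Prop :=
  ∀ d : ℝ, D₁ ≤ d → d ≤ D₂ → GwLt (1 / Real.sqrt d) d (xP d)

/-- concatenation of cells -/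
theorem GwCell.trans {xP : ℝ → ℝ} {D₁ D₂ D₃ : ℝ} (h : GwCell xP D₁ D₂) (h' : GwCell xP D₂ D₃) :
    GwCell xP D₁ D₃ := fun d h1 h3 => (le_total d D₂).elim (h d h1) fun h2 => h' d h2 h3

/-- a cell from one supercritical rational pair `(κ, D₂)`, threshold `x` below `xP` on the cell -/
theorem GwCell.of_pair {xP : ℝ → ℝ} {κ D₁ D₂ x : ℝ} (hκ : 0 ≤ κ) (hκ' : κ ≤ 1 / 2)
    (h0 : 0 ≤ D₁) (h1 : 1 ≤ κ ^ 2 * D₁) (hx : ∀ d, D₁ ≤ d → d ≤ D₂ → x ≤ xP d)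
    (h : GwLt κ D₂ x) : GwCell xP D₁ D₂ :=
  fun d hd1 hd2 => h.cell hκ hκ' h1 hd1 hd2 (h0.trans hd1) (hx d hd1 hd2)

/-- `[4, D]` by cells and `d ≥ D` by a uniform certificate -/
theorem gwAll {xP : ℝ → ℝ} {D : ℝ} (h1 : GwCell xP 4 D)
    (h2 : ∀ d : ℝ, D ≤ d → GwLt (1 / Real.sqrt d) d (xP d)) :
    ∀ d : ℝ, 4 ≤ d → GwLt (1 / Real.sqrt d) d (xP d) :=
  fun d hd => (le_total d D).elim (h1 d hd) (h2 d)

/-- tail from helper69's pointwise inequality (A) (`Ineq3` of SKLC.lean), Poisson case: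
for each `d ≥ D` the inequality at `κ = 1/√d` -/
theorem gwTail {xP : ℝ → ℝ} {D : ℝ} (hD : 4 < D) {m : ℕ} {μ t : Fin m → ℝ} {a c1 c2 x0 : ℝ}
    (ha : 0 ≤ a) (hc1 : 0 ≤ c1) (hc2 : 0 < c2) (hμ : ∀ j, 0 ≤ μ j)
    (hx : ∀ d, D ≤ d → x0 ≤ xP d)
    (H : ∀ d : ℝ, D ≤ d → Ineq3 μ t (1 / Real.sqrt d) d a c1 c2 x0) :
    ∀ d : ℝ, D ≤ d → GwLt (1 / Real.sqrt d) d (xP d) := by
  intro d hd
  have hd4 : 4 < d := hD.trans_le hd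
  have hs : 2 < Real.sqrt d := by
    rw [show (2 : ℝ) = Real.sqrt 4 by
      rw [show (4 : ℝ) = 2 ^ 2 by norm_num, Real.sqrt_sq (by norm_num)]]
    exact Real.sqrt_lt_sqrt (by norm_num) hd4
  have hk : 1 / Real.sqrt d < 1 / 2 := one_div_lt_one_div_of_lt (by norm_num) hs
  obtain ⟨n, hn⟩ := exists_lt_gw (d := d) (by linarith) (by positivity) hk ha hc1 hc2 hμ
    (H d hd)
  exact ⟨n, hn.trans_le (hx d hd)⟩

/-- tail from helper69's pointwise inequality (A), regular case -/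
theorem regTail {xR : ℕ → ℝ} {b₀ : ℕ} (hb₀ : 5 ≤ b₀) {m : ℕ} {μ t : Fin m → ℝ} {a c1 c2 x0 : ℝ}
    (ha : 0 ≤ a) (hc1 : 0 ≤ c1) (hc2 : 0 < c2) (hμ : ∀ j, 0 ≤ μ j)
    (hx : ∀ b : ℕ, b₀ ≤ b → x0 ≤ xR b)
    (hpos : ∀ b : ℕ, b₀ ≤ b → ∀ j, ∀ x y z : ℝ, 0 ≤ x → 0 ≤ y → 0 ≤ z → x + y + z = 3 →
      0 ≤ cx (t j) (1 - 1 / Real.sqrt b * (x - 1)) (1 - 1 / Real.sqrt b * (y - 1))
        (1 - 1 / Real.sqrt b * (z - 1)))
    (H : ∀ b : ℕ, b₀ ≤ b → Ineq3 μ t (1 / Real.sqrt b) b a c1 c2 x0) :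
    ∀ b : ℕ, b₀ ≤ b → RegLt b (1 / Real.sqrt b) (xR b) := by
  intro b hb
  have hb5 : (5 : ℝ) ≤ b := by exact_mod_cast hb₀.trans hb
  have hs : 2 < Real.sqrt b := by
    rw [show (2 : ℝ) = Real.sqrt 4 by
      rw [show (4 : ℝ) = 2 ^ 2 by norm_num, Real.sqrt_sq (by norm_num)]]
    exact Real.sqrt_lt_sqrt (by norm_num) (by linarith)
  have hk : 1 / Real.sqrt b < 1 / 2 := one_div_lt_one_div_of_lt (by norm_num) hs
  obtain ⟨n, hn⟩ := exists_lt_reg (b := b) (by positivity) hk ha hc1 hc2 hμ (hpos b hb) (H b hb)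
  exact ⟨n, hn.trans_le (hx b hb)⟩

/-- the two threshold functions agreed in the notes (units `J chi`) -/
noncomputable def xPs (d : ℝ) : ℝ := if d < 5 then 15 / 100 else if d < 7 then 18 / 100 else 1 / 5

lemma xPs_ge (d : ℝ) : 15 / 100 ≤ xPs d := by
  unfold xPs; split_ifs <;> norm_num

lemma xPs_ge5 {d : ℝ} (h : 5 ≤ d) : 18 / 100 ≤ xPs d := by
  unfold xPs; rw [if_neg (by linarith)]; split_ifs <;> norm_num

lemma xPs_ge7 {d : ℝ} (h : 7 ≤ d) : 1 / 5 ≤ xPs d := by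
  unfold xPs; rw [if_neg (by linarith), if_neg (by linarith)]

end Crest.Agent.R163
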