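import Crest.Agent.R163.Edge

/-!
Row 163 (S0246, backward direction): third-order expansion of the orbit averages of
`chi`, `y3`, `x2` for `q = 4`.
-/

set_option autoImplicit false

namespace Crest.Agent.R163.Bk

open Finset

variable {q : ℕ}

/-- relative deviation from the mean -/
noncomputable def dev (v : Fin q → ℝ) (i : Fin q) : ℝ := v i / avg v - 1

/-- third centered moment functional -/
noncomputable def y3 (v : Fin q → ℝ) : ℝ := avg v * avg (fun i => dev v i ^ 3)

/-- squared second moment functional -/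
noncomputable def x2 (v : Fin q → ℝ) : ℝ := avg v * avg (fun i => dev v i ^ 2) ^ 2

lemma chi_dev [NeZero q] (v : Fin q → ℝ) : chi v = avg v * avg (fun i => dev v i ^ 2) := by
  by_cases h : avg v = 0
  · simp [chi, h]
  · rw [chi_eq h]
    have : (fun i => dev v i ^ 2) = fun i => (v i - avg v) ^ 2 / avg v ^ 2 := by
      funext i; unfold dev; field_simp
    rw [this]
    have h2 : avg (fun i => (v i - avg v) ^ 2 / avg v ^ 2) =
        avg (fun i => (v i - avg v) ^ 2) / avg v ^ 2 := by
      conv_lhs => unfold avg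
      rw [← Finset.sum_div]
      conv_rhs => rw [show avg (fun i => (v i - avg v) ^ 2) = (∑ i, (v i - avg v) ^ 2) / q from rfl]
      rw [div_right_comm]
      rfl
    rw [h2]
    field_simp

/-! ### averages over permutations -/

lemma sum_perm_one (p : Fin 4 → ℝ) (i : Fin 4) :
    ∑ σ : Equiv.Perm (Fin 4), p (σ i) = 6 * ∑ j, p j := by
  have h1 : ∀ j : Fin 4, ∑ σ : Equiv.Perm (Fin 4), p (σ j) = ∑ σ : Equiv.Perm (Fin 4), p (σ i) := by
    intro j
    refine Fintype.sum_equiv (Equiv.mulRight (Equiv.swap i j)) _ _ fun σ => ?_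
    simp [Equiv.Perm.mul_apply]
  have h2 : ∑ j : Fin 4, ∑ σ : Equiv.Perm (Fin 4), p (σ j) = 24 * ∑ j, p j := by
    rw [Finset.sum_comm]
    have : ∀ σ : Equiv.Perm (Fin 4), ∑ j, p (σ j) = ∑ j, p j := fun σ => Equiv.sum_comp σ p
    simp only [this, Finset.sum_const, Finset.card_univ, Fintype.card_perm, Fintype.card_fin,
      nsmul_eq_mul]
    norm_num [Nat.factorial]
  simp only [h1, Finset.sum_const, Finset.card_univ, Fintype.card_fin, nsmul_eq_mul] at h2
  push_cast at h2
  linarith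

lemma sum_perm_two (p r : Fin 4 → ℝ) {i j : Fin 4} (hij : i ≠ j) :
    ∑ σ : Equiv.Perm (Fin 4), p (σ i) * r (σ j) =
      2 * ((∑ l, p l) * (∑ l, r l) - ∑ l, p l * r l) := by
  have h1 : ∀ l : Fin 4, l ≠ i → ∑ σ : Equiv.Perm (Fin 4), p (σ i) * r (σ l) =
      ∑ σ : Equiv.Perm (Fin 4), p (σ i) * r (σ j) := by
    intro l hl
    refine Fintype.sum_equiv (Equiv.mulRight (Equiv.swap j l)) _ _ fun σ => ?_
    simp only [Equiv.coe_mulRight, Equiv.Perm.mul_apply, Equiv.swap_apply_left]
    rw [Equiv.swap_apply_of_ne_of_ne hij hl.symm]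
  have h2 : ∑ l : Fin 4, ∑ σ : Equiv.Perm (Fin 4), p (σ i) * r (σ l) =
      6 * (∑ l, p l) * (∑ l, r l) := by
    rw [Finset.sum_comm]
    have : ∀ σ : Equiv.Perm (Fin 4), ∑ l, p (σ i) * r (σ l) = p (σ i) * ∑ l, r l := fun σ => by
      rw [← Finset.mul_sum, Equiv.sum_comp σ r]
    simp only [this]
    rw [← Finset.sum_mul, sum_perm_one]
  rw [← Finset.add_sum_erase _ _ (Finset.mem_univ i)] at h2
  have h3 : ∑ l ∈ Finset.univ.erase i, ∑ σ : Equiv.Perm (Fin 4), p (σ i) * r (σ l) =
      3 * ∑ σ : Equiv.Perm (Fin 4), p (σ i) * r (σ j) := by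
    rw [Finset.sum_congr rfl fun l hl => h1 l (Finset.ne_of_mem_erase hl)]
    simp [Finset.card_erase_of_mem]
  rw [h3, sum_perm_one (fun l => p l * r l) i] at h2
  linarith

lemma avg4 (a : Fin 4 → ℝ) : avg a = (a 0 + a 1 + a 2 + a 3) / 4 := by
  unfold avg
  rw [Fin.sum_univ_four]
  norm_num

/-- first orbit average -/
lemma E1 (a p : Fin 4 → ℝ) :
    ∑ σ : Equiv.Perm (Fin 4), avg (fun i => a i * p (σ i)) = 24 * (avg a * avg p) := by
  simp only [avg4]
  rw [← Finset.sum_div, Finset.sum_add_distrib, Finset.sum_add_distrib, Finset.sum_add_distrib]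
  simp only [← Finset.mul_sum, sum_perm_one, Fin.sum_univ_four]
  ring

/-- second orbit average -/
lemma E2 (g b k r : Fin 4 → ℝ) (hg : avg g = 0) (hk : avg k = 0) :
    ∑ σ : Equiv.Perm (Fin 4), avg (fun i => g i * k (σ i)) * avg (fun i => b i * r (σ i)) =
      8 * (avg (fun i => g i * b i) * avg (fun i => k i * r i)) := by
  have hg' : g 3 = - g 0 - g 1 - g 2 := by rw [avg4] at hg; linarith
  have hk' : ∑ l, k l = 0 := by
    rw [avg4] at hk; rw [Fin.sum_univ_four]; linarith
  have key : ∀ i j : Fin 4, ∑ σ : Equiv.Perm (Fin 4), k (σ i) * r (σ j) =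
      if i = j then 6 * ∑ l, k l * r l else -2 * ∑ l, k l * r l := by
    intro i j
    split_ifs with h
    · subst h
      exact sum_perm_one (fun l => k l * r l) i
    · rw [sum_perm_two k r h, hk']; ring
  have expand : ∀ σ : Equiv.Perm (Fin 4),
      avg (fun i => g i * k (σ i)) * avg (fun i => b i * r (σ i)) =
        ∑ i, ∑ j, (g i * b j / 16) * (k (σ i) * r (σ j)) := by
    intro σ
    simp only [avg4, Fin.sum_univ_four]
    ring
  simp only [expand]
  rw [Finset.sum_comm]
  have : ∀ i : Fin 4, ∑ σ : Equiv.Perm (Fin 4), ∑ j, (g i * b j / 16) * (k (σ i) * r (σ j)) =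
      ∑ j, (g i * b j / 16) * (if i = j then 6 * ∑ l, k l * r l else -2 * ∑ l, k l * r l) := by
    intro i
    rw [Finset.sum_comm]
    refine Finset.sum_congr rfl fun j _ => ?_
    rw [← Finset.mul_sum, key]
  rw [Finset.sum_congr rfl fun i _ => this i]
  simp only [avg4, Fin.sum_univ_four]
  simp [hg']
  ring

end Crest.Agent.R163.Bk
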