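import Crest.Agent.R163.Back1

/-!
Row 163 (S0246, backward direction): pointwise third-order expansions for a normalized pair.
-/

set_option autoImplicit false

namespace Crest.Agent.R163.Bk

open Finset

lemma avg_mono4 {a b : Fin 4 → ℝ} (h : ∀ i, a i ≤ b i) : avg a ≤ avg b := by
  rw [avg4, avg4]; linarith [h 0, h 1, h 2, h 3]

lemma avg_le_const {a : Fin 4 → ℝ} {c : ℝ} (h : ∀ i, a i ≤ c) : avg a ≤ c := by
  rw [avg4]; linarith [h 0, h 1, h 2, h 3]

lemma abs_avg_le {a : Fin 4 → ℝ} {c : ℝ} (h : ∀ i, |a i| ≤ c) : |avg a| ≤ c := by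
  rw [avg4, abs_le]
  have h0 := abs_le.1 (h 0)
  have h1 := abs_le.1 (h 1)
  have h2 := abs_le.1 (h 2)
  have h3 := abs_le.1 (h 3)
  constructor <;> linarith [h0.1, h0.2, h1.1, h1.2, h2.1, h2.2, h3.1, h3.2]

/-- a vector with mean zero and entries at least `-1` -/
structure Cen (g : Fin 4 → ℝ) : Prop where
  mean : avg g = 0
  ge : ∀ i, -1 ≤ g i

lemma Cen.le {g : Fin 4 → ℝ} (h : Cen g) (i : Fin 4) : g i ≤ 3 := by
  have h1 := h.mean
  rw [avg4] at h1
  have h0 := h.ge 0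
  have h1' := h.ge 1
  have h2 := h.ge 2
  have h3 := h.ge 3
  fin_cases i <;> simp <;> linarith

lemma Cen.abs_le {g : Fin 4 → ℝ} (h : Cen g) (i : Fin 4) : |g i| ≤ 3 :=
  _root_.abs_le.2 ⟨by linarith [h.ge i], h.le i⟩

lemma Cen.sq_le {g : Fin 4 → ℝ} (h : Cen g) (i : Fin 4) :
    g i ^ 2 ≤ 3 * avg (fun i => g i ^ 2) := by
  have h1 := h.mean
  rw [avg4] at h1
  rw [avg4]
  have e : g 3 = - g 0 - g 1 - g 2 := by linarith
  fin_cases i <;> simp only [Fin.zero_eta, Fin.mk_one, Fin.reduceFinMk] <;> rw [e] <;>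
    nlinarith [sq_nonneg (g 0 - g 1), sq_nonneg (g 0 - g 2), sq_nonneg (g 1 - g 2),
      sq_nonneg (g 0 - g 3), sq_nonneg (g 1 - g 3), sq_nonneg (g 2 - g 3),
      sq_nonneg (2 * g 0 + g 1 + g 2), sq_nonneg (g 0 + 2 * g 1 + g 2),
      sq_nonneg (g 0 + g 1 + 2 * g 2), sq_nonneg (g 1 - g 2), sq_nonneg (g 0 + g 1 + g 2)]

lemma Cen.avg_sq_nonneg (g : Fin 4 → ℝ) : 0 ≤ avg (fun i => g i ^ 2) :=
  avg_nonneg fun i => sq_nonneg _

lemma Cen.avg_sq_le {g : Fin 4 → ℝ} (h : Cen g) : avg (fun i => g i ^ 2) ≤ 3 := by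
  have h1 := h.mean
  have h2 : ∀ i, g i ^ 2 ≤ 2 * g i + 3 := fun i => by nlinarith [h.ge i, h.le i]
  have h3 := avg_mono4 h2
  have h4 : avg (fun i => 2 * g i + 3) = 2 * avg g + 3 := by rw [avg4, avg4]; ring
  rw [h4, h1] at h3
  linarith

/-- the data attached to a pair of centered vectors -/
lemma pair_bound {g k : Fin 4 → ℝ} (hg : Cen g) (hk : Cen k) :
    ∃ t : ℝ, 0 ≤ t ∧ t ^ 2 = avg (fun i => g i ^ 2) * avg (fun i => k i ^ 2) ∧
      2 * t ≤ avg (fun i => g i ^ 2) + avg (fun i => k i ^ 2) ∧ t ≤ 3 ∧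
      ∀ i, |g i * k i| ≤ 3 * t := by
  have hx := Cen.avg_sq_nonneg g
  have hx' := Cen.avg_sq_nonneg k
  have hx3 := hg.avg_sq_le
  have hx3' := hk.avg_sq_le
  have hgs := hg.sq_le
  have hks := hk.sq_le
  generalize avg (fun i => g i ^ 2) = x at *
  generalize avg (fun i => k i ^ 2) = x' at *
  refine ⟨Real.sqrt (x * x'), Real.sqrt_nonneg _, Real.sq_sqrt (mul_nonneg hx hx'), ?_, ?_, ?_⟩
  · have : Real.sqrt (x * x') ≤ (x + x') / 2 := by
      rw [Real.sqrt_le_left (by linarith)]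
      nlinarith [sq_nonneg (x - x')]
    linarith
  · rw [Real.sqrt_le_left (by norm_num)]
    nlinarith
  · intro i
    have h1 : (g i * k i) ^ 2 ≤ (3 * Real.sqrt (x * x')) ^ 2 := by
      rw [mul_pow, mul_pow, Real.sq_sqrt (mul_nonneg hx hx')]
      calc g i ^ 2 * k i ^ 2 ≤ (3 * x) * (3 * x') :=
            mul_le_mul (hgs i) (hks i) (sq_nonneg _) (by linarith)
        _ = 3 ^ 2 * (x * x') := by ring
    exact abs_le_of_sq_le_sq h1 (by positivity)

/-! ### functional values -/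

lemma dev_ge {q : ℕ} [NeZero q] {F : Fin q → ℝ} (hF : ∀ i, 0 ≤ F i) (i : Fin q) :
    -1 ≤ dev F i := by
  unfold dev
  have : 0 ≤ F i / avg F := div_nonneg (hF i) (avg_nonneg hF)
  linarith

lemma dev_le {F : Fin 4 → ℝ} (hF : ∀ i, 0 ≤ F i) (i : Fin 4) : dev F i ≤ 3 := by
  unfold dev
  have h1 := le_avg hF i
  have h2 : F i ≤ 4 * avg F := by
    push_cast at h1; linarith
  have : F i / avg F ≤ 4 := by
    by_cases h : avg F = 0
    · rw [h, div_zero]; norm_num
    · rw [div_le_iff₀ (lt_of_le_of_ne (avg_nonneg hF) (Ne.symm h))]; exact h2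
  linarith

lemma abs_dev_le {F : Fin 4 → ℝ} (hF : ∀ i, 0 ≤ F i) (i : Fin 4) : |dev F i| ≤ 3 :=
  _root_.abs_le.2 ⟨by linarith [dev_ge hF i], dev_le hF i⟩

lemma dev_cen {F : Fin 4 → ℝ} (hF : ∀ i, 0 ≤ F i) (h : avg F ≠ 0) : Cen (dev F) where
  mean := by
    have : avg (dev F) = avg F / avg F - 1 := by
      rw [avg4]
      unfold dev
      conv_rhs => rw [show avg F / avg F = ((F 0 + F 1 + F 2 + F 3) / 4) / avg F by rw [← avg4]]
      ring
    rw [this, div_self h, sub_self]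
  ge := dev_ge hF

lemma abs_y3_le_chi {F : Fin 4 → ℝ} (hF : ∀ i, 0 ≤ F i) : |y3 F| ≤ 3 * chi F := by
  rw [chi_dev, y3, abs_mul, abs_of_nonneg (avg_nonneg hF)]
  have h1 : |avg (fun i => dev F i ^ 3)| ≤ 3 * avg (fun i => dev F i ^ 2) := by
    have h2 : ∀ i, |dev F i ^ 3| ≤ 3 * dev F i ^ 2 := fun i => by
      have h3 : |dev F i ^ 3| = |dev F i| * dev F i ^ 2 := by
        rw [abs_pow, pow_succ, mul_comm, sq_abs]
      rw [h3]
      exact mul_le_mul_of_nonneg_right (abs_dev_le hF i) (sq_nonneg _)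
    have e0 := _root_.abs_le.1 (h2 0)
    have e1 := _root_.abs_le.1 (h2 1)
    have e2 := _root_.abs_le.1 (h2 2)
    have e3 := _root_.abs_le.1 (h2 3)
    rw [avg4, avg4, _root_.abs_le]
    constructor <;> linarith [e0.1, e0.2, e1.1, e1.2, e2.1, e2.2, e3.1, e3.2]
  calc avg F * |avg (fun i => dev F i ^ 3)| ≤ avg F * (3 * avg (fun i => dev F i ^ 2)) :=
        mul_le_mul_of_nonneg_left h1 (avg_nonneg hF)
    _ = _ := by ring

lemma x2_nonneg {F : Fin 4 → ℝ} (hF : ∀ i, 0 ≤ F i) : 0 ≤ x2 F :=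
  mul_nonneg (avg_nonneg hF) (sq_nonneg _)

lemma x2_le_chi {F : Fin 4 → ℝ} (hF : ∀ i, 0 ≤ F i) : x2 F ≤ 9 * chi F := by
  rw [chi_dev, x2]
  have h1 : avg (fun i => dev F i ^ 2) ≤ 9 := avg_le_const fun i => by
    have := abs_dev_le hF i
    rw [_root_.abs_le] at this
    nlinarith [this.1, this.2]
  have h0 : 0 ≤ avg (fun i => dev F i ^ 2) := avg_nonneg fun i => sq_nonneg _
  calc avg F * avg (fun i => dev F i ^ 2) ^ 2
      = (avg F * avg (fun i => dev F i ^ 2)) * avg (fun i => dev F i ^ 2) := by ring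
    _ ≤ (avg F * avg (fun i => dev F i ^ 2)) * 9 :=
        mul_le_mul_of_nonneg_left h1 (mul_nonneg (avg_nonneg hF) h0)
    _ = _ := by ring

lemma chi_le3 {F : Fin 4 → ℝ} (hF : ∀ i, 0 ≤ F i) : chi F ≤ 3 * avg F := by
  have := chi_le hF
  push_cast at this
  linarith

lemma bdd_y3 : Bdd (y3 (q := 4)) :=
  ⟨9, by norm_num, fun v hv => by
    have h1 := abs_y3_le_chi hv
    have h2 := chi_le3 hv
    linarith⟩

lemma bdd_x2 : Bdd (x2 (q := 4)) :=
  ⟨27, by norm_num, fun v hv => by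
    rw [abs_of_nonneg (x2_nonneg hv)]
    have h1 := x2_le_chi hv
    have h2 := chi_le3 hv
    linarith⟩

/-! ### the merged vector of a pair -/

/-- the merged vector -/
def FF (g k : Fin 4 → ℝ) (i : Fin 4) : ℝ := (1 + g i) * (1 + k i)

/-- its deviation from its mean -/
def GG (g k : Fin 4 → ℝ) (v : ℝ) (i : Fin 4) : ℝ := g i + k i + (g i * k i - v)

lemma FF_nonneg {g k : Fin 4 → ℝ} (hg : Cen g) (hk : Cen k) (i : Fin 4) : 0 ≤ FF g k i :=
  mul_nonneg (by linarith [hg.ge i]) (by linarith [hk.ge i])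

lemma avg_FF {g k : Fin 4 → ℝ} (hg : Cen g) (hk : Cen k) :
    avg (FF g k) = 1 + avg (fun i => g i * k i) := by
  have h1 := hg.mean
  have h2 := hk.mean
  rw [avg4] at h1 h2 ⊢
  rw [avg4]
  unfold FF
  linarith

lemma avg_FF_le {g k : Fin 4 → ℝ} (hg : Cen g) (hk : Cen k) : avg (FF g k) ≤ 4 := by
  have h2 := hk.mean
  have : ∀ i, FF g k i ≤ 4 * (1 + k i) := fun i =>
    mul_le_mul_of_nonneg_right (by linarith [hg.le i]) (by linarith [hk.ge i])
  have h3 := avg_mono4 this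
  have h4 : avg (fun i => 4 * (1 + k i)) = 4 + 4 * avg k := by rw [avg4, avg4]; ring
  rw [h4, h2] at h3
  linarith

lemma FF_sub {g k : Fin 4 → ℝ} (hg : Cen g) (hk : Cen k) (i : Fin 4) :
    FF g k i - avg (FF g k) = GG g k (avg fun i => g i * k i) i := by
  rw [avg_FF hg hk]; unfold FF GG; ring

/-- either everything vanishes, or the deviation is the quotient -/
lemma pair_cases {g k : Fin 4 → ℝ} (hg : Cen g) (hk : Cen k) :
    (1 + avg (fun i => g i * k i) = 0 ∧ avg (FF g k) = 0 ∧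
      ∀ i, GG g k (avg fun i => g i * k i) i = 0) ∨
    (0 < 1 + avg (fun i => g i * k i) ∧
      ∀ i, dev (FF g k) i = GG g k (avg fun i => g i * k i) i / (1 + avg fun i => g i * k i)) := by
  have hF := FF_nonneg hg hk
  have h0 := avg_nonneg hF
  rcases h0.eq_or_lt with h | h
  · left
    have h1 := eq_zero_of_avg hF h.symm
    have h2 : 1 + avg (fun i => g i * k i) = 0 := by rw [← avg_FF hg hk]; exact h.symm
    refine ⟨h2, h.symm, fun i => ?_⟩
    rw [← FF_sub hg hk, ← h, h1]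
    ring
  · right
    refine ⟨by rw [← avg_FF hg hk]; exact h, fun i => ?_⟩
    rw [← FF_sub hg hk, ← avg_FF hg hk]
    unfold dev
    rw [sub_div, div_self h.ne']

lemma chi_FF {g k : Fin 4 → ℝ} (hg : Cen g) (hk : Cen k) :
    chi (FF g k) = avg (fun i => GG g k (avg fun i => g i * k i) i ^ 2) *
      (1 - avg (fun i => g i * k i)) + avg (fun i => g i * k i) ^ 2 * chi (FF g k) := by
  rcases pair_cases hg hk with ⟨h1, h2, h3⟩ | ⟨h1, h2⟩
  · have e1 : chi (FF g k) = 0 := by simp [chi, h2]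
    have e2 : avg (fun i => GG g k (avg fun i => g i * k i) i ^ 2) = 0 := by
      rw [avg4]; simp [h3]
    rw [e1, e2]; ring
  · rw [chi_dev, avg_FF hg hk]
    have e2 : avg (fun i => dev (FF g k) i ^ 2) =
        avg (fun i => GG g k (avg fun i => g i * k i) i ^ 2) /
          (1 + avg (fun i => g i * k i)) ^ 2 := by
      rw [avg4, avg4]
      simp only [h2]
      generalize 1 + avg (fun i => g i * k i) = w
      ring
    rw [e2]
    generalize avg (fun i => GG g k (avg fun i => g i * k i) i ^ 2) = A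
    generalize avg (fun i => g i * k i) = v at *
    have hw : 1 + v ≠ 0 := h1.ne'
    field_simp
    ring

lemma y3_FF {g k : Fin 4 → ℝ} (hg : Cen g) (hk : Cen k) :
    y3 (FF g k) = avg (fun i => GG g k (avg fun i => g i * k i) i ^ 3) *
      (1 - 2 * avg (fun i => g i * k i)) +
      avg (fun i => g i * k i) ^ 2 * (3 + 2 * avg (fun i => g i * k i)) * y3 (FF g k) := by
  rcases pair_cases hg hk with ⟨h1, h2, h3⟩ | ⟨h1, h2⟩
  · have e1 : y3 (FF g k) = 0 := by simp [y3, h2]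
    have e2 : avg (fun i => GG g k (avg fun i => g i * k i) i ^ 3) = 0 := by
      rw [avg4]; simp [h3]
    rw [e1, e2]; ring
  · rw [y3, avg_FF hg hk]
    have e2 : avg (fun i => dev (FF g k) i ^ 3) =
        avg (fun i => GG g k (avg fun i => g i * k i) i ^ 3) /
          (1 + avg (fun i => g i * k i)) ^ 3 := by
      rw [avg4, avg4]
      simp only [h2]
      generalize 1 + avg (fun i => g i * k i) = w
      ring
    rw [e2]
    generalize avg (fun i => GG g k (avg fun i => g i * k i) i ^ 3) = A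
    generalize avg (fun i => g i * k i) = v at *
    have hw : 1 + v ≠ 0 := h1.ne'
    field_simp
    ring

lemma x2_FF {g k : Fin 4 → ℝ} (hg : Cen g) (hk : Cen k) :
    x2 (FF g k) = avg (fun i => GG g k (avg fun i => g i * k i) i ^ 2) ^ 2 *
      (1 - 3 * avg (fun i => g i * k i)) +
      avg (fun i => g i * k i) ^ 2 * (6 + 8 * avg (fun i => g i * k i) +
        3 * avg (fun i => g i * k i) ^ 2) * x2 (FF g k) := by
  rcases pair_cases hg hk with ⟨h1, h2, h3⟩ | ⟨h1, h2⟩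
  · have e1 : x2 (FF g k) = 0 := by simp [x2, h2]
    have e2 : avg (fun i => GG g k (avg fun i => g i * k i) i ^ 2) = 0 := by
      rw [avg4]; simp [h3]
    rw [e1, e2]; ring
  · rw [x2, avg_FF hg hk]
    have e2 : avg (fun i => dev (FF g k) i ^ 2) =
        avg (fun i => GG g k (avg fun i => g i * k i) i ^ 2) /
          (1 + avg (fun i => g i * k i)) ^ 2 := by
      rw [avg4, avg4]
      simp only [h2]
      generalize 1 + avg (fun i => g i * k i) = w
      ring
    rw [e2]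
    generalize avg (fun i => GG g k (avg fun i => g i * k i) i ^ 2) = A
    generalize avg (fun i => g i * k i) = v at *
    have hw : 1 + v ≠ 0 := h1.ne'
    field_simp
    ring

end Crest.Agent.R163.Bk
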