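import Crest.Agent.R163.Back2

/-!
Row 163 (S0246, backward direction): pointwise third-order expansions for a normalized pair,
with error bounds.
-/

set_option autoImplicit false

namespace Crest.Agent.R163.Bk

open Finset

lemma GG_sq {g k : Fin 4 → ℝ} (hg : Cen g) (hk : Cen k) (v : ℝ) (hv : v = avg fun i => g i * k i) :
    avg (fun i => GG g k v i ^ 2) = avg (fun i => g i ^ 2) + avg (fun i => k i ^ 2) + 2 * v +
      2 * avg (fun i => g i ^ 2 * k i) + 2 * avg (fun i => g i * k i ^ 2) +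
      avg (fun i => (g i * k i - v) ^ 2) := by
  have h1 := hg.mean
  have h2 := hk.mean
  rw [avg4] at h1 h2 hv
  simp only [avg4, GG]
  linear_combination (-2 * v) * h1 + (-2 * v) * h2 - 2 * hv

lemma mm_sq {g k : Fin 4 → ℝ} (v : ℝ) (hv : v = avg fun i => g i * k i) :
    avg (fun i => (g i * k i - v) ^ 2) = avg (fun i => g i ^ 2 * k i ^ 2) - v ^ 2 := by
  rw [avg4] at hv
  simp only [avg4]
  linear_combination (2 * v) * hv

lemma GG_cube {g k : Fin 4 → ℝ} (v : ℝ) :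
    avg (fun i => GG g k v i ^ 3) = avg (fun i => g i ^ 3) + avg (fun i => k i ^ 3) +
      3 * avg (fun i => g i ^ 2 * k i) + 3 * avg (fun i => g i * k i ^ 2) +
      3 * (avg (fun i => g i ^ 3 * k i) - v * avg (fun i => g i ^ 2)) +
      3 * (avg (fun i => g i * k i ^ 3) - v * avg (fun i => k i ^ 2)) +
      avg (fun i => 6 * (g i * k i) * (g i * k i - v) + 3 * (g i + k i) * (g i * k i - v) ^ 2 +
        (g i * k i - v) ^ 3) := by
  simp only [avg4, GG]
  ring

section bounds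

variable {g k : Fin 4 → ℝ} {t : ℝ}

lemma bd_v (h : ∀ i, |g i * k i| ≤ 3 * t) : |avg fun i => g i * k i| ≤ 3 * t := abs_avg_le h

lemma bd_p (hg : Cen g) (ht : 0 ≤ t) (h : ∀ i, |g i * k i| ≤ 3 * t) :
    |avg fun i => g i ^ 2 * k i| ≤ 9 * t := abs_avg_le fun i => by
  have e : g i ^ 2 * k i = g i * (g i * k i) := by ring
  rw [e, abs_mul]
  calc |g i| * |g i * k i| ≤ 3 * (3 * t) :=
        mul_le_mul (hg.abs_le i) (h i) (abs_nonneg _) (by norm_num)
    _ = 9 * t := by ring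

lemma bd_p' (hk : Cen k) (ht : 0 ≤ t) (h : ∀ i, |g i * k i| ≤ 3 * t) :
    |avg fun i => g i * k i ^ 2| ≤ 9 * t := abs_avg_le fun i => by
  have e : g i * k i ^ 2 = k i * (g i * k i) := by ring
  rw [e, abs_mul]
  calc |k i| * |g i * k i| ≤ 3 * (3 * t) :=
        mul_le_mul (hk.abs_le i) (h i) (abs_nonneg _) (by norm_num)
    _ = 9 * t := by ring

lemma bd_q (hg : Cen g) (ht : 0 ≤ t) (h : ∀ i, |g i * k i| ≤ 3 * t) :
    |avg fun i => g i ^ 3 * k i| ≤ 27 * t := abs_avg_le fun i => by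
  have e : g i ^ 3 * k i = g i ^ 2 * (g i * k i) := by ring
  have h2 : |g i ^ 2| ≤ 9 := by
    rw [abs_of_nonneg (sq_nonneg _)]
    have := _root_.abs_le.1 (hg.abs_le i)
    nlinarith [this.1, this.2]
  rw [e, abs_mul]
  calc |g i ^ 2| * |g i * k i| ≤ 9 * (3 * t) :=
        mul_le_mul h2 (h i) (abs_nonneg _) (by norm_num)
    _ = 27 * t := by ring

lemma bd_q' (hk : Cen k) (ht : 0 ≤ t) (h : ∀ i, |g i * k i| ≤ 3 * t) :
    |avg fun i => g i * k i ^ 3| ≤ 27 * t := abs_avg_le fun i => by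
  have e : g i * k i ^ 3 = k i ^ 2 * (g i * k i) := by ring
  have h2 : |k i ^ 2| ≤ 9 := by
    rw [abs_of_nonneg (sq_nonneg _)]
    have := _root_.abs_le.1 (hk.abs_le i)
    nlinarith [this.1, this.2]
  rw [e, abs_mul]
  calc |k i ^ 2| * |g i * k i| ≤ 9 * (3 * t) :=
        mul_le_mul h2 (h i) (abs_nonneg _) (by norm_num)
    _ = 27 * t := by ring

lemma bd_m (ht : 0 ≤ t) (h : ∀ i, |g i * k i| ≤ 3 * t) {v : ℝ} (hv : |v| ≤ 3 * t) (i : Fin 4) :
    |g i * k i - v| ≤ 6 * t := by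
  calc |g i * k i - v| ≤ |g i * k i| + |v| := abs_sub _ _
    _ ≤ 6 * t := by linarith [h i]

lemma bd_m2 (ht : 0 ≤ t) (h : ∀ i, |g i * k i| ≤ 3 * t) {v : ℝ} (hv : |v| ≤ 3 * t) (i : Fin 4) :
    (g i * k i - v) ^ 2 ≤ 36 * t ^ 2 := by
  have := bd_m ht h hv i
  calc (g i * k i - v) ^ 2 = |g i * k i - v| ^ 2 := (sq_abs _).symm
    _ ≤ (6 * t) ^ 2 := pow_le_pow_left₀ (abs_nonneg _) this 2
    _ = 36 * t ^ 2 := by ring

end bounds

/-- third-order expansion of `chi` -/
theorem chi_core {g k : Fin 4 → ℝ} (hg : Cen g) (hk : Cen k) :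
    |chi (FF g k) - (avg (fun i => g i ^ 2) + avg (fun i => k i ^ 2) +
      2 * avg (fun i => g i * k i) + 2 * avg (fun i => g i ^ 2 * k i) +
      2 * avg (fun i => g i * k i ^ 2) + avg (fun i => g i ^ 2 * k i ^ 2) -
      3 * (avg (fun i => g i * k i) * avg (fun i => g i * k i)) -
      avg (fun i => g i * k i) * (avg (fun i => g i ^ 2) + avg (fun i => k i ^ 2)) -
      2 * (avg (fun i => g i * k i) * avg (fun i => g i ^ 2 * k i)) -
      2 * (avg (fun i => g i * k i) * avg (fun i => g i * k i ^ 2)))| ≤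
    1000 * (avg (fun i => g i ^ 2) * avg (fun i => k i ^ 2) *
      (avg (fun i => g i ^ 2) + avg (fun i => k i ^ 2))) := by
  obtain ⟨t, ht0, ht2, htx, ht3, hgk⟩ := pair_bound hg hk
  have hv := bd_v hgk
  have hp := bd_p hg ht0 hgk
  have hp' := bd_p' hk ht0 hgk
  have hG := GG_sq hg hk _ rfl
  have hm := mm_sq (g := g) (k := k) _ rfl
  have hchi := chi_FF hg hk
  have hx := Cen.avg_sq_nonneg g
  have hx' := Cen.avg_sq_nonneg k
  have hrm : 0 ≤ avg (fun i => g i ^ 2 * k i ^ 2) := avg_nonneg fun i => by positivity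
  have hr : avg (fun i => g i ^ 2 * k i ^ 2) ≤ 9 * t ^ 2 := avg_le_const fun i => by
    have h1 : (g i * k i) ^ 2 ≤ (3 * t) ^ 2 := by
      rw [← sq_abs (g i * k i)]
      exact pow_le_pow_left₀ (abs_nonneg _) (hgk i) 2
    calc g i ^ 2 * k i ^ 2 = (g i * k i) ^ 2 := by ring
      _ ≤ (3 * t) ^ 2 := h1
      _ = 9 * t ^ 2 := by ring
  have hF := FF_nonneg hg hk
  have hc0 : 0 ≤ chi (FF g k) := chi_nonneg hF
  have hc3 : chi (FF g k) ≤ 3 * (1 + avg fun i => g i * k i) := by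
    have := chi_le3 hF
    rwa [avg_FF hg hk] at this
  rw [hm] at hG
  rw [hG] at hchi
  rw [← ht2]
  generalize avg (fun i => g i ^ 2) = x at *
  generalize avg (fun i => k i ^ 2) = x' at *
  generalize avg (fun i => g i * k i) = v at *
  generalize avg (fun i => g i ^ 2 * k i) = p at *
  generalize avg (fun i => g i * k i ^ 2) = p' at *
  generalize avg (fun i => g i ^ 2 * k i ^ 2) = r at *
  generalize chi (FF g k) = c at *
  clear hG hm hF hgk
  have hv' := _root_.abs_le.1 hv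
  have hp1 := _root_.abs_le.1 hp
  have hp1' := _root_.abs_le.1 hp'
  -- `chi ≤ 72 (x + x')`
  have hA : x + x' + 2 * v + 2 * p + 2 * p' + (r - v ^ 2) ≤ 36 * (x + x') := by
    nlinarith [sq_nonneg v, hv'.2, hp1.2, hp1'.2]
  have hc : c ≤ 72 * (x + x') := by
    by_cases hw : 1 / 2 ≤ 1 + v
    · -- c (1+v) = A
      have h1 : c * (1 + v) ≤ 36 * (x + x') := by
        by_cases hw1 : v = 1
        · have : c * (1 - v ^ 2) = (x + x' + 2 * v + 2 * p + 2 * p' + (r - v ^ 2)) * (1 - v) := by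
            linear_combination hchi
          -- the case v = 1 cannot be read off; use the generic bound instead
          nlinarith [hc3]
        · have : (1 - v) * (c * (1 + v)) =
              (1 - v) * (x + x' + 2 * v + 2 * p + 2 * p' + (r - v ^ 2)) := by
            linear_combination hchi
          have := mul_left_cancel₀ (sub_ne_zero.2 (Ne.symm hw1)) this
          rw [this]; exact hA
      nlinarith
    · push Not at hw
      have h2 : 1 / 6 ≤ t := by linarith [hv'.1]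
      linarith
  have hkey : c - (x + x' + 2 * v + 2 * p + 2 * p' + r - 3 * (v * v) - v * (x + x') -
      2 * (v * p) - 2 * (v * p')) = -(v * r) + v ^ 3 + v ^ 2 * c := by
    linear_combination hchi
  rw [hkey]
  have ht2' : 0 ≤ t ^ 2 := sq_nonneg t
  have hv2 : v ^ 2 ≤ 9 * t ^ 2 := by nlinarith [hv'.1, hv'.2]
  have b1 : |v * r| ≤ 27 * t ^ 3 := by
    rw [abs_mul, abs_of_nonneg hrm]
    calc |v| * r ≤ (3 * t) * (9 * t ^ 2) := mul_le_mul hv hr hrm (by positivity)
      _ = 27 * t ^ 3 := by ring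
  have b2 : |v ^ 3| ≤ 27 * t ^ 3 := by
    rw [abs_pow]
    calc |v| ^ 3 ≤ (3 * t) ^ 3 := pow_le_pow_left₀ (abs_nonneg _) hv 3
      _ = 27 * t ^ 3 := by ring
  have b3 : |v ^ 2 * c| ≤ 9 * t ^ 2 * (72 * (x + x')) := by
    rw [abs_of_nonneg (mul_nonneg (sq_nonneg v) hc0)]
    exact mul_le_mul hv2 hc hc0 (by positivity)
  have b4 : t ^ 3 ≤ t ^ 2 * (x + x') / 2 := by nlinarith
  calc |-(v * r) + v ^ 3 + v ^ 2 * c| ≤ |v * r| + |v ^ 3| + |v ^ 2 * c| := by
        refine (abs_add_le _ _).trans ?_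
        refine add_le_add ((abs_add_le _ _).trans ?_) le_rfl
        rw [abs_neg]
    _ ≤ 27 * t ^ 3 + 27 * t ^ 3 + 9 * t ^ 2 * (72 * (x + x')) := by linarith
    _ ≤ 1000 * (t ^ 2 * (x + x')) := by nlinarith [mul_nonneg ht2' (add_nonneg hx hx')]

end Crest.Agent.R163.Bk
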