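import Crest.Agent.R163.Back3

/-!
Row 163 (S0246, backward direction): pointwise third-order expansions for a normalized pair,
with error bounds (`y3` and `x2`).
-/

set_option autoImplicit false

namespace Crest.Agent.R163.Bk

open Finset

lemma abs_y3_FF_le {g k : Fin 4 → ℝ} (hg : Cen g) (hk : Cen k) : |y3 (FF g k)| ≤ 36 := by
  have hF := FF_nonneg hg hk
  have h1 := abs_y3_le_chi hF
  have h2 := chi_le3 hF
  have h3 := avg_FF_le hg hk
  linarith

lemma abs_x2_FF_le {g k : Fin 4 → ℝ} (hg : Cen g) (hk : Cen k) : |x2 (FF g k)| ≤ 108 := by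
  have hF := FF_nonneg hg hk
  rw [abs_of_nonneg (x2_nonneg hF)]
  have h1 := x2_le_chi hF
  have h2 := chi_le3 hF
  have h3 := avg_FF_le hg hk
  linarith

set_option maxHeartbeats 1000000 in
/-- third-order expansion of `y3` -/
theorem y3_core {g k : Fin 4 → ℝ} (hg : Cen g) (hk : Cen k) :
    |y3 (FF g k) - (avg (fun i => g i ^ 3) + avg (fun i => k i ^ 3) +
      3 * avg (fun i => g i ^ 2 * k i) + 3 * avg (fun i => g i * k i ^ 2) +
      3 * avg (fun i => g i ^ 3 * k i) + 3 * avg (fun i => g i * k i ^ 3) -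
      3 * (avg (fun i => g i * k i) * (avg (fun i => g i ^ 2) + avg (fun i => k i ^ 2))) -
      2 * (avg (fun i => g i * k i) * (avg (fun i => g i ^ 3) + avg (fun i => k i ^ 3))))| ≤
    60000 * (avg (fun i => g i ^ 2) * avg (fun i => k i ^ 2)) := by
  obtain ⟨t, ht0, ht2, htx, ht3, hgk⟩ := pair_bound hg hk
  have hv := bd_v hgk
  have hp := bd_p hg ht0 hgk
  have hp' := bd_p' hk ht0 hgk
  have hq := bd_q hg ht0 hgk
  have hq' := bd_q' hk ht0 hgk
  have hG := GG_cube (g := g) (k := k) (avg fun i => g i * k i)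
  have hc := y3_FF hg hk
  have hb := abs_y3_FF_le hg hk
  have hx := Cen.avg_sq_nonneg g
  have hx' := Cen.avg_sq_nonneg k
  have hx3 := hg.avg_sq_le
  have hx3' := hk.avg_sq_le
  -- the remainder
  have hR : |avg (fun i => 6 * (g i * k i) * (g i * k i - avg fun i => g i * k i) +
      3 * (g i + k i) * (g i * k i - avg fun i => g i * k i) ^ 2 +
        (g i * k i - avg fun i => g i * k i) ^ 3)| ≤ 2000 * t ^ 2 := abs_avg_le fun i => by
    have h1 := hgk i
    have h2 := bd_m ht0 hgk hv i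
    have h3 := bd_m2 ht0 hgk hv i
    have h4 := hg.abs_le i
    have h5 := hk.abs_le i
    have h6 : |g i * k i - avg fun i => g i * k i| ≤ 18 := by linarith
    generalize (g i * k i - avg fun i => g i * k i) = m at *
    generalize g i * k i = z at *
    have e1 : |6 * z * m| ≤ 108 * t ^ 2 := by
      rw [abs_mul, abs_mul, abs_of_nonneg (by norm_num : (0 : ℝ) ≤ 6)]
      calc 6 * |z| * |m| ≤ 6 * (3 * t) * (6 * t) :=
            mul_le_mul (by linarith) h2 (abs_nonneg _) (by positivity)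
        _ = 108 * t ^ 2 := by ring
    have e2 : |3 * (g i + k i) * m ^ 2| ≤ 18 * (36 * t ^ 2) := by
      rw [abs_mul, abs_mul, abs_of_nonneg (by norm_num : (0 : ℝ) ≤ 3), abs_of_nonneg (sq_nonneg m)]
      refine mul_le_mul ?_ h3 (sq_nonneg _) (by norm_num)
      have := abs_add_le (g i) (k i)
      linarith
    have e3 : |m ^ 3| ≤ 18 * (36 * t ^ 2) := by
      have : |m ^ 3| = |m| * m ^ 2 := by rw [abs_pow, pow_succ, mul_comm, sq_abs]
      rw [this]
      exact mul_le_mul h6 h3 (sq_nonneg _) (by norm_num)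
    calc |6 * z * m + 3 * (g i + k i) * m ^ 2 + m ^ 3|
        ≤ |6 * z * m| + |3 * (g i + k i) * m ^ 2| + |m ^ 3| :=
          (abs_add_le _ _).trans (add_le_add (abs_add_le _ _) le_rfl)
      _ ≤ 2000 * t ^ 2 := by nlinarith [sq_nonneg t]
  rw [hG] at hc
  rw [← ht2]
  generalize avg (fun i => 6 * (g i * k i) * (g i * k i - avg fun i => g i * k i) +
      3 * (g i + k i) * (g i * k i - avg fun i => g i * k i) ^ 2 +
        (g i * k i - avg fun i => g i * k i) ^ 3) = R at *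
  generalize avg (fun i => g i ^ 2) = x at *
  generalize avg (fun i => k i ^ 2) = x' at *
  generalize avg (fun i => g i ^ 3) = y at *
  generalize avg (fun i => k i ^ 3) = y' at *
  generalize avg (fun i => g i * k i) = v at *
  generalize avg (fun i => g i ^ 2 * k i) = p at *
  generalize avg (fun i => g i * k i ^ 2) = p' at *
  generalize avg (fun i => g i ^ 3 * k i) = a at *
  generalize avg (fun i => g i * k i ^ 3) = a' at *
  generalize y3 (FF g k) = c at *
  clear hG hgk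
  have hv' := _root_.abs_le.1 hv
  have hv9 : |v| ≤ 9 := by linarith
  have hv9' := _root_.abs_le.1 hv9
  have hv2 : v ^ 2 ≤ 9 * t ^ 2 := by nlinarith [hv'.1, hv'.2]
  -- the second remainder
  set S : ℝ := 3 * p + 3 * p' + 3 * (a - v * x) + 3 * (a' - v * x') + R with hS
  have hSb : |S| ≤ 7000 * t := by
    have hvx : |v * x| ≤ 9 * t := by
      rw [abs_mul, abs_of_nonneg hx]
      nlinarith [abs_nonneg v]
    have hvx' : |v * x'| ≤ 9 * t := by
      rw [abs_mul, abs_of_nonneg hx']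
      nlinarith [abs_nonneg v]
    have b1 := _root_.abs_le.1 hp
    have b2 := _root_.abs_le.1 hp'
    have b3 := _root_.abs_le.1 hq
    have b4 := _root_.abs_le.1 hq'
    have b5 := _root_.abs_le.1 hR
    have b6 := _root_.abs_le.1 hvx
    have b7 := _root_.abs_le.1 hvx'
    have b8 : t ^ 2 ≤ 3 * t := by nlinarith
    rw [hS, _root_.abs_le]
    constructor
    · linarith [b1.1, b2.1, b3.1, b4.1, b5.1, b6.2, b7.2]
    · linarith [b1.2, b2.2, b3.2, b4.2, b5.2, b6.1, b7.1]
  have hkey : c - (y + y' + 3 * p + 3 * p' + 3 * a + 3 * a' - 3 * (v * (x + x')) -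
      2 * (v * (y + y'))) = R - 2 * (v * S) + v ^ 2 * (3 + 2 * v) * c := by
    rw [hS]
    linear_combination hc
  rw [hkey]
  have c1 : |2 * (v * S)| ≤ 42000 * t ^ 2 := by
    rw [abs_mul, abs_mul, abs_of_nonneg (by norm_num : (0 : ℝ) ≤ 2)]
    calc 2 * (|v| * |S|) ≤ 2 * ((3 * t) * (7000 * t)) := by
          have := mul_le_mul hv hSb (abs_nonneg _) (by positivity)
          linarith
      _ = 42000 * t ^ 2 := by ring
  have hv3 : |3 + 2 * v| ≤ 21 := by
    rw [_root_.abs_le]; constructor <;> linarith [hv9'.1, hv9'.2]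
  have c2 : |v ^ 2 * (3 + 2 * v) * c| ≤ 7000 * t ^ 2 := by
    rw [abs_mul, abs_mul, abs_of_nonneg (sq_nonneg v)]
    calc v ^ 2 * |3 + 2 * v| * |c| ≤ (9 * t ^ 2) * 21 * 36 :=
          mul_le_mul (mul_le_mul hv2 hv3 (abs_nonneg _) (by positivity)) hb (abs_nonneg _)
            (by positivity)
      _ ≤ 7000 * t ^ 2 := by nlinarith [sq_nonneg t]
  have d1 := _root_.abs_le.1 hR
  have d2 := _root_.abs_le.1 c1
  have d3 := _root_.abs_le.1 c2
  have ht2p : 0 ≤ t ^ 2 := sq_nonneg t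
  rw [_root_.abs_le]
  constructor
  · linarith [d1.1, d2.2, d3.1]
  · linarith [d1.2, d2.1, d3.2]

set_option maxHeartbeats 1000000 in
/-- third-order expansion of `x2` -/
theorem x2_core {g k : Fin 4 → ℝ} (hg : Cen g) (hk : Cen k) :
    |x2 (FF g k) - ((avg (fun i => g i ^ 2) + avg (fun i => k i ^ 2)) ^ 2 +
      4 * ((avg (fun i => g i ^ 2) + avg (fun i => k i ^ 2)) * (avg (fun i => g i * k i) +
        avg (fun i => g i ^ 2 * k i) + avg (fun i => g i * k i ^ 2))) -
      3 * (avg (fun i => g i * k i) * (avg (fun i => g i ^ 2) + avg (fun i => k i ^ 2)) ^ 2))| ≤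
    2000000 * (avg (fun i => g i ^ 2) * avg (fun i => k i ^ 2)) := by
  obtain ⟨t, ht0, ht2, htx, ht3, hgk⟩ := pair_bound hg hk
  have hv := bd_v hgk
  have hp := bd_p hg ht0 hgk
  have hp' := bd_p' hk ht0 hgk
  have hG := GG_sq hg hk _ rfl
  have hc := x2_FF hg hk
  have hb := abs_x2_FF_le hg hk
  have hx := Cen.avg_sq_nonneg g
  have hx' := Cen.avg_sq_nonneg k
  have hx3 := hg.avg_sq_le
  have hx3' := hk.avg_sq_le
  have hR0 : 0 ≤ avg (fun i => (g i * k i - avg fun i => g i * k i) ^ 2) :=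
    avg_nonneg fun i => sq_nonneg _
  have hR : avg (fun i => (g i * k i - avg fun i => g i * k i) ^ 2) ≤ 36 * t ^ 2 :=
    avg_le_const fun i => bd_m2 ht0 hgk hv i
  rw [hG] at hc
  rw [← ht2]
  generalize avg (fun i => (g i * k i - avg fun i => g i * k i) ^ 2) = R at *
  generalize avg (fun i => g i ^ 2) = x at *
  generalize avg (fun i => k i ^ 2) = x' at *
  generalize avg (fun i => g i * k i) = v at *
  generalize avg (fun i => g i ^ 2 * k i) = p at *
  generalize avg (fun i => g i * k i ^ 2) = p' at *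
  generalize x2 (FF g k) = c at *
  clear hG hgk
  have hv' := _root_.abs_le.1 hv
  have hv9 : |v| ≤ 9 := by linarith
  have hv9' := _root_.abs_le.1 hv9
  have hv2 : v ^ 2 ≤ 9 * t ^ 2 := by nlinarith [hv'.1, hv'.2]
  have b1 := _root_.abs_le.1 hp
  have b2 := _root_.abs_le.1 hp'
  have hxx0 : 0 ≤ x + x' := by linarith
  have hxx6 : x + x' ≤ 6 := by linarith
  -- `l = 2v+2p+2p'`
  obtain ⟨l, hl⟩ : ∃ l : ℝ, l = 2 * v + 2 * p + 2 * p' := ⟨_, rfl⟩
  have hlb : |l| ≤ 42 * t := by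
    rw [hl, _root_.abs_le]; constructor <;> linarith [b1.1, b1.2, b2.1, b2.2, hv'.1, hv'.2]
  have hR3 : R ≤ 108 * t := by nlinarith
  have hlR : |l + R| ≤ 150 * t := by
    have := _root_.abs_le.1 hlb
    rw [_root_.abs_le]; constructor <;> linarith [this.1, this.2]
  obtain ⟨U, hU⟩ : ∃ U : ℝ, U = 2 * (x + x') * R + (l + R) ^ 2 := ⟨_, rfl⟩
  have hUb : |U| ≤ 23000 * t ^ 2 := by
    have h1 : (l + R) ^ 2 ≤ 22500 * t ^ 2 := by
      rw [← sq_abs]
      calc |l + R| ^ 2 ≤ (150 * t) ^ 2 := pow_le_pow_left₀ (abs_nonneg _) hlR 2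
        _ = 22500 * t ^ 2 := by ring
    have h2 : 2 * (x + x') * R ≤ 12 * (36 * t ^ 2) :=
      mul_le_mul (by linarith) hR hR0 (by norm_num)
    have h3 : 0 ≤ 2 * (x + x') * R := by positivity
    rw [hU, abs_of_nonneg (add_nonneg h3 (sq_nonneg _))]
    nlinarith [sq_nonneg t]
  obtain ⟨Z, hZ⟩ : ∃ Z : ℝ, Z = 2 * (x + x') * l + U := ⟨_, rfl⟩
  have hZb : |Z| ≤ 70000 * t := by
    have h1 : |2 * (x + x') * l| ≤ 12 * (42 * t) := by
      rw [abs_mul, abs_of_nonneg (by linarith : (0 : ℝ) ≤ 2 * (x + x'))]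
      exact mul_le_mul (by linarith) hlb (abs_nonneg _) (by norm_num)
    have h2 : |U| ≤ 69000 * t := by nlinarith
    rw [hZ]
    calc |2 * (x + x') * l + U| ≤ |2 * (x + x') * l| + |U| := abs_add_le _ _
      _ ≤ 70000 * t := by linarith
  have hkey : c - ((x + x') ^ 2 + 4 * ((x + x') * (v + p + p')) - 3 * (v * (x + x') ^ 2)) =
      U - 3 * (v * Z) + v ^ 2 * (6 + 8 * v + 3 * v ^ 2) * c := by
    have e1 : x + x' + 2 * v + 2 * p + 2 * p' + R = (x + x') + (l + R) := by rw [hl]; ring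
    rw [e1] at hc
    have e2 : ((x + x') + (l + R)) ^ 2 = (x + x') ^ 2 + Z := by rw [hZ, hU]; ring
    rw [e2] at hc
    have e3 : Z = 4 * ((x + x') * (v + p + p')) + U := by rw [hZ, hl]; ring
    linear_combination hc + e3
  rw [hkey]
  have c1 : |3 * (v * Z)| ≤ 630000 * t ^ 2 := by
    rw [abs_mul, abs_mul, abs_of_nonneg (by norm_num : (0 : ℝ) ≤ 3)]
    calc 3 * (|v| * |Z|) ≤ 3 * ((3 * t) * (70000 * t)) := by
          have := mul_le_mul hv hZb (abs_nonneg _) (by positivity)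
          linarith
      _ = 630000 * t ^ 2 := by ring
  have hv3 : |6 + 8 * v + 3 * v ^ 2| ≤ 400 := by
    rw [_root_.abs_le]
    have hvv : v ^ 2 ≤ 81 := by nlinarith [hv9'.1, hv9'.2]
    constructor
    · linarith [hv9'.1, sq_nonneg v]
    · linarith [hv9'.1, hv9'.2]
  have c2 : |v ^ 2 * (6 + 8 * v + 3 * v ^ 2) * c| ≤ 400000 * t ^ 2 := by
    rw [abs_mul, abs_mul, abs_of_nonneg (sq_nonneg v)]
    calc v ^ 2 * |6 + 8 * v + 3 * v ^ 2| * |c| ≤ (9 * t ^ 2) * 400 * 108 :=
          mul_le_mul (mul_le_mul hv2 hv3 (abs_nonneg _) (by positivity)) hb (abs_nonneg _)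
            (by positivity)
      _ ≤ 400000 * t ^ 2 := by nlinarith [sq_nonneg t]
  have d1 := _root_.abs_le.1 hUb
  have d2 := _root_.abs_le.1 c1
  have d3 := _root_.abs_le.1 c2
  have ht2p : 0 ≤ t ^ 2 := sq_nonneg t
  rw [_root_.abs_le]
  constructor
  · linarith [d1.1, d2.2, d3.1]
  · linarith [d1.2, d2.1, d3.2]

end Crest.Agent.R163.Bk
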