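import Crest.Agent.R163.Back4

/-!
Row 163 (S0246, backward direction): orbit inequalities and two-fold merge inequalities.
-/

set_option autoImplicit false

namespace Crest.Agent.R163.Bk

open Finset

lemma avg_comp (p : Fin 4 → ℝ) (σ : Equiv.Perm (Fin 4)) : avg (fun i => p (σ i)) = avg p := by
  unfold avg
  rw [Equiv.sum_comp σ p]

lemma Cen.comp {k : Fin 4 → ℝ} (hk : Cen k) (σ : Equiv.Perm (Fin 4)) :
    Cen (fun i => k (σ i)) where
  mean := by rw [avg_comp k σ]; exact hk.mean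
  ge i := hk.ge _

lemma sum_bound {ι : Type*} (s : Finset ι) (f P : ι → ℝ) {B : ℝ} (h : ∀ i ∈ s, |f i - P i| ≤ B) :
    |∑ i ∈ s, f i - ∑ i ∈ s, P i| ≤ s.card * B := by
  rw [← Finset.sum_sub_distrib]
  refine (Finset.abs_sum_le_sum_abs _ _).trans ?_
  refine (Finset.sum_le_sum h).trans ?_
  rw [Finset.sum_const, nsmul_eq_mul]

lemma card_perm4 : ((Finset.univ : Finset (Equiv.Perm (Fin 4))).card : ℝ) = 24 := by
  rw [Finset.card_univ, Fintype.card_perm, Fintype.card_fin]
  norm_num [Nat.factorial]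

/-- averaged `chi` expansion -/
theorem chi_orb {g k : Fin 4 → ℝ} (hg : Cen g) (hk : Cen k) :
    |∑ σ : Equiv.Perm (Fin 4), chi (FF g (fun i => k (σ i))) -
      (24 * (avg (fun i => g i ^ 2) + avg (fun i => k i ^ 2)) -
        16 * (avg (fun i => g i ^ 3) * avg (fun i => k i ^ 2) +
          avg (fun i => g i ^ 2) * avg (fun i => k i ^ 3)))| ≤
    24 * (1000 * (avg (fun i => g i ^ 2) * avg (fun i => k i ^ 2) *
      (avg (fun i => g i ^ 2) + avg (fun i => k i ^ 2)))) := by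
  have hc2 : ∀ σ : Equiv.Perm (Fin 4), avg (fun i => k (σ i) ^ 2) = avg (fun i => k i ^ 2) :=
    fun σ => avg_comp (fun i => k i ^ 2) σ
  have key := sum_bound (Finset.univ : Finset (Equiv.Perm (Fin 4)))
    (fun σ => chi (FF g (fun i => k (σ i)))) _ (fun σ _ => by
      have := chi_core hg (hk.comp σ)
      rw [hc2 σ] at this
      exact this)
  rw [card_perm4] at key
  have h1 : ∑ σ : Equiv.Perm (Fin 4), avg (fun i => g i * k (σ i)) = 0 := by
    rw [E1 g k, hg.mean, zero_mul, mul_zero]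
  have h2 : ∑ σ : Equiv.Perm (Fin 4), avg (fun i => g i ^ 2 * k (σ i)) = 0 := by
    rw [E1 (fun i => g i ^ 2) k, hk.mean, mul_zero, mul_zero]
  have h3 : ∑ σ : Equiv.Perm (Fin 4), avg (fun i => g i * k (σ i) ^ 2) = 0 := by
    rw [E1 g (fun i => k i ^ 2), hg.mean, zero_mul, mul_zero]
  have h4 : ∑ σ : Equiv.Perm (Fin 4), avg (fun i => g i ^ 2 * k (σ i) ^ 2) =
      24 * (avg (fun i => g i ^ 2) * avg (fun i => k i ^ 2)) :=
    E1 (fun i => g i ^ 2) (fun i => k i ^ 2)
  have h5 : ∑ σ : Equiv.Perm (Fin 4), avg (fun i => g i * k (σ i)) *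
      avg (fun i => g i * k (σ i)) = 8 * (avg (fun i => g i ^ 2) * avg (fun i => k i ^ 2)) := by
    rw [E2 g g k k hg.mean hk.mean]
    simp only [pow_two]
  have h6 : ∑ σ : Equiv.Perm (Fin 4), avg (fun i => g i * k (σ i)) *
      avg (fun i => g i ^ 2 * k (σ i)) =
      8 * (avg (fun i => g i ^ 3) * avg (fun i => k i ^ 2)) := by
    have := E2 g (fun i => g i ^ 2) k k hg.mean hk.mean
    rw [this]
    congr 2
    · congr 1; funext i; ring
    · congr 1; funext i; ring
  have h7 : ∑ σ : Equiv.Perm (Fin 4), avg (fun i => g i * k (σ i)) *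
      avg (fun i => g i * k (σ i) ^ 2) =
      8 * (avg (fun i => g i ^ 2) * avg (fun i => k i ^ 3)) := by
    have := E2 g g k (fun i => k i ^ 2) hg.mean hk.mean
    rw [this]
    congr 2
    · congr 1; funext i; ring
    · congr 1; funext i; ring
  have hP : ∑ σ : Equiv.Perm (Fin 4), (avg (fun i => g i ^ 2) + avg (fun i => k i ^ 2) +
      2 * avg (fun i => g i * k (σ i)) + 2 * avg (fun i => g i ^ 2 * k (σ i)) +
      2 * avg (fun i => g i * k (σ i) ^ 2) + avg (fun i => g i ^ 2 * k (σ i) ^ 2) -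
      3 * (avg (fun i => g i * k (σ i)) * avg (fun i => g i * k (σ i))) -
      avg (fun i => g i * k (σ i)) * (avg (fun i => g i ^ 2) + avg (fun i => k i ^ 2)) -
      2 * (avg (fun i => g i * k (σ i)) * avg (fun i => g i ^ 2 * k (σ i))) -
      2 * (avg (fun i => g i * k (σ i)) * avg (fun i => g i * k (σ i) ^ 2))) =
      24 * (avg (fun i => g i ^ 2) + avg (fun i => k i ^ 2)) -
        16 * (avg (fun i => g i ^ 3) * avg (fun i => k i ^ 2) +
          avg (fun i => g i ^ 2) * avg (fun i => k i ^ 3)) := by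
    simp only [Finset.sum_add_distrib, Finset.sum_sub_distrib, ← Finset.mul_sum, ← Finset.sum_mul,
      h1, h2, h3, h4, h5, h6, h7, Finset.sum_const, nsmul_eq_mul, card_perm4]
    ring
  rw [hP] at key
  exact key

/-- averaged `y3` expansion -/
theorem y3_orb {g k : Fin 4 → ℝ} (hg : Cen g) (hk : Cen k) :
    |∑ σ : Equiv.Perm (Fin 4), y3 (FF g (fun i => k (σ i))) -
      24 * (avg (fun i => g i ^ 3) + avg (fun i => k i ^ 3))| ≤
    24 * (60000 * (avg (fun i => g i ^ 2) * avg (fun i => k i ^ 2))) := by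
  have hc2 : ∀ σ : Equiv.Perm (Fin 4), avg (fun i => k (σ i) ^ 2) = avg (fun i => k i ^ 2) :=
    fun σ => avg_comp (fun i => k i ^ 2) σ
  have hc3 : ∀ σ : Equiv.Perm (Fin 4), avg (fun i => k (σ i) ^ 3) = avg (fun i => k i ^ 3) :=
    fun σ => avg_comp (fun i => k i ^ 3) σ
  have key := sum_bound (Finset.univ : Finset (Equiv.Perm (Fin 4)))
    (fun σ => y3 (FF g (fun i => k (σ i)))) _ (fun σ _ => by
      have := y3_core hg (hk.comp σ)
      rw [hc2 σ, hc3 σ] at this
      exact this)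
  rw [card_perm4] at key
  have h1 : ∑ σ : Equiv.Perm (Fin 4), avg (fun i => g i * k (σ i)) = 0 := by
    rw [E1 g k, hg.mean, zero_mul, mul_zero]
  have h2 : ∑ σ : Equiv.Perm (Fin 4), avg (fun i => g i ^ 2 * k (σ i)) = 0 := by
    rw [E1 (fun i => g i ^ 2) k, hk.mean, mul_zero, mul_zero]
  have h3 : ∑ σ : Equiv.Perm (Fin 4), avg (fun i => g i * k (σ i) ^ 2) = 0 := by
    rw [E1 g (fun i => k i ^ 2), hg.mean, zero_mul, mul_zero]
  have h4 : ∑ σ : Equiv.Perm (Fin 4), avg (fun i => g i ^ 3 * k (σ i)) = 0 := by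
    rw [E1 (fun i => g i ^ 3) k, hk.mean, mul_zero, mul_zero]
  have h5 : ∑ σ : Equiv.Perm (Fin 4), avg (fun i => g i * k (σ i) ^ 3) = 0 := by
    rw [E1 g (fun i => k i ^ 3), hg.mean, zero_mul, mul_zero]
  have hP : ∑ σ : Equiv.Perm (Fin 4), (avg (fun i => g i ^ 3) + avg (fun i => k i ^ 3) +
      3 * avg (fun i => g i ^ 2 * k (σ i)) + 3 * avg (fun i => g i * k (σ i) ^ 2) +
      3 * avg (fun i => g i ^ 3 * k (σ i)) + 3 * avg (fun i => g i * k (σ i) ^ 3) -
      3 * (avg (fun i => g i * k (σ i)) * (avg (fun i => g i ^ 2) + avg (fun i => k i ^ 2))) -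
      2 * (avg (fun i => g i * k (σ i)) * (avg (fun i => g i ^ 3) + avg (fun i => k i ^ 3)))) =
      24 * (avg (fun i => g i ^ 3) + avg (fun i => k i ^ 3)) := by
    simp only [Finset.sum_add_distrib, Finset.sum_sub_distrib, ← Finset.mul_sum, ← Finset.sum_mul,
      h1, h2, h3, h4, h5, Finset.sum_const, nsmul_eq_mul, card_perm4]
    ring
  rw [hP] at key
  exact key

/-- averaged `x2` expansion -/
theorem x2_orb {g k : Fin 4 → ℝ} (hg : Cen g) (hk : Cen k) :
    |∑ σ : Equiv.Perm (Fin 4), x2 (FF g (fun i => k (σ i))) -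
      24 * (avg (fun i => g i ^ 2) + avg (fun i => k i ^ 2)) ^ 2| ≤
    24 * (2000000 * (avg (fun i => g i ^ 2) * avg (fun i => k i ^ 2))) := by
  have hc2 : ∀ σ : Equiv.Perm (Fin 4), avg (fun i => k (σ i) ^ 2) = avg (fun i => k i ^ 2) :=
    fun σ => avg_comp (fun i => k i ^ 2) σ
  have key := sum_bound (Finset.univ : Finset (Equiv.Perm (Fin 4)))
    (fun σ => x2 (FF g (fun i => k (σ i)))) _ (fun σ _ => by
      have := x2_core hg (hk.comp σ)
      rw [hc2 σ] at this
      exact this)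
  rw [card_perm4] at key
  have h1 : ∑ σ : Equiv.Perm (Fin 4), avg (fun i => g i * k (σ i)) = 0 := by
    rw [E1 g k, hg.mean, zero_mul, mul_zero]
  have h2 : ∑ σ : Equiv.Perm (Fin 4), avg (fun i => g i ^ 2 * k (σ i)) = 0 := by
    rw [E1 (fun i => g i ^ 2) k, hk.mean, mul_zero, mul_zero]
  have h3 : ∑ σ : Equiv.Perm (Fin 4), avg (fun i => g i * k (σ i) ^ 2) = 0 := by
    rw [E1 g (fun i => k i ^ 2), hg.mean, zero_mul, mul_zero]
  have hP : ∑ σ : Equiv.Perm (Fin 4), ((avg (fun i => g i ^ 2) + avg (fun i => k i ^ 2)) ^ 2 +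
      4 * ((avg (fun i => g i ^ 2) + avg (fun i => k i ^ 2)) * (avg (fun i => g i * k (σ i)) +
        avg (fun i => g i ^ 2 * k (σ i)) + avg (fun i => g i * k (σ i) ^ 2))) -
      3 * (avg (fun i => g i * k (σ i)) *
        (avg (fun i => g i ^ 2) + avg (fun i => k i ^ 2)) ^ 2)) =
      24 * (avg (fun i => g i ^ 2) + avg (fun i => k i ^ 2)) ^ 2 := by
    simp only [Finset.sum_add_distrib, Finset.sum_sub_distrib, ← Finset.mul_sum, ← Finset.sum_mul,
      h1, h2, h3, Finset.sum_const, nsmul_eq_mul, card_perm4]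
    ring
  rw [hP] at key
  exact key

/-! ### scaling -/

lemma avg_smul (c : ℝ) (F : Fin 4 → ℝ) : avg (fun i => c * F i) = c * avg F := by
  rw [avg4, avg4]; ring

lemma dev_smul {c : ℝ} (hc : c ≠ 0) (F : Fin 4 → ℝ) : dev (fun i => c * F i) = dev F := by
  funext i
  unfold dev
  rw [avg_smul, mul_div_mul_left _ _ hc]

lemma chi_smul {c : ℝ} (hc : c ≠ 0) (F : Fin 4 → ℝ) : chi (fun i => c * F i) = c * chi F := by
  rw [chi_dev, chi_dev, avg_smul, dev_smul hc]; ring

lemma y3_smul {c : ℝ} (hc : c ≠ 0) (F : Fin 4 → ℝ) : y3 (fun i => c * F i) = c * y3 F := by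
  rw [y3, y3, avg_smul, dev_smul hc]; ring

lemma x2_smul {c : ℝ} (hc : c ≠ 0) (F : Fin 4 → ℝ) : x2 (fun i => c * F i) = c * x2 F := by
  rw [x2, x2, avg_smul, dev_smul hc]; ring

lemma eq_dev {u : Fin 4 → ℝ} (h : avg u ≠ 0) (i : Fin 4) : u i = avg u * (1 + dev u i) := by
  unfold dev; field_simp; ring

lemma mul_eq_FF {u v : Fin 4 → ℝ} (hu : avg u ≠ 0) (hv : avg v ≠ 0) (σ : Equiv.Perm (Fin 4)) :
    (fun i => u i * v (σ i)) =
      fun i => (avg u * avg v) * FF (dev u) (fun i => dev v (σ i)) i := by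
  funext i
  unfold FF
  conv_lhs => rw [eq_dev hu i, eq_dev hv (σ i)]
  ring

lemma fac4 : ((Nat.factorial 4 : ℕ) : ℝ) = 24 := by norm_num [Nat.factorial]

/-- the three orbit inequalities -/
theorem orb_ineq {u v : Fin 4 → ℝ} (hu : ∀ i, 0 ≤ u i) (hv : ∀ i, 0 ≤ v i) :
    |orb chi u v - (chi u * avg v + avg u * chi v - (2 / 3) * (y3 u * chi v + chi u * y3 v))| ≤
        1000 * (x2 u * chi v + chi u * x2 v) ∧
    |orb y3 u v - (y3 u * avg v + avg u * y3 v)| ≤ 60000 * (chi u * chi v) ∧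
    orb x2 u v ≤ x2 u * avg v + avg u * x2 v + 2000002 * (chi u * chi v) := by
  have zero_chi : chi (fun _ : Fin 4 => (0 : ℝ)) = 0 := by simp [chi, avg]
  have zero_y3 : y3 (fun _ : Fin 4 => (0 : ℝ)) = 0 := by simp [y3, avg]
  have zero_x2 : x2 (fun _ : Fin 4 => (0 : ℝ)) = 0 := by simp [x2, avg]
  have zero_avg : avg (fun _ : Fin 4 => (0 : ℝ)) = 0 := by simp [avg]
  by_cases h1 : avg u = 0
  · have := eq_zero_of_avg hu h1
    subst this
    simp only [orb, zero_mul, zero_chi, zero_y3, zero_x2, zero_avg, Finset.sum_const_zero,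
      zero_div, mul_zero, add_zero, sub_zero, abs_zero, le_refl, and_self]
  by_cases h2 : avg v = 0
  · have := eq_zero_of_avg hv h2
    subst this
    simp only [orb, zero_mul, zero_chi, zero_y3, zero_x2, zero_avg, Finset.sum_const_zero,
      zero_div, mul_zero, add_zero, sub_zero, abs_zero, le_refl, and_self]
  have cu := dev_cen hu h1
  have cv := dev_cen hv h2
  have ha : 0 < avg u := lt_of_le_of_ne (avg_nonneg hu) (Ne.symm h1)
  have hb : 0 < avg v := lt_of_le_of_ne (avg_nonneg hv) (Ne.symm h2)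
  have hab : avg u * avg v ≠ 0 := mul_ne_zero h1 h2
  have e1 := chi_orb cu cv
  have e2 := y3_orb cu cv
  have e3 := x2_orb cu cv
  have o1 : orb chi u v = (avg u * avg v) *
      (∑ σ : Equiv.Perm (Fin 4), chi (FF (dev u) (fun i => dev v (σ i)))) / 24 := by
    unfold orb
    rw [fac4, Finset.mul_sum]
    congr 1
    refine Finset.sum_congr rfl fun σ _ => ?_
    rw [mul_eq_FF h1 h2, chi_smul hab]
  have o2 : orb y3 u v = (avg u * avg v) *
      (∑ σ : Equiv.Perm (Fin 4), y3 (FF (dev u) (fun i => dev v (σ i)))) / 24 := by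
    unfold orb
    rw [fac4, Finset.mul_sum]
    congr 1
    refine Finset.sum_congr rfl fun σ _ => ?_
    rw [mul_eq_FF h1 h2, y3_smul hab]
  have o3 : orb x2 u v = (avg u * avg v) *
      (∑ σ : Equiv.Perm (Fin 4), x2 (FF (dev u) (fun i => dev v (σ i)))) / 24 := by
    unfold orb
    rw [fac4, Finset.mul_sum]
    congr 1
    refine Finset.sum_congr rfl fun σ _ => ?_
    rw [mul_eq_FF h1 h2, x2_smul hab]
  have c1 := chi_dev u
  have c2 := chi_dev v
  have c3 : y3 u = avg u * avg (fun i => dev u i ^ 3) := rfl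
  have c4 : y3 v = avg v * avg (fun i => dev v i ^ 3) := rfl
  have c5 : x2 u = avg u * avg (fun i => dev u i ^ 2) ^ 2 := rfl
  have c6 : x2 v = avg v * avg (fun i => dev v i ^ 2) ^ 2 := rfl
  rw [o1, o2, o3, c1, c2, c3, c4, c5, c6]
  generalize ∑ σ : Equiv.Perm (Fin 4), chi (FF (dev u) (fun i => dev v (σ i))) = Z1 at *
  generalize ∑ σ : Equiv.Perm (Fin 4), y3 (FF (dev u) (fun i => dev v (σ i))) = Z2 at *
  generalize ∑ σ : Equiv.Perm (Fin 4), x2 (FF (dev u) (fun i => dev v (σ i))) = Z3 at *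
  generalize avg (fun i => dev u i ^ 2) = x at *
  generalize avg (fun i => dev v i ^ 2) = x' at *
  generalize avg (fun i => dev u i ^ 3) = y at *
  generalize avg (fun i => dev v i ^ 3) = y' at *
  generalize avg u = a at *
  generalize avg v = b at *
  have hab' : 0 < a * b := mul_pos ha hb
  clear o1 o2 o3 c1 c2 c3 c4 c5 c6 cu cv h1 h2 hab
  rw [abs_le] at e1 e2 e3
  refine ⟨?_, ?_, ?_⟩
  · rw [abs_le]
    constructor
    · have := mul_le_mul_of_nonneg_left e1.1 hab'.le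
      nlinarith [this]
    · have := mul_le_mul_of_nonneg_left e1.2 hab'.le
      nlinarith [this]
  · rw [abs_le]
    constructor
    · have := mul_le_mul_of_nonneg_left e2.1 hab'.le
      nlinarith [this]
    · have := mul_le_mul_of_nonneg_left e2.2 hab'.le
      nlinarith [this]
  · have := mul_le_mul_of_nonneg_left e3.2 hab'.le
    nlinarith [this]

end Crest.Agent.R163.Bk
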