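import Crest.Agent.R163.Back5

/-!
Row 163 (S0246, backward direction): two-fold merge inequalities on the level of channels, edges,
and the comparison of chi-square with total variation.
-/

set_option autoImplicit false

namespace Crest.Agent.R163.Bk

open Finset

variable {Ω Ω₁ Ω₂ : Type*}

/-- the error functional -/
noncomputable def ev (L : Ω → Fin 4 → ℝ) : ℝ := |J y3 L| + J x2 L

lemma ev_nonneg {L : Ω → Fin 4 → ℝ} (h : IsChan L) : 0 ≤ ev L :=
  add_nonneg (abs_nonneg _) (h.J_nonneg fun _ hv => x2_nonneg hv)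

lemma J_chi_nonneg {L : Ω → Fin 4 → ℝ} (h : IsChan L) : 0 ≤ J chi L :=
  h.J_nonneg fun _ hv => chi_nonneg hv

lemma J_x2_nonneg {L : Ω → Fin 4 → ℝ} (h : IsChan L) : 0 ≤ J x2 L :=
  h.J_nonneg fun _ hv => x2_nonneg hv

lemma J_chi_le {L : Ω → Fin 4 → ℝ} (h : IsChan L) : J chi L ≤ 3 := by
  have := h.J_mono bdd_chi (bdd_avg.const_mul 3) fun v hv => chi_le3 hv
  rwa [J_const_mul, h.J_avg, mul_one] at this

lemma ev_le {L : Ω → Fin 4 → ℝ} (h : IsChan L) : ev L ≤ 12 * J chi L := by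
  have h1 : J x2 L ≤ 9 * J chi L := by
    have := h.J_mono bdd_x2 (bdd_chi.const_mul 9) fun v hv => x2_le_chi hv
    rwa [J_const_mul] at this
  have h2 : |J y3 L| ≤ 3 * J chi L := by
    rw [abs_le]
    constructor
    · have := h.J_mono (bdd_chi.const_mul (-3)) bdd_y3 fun v hv => by
        have := (abs_le.1 (abs_y3_le_chi hv)).1
        linarith
      rw [J_const_mul] at this
      linarith
    · have := h.J_mono bdd_y3 (bdd_chi.const_mul 3) fun v hv => (abs_le.1 (abs_y3_le_chi hv)).2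
      rwa [J_const_mul] at this
  unfold ev
  linarith

theorem J_chi_mrg {L₁ : Ω₁ → Fin 4 → ℝ} {L₂ : Ω₂ → Fin 4 → ℝ} (h₁ : IsChan L₁)
    (h₂ : IsChan L₂) :
    |J chi (mrg L₁ L₂) - J chi L₁ - J chi L₂| ≤
      1000 * (J chi L₁ * ev L₂ + ev L₁ * J chi L₂) := by
  have hup := J_mrg_le h₁ h₂ (bdd_chi (q := 4)) (Finset.univ : Finset (Fin 6))
    (α := ![chi, avg, fun v => (-(2 / 3)) * y3 v, fun v => (-(2 / 3)) * chi v,
      fun v => 1000 * x2 v, fun v => 1000 * chi v])
    (β := ![avg, chi, chi, y3, chi, x2])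
    (by
      intro k _
      fin_cases k
      · exact bdd_chi
      · exact bdd_avg
      · exact bdd_y3.const_mul _
      · exact bdd_chi.const_mul _
      · exact bdd_x2.const_mul _
      · exact bdd_chi.const_mul _)
    (by
      intro k _
      fin_cases k
      · exact bdd_avg
      · exact bdd_chi
      · exact bdd_chi
      · exact bdd_y3
      · exact bdd_chi
      · exact bdd_x2)
    (by
      intro u v hu hv
      have := (abs_le.1 (orb_ineq hu hv).1).2
      simp [Fin.sum_univ_succ]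
      linarith)
  have hlo := le_J_mrg h₁ h₂ (bdd_chi (q := 4)) (Finset.univ : Finset (Fin 6))
    (α := ![chi, avg, fun v => (-(2 / 3)) * y3 v, fun v => (-(2 / 3)) * chi v,
      fun v => (-1000) * x2 v, fun v => (-1000) * chi v])
    (β := ![avg, chi, chi, y3, chi, x2])
    (by
      intro k _
      fin_cases k
      · exact bdd_chi
      · exact bdd_avg
      · exact bdd_y3.const_mul _
      · exact bdd_chi.const_mul _
      · exact bdd_x2.const_mul _
      · exact bdd_chi.const_mul _)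
    (by
      intro k _
      fin_cases k
      · exact bdd_avg
      · exact bdd_chi
      · exact bdd_chi
      · exact bdd_y3
      · exact bdd_chi
      · exact bdd_x2)
    (by
      intro u v hu hv
      have := (abs_le.1 (orb_ineq hu hv).1).1
      simp [Fin.sum_univ_succ]
      linarith)
  simp only [Fin.sum_univ_succ, Matrix.cons_val_zero, Matrix.cons_val_succ, Finset.univ_unique,
    Fin.default_eq_zero, Finset.sum_singleton, J_const_mul, h₁.J_avg, h₂.J_avg] at hup hlo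
  have p1 := J_chi_nonneg h₁
  have p2 := J_chi_nonneg h₂
  have p3 := J_x2_nonneg h₁
  have p4 := J_x2_nonneg h₂
  unfold ev
  generalize J chi L₁ = s₁ at *
  generalize J chi L₂ = s₂ at *
  generalize J x2 L₁ = z₁ at *
  generalize J x2 L₂ = z₂ at *
  have a1 : |J y3 L₁ * s₂| = |J y3 L₁| * s₂ := by rw [abs_mul, abs_of_nonneg p2]
  have a2 : |s₁ * J y3 L₂| = s₁ * |J y3 L₂| := by rw [abs_mul, abs_of_nonneg p1]
  have b1 := abs_le.1 a1.le
  have b2 := abs_le.1 a2.le
  have c1 : 0 ≤ |J y3 L₁| * s₂ := mul_nonneg (abs_nonneg _) p2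
  have c2 : 0 ≤ s₁ * |J y3 L₂| := mul_nonneg p1 (abs_nonneg _)
  generalize |J y3 L₁| = w₁ at *
  generalize |J y3 L₂| = w₂ at *
  generalize J y3 L₁ = y₁ at *
  generalize J y3 L₂ = y₂ at *
  rw [abs_le]
  constructor
  · nlinarith [b1.1, b1.2, b2.1, b2.2]
  · nlinarith [b1.1, b1.2, b2.1, b2.2]

theorem J_y3_mrg {L₁ : Ω₁ → Fin 4 → ℝ} {L₂ : Ω₂ → Fin 4 → ℝ} (h₁ : IsChan L₁)
    (h₂ : IsChan L₂) :
    |J y3 (mrg L₁ L₂) - J y3 L₁ - J y3 L₂| ≤ 60000 * (J chi L₁ * J chi L₂) := by
  have hup := J_mrg_le h₁ h₂ (bdd_y3) (Finset.univ : Finset (Fin 3))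
    (α := ![y3, avg, fun v => 60000 * chi v])
    (β := ![avg, y3, chi])
    (by
      intro k _
      fin_cases k
      · exact bdd_y3
      · exact bdd_avg
      · exact bdd_chi.const_mul _)
    (by
      intro k _
      fin_cases k
      · exact bdd_avg
      · exact bdd_y3
      · exact bdd_chi)
    (by
      intro u v hu hv
      have := (abs_le.1 (orb_ineq hu hv).2.1).2
      simp [Fin.sum_univ_succ]
      linarith)
  have hlo := le_J_mrg h₁ h₂ (bdd_y3) (Finset.univ : Finset (Fin 3))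
    (α := ![y3, avg, fun v => (-60000) * chi v])
    (β := ![avg, y3, chi])
    (by
      intro k _
      fin_cases k
      · exact bdd_y3
      · exact bdd_avg
      · exact bdd_chi.const_mul _)
    (by
      intro k _
      fin_cases k
      · exact bdd_avg
      · exact bdd_y3
      · exact bdd_chi)
    (by
      intro u v hu hv
      have := (abs_le.1 (orb_ineq hu hv).2.1).1
      simp [Fin.sum_univ_succ]
      linarith)
  simp only [Fin.sum_univ_succ, Matrix.cons_val_zero, Matrix.cons_val_succ, Finset.univ_unique,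
    Fin.default_eq_zero, Finset.sum_singleton, J_const_mul, h₁.J_avg, h₂.J_avg] at hup hlo
  rw [abs_le]
  constructor <;> linarith

theorem J_x2_mrg {L₁ : Ω₁ → Fin 4 → ℝ} {L₂ : Ω₂ → Fin 4 → ℝ} (h₁ : IsChan L₁)
    (h₂ : IsChan L₂) :
    J x2 (mrg L₁ L₂) ≤ J x2 L₁ + J x2 L₂ + 2000002 * (J chi L₁ * J chi L₂) := by
  have hup := J_mrg_le h₁ h₂ (bdd_x2) (Finset.univ : Finset (Fin 3))
    (α := ![x2, avg, fun v => 2000002 * chi v])
    (β := ![avg, x2, chi])
    (by
      intro k _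
      fin_cases k
      · exact bdd_x2
      · exact bdd_avg
      · exact bdd_chi.const_mul _)
    (by
      intro k _
      fin_cases k
      · exact bdd_avg
      · exact bdd_x2
      · exact bdd_chi)
    (by
      intro u v hu hv
      have := (orb_ineq hu hv).2.2
      simp [Fin.sum_univ_succ]
      linarith)
  simp only [Fin.sum_univ_succ, Matrix.cons_val_zero, Matrix.cons_val_succ, Finset.univ_unique,
    Fin.default_eq_zero, Finset.sum_singleton, J_const_mul, h₁.J_avg, h₂.J_avg] at hup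
  linarith

/-- the two-fold inequality for the error functional -/
theorem ev_mrg {L₁ : Ω₁ → Fin 4 → ℝ} {L₂ : Ω₂ → Fin 4 → ℝ} (h₁ : IsChan L₁)
    (h₂ : IsChan L₂) :
    ev (mrg L₁ L₂) ≤ ev L₁ + ev L₂ + 3000000 * (J chi L₁ * J chi L₂) := by
  have a1 := J_y3_mrg h₁ h₂
  have a2 := J_x2_mrg h₁ h₂
  have a3 := mul_nonneg (J_chi_nonneg h₁) (J_chi_nonneg h₂)
  have a4 : |J y3 (mrg L₁ L₂)| ≤ |J y3 L₁| + |J y3 L₂| +
      |J y3 (mrg L₁ L₂) - J y3 L₁ - J y3 L₂| := by
    have e : J y3 (mrg L₁ L₂) = J y3 L₁ + J y3 L₂ + (J y3 (mrg L₁ L₂) - J y3 L₁ - J y3 L₂) := by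
      ring
    calc |J y3 (mrg L₁ L₂)| = |J y3 L₁ + J y3 L₂ + (J y3 (mrg L₁ L₂) - J y3 L₁ - J y3 L₂)| := by
          rw [← e]
      _ ≤ _ := (abs_add_le _ _).trans (add_le_add (abs_add_le _ _) le_rfl)
  unfold ev
  linarith

/-! ### edges -/

lemma dev_W (lam : ℝ) {v : Fin 4 → ℝ} (h : avg v ≠ 0) (i : Fin 4) :
    dev (W lam v) i = lam * dev v i := by
  unfold dev
  rw [avg_W]
  unfold W
  field_simp
  ring

lemma y3_W (lam : ℝ) (v : Fin 4 → ℝ) : y3 (W lam v) = lam ^ 3 * y3 v := by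
  unfold y3
  rw [avg_W]
  by_cases h : avg v = 0
  · rw [h]; ring
  · simp only [dev_W lam h, mul_pow]
    rw [avg_smul (lam ^ 3) (fun i => dev v i ^ 3)]
    ring

lemma x2_W (lam : ℝ) (v : Fin 4 → ℝ) : x2 (W lam v) = lam ^ 4 * x2 v := by
  unfold x2
  rw [avg_W]
  by_cases h : avg v = 0
  · rw [h]; ring
  · simp only [dev_W lam h, mul_pow]
    rw [avg_smul (lam ^ 2) (fun i => dev v i ^ 2)]
    ring

lemma J_y3_edge (lam : ℝ) (L : Ω → Fin 4 → ℝ) :
    J y3 (fun o => W lam (L o)) = lam ^ 3 * J y3 L := by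
  unfold J
  rw [← tsum_mul_left]
  exact tsum_congr fun o => y3_W lam _

lemma J_x2_edge (lam : ℝ) (L : Ω → Fin 4 → ℝ) :
    J x2 (fun o => W lam (L o)) = lam ^ 4 * J x2 L := by
  unfold J
  rw [← tsum_mul_left]
  exact tsum_congr fun o => x2_W lam _

lemma ev_edge {L : Ω → Fin 4 → ℝ} (h : IsChan L) {lam : ℝ} (h0 : 0 ≤ lam) (h1 : lam ≤ 1) :
    ev (fun o => W lam (L o)) ≤ lam ^ 3 * ev L := by
  unfold ev
  rw [J_y3_edge, J_x2_edge, abs_mul, abs_of_nonneg (pow_nonneg h0 3)]
  have h2 : lam ^ 4 ≤ lam ^ 3 := pow_le_pow_of_le_one h0 h1 (by norm_num)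
  have h3 := mul_le_mul_of_nonneg_right h2 (J_x2_nonneg h)
  linarith

/-! ### chi-square against total variation -/

lemma chi_le_tv {v : Fin 4 → ℝ} (hv : ∀ i, 0 ≤ v i) : chi v ≤ 6 * tv v := by
  by_cases h : avg v = 0
  · have h4 : chi v = 0 := by simp [chi, h]
    rw [h4]
    exact mul_nonneg (by norm_num) (tv_nonneg v)
  · have ha : 0 < avg v := lt_of_le_of_ne (avg_nonneg hv) (Ne.symm h)
    have e1 : ∀ i, |v i - avg v| = avg v * |dev v i| := fun i => by
      have : v i - avg v = avg v * dev v i := by unfold dev; field_simp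
      rw [this, abs_mul, abs_of_pos ha]
    have e2 : tv v = (1 / 2) * (avg v * avg (fun i => |dev v i|)) := by
      unfold tv
      simp only [e1]
      rw [avg_smul (avg v) (fun i => |dev v i|)]
    have e3 : avg (fun i => dev v i ^ 2) ≤ 3 * avg (fun i => |dev v i|) := by
      rw [← avg_smul]
      refine avg_mono4 fun i => ?_
      have := abs_dev_le hv i
      calc dev v i ^ 2 = |dev v i| * |dev v i| := by rw [← sq_abs, pow_two]
        _ ≤ 3 * |dev v i| := mul_le_mul_of_nonneg_right this (abs_nonneg _)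
    rw [chi_dev, e2]
    have := mul_le_mul_of_nonneg_left e3 ha.le
    linarith

lemma J_chi_le_tv {L : Ω → Fin 4 → ℝ} (h : IsChan L) : J chi L ≤ 6 * J tv L := by
  have := h.J_mono bdd_chi (bdd_tv.const_mul 6) fun v hv => chi_le_tv hv
  rwa [J_const_mul] at this

end Crest.Agent.R163.Bk
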