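import Crest.Agent.R163.Class

/-!
Row 163: the convex order of channels and monotonicity of the advantage in the branching number
and in the modulus of the edge parameter.
-/

set_option autoImplicit false

namespace Crest.Agent.R163

open Crest.ProbabilityR.Broadcast

variable {q : ℕ}

/-- positively homogeneous, subadditive on nonnegative vectors, dominated by the mean -/
structure CH (φ : (Fin q → ℝ) → ℝ) : Prop where
  bdd : Bdd φ
  hom : Hom φ
  sub : ∀ u v : Fin q → ℝ, (∀ i, 0 ≤ u i) → (∀ i, 0 ≤ v i) →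
    φ (fun i => u i + v i) ≤ φ u + φ v

/-- convex order of channels -/
def CxLe {Ω Ω' : Type*} (L : Ω → Fin q → ℝ) (L' : Ω' → Fin q → ℝ) : Prop :=
  ∀ φ : (Fin q → ℝ) → ℝ, CH φ → J φ L ≤ J φ L'

lemma CxLe.refl {Ω : Type*} (L : Ω → Fin q → ℝ) : CxLe L L := fun _ _ => le_rfl

lemma CxLe.trans {Ω Ω' Ω'' : Type*} {L : Ω → Fin q → ℝ} {L' : Ω' → Fin q → ℝ}
    {L'' : Ω'' → Fin q → ℝ} (h : CxLe L L') (h' : CxLe L' L'') : CxLe L L'' :=
  fun φ hφ => (h φ hφ).trans (h' φ hφ)

lemma CH.finset_sum {φ : (Fin q → ℝ) → ℝ} (h : CH φ) {ι : Type*} (s : Finset ι)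
    (v : ι → Fin q → ℝ) (hv : ∀ k i, 0 ≤ v k i) :
    φ (fun i => ∑ k ∈ s, v k i) ≤ ∑ k ∈ s, φ (v k) := by
  classical
  induction s using Finset.induction_on with
  | empty =>
    simp only [Finset.sum_empty]
    have := h.hom 0 (fun _ => 0) le_rfl (fun _ => le_rfl)
    simp only [mul_zero, zero_mul] at this
    exact this.le
  | insert a s ha ih =>
    simp only [Finset.sum_insert ha]
    refine (h.sub (v a) (fun i => ∑ k ∈ s, v k i) (hv a)
      (fun i => Finset.sum_nonneg fun k _ => hv k i)).trans ?_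
    linarith

/-- countable subadditivity -/
lemma CH.tsum_le [NeZero q] {φ : (Fin q → ℝ) → ℝ} (h : CH φ) {ι : Type*}
    (v : ι → Fin q → ℝ) (hv : ∀ k i, 0 ≤ v k i) (hs : ∀ i, Summable (fun k => v k i)) :
    φ (fun i => ∑' k, v k i) ≤ ∑' k, φ (v k) := by
  classical
  obtain ⟨K, hK, hb⟩ := h.bdd
  have hsa : Summable (fun k => avg (v k)) := by
    unfold avg
    exact (summable_sum fun i _ => hs i).div_const _
  have hsφ : Summable (fun k => φ (v k)) := by
    refine Summable.of_norm_bounded (hsa.mul_left K) fun k => ?_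
    rw [Real.norm_eq_abs]; exact hb _ (hv k)
  have key : ∀ s : Finset ι, φ (fun i => ∑' k, v k i) ≤
      ∑ k ∈ s, φ (v k) + K * (∑' k, avg (v k) - ∑ k ∈ s, avg (v k)) := by
    intro s
    set r : Fin q → ℝ := fun i => ∑' k, v k i - ∑ k ∈ s, v k i with hr
    have hr0 : ∀ i, 0 ≤ r i := fun i => by
      have := (hs i).sum_le_tsum s fun k _ => hv k i
      simp only [hr]; linarith
    have e1 : (fun i => ∑' k, v k i) = fun i => (∑ k ∈ s, v k i) + r i := by
      funext i; simp only [hr]; ring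
    have e2 : avg r = ∑' k, avg (v k) - ∑ k ∈ s, avg (v k) := by
      have h1 : ∑' k, avg (v k) = (∑ i, ∑' k, v k i) / q := by
        unfold avg
        rw [tsum_div_const, Summable.tsum_finsetSum fun i _ => hs i]
      have h2 : ∑ k ∈ s, avg (v k) = (∑ i, ∑ k ∈ s, v k i) / q := by
        unfold avg
        rw [← Finset.sum_div, Finset.sum_comm]
      rw [h1, h2, ← sub_div, ← Finset.sum_sub_distrib]
      rfl
    rw [e1, ← e2]
    refine (h.sub _ r (fun i => Finset.sum_nonneg fun k _ => hv k i) hr0).trans ?_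
    have h3 := h.finset_sum s v hv
    have h4 := (le_abs_self _).trans (hb r hr0)
    linarith
  have h5 : Filter.Tendsto (fun s : Finset ι =>
      ∑ k ∈ s, φ (v k) + K * (∑' k, avg (v k) - ∑ k ∈ s, avg (v k))) Filter.atTop
      (nhds (∑' k, φ (v k) + K * (∑' k, avg (v k) - ∑' k, avg (v k)))) := by
    have t1 : Filter.Tendsto (fun s : Finset ι => ∑ k ∈ s, φ (v k)) Filter.atTop
        (nhds (∑' k, φ (v k))) := hsφ.hasSum
    have t2 : Filter.Tendsto (fun s : Finset ι => ∑ k ∈ s, avg (v k)) Filter.atTop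
        (nhds (∑' k, avg (v k))) := hsa.hasSum
    exact t1.add ((t2.const_sub _).const_mul K)
  rw [sub_self, mul_zero, add_zero] at h5
  exact ge_of_tendsto' h5 key

/-- for symmetric channels: adding noise decreases -/
lemma cxLe_W [NeZero q] {Ω : Type*} {L : Ω → Fin q → ℝ} (hL : IsChan L) {ρ : ℝ} (h0 : 0 ≤ ρ)
    (h1 : ρ ≤ 1) : CxLe (fun o => W ρ (L o)) L := by
  intro φ hφ
  have hq : (q : ℝ) ≠ 0 := Nat.cast_ne_zero.mpr (NeZero.ne q)
  have hadm : Adm q ρ := ⟨h1, by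
    have : 0 ≤ 1 - ρ := by linarith
    positivity⟩
  have hn : (0 : ℝ) < Nat.factorial q := by exact_mod_cast Nat.factorial_pos q
  -- the mean as an orbit average
  have hav : ∀ (v : Fin q → ℝ) (i : Fin q),
      ∑ σ : Equiv.Perm (Fin q), v (σ i) = Nat.factorial q * avg v := by
    intro v i
    have hconst : ∀ j, ∑ σ : Equiv.Perm (Fin q), v (σ j) = ∑ σ : Equiv.Perm (Fin q), v (σ i) := by
      intro j
      have := Equiv.sum_comp (Equiv.mulRight (Equiv.swap i j))
        (fun σ : Equiv.Perm (Fin q) => v (σ j))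
      rw [← this]
      refine Finset.sum_congr rfl fun σ _ => ?_
      simp [Equiv.Perm.mul_apply]
    have h2 : ∑ j, ∑ σ : Equiv.Perm (Fin q), v (σ j) =
        q * ∑ σ : Equiv.Perm (Fin q), v (σ i) := by
      rw [Finset.sum_congr rfl fun j _ => hconst j]
      simp
    rw [Finset.sum_comm] at h2
    have h3 : ∀ σ : Equiv.Perm (Fin q), ∑ j, v (σ j) = ∑ j, v j := fun σ => Equiv.sum_comp σ v
    simp only [h3, Finset.sum_const, Finset.card_univ, Fintype.card_perm, Fintype.card_fin,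
      nsmul_eq_mul] at h2
    unfold avg
    field_simp
    linarith
  have hpt : ∀ v : Fin q → ℝ, (∀ i, 0 ≤ v i) → φ (W ρ v) ≤
      ρ * φ v + ((1 - ρ) / Nat.factorial q) * ∑ σ : Equiv.Perm (Fin q), φ (fun i => v (σ i)) := by
    intro v hv
    have e : W ρ v = fun i => (ρ * v i) + ∑ σ : Equiv.Perm (Fin q),
        ((1 - ρ) / Nat.factorial q) * v (σ i) := by
      funext i
      rw [← Finset.mul_sum, hav v i]
      unfold W
      field_simp
    rw [e]
    have hc : 0 ≤ (1 - ρ) / Nat.factorial q := div_nonneg (by linarith) hn.le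
    refine (hφ.sub (fun i => ρ * v i) _ (fun i => mul_nonneg h0 (hv i))
      (fun i => Finset.sum_nonneg fun σ _ => mul_nonneg hc (hv _))).trans ?_
    refine add_le_add (hφ.hom ρ v h0 hv).le ?_
    refine (hφ.finset_sum Finset.univ (fun (σ : Equiv.Perm (Fin q)) i =>
      ((1 - ρ) / Nat.factorial q) * v (σ i)) (fun σ i => mul_nonneg hc (hv _))).trans ?_
    rw [Finset.mul_sum]
    exact Finset.sum_le_sum fun σ _ => (hφ.hom _ _ hc (fun i => hv _)).le
  have hsσ : ∀ σ : Equiv.Perm (Fin q), Summable (fun o => φ (fun i => L o (σ i))) := by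
    intro σ
    obtain ⟨e, he⟩ := hL.symm σ
    rw [← e.summable_iff]
    refine (hL.summable hφ.bdd).congr fun o => ?_
    simp only [Function.comp]
    congr 1
    funext i
    exact (he o i).symm
  have hs1 : Summable (fun o => φ (W ρ (L o))) := (hL.edge hadm).summable hφ.bdd
  have hs2 : HasSum (fun o => ρ * φ (L o) + ((1 - ρ) / Nat.factorial q) *
      ∑ σ : Equiv.Perm (Fin q), φ (fun i => L o (σ i)))
      (ρ * J φ L + ((1 - ρ) / Nat.factorial q) * ∑ _σ : Equiv.Perm (Fin q), J φ L) := by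
    refine ((hL.summable hφ.bdd).hasSum.mul_left ρ).add (HasSum.mul_left _ ?_)
    refine hasSum_sum fun σ _ => ?_
    rw [← hL.tsum_perm φ σ]
    exact (hsσ σ).hasSum
  have h3 : J φ (fun o => W ρ (L o)) ≤ ρ * J φ L +
      ((1 - ρ) / Nat.factorial q) * ∑ _σ : Equiv.Perm (Fin q), J φ L :=
    hasSum_le (fun o => hpt _ (hL.nonneg o)) hs1.hasSum hs2
  have h4 : ρ * J φ L + ((1 - ρ) / Nat.factorial q) * ∑ _σ : Equiv.Perm (Fin q), J φ L = J φ L := by
    simp only [Finset.sum_const, Finset.card_univ, Fintype.card_perm, Fintype.card_fin,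
      nsmul_eq_mul]
    field_simp
    ring
  rw [h4] at h3
  exact h3

lemma CH.comp_W [NeZero q] {φ : (Fin q → ℝ) → ℝ} (h : CH φ) {lam : ℝ} (hl : Adm q lam) :
    CH (fun v => φ (W lam v)) where
  bdd := by
    obtain ⟨K, hK, hb⟩ := h.bdd
    refine ⟨K, hK, fun v hv => ?_⟩
    have := hb (W lam v) (W_nonneg hl hv)
    rwa [avg_W] at this
  hom c v hc hv := by
    have e : W lam (fun i => c * v i) = fun i => c * W lam v i := by
      funext i
      have : avg (fun i => c * v i) = c * avg v := by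
        unfold avg; rw [← Finset.mul_sum, mul_div_assoc]
      unfold W
      rw [this]; ring
    change φ (W lam (fun i => c * v i)) = _
    rw [e]
    exact h.hom c _ hc (W_nonneg hl hv)
  sub u v hu hv := by
    have e : W lam (fun i => u i + v i) = fun i => W lam u i + W lam v i := by
      funext i
      have : avg (fun i => u i + v i) = avg u + avg v := by
        unfold avg; rw [Finset.sum_add_distrib, add_div]
      unfold W
      rw [this]; ring
    change φ (W lam (fun i => u i + v i)) ≤ _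
    rw [e]
    exact h.sub _ _ (W_nonneg hl hu) (W_nonneg hl hv)

lemma CxLe.edge [NeZero q] {Ω Ω' : Type*} {L : Ω → Fin q → ℝ} {L' : Ω' → Fin q → ℝ}
    (h : CxLe L L') {lam : ℝ} (hl : Adm q lam) :
    CxLe (fun o => W lam (L o)) (fun o => W lam (L' o)) :=
  fun _ hφ => h _ (hφ.comp_W hl)

lemma J_mrg_iter [NeZero q] {Ω₁ Ω₂ : Type*} {L₁ : Ω₁ → Fin q → ℝ} {L₂ : Ω₂ → Fin q → ℝ}
    (h₁ : IsChan L₁) (h₂ : IsChan L₂) {φ : (Fin q → ℝ) → ℝ} (hφ : Bdd φ) :
    J φ (mrg L₁ L₂) = J (fun u => ∑' o₂, φ (fun i => u i * L₂ o₂ i)) L₁ := by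
  unfold J
  have := ((h₁.mrg h₂).summable hφ).tsum_prod' fun o₁ => ?_
  · exact this
  · obtain ⟨K, hK, hb⟩ := hφ
    have hs : Summable (fun o₂ => avg (fun i => L₁ o₁ i * L₂ o₂ i)) := by
      unfold avg
      exact (summable_sum fun i _ => (h₂.hasSum i).summable.mul_left _).div_const _
    refine Summable.of_norm_bounded (hs.mul_left K) fun o₂ => ?_
    rw [Real.norm_eq_abs]
    exact hb _ fun i => mul_nonneg (h₁.nonneg _ _) (h₂.nonneg _ _)

/-- integrating out an independent channel gives an admissible functional -/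
lemma CH.integrate [NeZero q] {φ : (Fin q → ℝ) → ℝ} (h : CH φ) {Ω : Type*} {L : Ω → Fin q → ℝ}
    (hL : IsChan L) : CH (fun u => ∑' o, φ (fun i => u i * L o i)) := by
  obtain ⟨K, hK, hb⟩ := h.bdd
  have hs : ∀ u : Fin q → ℝ, Summable (fun o => avg (fun i => u i * L o i)) := fun u => by
    unfold avg
    exact (summable_sum fun i _ => (hL.hasSum i).summable.mul_left _).div_const _
  have hsum : ∀ u : Fin q → ℝ, ∑' o, avg (fun i => u i * L o i) = avg u := fun u => by
    unfold avg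
    rw [tsum_div_const, Summable.tsum_finsetSum fun i _ => (hL.hasSum i).summable.mul_left _]
    congr 1
    refine Finset.sum_congr rfl fun i _ => ?_
    rw [tsum_mul_left, (hL.hasSum i).tsum_eq, mul_one]
  have hsφ : ∀ u : Fin q → ℝ, (∀ i, 0 ≤ u i) → Summable (fun o => φ (fun i => u i * L o i)) :=
    fun u hu => by
      refine Summable.of_norm_bounded ((hs u).mul_left K) fun o => ?_
      rw [Real.norm_eq_abs]
      exact hb _ fun i => mul_nonneg (hu i) (hL.nonneg _ _)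
  refine ⟨⟨K, hK, fun u hu => ?_⟩, fun c u hc hu => ?_, fun u v hu hv => ?_⟩
  · have h1 : |∑' o, φ (fun i => u i * L o i)| ≤ ∑' o, |φ (fun i => u i * L o i)| := by
      have := norm_tsum_le_tsum_norm (hsφ u hu).norm
      simpa [Real.norm_eq_abs] using this
    refine h1.trans ?_
    calc ∑' o, |φ (fun i => u i * L o i)| ≤ ∑' o, K * avg (fun i => u i * L o i) := by
          refine Summable.tsum_le_tsum (fun o => hb _ fun i => mul_nonneg (hu i) (hL.nonneg _ _))
            ?_ ((hs u).mul_left K)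
          simpa [Real.norm_eq_abs] using (hsφ u hu).norm
      _ = K * avg u := by rw [tsum_mul_left, hsum]
  · change ∑' o, φ (fun i => (c * u i) * L o i) = c * ∑' o, φ (fun i => u i * L o i)
    rw [← tsum_mul_left]
    refine tsum_congr fun o => ?_
    rw [← h.hom c (fun i => u i * L o i) hc fun i => mul_nonneg (hu i) (hL.nonneg _ _)]
    congr 1
    funext i; ring
  · change ∑' o, φ (fun i => (u i + v i) * L o i) ≤ _
    rw [← (hsφ u hu).tsum_add (hsφ v hv)]
    refine Summable.tsum_le_tsum (fun o => ?_) (hsφ _ fun i => add_nonneg (hu i) (hv i))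
      ((hsφ u hu).add (hsφ v hv))
    have := h.sub (fun i => u i * L o i) (fun i => v i * L o i)
      (fun i => mul_nonneg (hu i) (hL.nonneg _ _)) (fun i => mul_nonneg (hv i) (hL.nonneg _ _))
    simpa [add_mul] using this

/-- merging with anything increases -/
lemma cxLe_mrg [NeZero q] {Ω₁ Ω₂ : Type*} {L₁ : Ω₁ → Fin q → ℝ} {L₂ : Ω₂ → Fin q → ℝ}
    (h₁ : IsChan L₁) (h₂ : IsChan L₂) : CxLe L₁ (mrg L₁ L₂) := by
  intro φ hφ
  rw [J_mrg_iter h₁ h₂ hφ.bdd]
  refine h₁.J_mono hφ.bdd (hφ.integrate h₂).bdd fun u hu => ?_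
  have h3 := hφ.tsum_le (fun o i => u i * L₂ o i) (fun o i => mul_nonneg (hu i) (h₂.nonneg _ _))
    (fun i => (h₂.hasSum i).summable.mul_left _)
  have e : (fun i => ∑' o, u i * L₂ o i) = u := by
    funext i
    rw [tsum_mul_left, (h₂.hasSum i).tsum_eq, mul_one]
  rw [e] at h3
  exact h3

lemma J_mrg_comm {Ω₁ Ω₂ : Type*} (φ : (Fin q → ℝ) → ℝ) (L₁ : Ω₁ → Fin q → ℝ)
    (L₂ : Ω₂ → Fin q → ℝ) : J φ (mrg L₁ L₂) = J φ (mrg L₂ L₁) := by
  rw [← J_equiv (Equiv.prodComm Ω₁ Ω₂) φ (mrg L₂ L₁)]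
  unfold J
  refine tsum_congr fun p => ?_
  congr 1
  funext i
  simp [mrg, mul_comm]

lemma CxLe.mrg_left [NeZero q] {Ω₁ Ω₁' Ω₂ : Type*} {L₁ : Ω₁ → Fin q → ℝ} {L₁' : Ω₁' → Fin q → ℝ}
    {L₂ : Ω₂ → Fin q → ℝ} (h : CxLe L₁ L₁') (h₁ : IsChan L₁) (h₁' : IsChan L₁')
    (h₂ : IsChan L₂) : CxLe (mrg L₁ L₂) (mrg L₁' L₂) := by
  intro φ hφ
  rw [J_mrg_iter h₁ h₂ hφ.bdd, J_mrg_iter h₁' h₂ hφ.bdd]
  exact h _ (hφ.integrate h₂)

lemma CxLe.mrg [NeZero q] {Ω₁ Ω₁' Ω₂ Ω₂' : Type*} {L₁ : Ω₁ → Fin q → ℝ}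
    {L₁' : Ω₁' → Fin q → ℝ} {L₂ : Ω₂ → Fin q → ℝ} {L₂' : Ω₂' → Fin q → ℝ}
    (h : CxLe L₁ L₁') (h' : CxLe L₂ L₂') (h₁ : IsChan L₁) (h₁' : IsChan L₁')
    (h₂ : IsChan L₂) (h₂' : IsChan L₂') : CxLe (R163.mrg L₁ L₂) (R163.mrg L₁' L₂') := by
  intro φ hφ
  refine (h.mrg_left h₁ h₁' h₂ φ hφ).trans ?_
  rw [J_mrg_comm φ L₁' L₂, J_mrg_comm φ L₁' L₂']
  exact h'.mrg_left h₂ h₂' h₁' φ hφ

lemma CxLe.pw [NeZero q] {Ω Ω' : Type*} {L : Ω → Fin q → ℝ} {L' : Ω' → Fin q → ℝ}
    (h : CxLe L L') (hL : IsChan L) (hL' : IsChan L') (n : ℕ) :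
    CxLe (R163.pw L n) (R163.pw L' n) := by
  induction n with
  | zero => intro φ _; rw [J_pw_zero, J_pw_zero]
  | succ n ih =>
    intro φ hφ
    rw [J_pw_succ, J_pw_succ]
    exact (h.mrg ih hL hL' (hL.pw n) (hL'.pw n)) φ hφ

lemma cxLe_pw_succ [NeZero q] {Ω : Type*} {L : Ω → Fin q → ℝ} (hL : IsChan L) (n : ℕ) :
    CxLe (pw L n) (pw L (n + 1)) := by
  intro φ hφ
  rw [J_pw_succ, J_mrg_comm]
  exact cxLe_mrg (hL.pw n) hL φ hφ

lemma cxLe_pw_mono [NeZero q] {Ω : Type*} {L : Ω → Fin q → ℝ} (hL : IsChan L) {n m : ℕ}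
    (h : n ≤ m) : CxLe (pw L n) (pw L m) := by
  induction m, h using Nat.le_induction with
  | base => exact CxLe.refl _
  | succ m _ ih => exact ih.trans (cxLe_pw_succ hL m)

/-! ### total variation is an admissible functional -/

lemma ch_tv [NeZero q] : CH (tv (q := q)) where
  bdd := bdd_tv
  hom c v hc hv := by
    have h1 : avg (fun i => c * v i) = c * avg v := by
      unfold avg; rw [← Finset.mul_sum, mul_div_assoc]
    unfold tv
    rw [h1]
    have h2 : (fun i => |c * v i - c * avg v|) = fun i => c * |v i - avg v| := by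
      funext i; rw [← mul_sub, abs_mul, abs_of_nonneg hc]
    rw [h2]
    have h3 : avg (fun i => c * |v i - avg v|) = c * avg (fun i => |v i - avg v|) := by
      conv_lhs => unfold avg
      rw [← Finset.mul_sum, mul_div_assoc]
      rfl
    rw [h3]; ring
  sub u v hu hv := by
    have h1 : avg (fun i => u i + v i) = avg u + avg v := by
      unfold avg; rw [Finset.sum_add_distrib, add_div]
    unfold tv
    rw [h1]
    have h2 : avg (fun i => |u i + v i - (avg u + avg v)|) ≤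
        avg (fun i => |u i - avg u|) + avg (fun i => |v i - avg v|) := by
      set a := avg u
      set b := avg v
      unfold avg
      rw [← add_div, ← Finset.sum_add_distrib]
      apply div_le_div_of_nonneg_right _ (Nat.cast_nonneg _)
      refine Finset.sum_le_sum fun i _ => ?_
      have : u i + v i - (a + b) = (u i - a) + (v i - b) := by ring
      rw [this]
      exact abs_add_le _ _
    linarith

/-! ### regular trees -/

lemma cxLe_reg [NeZero q] {b b' : ℕ} (hb : b ≤ b') {lam ρ : ℝ} (hl : Adm q lam)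
    (h0 : 0 ≤ ρ) (h1 : ρ ≤ 1) (hl' : Adm q (ρ * lam)) (ℓ : ℕ) :
    CxLe (reg q b (ρ * lam) ℓ) (reg q b' lam ℓ) := by
  induction ℓ with
  | zero =>
    intro φ _
    rw [reg_zero, reg_zero, J_perfect, J_perfect]
  | succ ℓ ih =>
    intro φ hφ
    rw [J_reg_succ, J_reg_succ]
    have c1 := reg_isChan b hl' ℓ (q := q)
    have c2 := reg_isChan b' hl ℓ (q := q)
    -- W_{ρ lam} L = W_ρ (W_lam L)
    have e1 : CxLe (fun o => W (ρ * lam) (reg q b (ρ * lam) ℓ o))
        (fun o => W lam (reg q b' lam ℓ o)) := by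
      have s1 : CxLe (fun o => W (ρ * lam) (reg q b (ρ * lam) ℓ o))
          (fun o => W lam (reg q b (ρ * lam) ℓ o)) := by
        have := cxLe_W (c1.edge hl) h0 h1
        have e : (fun o => W ρ (W lam (reg q b (ρ * lam) ℓ o))) =
            fun o => W (ρ * lam) (reg q b (ρ * lam) ℓ o) := by
          funext o i
          have h3 := avg_W lam (reg q b (ρ * lam) ℓ o)
          simp only [W] at h3 ⊢
          rw [h3]
          ring
        rwa [e] at this
      exact s1.trans (ih.edge hl)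
    exact ((e1.pw (c1.edge hl') (c2.edge hl) b).trans (cxLe_pw_mono (c2.edge hl) hb)) φ hφ

/-- the advantage is monotone in the branching number and in the noise -/
theorem advantage_mono [NeZero q] {b b' : ℕ} (hb : b ≤ b') {lam ρ : ℝ} (hl : Adm q lam)
    (h0 : 0 ≤ ρ) (h1 : ρ ≤ 1) (hl' : Adm q (ρ * lam)) (ℓ : ℕ) :
    advantage q b (ρ * lam) ℓ ≤ advantage q b' lam ℓ := by
  rw [advantage_eq, advantage_eq]
  exact cxLe_reg hb hl h0 h1 hl' ℓ tv ch_tv

/-! ### Poisson trees -/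

open Finset.HasAntidiagonal in
lemma pwt_conv (d d' : ℝ) (n : ℕ) :
    ∑ p ∈ antidiagonal n, pwt d p.1 * pwt d' p.2 = pwt (d + d') n := by
  have h1 := (Commute.all d d').add_pow' n
  unfold pwt
  rw [h1, neg_add, Real.exp_add, Finset.mul_sum, Finset.sum_div]
  refine Finset.sum_congr rfl fun p hp => ?_
  have hp' : p.1 + p.2 = n := Finset.HasAntidiagonal.mem_antidiagonal.1 hp
  subst hp'
  have h2 : ((p.1 + p.2).choose p.1 : ℝ) * (Nat.factorial p.1 * Nat.factorial p.2) =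
      Nat.factorial (p.1 + p.2) := by
    have := Nat.choose_mul_factorial_mul_factorial (Nat.le_add_right p.1 p.2)
    rw [Nat.add_sub_cancel_left] at this
    rw [← this]
    push_cast
    ring
  have f1 : (Nat.factorial p.1 : ℝ) ≠ 0 := by exact_mod_cast Nat.factorial_ne_zero _
  have f2 : (Nat.factorial p.2 : ℝ) ≠ 0 := by exact_mod_cast Nat.factorial_ne_zero _
  have f3 : (Nat.factorial (p.1 + p.2) : ℝ) ≠ 0 := by exact_mod_cast Nat.factorial_ne_zero _
  rw [nsmul_eq_mul]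
  rw [div_mul_div_comm, div_eq_div_iff (mul_ne_zero f1 f2) f3, ← h2]
  ring

open Finset.HasAntidiagonal in
/-- stochastic monotonicity of the Poisson weights -/
lemma pwt_mono {d d' : ℝ} (hd : 0 ≤ d) (hdd : d ≤ d') {g : ℕ → ℝ} (hg : Monotone g) {K : ℝ}
    (hK : ∀ n, |g n| ≤ K) : ∑' n, pwt d n * g n ≤ ∑' n, pwt d' n * g n := by
  set δ := d' - d with hδ
  have hδ0 : 0 ≤ δ := by simp only [hδ]; linarith
  have hs : Summable (fun p : ℕ × ℕ => pwt δ p.1 * pwt d p.2) :=
    (pwt_hasSum δ).summable.mul_of_nonneg (pwt_hasSum d).summable (fun n => pwt_nonneg hδ0 n)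
      (fun n => pwt_nonneg hd n)
  have hs1 : Summable (fun p : ℕ × ℕ => pwt δ p.1 * pwt d p.2 * g (p.1 + p.2)) := by
    refine Summable.of_norm_bounded (hs.mul_right K) fun p => ?_
    rw [Real.norm_eq_abs, abs_mul, abs_of_nonneg (mul_nonneg (pwt_nonneg hδ0 _) (pwt_nonneg hd _))]
    exact mul_le_mul_of_nonneg_left (hK _) (mul_nonneg (pwt_nonneg hδ0 _) (pwt_nonneg hd _))
  have hs2 : Summable (fun p : ℕ × ℕ => pwt δ p.1 * (pwt d p.2 * g p.2)) := by
    refine Summable.of_norm_bounded (hs.mul_right K) fun p => ?_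
    rw [← mul_assoc, Real.norm_eq_abs, abs_mul,
      abs_of_nonneg (mul_nonneg (pwt_nonneg hδ0 _) (pwt_nonneg hd _))]
    exact mul_le_mul_of_nonneg_left (hK _) (mul_nonneg (pwt_nonneg hδ0 _) (pwt_nonneg hd _))
  have h1 : ∑' p : ℕ × ℕ, pwt δ p.1 * (pwt d p.2 * g p.2) = ∑' n, pwt d n * g n := by
    have := Summable.tsum_mul_tsum (f := pwt δ) (g := fun n => pwt d n * g n)
      (pwt_hasSum δ).summable ?_ hs2
    · rw [← this, (pwt_hasSum δ).tsum_eq, one_mul]
    · refine Summable.of_norm_bounded ((pwt_hasSum d).summable.mul_right K) fun n => ?_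
      rw [Real.norm_eq_abs, abs_mul, abs_of_nonneg (pwt_nonneg hd n)]
      exact mul_le_mul_of_nonneg_left (hK _) (pwt_nonneg hd _)
  have h2 : HasSum (fun n => pwt d' n * g n)
      (∑' p : ℕ × ℕ, pwt δ p.1 * pwt d p.2 * g (p.1 + p.2)) := by
    have e1 := (Finset.HasAntidiagonal.sigmaAntidiagonalEquivProd (A := ℕ)).hasSum_iff
      (f := fun p : ℕ × ℕ => pwt δ p.1 * pwt d p.2 * g (p.1 + p.2))
      (a := ∑' p : ℕ × ℕ, pwt δ p.1 * pwt d p.2 * g (p.1 + p.2)) |>.2 hs1.hasSum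
    refine e1.sigma fun n => ?_
    have e2 : pwt d' n * g n = ∑ p : antidiagonal n, pwt δ p.1.1 * pwt d p.1.2 * g (p.1.1 + p.1.2) := by
      rw [Finset.sum_coe_sort (antidiagonal n)
        (fun p : ℕ × ℕ => pwt δ p.1 * pwt d p.2 * g (p.1 + p.2))]
      rw [show d' = δ + d by simp only [hδ]; ring, ← pwt_conv, Finset.sum_mul]
      refine Finset.sum_congr rfl fun p hp => ?_
      rw [Finset.HasAntidiagonal.mem_antidiagonal.1 hp]
    rw [e2]
    exact hasSum_fintype _
  rw [h2.tsum_eq, ← h1]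
  refine Summable.tsum_le_tsum (fun p => ?_) hs2 hs1
  rw [← mul_assoc]
  exact mul_le_mul_of_nonneg_left (hg (Nat.le_add_left _ _))
    (mul_nonneg (pwt_nonneg hδ0 _) (pwt_nonneg hd _))

lemma cxLe_pois [NeZero q] {Ω Ω' : Type*} {L : Ω → Fin q → ℝ} {L' : Ω' → Fin q → ℝ}
    (h : CxLe L L') (hL : IsChan L) (hL' : IsChan L') {d d' : ℝ} (hd : 0 ≤ d) (hdd : d ≤ d') :
    CxLe (pois d L) (pois d' L') := by
  intro φ hφ
  have h1 := J_pois hd hL hφ.bdd hφ.hom
  have h1' := J_pois hd hL' hφ.bdd hφ.hom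
  have h2 := J_pois (hd.trans hdd) hL' hφ.bdd hφ.hom
  have step1 : J φ (pois d L) ≤ J φ (pois d L') :=
    hasSum_le (fun n => mul_le_mul_of_nonneg_left ((h.pw hL hL' n) φ hφ) (pwt_nonneg hd n)) h1 h1'
  refine step1.trans ?_
  rw [← h1'.tsum_eq, ← h2.tsum_eq]
  obtain ⟨K, hK, hb⟩ := hφ.bdd
  refine pwt_mono hd hdd (g := fun n => J φ (pw L' n))
    (monotone_nat_of_le_succ fun n => cxLe_pw_succ hL' n φ hφ) (K := K) fun n => ?_
  have hc := hL'.pw n
  have h3 : |J φ (pw L' n)| ≤ J (fun v => K * avg v) (pw L' n) := by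
    have e1 : |J φ (pw L' n)| ≤ ∑' o, |φ (pw L' n o)| := by
      have := norm_tsum_le_tsum_norm (hc.summable hφ.bdd).norm
      simpa [Real.norm_eq_abs, J] using this
    refine e1.trans ?_
    exact Summable.tsum_le_tsum (fun o => hb _ (hc.nonneg o)) (hc.summable_abs hφ.bdd)
      (hc.summable (bdd_avg.const_mul K))
  rwa [J_const_mul, hc.J_avg, mul_one] at h3

lemma W_mul_eq [NeZero q] (ρ lam : ℝ) (v : Fin q → ℝ) : W ρ (W lam v) = W (ρ * lam) v := by
  funext i
  have h3 := avg_W lam v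
  simp only [W] at h3 ⊢
  rw [h3]
  ring

lemma cxLe_gw [NeZero q] {lam ρ : ℝ} (hl : Adm q lam) (h0 : 0 ≤ ρ) (h1 : ρ ≤ 1)
    (hl' : Adm q (ρ * lam)) {d d' : ℝ} (hd : 0 ≤ d) (hdd : d ≤ d') (ℓ : ℕ) :
    CxLe (gw q (ρ * lam) d ℓ) (gw q lam d' ℓ) := by
  induction ℓ with
  | zero => intro φ _; rfl
  | succ ℓ ih =>
    rw [gw_succ, gw_succ]
    have c1 := gw_isChan (q := q) hl' hd ℓ
    have c2 := gw_isChan (q := q) hl (hd.trans hdd) ℓ
    have e1 : CxLe (fun o => W (ρ * lam) (gw q (ρ * lam) d ℓ o))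
        (fun o => W lam (gw q lam d' ℓ o)) := by
      have s1 : CxLe (fun o => W (ρ * lam) (gw q (ρ * lam) d ℓ o))
          (fun o => W lam (gw q (ρ * lam) d ℓ o)) := by
        have := cxLe_W (c1.edge hl) h0 h1
        have e : (fun o => W ρ (W lam (gw q (ρ * lam) d ℓ o))) =
            fun o => W (ρ * lam) (gw q (ρ * lam) d ℓ o) := by
          funext o; rw [W_mul_eq]
        rwa [e] at this
      exact s1.trans (ih.edge hl)
    exact cxLe_pois e1 (c1.edge hl') (c2.edge hl) hd hdd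

/-- the Poisson advantage is monotone in the mean degree and in the noise -/
theorem gwAdvantage_mono [NeZero q] {lam ρ : ℝ} (hl : Adm q lam) (h0 : 0 ≤ ρ) (h1 : ρ ≤ 1)
    (hl' : Adm q (ρ * lam)) {d d' : ℝ} (hd : 0 ≤ d) (hdd : d ≤ d') (ℓ : ℕ) :
    gwAdvantage q (ρ * lam) d ℓ ≤ gwAdvantage q lam d' ℓ := by
  rw [gwAdvantage_eq, gwAdvantage_eq]
  exact cxLe_gw hl h0 h1 hl' hd hdd ℓ tv ch_tv

/-! ### reduction of S0244 (antiferromagnetic part) to the critical cases -/

lemma adm_three {lam : ℝ} (h : -(1 / 2 : ℝ) ≤ lam) (h1 : lam ≤ 1) : Adm 3 lam :=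
  ⟨h1, by push_cast; linarith⟩

lemma tendsto_of_le {f g : ℕ → ℝ} (h0 : ∀ n, 0 ≤ f n) (h : ∀ n, f n ≤ g n)
    (hg : Filter.Tendsto g Filter.atTop (nhds 0)) : Filter.Tendsto f Filter.atTop (nhds 0) :=
  squeeze_zero h0 h hg

lemma advantage_nonneg [NeZero q] (b : ℕ) {lam : ℝ} (hl : Adm q lam) (ℓ : ℕ) :
    0 ≤ advantage q b lam ℓ := by
  rw [advantage_eq]; exact (reg_isChan b hl ℓ).J_nonneg fun v _ => tv_nonneg v

lemma gwAdvantage_nonneg [NeZero q] {lam d : ℝ} (hl : Adm q lam) (hd : 0 ≤ d) (ℓ : ℕ) :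
    0 ≤ gwAdvantage q lam d ℓ := by
  rw [gwAdvantage_eq]; exact (gw_isChan hl hd ℓ).J_nonneg fun v _ => tv_nonneg v

/-- regular trees, `lam ≤ 0`: enough are `b = 4, lam = -1/2` and `b ≥ 5, lam = -1/√b` -/
theorem anti_regular
    (h4 : Filter.Tendsto (advantage 3 4 (-(1 / 2))) Filter.atTop (nhds 0))
    (h5 : ∀ b : ℕ, 5 ≤ b →
      Filter.Tendsto (advantage 3 b (-(1 / Real.sqrt b))) Filter.atTop (nhds 0))
    (b : ℕ) {lam : ℝ} (hl : -(1 / 2 : ℝ) ≤ lam) (hl0 : lam ≤ 0) (hks : (b : ℝ) * lam ^ 2 ≤ 1) :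
    Filter.Tendsto (advantage 3 b lam) Filter.atTop (nhds 0) := by
  have hadm : Adm 3 lam := adm_three hl (by linarith)
  rcases le_or_gt b 4 with hb | hb
  · have hadm' : Adm 3 (-(1 / 2) : ℝ) := adm_three le_rfl (by norm_num)
    refine tendsto_of_le (fun n => advantage_nonneg b hadm n) (fun n => ?_) h4
    have h := advantage_mono (q := 3) hb hadm' (ρ := -2 * lam) (by linarith) (by linarith)
      (by convert hadm using 1; ring) n
    have e : (-2 * lam * (-(1 / 2)) : ℝ) = lam := by ring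
    rwa [e] at h
  · have hb' : (5 : ℝ) ≤ b := by exact_mod_cast hb
    have hs : 0 < Real.sqrt b := Real.sqrt_pos.2 (by linarith)
    have hs2 : Real.sqrt b ^ 2 = b := Real.sq_sqrt (by linarith)
    have hs3 : 2 ≤ Real.sqrt b := Real.le_sqrt_of_sq_le (by linarith)
    have hle : -lam * Real.sqrt b ≤ 1 := by
      have h1 : (-lam * Real.sqrt b) ^ 2 ≤ 1 := by rw [mul_pow, hs2]; linarith
      nlinarith [sq_nonneg (-lam * Real.sqrt b - 1), mul_nonneg (neg_nonneg.2 hl0) hs.le]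
    have hadm' : Adm 3 (-(1 / Real.sqrt b) : ℝ) := by
      refine adm_three ?_ ?_
      · rw [neg_le_neg_iff]
        exact one_div_le_one_div_of_le (by norm_num) hs3
      · have : 0 < 1 / Real.sqrt b := by positivity
        linarith
    refine tendsto_of_le (fun n => advantage_nonneg b hadm n) (fun n => ?_) (h5 b hb)
    have e : (-lam * Real.sqrt b * (-(1 / Real.sqrt b)) : ℝ) = lam := by field_simp
    have h := advantage_mono (q := 3) (le_refl b) hadm' (ρ := -lam * Real.sqrt b)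
      (mul_nonneg (by linarith) hs.le) hle (by rwa [e]) n
    rwa [e] at h

/-- Poisson trees, `lam ≤ 0`: enough is `d ≥ 4, lam = -1/√d` -/
theorem anti_poisson
    (h4 : ∀ d : ℝ, 4 ≤ d →
      Filter.Tendsto (gwAdvantage 3 (-(1 / Real.sqrt d)) d) Filter.atTop (nhds 0))
    {d : ℝ} (hd : 0 ≤ d) {lam : ℝ} (hl : -(1 / 2 : ℝ) ≤ lam) (hl0 : lam ≤ 0)
    (hks : d * lam ^ 2 ≤ 1) :
    Filter.Tendsto (gwAdvantage 3 lam d) Filter.atTop (nhds 0) := by
  have hadm : Adm 3 lam := adm_three hl (by linarith)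
  set D := max d 4 with hD
  have hD4 : 4 ≤ D := le_max_right _ _
  have hDd : d ≤ D := le_max_left _ _
  have hs : 0 < Real.sqrt D := Real.sqrt_pos.2 (by linarith)
  have hs2 : Real.sqrt D ^ 2 = D := Real.sq_sqrt (by linarith)
  have hs3 : 2 ≤ Real.sqrt D := Real.le_sqrt_of_sq_le (by linarith)
  have hDl : D * lam ^ 2 ≤ 1 := by
    rcases le_total d 4 with h | h
    · rw [hD, max_eq_right h]; nlinarith
    · rw [hD, max_eq_left h]; exact hks
  have hle : -lam * Real.sqrt D ≤ 1 := by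
    have h1 : (-lam * Real.sqrt D) ^ 2 ≤ 1 := by rw [mul_pow, hs2]; linarith
    nlinarith [sq_nonneg (-lam * Real.sqrt D - 1), mul_nonneg (neg_nonneg.2 hl0) hs.le]
  have hadm' : Adm 3 (-(1 / Real.sqrt D) : ℝ) := by
    refine adm_three ?_ ?_
    · rw [neg_le_neg_iff]
      exact one_div_le_one_div_of_le (by norm_num) hs3
    · have : 0 < 1 / Real.sqrt D := by positivity
      linarith
  refine tendsto_of_le (fun n => gwAdvantage_nonneg hadm hd n) (fun n => ?_) (h4 D hD4)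
  have e : (-lam * Real.sqrt D * (-(1 / Real.sqrt D)) : ℝ) = lam := by field_simp
  have h := gwAdvantage_mono (q := 3) hadm' (ρ := -lam * Real.sqrt D)
    (mul_nonneg (by linarith) hs.le) hle (by rwa [e]) hd hDd n
  rwa [e] at h

end Crest.Agent.R163
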