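import Crest.Agent.R163.Tree

/-!
Row 163: subtree channels of a general tree are channels; merging over sets of children.
-/

set_option autoImplicit false

namespace Crest.Agent.R163

open Crest.ProbabilityR.TreeBroadcast Crest.ProbabilityR.Broadcast

variable {V : Type*} [DecidableEq V] {q : ℕ}

/-- the channel root-of-subtree `v` to the spins `k` generations below `v` -/
noncomputable def tc (q : ℕ) [NeZero q] (T : LocFinTree V) (lam : ℝ) (k : ℕ) (v : V) :
    (↥(D T k v) → Fin q) → Fin q → ℝ :=
  res (D T k v) (F q T lam k v)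

/-- the configuration functional of a set `S` of children: product of their edge messages -/
noncomputable def GS (q : ℕ) (T : LocFinTree V) (lam : ℝ) (k : ℕ) (S : Finset V) :
    (V → Fin q) → Fin q → ℝ :=
  fun τ i => ∏ w ∈ S, W lam (F q T lam k w τ) i

/-- the merged channel of a set `S` of children -/
noncomputable def sc (q : ℕ) [NeZero q] (T : LocFinTree V) (lam : ℝ) (k : ℕ) (S : Finset V) :
    (↥(S.biUnion (D T k)) → Fin q) → Fin q → ℝ :=
  res (S.biUnion (D T k)) (GS q T lam k S)

lemma F_depOn (T : LocFinTree V) (lam : ℝ) (k : ℕ) (v : V) :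
    DepOn (D T k v) (F q T lam k v) := fun _ _ h => F_congr T lam k v h

lemma WF_depOn (T : LocFinTree V) (lam : ℝ) (k : ℕ) (v : V) :
    DepOn (D T k v) (fun τ => W lam (F q T lam k v τ)) := fun _ _ h => by
  simp only [F_congr T lam k v h]

lemma GS_depOn (T : LocFinTree V) (lam : ℝ) (k : ℕ) (S : Finset V) :
    DepOn (S.biUnion (D T k)) (GS q T lam k S) := fun τ τ' h => by
  funext i
  unfold GS
  refine Finset.prod_congr rfl fun w hw => ?_
  rw [F_congr T lam k w fun v hv => h v (Finset.mem_biUnion.2 ⟨w, hw, hv⟩)]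

lemma tc_succ [NeZero q] (T : LocFinTree V) (lam : ℝ) (k : ℕ) (v : V) :
    tc q T lam (k + 1) v = sc q T lam k (T.children v) := rfl

lemma sc_empty [NeZero q] (T : LocFinTree V) (lam : ℝ) (k : ℕ) :
    sc q T lam k ∅ = fun _ _ => 1 := by
  funext τ i
  simp [sc, res, GS]

instance uniqueEmpty {A : Type*} [IsEmpty A] {B : Type*} : Unique (A → B) := Pi.uniqueOfIsEmpty _

lemma D_disjoint_biUnion (T : LocFinTree V) (k : ℕ) {a : V} {S : Finset V} (h : a ∉ S) :
    Disjoint (D T k a) (S.biUnion (D T k)) := by
  rw [Finset.disjoint_biUnion_right]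
  intro w hw
  exact D_disjoint fun hc => h (hc ▸ hw)

/-- transport along an equality of vertex sets -/
lemma res_cast_isChan [NeZero q] {A B : Finset V} (h : A = B) {G : (V → Fin q) → Fin q → ℝ}
    (hc : IsChan (res A G)) : IsChan (res B G) := by subst h; exact hc

lemma J_res_cast [NeZero q] {A B : Finset V} (h : A = B) (G : (V → Fin q) → Fin q → ℝ)
    (φ : (Fin q → ℝ) → ℝ) : J φ (res A G) = J φ (res B G) := by subst h; rfl

lemma sc_insert_eq [NeZero q] (T : LocFinTree V) (lam : ℝ) (k : ℕ) {a : V} {S : Finset V}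
    (h : a ∉ S) :
    GS q T lam k (insert a S) = fun τ i => W lam (F q T lam k a τ) i * GS q T lam k S τ i := by
  funext τ i
  unfold GS
  rw [Finset.prod_insert h]

/-- merging one more child -/
lemma J_sc_insert [NeZero q] (T : LocFinTree V) (lam : ℝ) (k : ℕ) {a : V} {S : Finset V}
    (h : a ∉ S) (φ : (Fin q → ℝ) → ℝ) :
    J φ (sc q T lam k (insert a S)) =
      J φ (mrg (fun o => W lam (tc q T lam k a o)) (sc q T lam k S)) := by
  have e : (insert a S).biUnion (D T k) = D T k a ∪ S.biUnion (D T k) := Finset.biUnion_insert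
  unfold sc
  rw [J_res_cast e, sc_insert_eq T lam k h]
  exact J_res_union (D_disjoint_biUnion T k h) (WF_depOn T lam k a) (GS_depOn T lam k S) φ

lemma sc_isChan_of [NeZero q] (T : LocFinTree V) {lam : ℝ} (hl : Adm q lam) (k : ℕ) (S : Finset V)
    (h : ∀ w ∈ S, IsChan (tc q T lam k w)) : IsChan (sc q T lam k S) := by
  induction S using Finset.induction_on with
  | empty =>
    rw [sc_empty]
    have : IsEmpty ↥((∅ : Finset V).biUnion (D T k)) := by
      rw [Finset.biUnion_empty]
      infer_instance
    exact isChan_unit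
  | insert a S ha ih =>
    have e : (insert a S).biUnion (D T k) = D T k a ∪ S.biUnion (D T k) := Finset.biUnion_insert
    have ih' := ih fun w hw => h w (Finset.mem_insert_of_mem hw)
    unfold sc
    rw [sc_insert_eq T lam k ha]
    refine res_cast_isChan e.symm ?_
    exact res_union_isChan (D_disjoint_biUnion T k ha) (WF_depOn T lam k a) (GS_depOn T lam k S)
      ((h a (Finset.mem_insert_self a S)).edge hl) ih'

lemma tc_zero_isChan [NeZero q] (T : LocFinTree V) (lam : ℝ) (v : V) :
    IsChan (tc q T lam 0 v) := by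
  have hu : Unique ↥(D T 0 v) := by
    have : D T 0 v = {v} := rfl
    rw [this]
    exact { default := ⟨v, Finset.mem_singleton_self v⟩
            uniq := fun x => Subtype.ext (Finset.mem_singleton.1 x.2) }
  have hv : v ∈ D T 0 v := Finset.mem_singleton_self v
  have key : ∀ (τ : ↥(D T 0 v) → Fin q) (i : Fin q),
      tc q T lam 0 v τ i = if τ ⟨v, hv⟩ = i then 1 else 0 := fun τ i => by
    simp only [tc, res, F, ext_mem τ hv]
  have hd : ∀ x : ↥(D T 0 v), x = ⟨v, hv⟩ := fun x => Subtype.ext (Finset.mem_singleton.1 x.2)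
  refine ⟨fun o i => ?_, fun i => ?_, fun σ => ?_⟩
  · rw [key]; split_ifs <;> norm_num
  · have h1 : HasSum (fun j : Fin q => if j = i then (1 : ℝ) else 0) 1 := hasSum_ite_eq i (1 : ℝ)
    have h2 := ((Equiv.funUnique ↥(D T 0 v) (Fin q)).hasSum_iff
        (f := fun j : Fin q => if j = i then (1 : ℝ) else 0)).2 h1
    convert h2 using 1
    funext o
    rw [key]
    simp only [Function.comp, Equiv.funUnique_apply]
    rw [hd default]
  · refine ⟨(Equiv.refl _).arrowCongr σ, fun o i => ?_⟩
    rw [key, key]
    simp [Equiv.arrowCongr]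

theorem tc_isChan [NeZero q] (T : LocFinTree V) {lam : ℝ} (hl : Adm q lam) (k : ℕ) (v : V) :
    IsChan (tc q T lam k v) := by
  induction k generalizing v with
  | zero => exact tc_zero_isChan T lam v
  | succ k ih => rw [tc_succ]; exact sc_isChan_of T hl k _ fun w _ => ih w

theorem sc_isChan [NeZero q] (T : LocFinTree V) {lam : ℝ} (hl : Adm q lam) (k : ℕ) (S : Finset V) :
    IsChan (sc q T lam k S) := sc_isChan_of T hl k S fun w _ => tc_isChan T hl k w

/-- the advantage of a general tree as a functional of the root channel -/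
theorem treeAdvantage_eq [NeZero q] (T : LocFinTree V) (lam : ℝ) (n : ℕ) :
    treeAdvantage q T lam n = J tv (tc q T lam n T.root) := by
  have h0 : J tv (tc q T lam n T.root) = J tv (res (T.level n) (F q T lam n T.root)) :=
    J_res_cast (D_root T n) _ _
  rw [h0]
  unfold treeAdvantage J
  rw [tsum_fintype, Finset.mul_sum]
  refine Finset.sum_congr rfl fun τ _ => ?_
  unfold tv
  have h1 : ∀ i, res (T.level n) (F q T lam n T.root) τ i - avg (res (T.level n) (F q T lam n T.root) τ) =
      levelLaw q T lam n i τ - 1 / q * ∑ j : Fin q, levelLaw q T lam n j τ := by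
    intro i
    simp only [levelLaw_eq, avg, res]
    ring
  simp only [h1]
  unfold avg
  field_simp

end Crest.Agent.R163
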