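import Crest.Agent.R163.Back6
import Crest.Agent.R163.Tree2
import Crest.Agent.R163.Mono

/-!
Row 163 (S0246, backward direction): subtree channels with noisy leaves.
-/

set_option autoImplicit false

namespace Crest.Agent.R163.Bk

open Crest.ProbabilityR.TreeBroadcast Crest.ProbabilityR.Broadcast

variable {V : Type*} [DecidableEq V] {q : ℕ}

/-- likelihoods with noise `κ v` at the leaves -/
noncomputable def NF (q : ℕ) (T : LocFinTree V) (lam : ℝ) (κ : V → ℝ) :
    ℕ → V → (V → Fin q) → Fin q → ℝ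
  | 0, v, τ => W (κ v) (fun i => if τ v = i then 1 else 0)
  | k + 1, v, τ => fun i => ∏ w ∈ T.children v, W lam (NF q T lam κ k w τ) i

lemma NF_congr (T : LocFinTree V) (lam : ℝ) (κ : V → ℝ) (k : ℕ) (v : V) {τ τ' : V → Fin q}
    (h : ∀ w ∈ D T k v, τ w = τ' w) : NF q T lam κ k v τ = NF q T lam κ k v τ' := by
  induction k generalizing v with
  | zero => simp [NF, h v (by simp [D])]
  | succ k ih =>
    funext i
    simp only [NF]
    refine Finset.prod_congr rfl fun w hw => ?_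
    rw [ih w fun u hu => h u ?_]
    simp only [D, Finset.mem_biUnion]
    exact ⟨w, hw, hu⟩

/-- noisy subtree channel -/
noncomputable def ntc (q : ℕ) [NeZero q] (T : LocFinTree V) (lam : ℝ) (κ : V → ℝ) (k : ℕ)
    (v : V) : (↥(D T k v) → Fin q) → Fin q → ℝ :=
  res (D T k v) (NF q T lam κ k v)

/-- product over a set of children -/
noncomputable def NGS (q : ℕ) (T : LocFinTree V) (lam : ℝ) (κ : V → ℝ) (k : ℕ) (S : Finset V) :
    (V → Fin q) → Fin q → ℝ :=
  fun τ i => ∏ w ∈ S, W lam (NF q T lam κ k w τ) i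

/-- the merged noisy channel of a set of children -/
noncomputable def nsc (q : ℕ) [NeZero q] (T : LocFinTree V) (lam : ℝ) (κ : V → ℝ) (k : ℕ)
    (S : Finset V) : (↥(S.biUnion (D T k)) → Fin q) → Fin q → ℝ :=
  res (S.biUnion (D T k)) (NGS q T lam κ k S)

lemma WNF_depOn (T : LocFinTree V) (lam : ℝ) (κ : V → ℝ) (k : ℕ) (v : V) :
    DepOn (D T k v) (fun τ => W lam (NF q T lam κ k v τ)) := fun _ _ h => by
  simp only [NF_congr T lam κ k v h]

lemma NGS_depOn (T : LocFinTree V) (lam : ℝ) (κ : V → ℝ) (k : ℕ) (S : Finset V) :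
    DepOn (S.biUnion (D T k)) (NGS q T lam κ k S) := fun τ τ' h => by
  funext i
  unfold NGS
  refine Finset.prod_congr rfl fun w hw => ?_
  rw [NF_congr T lam κ k w fun v hv => h v (Finset.mem_biUnion.2 ⟨w, hw, hv⟩)]

lemma ntc_succ [NeZero q] (T : LocFinTree V) (lam : ℝ) (κ : V → ℝ) (k : ℕ) (v : V) :
    ntc q T lam κ (k + 1) v = nsc q T lam κ k (T.children v) := rfl

lemma nsc_empty [NeZero q] (T : LocFinTree V) (lam : ℝ) (κ : V → ℝ) (k : ℕ) :
    nsc q T lam κ k ∅ = fun _ _ => 1 := by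
  funext τ i
  simp [nsc, res, NGS]

lemma nsc_insert_eq (T : LocFinTree V) (lam : ℝ) (κ : V → ℝ) (k : ℕ) {a : V}
    {S : Finset V} (h : a ∉ S) :
    NGS q T lam κ k (insert a S) =
      fun τ i => W lam (NF q T lam κ k a τ) i * NGS q T lam κ k S τ i := by
  funext τ i
  unfold NGS
  rw [Finset.prod_insert h]

/-- merging one more child -/
lemma J_nsc_insert [NeZero q] (T : LocFinTree V) (lam : ℝ) (κ : V → ℝ) (k : ℕ) {a : V}
    {S : Finset V} (h : a ∉ S) (φ : (Fin q → ℝ) → ℝ) :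
    J φ (nsc q T lam κ k (insert a S)) =
      J φ (mrg (fun o => W lam (ntc q T lam κ k a o)) (nsc q T lam κ k S)) := by
  have e : (insert a S).biUnion (D T k) = D T k a ∪ S.biUnion (D T k) := Finset.biUnion_insert
  unfold nsc
  rw [J_res_cast e, nsc_insert_eq T lam κ k h]
  exact J_res_union (D_disjoint_biUnion T k h) (WNF_depOn T lam κ k a) (NGS_depOn T lam κ k S) φ

lemma nsc_isChan_of [NeZero q] (T : LocFinTree V) {lam : ℝ} (hl : Adm q lam) (κ : V → ℝ) (k : ℕ)
    (S : Finset V) (h : ∀ w ∈ S, IsChan (ntc q T lam κ k w)) :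
    IsChan (nsc q T lam κ k S) := by
  induction S using Finset.induction_on with
  | empty =>
    rw [nsc_empty]
    have : IsEmpty ↥((∅ : Finset V).biUnion (D T k)) := by
      rw [Finset.biUnion_empty]
      infer_instance
    exact isChan_unit
  | insert a S ha ih =>
    have e : (insert a S).biUnion (D T k) = D T k a ∪ S.biUnion (D T k) := Finset.biUnion_insert
    have ih' := ih fun w hw => h w (Finset.mem_insert_of_mem hw)
    unfold nsc
    rw [nsc_insert_eq T lam κ k ha]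
    refine res_cast_isChan e.symm ?_
    exact res_union_isChan (D_disjoint_biUnion T k ha) (WNF_depOn T lam κ k a)
      (NGS_depOn T lam κ k S) ((h a (Finset.mem_insert_self a S)).edge hl) ih'

lemma ntc_zero [NeZero q] (T : LocFinTree V) (lam : ℝ) (κ : V → ℝ) (v : V) :
    ntc q T lam κ 0 v = fun o => W (κ v) (tc q T lam 0 v o) := rfl

theorem ntc_isChan [NeZero q] (T : LocFinTree V) {lam : ℝ} (hl : Adm q lam) {κ : V → ℝ}
    (hκ : ∀ v, Adm q (κ v)) (k : ℕ) (v : V) : IsChan (ntc q T lam κ k v) := by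
  induction k generalizing v with
  | zero => rw [ntc_zero]; exact (tc_zero_isChan T lam v).edge (hκ v)
  | succ k ih => rw [ntc_succ]; exact nsc_isChan_of T hl κ k _ fun w _ => ih w

theorem nsc_isChan [NeZero q] (T : LocFinTree V) {lam : ℝ} (hl : Adm q lam) {κ : V → ℝ}
    (hκ : ∀ v, Adm q (κ v)) (k : ℕ) (S : Finset V) : IsChan (nsc q T lam κ k S) :=
  nsc_isChan_of T hl κ k S fun w _ => ntc_isChan T hl hκ k w

/-! ### noise decreases in the convex order -/

lemma nsc_le_of [NeZero q] (T : LocFinTree V) {lam : ℝ} (hl : Adm q lam) {κ : V → ℝ}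
    (hκ : ∀ v, Adm q (κ v)) (k : ℕ) (S : Finset V)
    (h : ∀ w ∈ S, CxLe (ntc q T lam κ k w) (tc q T lam k w)) :
    CxLe (nsc q T lam κ k S) (sc q T lam k S) := by
  induction S using Finset.induction_on with
  | empty =>
    rw [nsc_empty, sc_empty]
    exact CxLe.refl _
  | insert a S ha ih =>
    intro φ hφ
    rw [J_nsc_insert T lam κ k ha, J_sc_insert T lam k ha]
    have ih' := ih fun w hw => h w (Finset.mem_insert_of_mem hw)
    exact ((h a (Finset.mem_insert_self a S)).edge hl).mrg ih'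
      ((ntc_isChan T hl hκ k a).edge hl) ((tc_isChan T hl k a).edge hl)
      (nsc_isChan T hl hκ k S) (sc_isChan T hl k S) φ hφ

theorem ntc_le [NeZero q] (T : LocFinTree V) {lam : ℝ} (hl : Adm q lam) {κ : V → ℝ}
    (h0 : ∀ v, 0 ≤ κ v) (h1 : ∀ v, κ v ≤ 1) (hκ : ∀ v, Adm q (κ v)) (k : ℕ) (v : V) :
    CxLe (ntc q T lam κ k v) (tc q T lam k v) := by
  induction k generalizing v with
  | zero => rw [ntc_zero]; exact cxLe_W (tc_zero_isChan T lam v) (h0 v) (h1 v)
  | succ k ih => rw [ntc_succ, tc_succ]; exact nsc_le_of T hl hκ k _ fun w _ => ih w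

/-! ### values at the leaves -/

lemma J_tc_zero [NeZero q] (T : LocFinTree V) (lam : ℝ) (v : V) (φ : (Fin q → ℝ) → ℝ) :
    J φ (tc q T lam 0 v) = ∑ j : Fin q, φ (fun i => if j = i then 1 else 0) := by
  have hu : Unique ↥(D T 0 v) := by
    have : D T 0 v = {v} := rfl
    rw [this]
    exact { default := ⟨v, Finset.mem_singleton_self v⟩
            uniq := fun x => Subtype.ext (Finset.mem_singleton.1 x.2) }
  have hv : v ∈ D T 0 v := Finset.mem_singleton_self v
  have hd : ∀ x : ↥(D T 0 v), x = ⟨v, hv⟩ := fun x => Subtype.ext (Finset.mem_singleton.1 x.2)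
  have key : ∀ (τ : ↥(D T 0 v) → Fin q),
      tc q T lam 0 v τ = fun i => if τ ⟨v, hv⟩ = i then 1 else 0 := fun τ => by
    funext i
    simp only [tc, res, F, ext_mem τ hv]
  unfold J
  rw [← (Equiv.funUnique ↥(D T 0 v) (Fin q)).symm.tsum_eq, tsum_fintype]
  refine Finset.sum_congr rfl fun j _ => ?_
  rw [key]
  rfl

lemma ntc_zero_chi (T : LocFinTree V) (lam : ℝ) (κ : V → ℝ) (v : V) :
    J chi (ntc 4 T lam κ 0 v) = κ v ^ 2 * 3 := by
  rw [ntc_zero, (tc_zero_isChan T lam v).J_chi_edge, J_tc_zero]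
  congr 1
  rw [Fin.sum_univ_four]
  simp only [chi, avg4]
  norm_num [Fin.ext_iff]

lemma ntc_zero_ev (T : LocFinTree V) (lam : ℝ) (κ : V → ℝ) (v : V) (h0 : 0 ≤ κ v)
    (h1 : κ v ≤ 1) : ev (ntc 4 T lam κ 0 v) ≤ κ v ^ 3 * 36 := by
  rw [ntc_zero]
  refine (ev_edge (tc_zero_isChan T lam v) h0 h1).trans ?_
  refine mul_le_mul_of_nonneg_left ?_ (pow_nonneg h0 3)
  have h2 := ev_le (tc_zero_isChan (q := 4) T lam v)
  have h3 := J_chi_le (tc_zero_isChan (q := 4) T lam v)
  linarith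

end Crest.Agent.R163.Bk
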