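import Crest.Agent.R163.Back7
import Crest.Agent.R163.Cap.Backward

/-!
Row 163 (S0246, backward direction): vertices with boundedly many children, and the conclusion.
-/

set_option autoImplicit false

namespace Crest.Agent.R163.Bk

open Crest.ProbabilityR.TreeBroadcast Crest.ProbabilityR.Broadcast

variable {V : Type*} [DecidableEq V]

lemma adm_of {lam : ℝ} (h0 : 0 ≤ lam) (h1 : lam ≤ 1) : Adm 4 lam :=
  ⟨h1, by
    have : 0 ≤ 1 - lam := by linarith
    push_cast
    positivity⟩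

lemma chi_one : chi (fun _ : Fin 4 => (1 : ℝ)) = 0 := by
  simp only [chi, avg4]; norm_num

lemma J_unit_zero {Ω : Type*} {φ : (Fin 4 → ℝ) → ℝ} (h : φ (fun _ => 1) = 0) :
    J φ (fun (_ : Ω) (_ : Fin 4) => (1 : ℝ)) = 0 := by
  unfold J
  simp [h]

lemma y3_one : y3 (fun _ : Fin 4 => (1 : ℝ)) = 0 := by
  simp only [y3, dev, avg4]; norm_num

lemma x2_one : x2 (fun _ : Fin 4 => (1 : ℝ)) = 0 := by
  simp only [x2, dev, avg4]; norm_num

/-- arithmetic of the inductive step -/
lemma step_arith {C c K σ ε S E s e s' e' : ℝ} (hC : 0 < C) (hc : 0 < c) (hK : 1 ≤ K)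
    (hσ : 0 ≤ σ) (hε : 0 ≤ ε) (hS : 0 ≤ S) (hE : 0 ≤ E) (hs : 0 ≤ s) (he : 0 ≤ e)
    (h1 : |s - S| ≤ C * S * (E + C * S ^ 2)) (h2 : e ≤ E + C * S ^ 2) (hsK : s ≤ K * S)
    (h3 : |s' - σ - s| ≤ c * (σ * e + ε * s)) (h4 : e' ≤ ε + e + c * (σ * s)) :
    |s' - (σ + S)| ≤ (C + c + c * K) * (σ + S) * ((ε + E) + (C + c + c * K) * (σ + S) ^ 2) ∧
    e' ≤ (ε + E) + (C + c + c * K) * (σ + S) ^ 2 := by
  have hcK : 0 < c * K := mul_pos hc (by linarith)
  have hC' : C ≤ C + c + c * K := by linarith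
  have hsq : S ^ 2 ≤ (σ + S) ^ 2 := pow_le_pow_left₀ hS (by linarith) 2
  have hσS : 0 ≤ σ * S := mul_nonneg hσ hS
  have hE1 : E + C * S ^ 2 ≤ E + (C + c + c * K) * (σ + S) ^ 2 := by
    have : C * S ^ 2 ≤ (C + c + c * K) * (σ + S) ^ 2 :=
      mul_le_mul hC' hsq (sq_nonneg _) (by linarith)
    linarith
  have hE0 : 0 ≤ E + C * S ^ 2 := by positivity
  constructor
  · have t1 : |s' - (σ + S)| ≤ |s' - σ - s| + |s - S| := by
      have : s' - (σ + S) = (s' - σ - s) + (s - S) := by ring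
      rw [this]; exact abs_add_le _ _
    -- bound everything
    have t2 : c * (σ * e + ε * s) ≤ c * σ * (E + C * S ^ 2) + c * K * S * ε := by
      have a1 : σ * e ≤ σ * (E + C * S ^ 2) := mul_le_mul_of_nonneg_left h2 hσ
      have a2 : ε * s ≤ ε * (K * S) := mul_le_mul_of_nonneg_left hsK hε
      have a3 := mul_le_mul_of_nonneg_left (add_le_add a1 a2) hc.le
      linarith
    have t3 : C * S * (E + C * S ^ 2) + c * σ * (E + C * S ^ 2) ≤
        (C + c + c * K) * (σ + S) * (E + (C + c + c * K) * (σ + S) ^ 2) := by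
      have b1 : C * S + c * σ ≤ (C + c + c * K) * (σ + S) := by
        nlinarith [mul_nonneg hc.le hS, mul_nonneg hC.le hσ, mul_nonneg hcK.le hS,
          mul_nonneg hcK.le hσ]
      have b2 := mul_le_mul b1 hE1 hE0 (by positivity)
      linarith
    have t4 : c * K * S * ε ≤ (C + c + c * K) * (σ + S) * ε := by
      refine mul_le_mul_of_nonneg_right ?_ hε
      nlinarith [mul_nonneg hc.le hS, mul_nonneg hc.le hσ,
        mul_nonneg hC.le hσ, mul_nonneg hC.le hS, mul_nonneg hcK.le hS, mul_nonneg hcK.le hσ]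
    calc |s' - (σ + S)| ≤ c * (σ * e + ε * s) + C * S * (E + C * S ^ 2) := by linarith
      _ ≤ (C + c + c * K) * (σ + S) * (E + (C + c + c * K) * (σ + S) ^ 2) +
          (C + c + c * K) * (σ + S) * ε := by linarith
      _ = _ := by ring
  · have a1 : c * (σ * s) ≤ c * K * (σ * S) := by
      have := mul_le_mul_of_nonneg_left (mul_le_mul_of_nonneg_left hsK hσ) hc.le
      linarith
    have a2 : σ * S ≤ (σ + S) ^ 2 := by nlinarith [sq_nonneg σ, sq_nonneg S]
    have a3 : c * K * (σ * S) ≤ c * K * (σ + S) ^ 2 := mul_le_mul_of_nonneg_left a2 hcK.le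
    have a4 : C * S ^ 2 ≤ C * (σ + S) ^ 2 := mul_le_mul_of_nonneg_left hsq hC.le
    have a5 : 0 ≤ c * (σ + S) ^ 2 := by positivity
    have a6 : (C + c + c * K) * (σ + S) ^ 2 =
        C * (σ + S) ^ 2 + c * (σ + S) ^ 2 + c * K * (σ + S) ^ 2 := by ring
    rw [a6]
    linarith

theorem merge_children (T : LocFinTree V) {lam : ℝ} (h0 : 0 ≤ lam) (h1 : lam ≤ 1) (m : ℕ) :
    ∃ C : ℝ, 0 < C ∧ ∀ (κ : V → ℝ), (∀ v, Adm 4 (κ v)) → ∀ (k : ℕ) (A : Finset V), A.card ≤ m →
      |J chi (nsc 4 T lam κ k A) - ∑ w ∈ A, lam ^ 2 * J chi (ntc 4 T lam κ k w)| ≤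
        C * (∑ w ∈ A, lam ^ 2 * J chi (ntc 4 T lam κ k w)) *
          (∑ w ∈ A, lam ^ 3 * ev (ntc 4 T lam κ k w) +
            C * (∑ w ∈ A, lam ^ 2 * J chi (ntc 4 T lam κ k w)) ^ 2) ∧
      ev (nsc 4 T lam κ k A) ≤ ∑ w ∈ A, lam ^ 3 * ev (ntc 4 T lam κ k w) +
            C * (∑ w ∈ A, lam ^ 2 * J chi (ntc 4 T lam κ k w)) ^ 2 := by
  have hl : Adm 4 lam := adm_of h0 h1
  induction m with
  | zero =>
    refine ⟨1, one_pos, fun κ hκ k A hA => ?_⟩
    have : A = ∅ := Finset.card_eq_zero.1 (Nat.le_zero.1 hA)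
    subst this
    have e1 : J chi (nsc 4 T lam κ k ∅) = 0 := by rw [nsc_empty]; exact J_unit_zero chi_one
    have e2 : ev (nsc 4 T lam κ k ∅) = 0 := by
      rw [nsc_empty, ev, J_unit_zero y3_one, J_unit_zero x2_one]; simp
    rw [e1, e2]
    simp
  | succ m ih =>
    obtain ⟨C, hC, ih⟩ := ih
    -- constants
    obtain ⟨K, hK⟩ : ∃ K : ℝ, K = 1 + C * (36 * m + C * (3 * m) ^ 2) := ⟨_, rfl⟩
    have hK1 : 1 ≤ K := by rw [hK]; have : 0 ≤ C * (36 * (m : ℝ) + C * (3 * m) ^ 2) := by positivity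
                           linarith
    obtain ⟨c, hc⟩ : ∃ c : ℝ, c = 3000000 := ⟨_, rfl⟩
    have hc0 : 0 < c := by rw [hc]; norm_num
    refine ⟨C + c + c * K, by positivity, fun κ hκ k A hA => ?_⟩
    rcases Nat.lt_or_ge A.card (m + 1) with hlt | hge
    · -- monotonicity in the constant
      have hA' : A.card ≤ m := by omega
      obtain ⟨a1, a2⟩ := ih κ hκ k A hA'
      have hS : 0 ≤ ∑ w ∈ A, lam ^ 2 * J chi (ntc 4 T lam κ k w) :=
        Finset.sum_nonneg fun w _ => mul_nonneg (sq_nonneg _) (J_chi_nonneg (ntc_isChan T hl hκ k w))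
      have hE : 0 ≤ ∑ w ∈ A, lam ^ 3 * ev (ntc 4 T lam κ k w) :=
        Finset.sum_nonneg fun w _ => mul_nonneg (pow_nonneg h0 3) (ev_nonneg (ntc_isChan T hl hκ k w))
      generalize ∑ w ∈ A, lam ^ 2 * J chi (ntc 4 T lam κ k w) = S at *
      generalize ∑ w ∈ A, lam ^ 3 * ev (ntc 4 T lam κ k w) = E at *
      have hCC : C ≤ C + c + c * K := by nlinarith
      have b1 : E + C * S ^ 2 ≤ E + (C + c + c * K) * S ^ 2 := by
        have := mul_le_mul_of_nonneg_right hCC (sq_nonneg S)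
        linarith
      refine ⟨a1.trans ?_, a2.trans b1⟩
      exact mul_le_mul (mul_le_mul_of_nonneg_right hCC hS) b1 (by positivity) (by positivity)
    · -- remove one element
      have hne : A.Nonempty := Finset.card_pos.1 (by omega)
      obtain ⟨a, ha⟩ := hne
      obtain ⟨B, hB⟩ : ∃ B : Finset V, B = A.erase a := ⟨_, rfl⟩
      have haB : a ∉ B := by rw [hB]; exact Finset.notMem_erase a A
      have hAB : A = insert a B := by rw [hB, Finset.insert_erase ha]
      have hBc : B.card ≤ m := by rw [hB, Finset.card_erase_of_mem ha]; omega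
      obtain ⟨a1, a2⟩ := ih κ hκ k B hBc
      have cB := nsc_isChan T hl hκ k B
      have ca := ntc_isChan T hl hκ k a
      have cW := ca.edge hl
      have hS : 0 ≤ ∑ w ∈ B, lam ^ 2 * J chi (ntc 4 T lam κ k w) :=
        Finset.sum_nonneg fun w _ => mul_nonneg (sq_nonneg _) (J_chi_nonneg (ntc_isChan T hl hκ k w))
      have hE : 0 ≤ ∑ w ∈ B, lam ^ 3 * ev (ntc 4 T lam κ k w) :=
        Finset.sum_nonneg fun w _ => mul_nonneg (pow_nonneg h0 3) (ev_nonneg (ntc_isChan T hl hκ k w))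
      have hl2 : lam ^ 2 ≤ 1 := pow_le_one₀ h0 h1
      have hl3 : lam ^ 3 ≤ 1 := pow_le_one₀ h0 h1
      have hSm : ∑ w ∈ B, lam ^ 2 * J chi (ntc 4 T lam κ k w) ≤ 3 * m := by
        have : ∀ w ∈ B, lam ^ 2 * J chi (ntc 4 T lam κ k w) ≤ 3 := fun w _ => by
          have h5 := J_chi_le (ntc_isChan T hl hκ k w)
          have h6 := J_chi_nonneg (ntc_isChan T hl hκ k w)
          nlinarith
        refine (Finset.sum_le_sum this).trans ?_
        rw [Finset.sum_const, nsmul_eq_mul]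
        have : (B.card : ℝ) ≤ m := by exact_mod_cast hBc
        linarith
      have hEm : ∑ w ∈ B, lam ^ 3 * ev (ntc 4 T lam κ k w) ≤ 36 * m := by
        have : ∀ w ∈ B, lam ^ 3 * ev (ntc 4 T lam κ k w) ≤ 36 := fun w _ => by
          have h5 := J_chi_le (ntc_isChan T hl hκ k w)
          have h6 := ev_le (ntc_isChan T hl hκ k w)
          have h7 := ev_nonneg (ntc_isChan T hl hκ k w)
          nlinarith
        refine (Finset.sum_le_sum this).trans ?_
        rw [Finset.sum_const, nsmul_eq_mul]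
        have : (B.card : ℝ) ≤ m := by exact_mod_cast hBc
        linarith
      have hs := J_chi_nonneg cB
      have he := ev_nonneg cB
      -- two-fold inequalities
      have m1 := J_chi_mrg cW cB
      have m2 := ev_mrg cW cB
      have e1 : J chi (fun o => W lam (ntc 4 T lam κ k a o)) =
          lam ^ 2 * J chi (ntc 4 T lam κ k a) := ca.J_chi_edge lam
      have e2 := ev_edge ca h0 h1
      rw [e1] at m1 m2
      have e3 : J chi (nsc 4 T lam κ k A) =
          J chi (mrg (fun o => W lam (ntc 4 T lam κ k a o)) (nsc 4 T lam κ k B)) := by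
        rw [hAB]; exact J_nsc_insert T lam κ k haB chi
      have e4 : ev (nsc 4 T lam κ k A) =
          ev (mrg (fun o => W lam (ntc 4 T lam κ k a o)) (nsc 4 T lam κ k B)) := by
        unfold ev
        rw [hAB, J_nsc_insert T lam κ k haB y3, J_nsc_insert T lam κ k haB x2]
      rw [← e3] at m1
      rw [← e4] at m2
      have hσ : 0 ≤ lam ^ 2 * J chi (ntc 4 T lam κ k a) :=
        mul_nonneg (sq_nonneg _) (J_chi_nonneg ca)
      have hε : 0 ≤ lam ^ 3 * ev (ntc 4 T lam κ k a) :=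
        mul_nonneg (pow_nonneg h0 3) (ev_nonneg ca)
      have sumS : ∑ w ∈ A, lam ^ 2 * J chi (ntc 4 T lam κ k w) =
          lam ^ 2 * J chi (ntc 4 T lam κ k a) + ∑ w ∈ B, lam ^ 2 * J chi (ntc 4 T lam κ k w) := by
        rw [hAB, Finset.sum_insert haB]
      have sumE : ∑ w ∈ A, lam ^ 3 * ev (ntc 4 T lam κ k w) =
          lam ^ 3 * ev (ntc 4 T lam κ k a) + ∑ w ∈ B, lam ^ 3 * ev (ntc 4 T lam κ k w) := by
        rw [hAB, Finset.sum_insert haB]
      rw [sumS, sumE]
      clear sumS sumE e1 e3 e4 ih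
      generalize ∑ w ∈ B, lam ^ 2 * J chi (ntc 4 T lam κ k w) = S at *
      generalize ∑ w ∈ B, lam ^ 3 * ev (ntc 4 T lam κ k w) = E at *
      generalize J chi (nsc 4 T lam κ k B) = s at *
      generalize ev (nsc 4 T lam κ k B) = e at *
      generalize lam ^ 2 * J chi (ntc 4 T lam κ k a) = σ at *
      generalize lam ^ 3 * ev (ntc 4 T lam κ k a) = ε at *
      generalize J chi (nsc 4 T lam κ k A) = s' at *
      generalize ev (nsc 4 T lam κ k A) = e' at *
      generalize ev (fun o => W lam (ntc 4 T lam κ k a o)) = ε' at *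
      refine step_arith hC hc0 hK1 hσ hε hS hE hs he a1 a2 ?_ ?_ ?_
      · -- s ≤ K S
        have t1 : s ≤ S + C * S * (E + C * S ^ 2) := by linarith [(abs_le.1 a1).2]
        have t2 : E + C * S ^ 2 ≤ 36 * m + C * (3 * m) ^ 2 := by
          have : S ^ 2 ≤ (3 * (m : ℝ)) ^ 2 := pow_le_pow_left₀ hS hSm 2
          have := mul_le_mul_of_nonneg_left this hC.le
          linarith
        have t3 := mul_le_mul_of_nonneg_left t2 (mul_nonneg hC.le hS)
        rw [hK]
        linarith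
      · refine m1.trans ?_
        have h8 : 0 ≤ σ * e := mul_nonneg hσ he
        have h9 : ε' * s ≤ ε * s := mul_le_mul_of_nonneg_right e2 hs
        have h10 : 0 ≤ ε * s := mul_nonneg hε hs
        rw [hc]
        linarith
      · rw [hc]; linarith

end Crest.Agent.R163.Bk
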