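import Crest.Agent.R163.Back8

/-!
Row 163 (S0246, backward direction): a flow with bounded ray potentials gives reconstruction.
-/

set_option autoImplicit false

namespace Crest.Agent.R163.Bk

open Crest.ProbabilityR.TreeBroadcast Crest.ProbabilityR.Broadcast

variable {V : Type*} [DecidableEq V]

lemma treeAdvantage_zero (T : LocFinTree V) (lam : ℝ) : treeAdvantage 4 T lam 0 = 3 / 4 := by
  rw [treeAdvantage_eq, J_tc_zero, Fin.sum_univ_four]
  simp only [tv, avg4]
  norm_num [Fin.ext_iff, abs_of_pos, abs_of_neg]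

/-- S0246, from the flow to reconstruction -/
theorem backward (T : LocFinTree V) {B : ℕ} (hB : ∀ v, (T.children v).card ≤ B) {lam : ℝ}
    (h0 : 0 < lam) (h1 : lam < 1) {θ : V → ℝ} (hθ : IsFlow T θ) (hM : 0 < flowMass T θ)
    (hray : ∀ ξ : ℕ → V, T.IsRay ξ → rayPotential lam θ ξ ≤ 1) :
    ∃ ε : ℝ, 0 < ε ∧ ∀ n, ε ≤ treeAdvantage 4 T lam n := by
  obtain ⟨C₁, hC₁, hm⟩ := merge_children T h0.le h1.le B
  have hl : Adm 4 lam := adm_of h0.le h1.le
  obtain ⟨κ, ε, hκ0, hκ1, hε, H⟩ := Cap.backward_capacity T hθ hM h0 h1 hray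
    (C := C₁ + 12) (by linarith) (κ₀ := 1) one_pos
  refine ⟨min (ε / 6) (3 / 4), lt_min (by linarith) (by norm_num), fun n => ?_⟩
  rcases n with _ | n
  · rw [treeAdvantage_zero]; exact min_le_right _ _
  refine (min_le_left _ _).trans ?_
  -- the noise at the leaves
  obtain ⟨κf, hκf⟩ : ∃ κf : V → ℝ, κf = fun v =>
      if T.depth v = n + 1 then κ * Real.sqrt (θ v / lam ^ (2 * (n + 1)) / 3) else 0 := ⟨_, rfl⟩
  have hu0 : ∀ v, 0 ≤ θ v / lam ^ (2 * (n + 1)) := fun v => div_nonneg (hθ.1 v) (pow_nonneg h0.le _)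
  have hu1 : ∀ v, T.depth v = n + 1 → θ v / lam ^ (2 * (n + 1)) ≤ 1 := fun v hv => by
    have hne : v ≠ T.root := fun h => by
      have := (T.depth_eq_zero_iff v).2 h
      omega
    have := Cap.u_le_one T hθ h0 hray hne
    rwa [hv] at this
  have hr1 : ∀ v, T.depth v = n + 1 → Real.sqrt (θ v / lam ^ (2 * (n + 1)) / 3) ≤ 1 :=
    fun v hv => by
      refine Real.sqrt_le_one.2 ?_
      have := hu1 v hv
      linarith
  have hκf0 : ∀ v, 0 ≤ κf v := fun v => by
    rw [hκf]; dsimp only
    split_ifs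
    · exact mul_nonneg hκ0.le (Real.sqrt_nonneg _)
    · exact le_rfl
  have hκf1 : ∀ v, κf v ≤ 1 := fun v => by
    rw [hκf]; dsimp only
    split_ifs with hv
    · exact mul_le_one₀ hκ1 (Real.sqrt_nonneg _) (hr1 v hv)
    · norm_num
  have hκA : ∀ v, Adm 4 (κf v) := fun v => adm_of (hκf0 v) (hκf1 v)
  have key : ε ≤ J chi (ntc 4 T lam κf (n + 1 - T.depth T.root) T.root) := by
    refine H n (fun v => J chi (ntc 4 T lam κf (n + 1 - T.depth v) v))
      (fun v => ev (ntc 4 T lam κf (n + 1 - T.depth v) v))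
      (fun v _ => J_chi_nonneg (ntc_isChan T hl hκA _ v))
      (fun v _ => ev_nonneg (ntc_isChan T hl hκA _ v)) ?_ ?_ ?_ ?_
    · -- leaf chi-square
      intro v hv
      try dsimp only
      rw [hv, Nat.sub_self, ntc_zero_chi, hκf]
      dsimp only
      rw [if_pos hv, mul_pow, Real.sq_sqrt (by have := hu0 v; positivity)]
      ring
    · -- leaf error
      intro v hv
      try dsimp only
      rw [hv, Nat.sub_self]
      refine (ntc_zero_ev T lam κf v (hκf0 v) (hκf1 v)).trans ?_
      rw [hκf]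
      dsimp only
      rw [if_pos hv]
      have h3 := hr1 v hv
      have h4 := Real.sqrt_nonneg (θ v / lam ^ (2 * (n + 1)) / 3)
      have h5 := Real.sq_sqrt (show 0 ≤ θ v / lam ^ (2 * (n + 1)) / 3 by have := hu0 v; positivity)
      have h6 := hu0 v
      generalize Real.sqrt (θ v / lam ^ (2 * (n + 1)) / 3) = r at *
      generalize θ v / lam ^ (2 * (n + 1)) = u at *
      have h7 : r ^ 3 ≤ u / 3 := by
        rw [← h5]
        nlinarith [mul_nonneg h4 h4]
      have h8 : 0 < κ ^ 3 := pow_pos hκ0 3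
      calc (κ * r) ^ 3 * 36 = 36 * κ ^ 3 * r ^ 3 := by ring
        _ ≤ 36 * κ ^ 3 * (u / 3) := mul_le_mul_of_nonneg_left h7 (by positivity)
        _ = 12 * (κ ^ 3 * u) := by ring
        _ ≤ (C₁ + 12) * (κ ^ 3 * u) :=
            mul_le_mul_of_nonneg_right (by linarith) (mul_nonneg h8.le h6)
        _ = _ := by ring
    all_goals
      intro v hv
      try dsimp only
      have hk : n + 1 - T.depth v = (n - T.depth v) + 1 := by omega
      have hw : ∀ w ∈ T.children v, n + 1 - T.depth w = n - T.depth v := fun w hw => by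
        have := (mem_children.1 hw).1
        omega
      have hS : ∑ w ∈ T.children v, lam ^ 2 * J chi (ntc 4 T lam κf (n + 1 - T.depth w) w) =
          ∑ w ∈ T.children v, lam ^ 2 * J chi (ntc 4 T lam κf (n - T.depth v) w) :=
        Finset.sum_congr rfl fun w hw' => by rw [hw w hw']
      have hE : ∑ w ∈ T.children v, lam ^ 3 * ev (ntc 4 T lam κf (n + 1 - T.depth w) w) =
          ∑ w ∈ T.children v, lam ^ 3 * ev (ntc 4 T lam κf (n - T.depth v) w) :=
        Finset.sum_congr rfl fun w hw' => by rw [hw w hw']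
      rw [hS, hE, hk, ntc_succ]
      obtain ⟨a1, a2⟩ := hm κf hκA (n - T.depth v) (T.children v) (hB v)
      have hS0 : 0 ≤ ∑ w ∈ T.children v, lam ^ 2 * J chi (ntc 4 T lam κf (n - T.depth v) w) :=
        Finset.sum_nonneg fun w _ => mul_nonneg (sq_nonneg _)
          (J_chi_nonneg (ntc_isChan T hl hκA _ w))
      have hE0 : 0 ≤ ∑ w ∈ T.children v, lam ^ 3 * ev (ntc 4 T lam κf (n - T.depth v) w) :=
        Finset.sum_nonneg fun w _ => mul_nonneg (pow_nonneg h0.le 3)
          (ev_nonneg (ntc_isChan T hl hκA _ w))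
      generalize ∑ w ∈ T.children v, lam ^ 2 * J chi (ntc 4 T lam κf (n - T.depth v) w) = S at *
      generalize ∑ w ∈ T.children v, lam ^ 3 * ev (ntc 4 T lam κf (n - T.depth v) w) = E at *
      have b1 : E + C₁ * S ^ 2 ≤ E + (C₁ + 12) * S ^ 2 := by
        have := mul_le_mul_of_nonneg_right (show C₁ ≤ C₁ + 12 by linarith) (sq_nonneg S)
        linarith
      first
        | exact a2.trans b1
        | exact a1.trans (mul_le_mul (mul_le_mul_of_nonneg_right (by linarith) hS0) b1
            (by positivity) (by positivity))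
  -- conclusion
  have hd : T.depth T.root = 0 := (T.depth_eq_zero_iff _).2 rfl
  rw [hd, Nat.sub_zero] at key
  have c1 := J_chi_le_tv (ntc_isChan T hl hκA (n + 1) T.root)
  have c2 := ntc_le T hl hκf0 hκf1 hκA (n + 1) T.root tv ch_tv
  rw [treeAdvantage_eq]
  linarith

end Crest.Agent.R163.Bk
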