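import Mathlib
import Crest.Agent.R163.Bern

/-! Row 163: Bernstein checker, part 2: the check and its soundness. -/

set_option autoImplicit false

namespace Crest.Agent.R163.Bern

/-- bilinear form `∑_a x_a ∑_b C a b y_b` -/
noncomputable def bil : List (List Int) → List ℝ → List ℝ → ℝ
  | [], _, _ => 0
  | _ :: _, [], _ => 0
  | c :: C, x :: xs, ys => x * dotR c ys + bil C xs ys

/-- row test -/
def rowOK (B H N : Nat) (offv : Int) (PW : List Int) (bnd : List Nat) (s : List Int) : Bool :=
  and (Nat.ble (Nat.succ (dotAbs s bnd)) H)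
    (digitsOK B H N (Int.toNat (Int.add (dotI s PW) offv)))

/-- all -/
def allB {α : Type*} (f : α → Bool) : List α → Bool
  | [] => true
  | a :: as => and (f a) (allB f as)

lemma allB_iff {α : Type*} (f : α → Bool) (l : List α) : allB f l = true ↔ ∀ a ∈ l, f a = true := by
  induction l with
  | nil => simp [allB]
  | cons a as ih => simp [allB, ih]

/-- the core test: vectors `vs` of length `N`, `ws` of length `N'` -/
def checkCore (B H N N' : Nat) (C vs ws : List (List Int)) : Bool :=
  allB (rowOK B H N' (Int.ofNat (off B H N')) (C.map fun c => dotI c (ws.map (pack (Int.ofNat B))))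
    (C.map fun c => dotAbs c (ws.map maxAbs))) (transp N vs)

lemma pack_add_off_nonneg {B H : Nat} (l : List Int) (hl : ∀ x ∈ l, Int.natAbs x < H) :
    0 ≤ pack B l + off B H l.length := by
  induction l with
  | nil => simp [pack, off]
  | cons c cs ih' =>
    have h3 := ih' (fun x hx => hl x (by simp [hx]))
    have h4 := hl c (by simp)
    have e1 : pack B (c :: cs) = c + B * pack B cs := rfl
    have e2 : off B H (cs.length + 1) = H + B * off B H cs.length := rfl
    rw [List.length_cons, e1, e2]
    push_cast
    have h5 : 0 ≤ (B : Int) * (pack B cs + off B H cs.length) := by positivity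
    have h6 : -(H : Int) < c := by omega
    nlinarith

theorem core_sound {B H N N' : Nat} (hB : B = 2 * H) (C vs ws : List (List Int))
    (hv : ∀ v ∈ vs, v.length = N) (hw : ∀ w ∈ ws, w.length = N')
    (h : checkCore B H N N' C vs ws = true)
    (β β' : List ℝ) (hβ : ∀ x ∈ β, 0 ≤ x) (hβ' : ∀ x ∈ β', 0 ≤ x) :
    0 ≤ bil C (vs.map fun v => dotR v β) (ws.map fun w => dotR w β') := by
  set ys := ws.map fun w => dotR w β' with hys
  set Ws := C.map (fun c => lincomb N' c ws) with hWs
  set zs := C.map (fun c => dotR c ys) with hzs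
  have hWlen : ∀ W ∈ Ws, W.length = N' := by
    intro W hW
    rw [hWs, List.mem_map] at hW
    obtain ⟨c, _, rfl⟩ := hW
    exact length_lincomb c ws hw
  have hbil : ∀ (C vs : List (List Int)), bil C (vs.map fun v => dotR v β) ys =
      dotL β vs (C.map fun c => dotR c ys) := by
    intro C
    induction C with
    | nil =>
      intro vs
      cases vs <;> simp [bil, dotL]
    | cons c C ih =>
      intro vs
      cases vs with
      | nil => simp [bil, dotL]
      | cons v vs =>
        simp only [List.map_cons, bil, dotL, ih vs]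
        ring
  rw [hbil, ← sumF_transp_dot vs hv]
  -- each column gives a nonnegative number
  have hcol : ∀ s ∈ transp N vs, 0 ≤ dotR s zs := by
    intro s hs
    unfold checkCore at h
    rw [allB_iff] at h
    have h1 := h s hs
    unfold rowOK at h1
    rw [Bool.and_eq_true] at h1
    obtain ⟨h2, h3⟩ := h1
    rw [Nat.ble_eq] at h2
    have hbd : ∀ x ∈ lincomb N' s Ws, Int.natAbs x < H := by
      intro x hx
      refine lt_of_le_of_lt ?_ h2
      refine bound_lincomb s Ws _ hWlen ?_ x hx
      rw [hWs, List.forall₂_map_left_iff, List.forall₂_map_right_iff, List.forall₂_same]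
      intro c _ x hx
      refine bound_lincomb c ws _ hw ?_ x hx
      rw [List.forall₂_map_right_iff, List.forall₂_same]
      intro w _ x hx
      exact le_maxAbs w x hx
    have hpk : pack B (lincomb N' s Ws) =
        dotI s (C.map fun c => dotI c (ws.map (pack (Int.ofNat B)))) := by
      rw [pack_lincomb _ _ _ hWlen, hWs, List.map_map]
      congr 1
      apply List.map_congr_left
      intro c _
      exact pack_lincomb B c ws hw
    have hlen : (lincomb N' s Ws).length = N' := length_lincomb s Ws hWlen
    have hnn := pack_add_off_nonneg (B := B) (H := H) (lincomb N' s Ws) hbd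
    rw [hlen] at hnn
    have hZ : ((Int.toNat (Int.add (dotI s (C.map fun c => dotI c (ws.map (pack (Int.ofNat B)))))
        (Int.ofNat (off B H N'))) : Nat) : Int) = pack B (lincomb N' s Ws) +
          off B H (lincomb N' s Ws).length := by
      rw [hlen, ← hpk]
      show ((Int.toNat (pack B (lincomb N' s Ws) + (off B H N' : Int)) : Nat) : Int) = _
      rw [Int.toNat_of_nonneg hnn]
    have hrow := digitsOK_sound hB (lincomb N' s Ws) hbd _ hZ (by rw [hlen]; exact h3)
    have h4 : dotR s zs = dotR (lincomb N' s Ws) β' := by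
      rw [dotR_lincomb s Ws hWlen, hWs, List.map_map, hzs]
      congr 1
      apply List.map_congr_left
      intro c _
      rw [Function.comp_apply, dotR_lincomb c ws hw]
    rw [h4]
    exact dotR_nonneg hrow hβ'
  have hsum : ∀ (cs : List (List Int)), (∀ s ∈ cs, 0 ≤ dotR s zs) → ∀ β : List ℝ,
      (∀ x ∈ β, 0 ≤ x) → 0 ≤ sumF (fun c => dotR c zs) cs β := by
    intro cs
    induction cs with
    | nil => intro _ β _; simp [sumF]
    | cons c cs ih =>
      intro h β hβ
      cases β with
      | nil => simp [sumF]
      | cons x xs =>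
        simp only [sumF]
        have h1 := h c (by simp)
        have h2 := hβ x (by simp)
        have h3 := ih (fun s hs => h s (by simp [hs])) xs (fun x hx => hβ x (by simp [hx]))
        positivity
  exact hsum _ hcol β hβ

/-! ### two-variable polynomials -/

/-- evaluation of a polynomial in `(r, y)`, list of rows (powers of `r`) -/
noncomputable def ev2 (r y : ℝ) (p : List (List Int)) : ℝ := evRows r (ev y) p

/-- concatenation -/
def flat : List (List Int) → List Int
  | [] => []
  | l :: ls => l ++ flat ls

/-- Bernstein transform on a box -/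
def tr2 (ar br cr ay by' cy : Int) (m : Nat) (p : List (List Int)) : List Int :=
  flat ((transp m (p.map fun row => (tr ay by' cy row).1)).map fun col => (tr ar br cr col).1)

/-- shape test -/
def shapeOK (n m : Nat) (p : List (List Int)) : Bool :=
  and (Nat.beq p.length n) (allB (fun row => Nat.beq row.length m) p)

lemma shapeOK_iff {n m : Nat} {p : List (List Int)} (h : shapeOK n m p = true) :
    p.length = n ∧ ∀ row ∈ p, row.length = m := by
  unfold shapeOK at h
  rw [Bool.and_eq_true, allB_iff] at h
  exact ⟨Nat.eq_of_beq_eq_true h.1, fun row hrow => Nat.eq_of_beq_eq_true (h.2 row hrow)⟩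

/-- tensor product of the bases -/
noncomputable def kron (xs ys : List ℝ) : List ℝ := (xs.map fun x => ys.map (x * ·)).flatten

lemma kron_nonneg {xs ys : List ℝ} (hx : ∀ x ∈ xs, 0 ≤ x) (hy : ∀ y ∈ ys, 0 ≤ y) :
    ∀ z ∈ kron xs ys, 0 ≤ z := by
  intro z hz
  unfold kron at hz
  rw [List.mem_flatten] at hz
  obtain ⟨l, hl, hz⟩ := hz
  rw [List.mem_map] at hl
  obtain ⟨x, hx', rfl⟩ := hl
  rw [List.mem_map] at hz
  obtain ⟨y, hy', rfl⟩ := hz
  exact mul_nonneg (hx x hx') (hy y hy')

lemma length_flat {k : ℕ} (ls : List (List Int)) (h : ∀ l ∈ ls, l.length = k) :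
    (flat ls).length = ls.length * k := by
  induction ls with
  | nil => simp [flat]
  | cons l ls ih =>
    simp only [flat, List.length_append, List.length_cons, h l (by simp),
      ih (fun l hl => h l (by simp [hl]))]
    ring

lemma dotR_append (l l' : List Int) (xs xs' : List ℝ) (h : l.length = xs.length) :
    dotR (l ++ l') (xs ++ xs') = dotR l xs + dotR l' xs' := by
  induction l generalizing xs with
  | nil =>
    cases xs with
    | nil => simp [dotR]
    | cons x xs => simp at h
  | cons a as ih =>
    cases xs with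
    | nil => simp at h
    | cons x xs =>
      simp only [List.cons_append, dotR, ih xs (by simpa using h)]
      ring

lemma dotR_flat_kron (g : List Int → List Int) (cols : List (List Int)) (xs ys : List ℝ)
    (hlen : cols.length = xs.length) (hg : ∀ c ∈ cols, (g c).length = ys.length) :
    dotR (flat (cols.map g)) (kron xs ys) = sumF (fun c => dotR (g c) ys) cols xs := by
  induction cols generalizing xs with
  | nil => simp [flat, dotR, sumF]
  | cons c cs ih =>
    cases xs with
    | nil => simp at hlen
    | cons x xs =>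
      have h1 : kron (x :: xs) ys = ys.map (x * ·) ++ kron xs ys := by
        simp [kron]
      rw [h1, List.map_cons, flat, dotR_append _ _ _ _ (by rw [hg c (by simp)]; simp), sumF,
        ih xs (by simpa using hlen) (fun c hc => hg c (by simp [hc])), dotR_map_mul]
      ring

lemma sumF_congr {F G : List Int → ℝ} {cs : List (List Int)} (h : ∀ c ∈ cs, F c = G c)
    (xs : List ℝ) : sumF F cs xs = sumF G cs xs := by
  induction cs generalizing xs with
  | nil => simp [sumF]
  | cons c cs ih =>
    cases xs with
    | nil => simp [sumF]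
    | cons x xs =>
      simp only [sumF, h c (by simp), ih (fun c hc => h c (by simp [hc]))]

lemma sumF_const_mul (F : List Int → ℝ) (κ : ℝ) (cs : List (List Int)) (xs : List ℝ) :
    sumF (fun c => κ * F c) cs xs = κ * sumF F cs xs := by
  induction cs generalizing xs with
  | nil => simp [sumF]
  | cons c cs ih =>
    cases xs with
    | nil => simp [sumF]
    | cons x xs => simp only [sumF, ih]; ring

lemma evRows_map (t : ℝ) (G : List Int → ℝ) (g : List Int → List Int) (p : List (List Int)) :
    evRows t G (p.map g) = evRows t (fun row => G (g row)) p := by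
  induction p with
  | nil => simp [evRows]
  | cons v vs ih => simp only [List.map_cons, evRows, ih]

lemma evRows_congr {t : ℝ} {F G : List Int → ℝ} {p : List (List Int)}
    (h : ∀ row ∈ p, F row = G row) : evRows t F p = evRows t G p := by
  induction p with
  | nil => simp [evRows]
  | cons v vs ih =>
    simp only [evRows, h v (by simp), ih (fun row hrow => h row (by simp [hrow]))]

lemma evRows_const_mul (t κ : ℝ) (G : List Int → ℝ) (p : List (List Int)) :
    evRows t (fun row => κ * G row) p = κ * evRows t G p := by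
  induction p with
  | nil => simp [evRows]
  | cons v vs ih => simp only [evRows, ih]; ring

lemma length_tr2 (ar br cr ay by' cy : Int) {n m : ℕ} (p : List (List Int))
    (hp : p.length = n) (hrow : ∀ row ∈ p, row.length = m) :
    (tr2 ar br cr ay by' cy m p).length = m * n := by
  unfold tr2
  have h1 : ∀ v ∈ p.map (fun row => (tr ay by' cy row).1), v.length = m := by
    intro v hv
    rw [List.mem_map] at hv
    obtain ⟨row, hr, rfl⟩ := hv
    rw [(length_tr ay by' cy row).1, hrow row hr]
  have h2 := mem_transp_length _ h1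
  rw [length_flat (k := n)]
  · rw [List.length_map, length_transp _ h1]
  · intro l hl
    rw [List.mem_map] at hl
    obtain ⟨c, hc, rfl⟩ := hl
    rw [(length_tr ar br cr c).1, h2 c hc, List.length_map, hp]

theorem dotR_tr2 {ar br cr ay by' cy : Int} {n m : ℕ} (hn : 0 < n) (hm : 0 < m)
    (p : List (List Int)) (hp : p.length = n) (hrow : ∀ row ∈ p, row.length = m)
    (hcr : 0 < cr) (hcy : 0 < cy) (r y : ℝ) :
    dotR (tr2 ar br cr ay by' cy m p)
      (kron (bas ((by' : ℝ) / cy - y) (y - ay / cy) m) (bas ((br : ℝ) / cr - r) (r - ar / cr) n)) =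
      ((br : ℝ) - ar) ^ (n - 1) * ((by' : ℝ) - ay) ^ (m - 1) * ev2 r y p := by
  have hcr' : (cr : ℝ) ≠ 0 := by exact_mod_cast hcr.ne'
  have hcy' : (cy : ℝ) ≠ 0 := by exact_mod_cast hcy.ne'
  have h1 : ∀ v ∈ p.map (fun row => (tr ay by' cy row).1), v.length = m := by
    intro v hv
    rw [List.mem_map] at hv
    obtain ⟨row, hr, rfl⟩ := hv
    rw [(length_tr ay by' cy row).1, hrow row hr]
  have h2 := mem_transp_length _ h1
  rw [List.length_map, hp] at h2
  unfold tr2
  rw [dotR_flat_kron (fun col => (tr ar br cr col).1) _ _ _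
    (by rw [length_transp _ h1, length_bas])
    (fun c hc => by rw [(length_tr ar br cr c).1, h2 c hc, length_bas])]
  have h3 : ∀ c ∈ transp m (p.map fun row => (tr ay by' cy row).1),
      dotR (tr ar br cr c).1 (bas ((br : ℝ) / cr - r) (r - ar / cr) n) =
        ((br : ℝ) - ar) ^ (n - 1) * ev r c := by
    intro c hc
    have hlen := (length_tr ar br cr c).1
    rw [h2 c hc] at hlen
    have h4 := hev_eq_dotR ((br : ℝ) / cr - r) (r - ar / cr) (tr ar br cr c).1
    rw [hlen] at h4
    rw [← h4]
    have h5 := (hev_tr ((br : ℝ) / cr - r) (r - ar / cr) ar br cr r (by field_simp; ring) c).2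
      (by intro h; rw [h] at hc; have := h2 [] hc; simp at this; omega)
    rw [h5, h2 c hc]
    congr 2
    field_simp
    ring
  rw [sumF_congr h3, sumF_const_mul, sumF_transp_ev _ _ h1, evRows_map]
  have h6 : ∀ row ∈ p, dotR (tr ay by' cy row).1
      (bas ((by' : ℝ) / cy - y) (y - ay / cy) m) = ((by' : ℝ) - ay) ^ (m - 1) * ev y row := by
    intro row hr
    have hlen := (length_tr ay by' cy row).1
    rw [hrow row hr] at hlen
    have h4 := hev_eq_dotR ((by' : ℝ) / cy - y) (y - ay / cy) (tr ay by' cy row).1
    rw [hlen] at h4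
    rw [← h4]
    have h5 := (hev_tr ((by' : ℝ) / cy - y) (y - ay / cy) ay by' cy y (by field_simp; ring) row).2
      (by intro h; rw [h] at hr; have := hrow [] hr; simp at this; omega)
    rw [h5, hrow row hr]
    congr 2
    field_simp
    ring
  rw [evRows_congr h6, evRows_const_mul]
  unfold ev2
  ring

/-- the check on a product of two boxes -/
def checkBox (B H n m n' m' : Nat) (C : List (List Int)) (fs gs : List (List (List Int)))
    (ar br cr ay by' cy ar' br' cr' ay' by'' cy' : Int) : Bool :=
  and (and (allB (shapeOK n m) fs) (allB (shapeOK n' m') gs))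
    (checkCore B H (Nat.mul m n) (Nat.mul m' n') C (fs.map (tr2 ar br cr ay by' cy m))
      (gs.map (tr2 ar' br' cr' ay' by'' cy' m')))

lemma bil_map_mul (C : List (List Int)) (α : Type*) (fs : List α) (κ κ' : ℝ) (F F' : α → ℝ)
    (hF : ∀ f ∈ fs, F' f = κ * F f) (G G' : α → ℝ) (gs : List α) (hG : ∀ g ∈ gs, G' g = κ' * G g) :
    bil C (fs.map F') (gs.map G') = κ * κ' * bil C (fs.map F) (gs.map G) := by
  have hd : ∀ c : List Int, ∀ gs : List α, (∀ g ∈ gs, G' g = κ' * G g) →
      dotR c (gs.map G') = κ' * dotR c (gs.map G) := by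
    intro c
    induction c with
    | nil => intro gs _; simp [dotR]
    | cons a as ih =>
      intro gs hG
      cases gs with
      | nil => simp [dotR]
      | cons g gs =>
        simp only [List.map_cons, dotR, ih gs (fun g hg => hG g (by simp [hg])), hG g (by simp)]
        ring
  induction C generalizing fs with
  | nil => simp [bil]
  | cons c C ih =>
    cases fs with
    | nil => simp [bil]
    | cons f fs =>
      simp only [List.map_cons, bil, ih fs (fun f hf => hF f (by simp [hf])), hF f (by simp),
        hd c gs hG]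
      ring

/-- **Soundness of the box check.** -/
theorem checkBox_sound {B H n m n' m' : Nat} {C : List (List Int)} {fs gs : List (List (List Int))}
    {ar br cr ay by' cy ar' br' cr' ay' by'' cy' : Int} (hB : B = 2 * H)
    (hn : 0 < n) (hm : 0 < m) (hn' : 0 < n') (hm' : 0 < m')
    (hcr : 0 < cr) (hcy : 0 < cy) (hcr' : 0 < cr') (hcy' : 0 < cy')
    (hr : ar < br) (hy : ay < by') (hr' : ar' < br') (hy' : ay' < by'')
    (h : checkBox B H n m n' m' C fs gs ar br cr ay by' cy ar' br' cr' ay' by'' cy' = true)
    {r y r' y' : ℝ} (h1 : (ar : ℝ) / cr ≤ r) (h2 : r ≤ br / cr) (h3 : (ay : ℝ) / cy ≤ y)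
    (h4 : y ≤ by' / cy) (h1' : (ar' : ℝ) / cr' ≤ r') (h2' : r' ≤ br' / cr')
    (h3' : (ay' : ℝ) / cy' ≤ y') (h4' : y' ≤ by'' / cy') :
    0 ≤ bil C (fs.map (ev2 r y)) (gs.map (ev2 r' y')) := by
  unfold checkBox at h
  rw [Bool.and_eq_true, Bool.and_eq_true, allB_iff, allB_iff] at h
  obtain ⟨⟨hs, hs'⟩, h⟩ := h
  have e1 := core_sound hB C _ _
    (fun v hv => by
      rw [List.mem_map] at hv
      obtain ⟨p, hp, rfl⟩ := hv
      obtain ⟨hp1, hp2⟩ := shapeOK_iff (hs p hp)
      exact length_tr2 ar br cr ay by' cy p hp1 hp2)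
    (fun v hv => by
      rw [List.mem_map] at hv
      obtain ⟨p, hp, rfl⟩ := hv
      obtain ⟨hp1, hp2⟩ := shapeOK_iff (hs' p hp)
      exact length_tr2 ar' br' cr' ay' by'' cy' p hp1 hp2) h
    (kron (bas ((by' : ℝ) / cy - y) (y - ay / cy) m) (bas ((br : ℝ) / cr - r) (r - ar / cr) n))
    (kron (bas ((by'' : ℝ) / cy' - y') (y' - ay' / cy') m')
      (bas ((br' : ℝ) / cr' - r') (r' - ar' / cr') n'))
    (kron_nonneg (bas_nonneg (by linarith) (by linarith) _) (bas_nonneg (by linarith) (by linarith) _))
    (kron_nonneg (bas_nonneg (by linarith) (by linarith) _) (bas_nonneg (by linarith) (by linarith) _))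
  rw [List.map_map, List.map_map, bil_map_mul C (List (List Int)) fs
    (((br : ℝ) - ar) ^ (n - 1) * ((by' : ℝ) - ay) ^ (m - 1))
    (((br' : ℝ) - ar') ^ (n' - 1) * ((by'' : ℝ) - ay') ^ (m' - 1)) (ev2 r y) _
    (fun p hp => by
      obtain ⟨hp1, hp2⟩ := shapeOK_iff (hs p hp)
      exact dotR_tr2 hn hm p hp1 hp2 hcr hcy r y) (ev2 r' y') _ gs
    (fun p hp => by
      obtain ⟨hp1, hp2⟩ := shapeOK_iff (hs' p hp)
      exact dotR_tr2 hn' hm' p hp1 hp2 hcr' hcy' r' y')] at e1
  have c1 : (0 : ℝ) < br - ar := by
    have : (ar : ℝ) < br := by exact_mod_cast hr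
    linarith
  have c2 : (0 : ℝ) < by' - ay := by
    have : (ay : ℝ) < by' := by exact_mod_cast hy
    linarith
  have c3 : (0 : ℝ) < br' - ar' := by
    have : (ar' : ℝ) < br' := by exact_mod_cast hr'
    linarith
  have c4 : (0 : ℝ) < by'' - ay' := by
    have : (ay' : ℝ) < by'' := by exact_mod_cast hy'
    linarith
  have c5 : 0 < ((br : ℝ) - ar) ^ (n - 1) * ((by' : ℝ) - ay) ^ (m - 1) *
      (((br' : ℝ) - ar') ^ (n' - 1) * ((by'' : ℝ) - ay') ^ (m' - 1)) := by positivity
  exact nonneg_of_mul_nonneg_right e1 c5

end Crest.Agent.R163.Bern
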