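import Mathlib
import Crest.Agent.R163.Bern2

/-! Row 163: Bernstein checker, part 3: fast version with packed big integers (Kronecker
substitution); everything is one big integer and one bit mask test. -/

set_option autoImplicit false

namespace Crest.Agent.R163.Bern

/-! ### fast Horner evaluation -/

/-- `∑_j q_j X^j ys_j` (with `ys` the descending powers of `Y`) -/
def horn (X : Int) : List Int → List Int → Int
  | [], _ => Int.ofNat 0
  | _ :: _, [] => Int.ofNat 0
  | q0 :: q, y :: ys => Int.add (Int.mul q0 y) (Int.mul X (horn X q ys))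

/-- descending powers `Y^(n-1), ..., Y, 1` -/
def pows (Y : Int) : Nat → List Int
  | 0 => []
  | n + 1 => match pows Y n with
    | [] => [Int.ofNat 1]
    | y :: ys => Int.mul Y y :: y :: ys

lemma pows_succ (Y : Int) (n : Nat) : pows Y (n + 1) = Y ^ n :: pows Y n := by
  induction n with
  | zero => rw [pow_zero]; rfl
  | succ n ih =>
    have h : pows Y (n + 2) = match pows Y (n + 1) with
      | [] => [Int.ofNat 1]
      | y :: ys => Int.mul Y y :: y :: ys := rfl
    rw [h, ih]
    show Int.mul Y (Y ^ n) :: Y ^ n :: pows Y n = _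
    rw [show Int.mul Y (Y ^ n) = Y * Y ^ n from rfl, ← pow_succ']

/-- packed value of the two-variable transform -/
def pk2 (Xr Xy : Int) (yr yy : List Int) (p : List (List Int)) : Int :=
  horn Xr (p.map fun row => horn Xy row yy) yr

/-! ### packing of the transforms -/

lemma pack_mulLinAux (B a b prev : Int) (l : List Int) :
    pack B (mulLinAux a b prev l) = b * prev + (a + b * B) * pack B l := by
  induction l generalizing prev with
  | nil =>
    show b * prev + B * 0 = b * prev + (a + b * B) * 0
    ring
  | cons x xs ih =>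
    show (a * x + b * prev) + B * pack B (mulLinAux a b x xs) =
      b * prev + (a + b * B) * (x + B * pack B xs)
    rw [ih]; ring

lemma pack_mulLin (B a b : Int) (l : List Int) :
    pack B (mulLin a b l) = (a + b * B) * pack B l := by
  cases l with
  | nil => show (0 : Int) = (a + b * B) * 0; ring
  | cons x xs =>
    show a * x + B * pack B (mulLinAux a b x xs) = (a + b * B) * (x + B * pack B xs)
    rw [pack_mulLinAux]; ring

lemma pack_tr (B a b c : Int) (q : List Int) :
    pack B (tr a b c q).2 = (c + c * B) ^ q.length ∧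
    pack B (tr a b c q).1 = horn (a + b * B) q (pows (c + c * B) q.length) := by
  induction q with
  | nil =>
    constructor
    · show (1 : Int) + B * 0 = _
      simp
    · rfl
  | cons q0 q ih =>
    obtain ⟨h1, h2⟩ := ih
    constructor
    · show pack B (mulLin c c (tr a b c q).2) = _
      rw [pack_mulLin, h1, List.length_cons, pow_succ]; ring
    · show pack B (add (smul q0 (tr a b c q).2) (mulLin a b (tr a b c q).1)) = _
      rw [List.length_cons, pows_succ]
      show _ = q0 * (c + c * B) ^ q.length + (a + b * B) * horn (a + b * B) q (pows (c + c * B) q.length)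
      by_cases hq : q = []
      · subst hq
        show pack B (add (smul q0 [1]) []) = _
        show q0 * 1 + B * 0 = q0 * (c + c * B) ^ 0 + (a + b * B) * 0
        ring
      · have h3 := length_tr a b c q
        have h4 : (tr a b c q).1 ≠ [] := by
          intro h; rw [h] at h3
          exact hq (List.length_eq_zero_iff.mp h3.1.symm)
        rw [pack_add _ _ _ (by rw [length_smul, length_mulLin _ _ _ h4, h3.1, h3.2]), pack_smul,
          pack_mulLin, h1, h2]

lemma pack_append (B : Int) (l l' : List Int) :
    pack B (l ++ l') = pack B l + B ^ l.length * pack B l' := by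
  induction l with
  | nil =>
    show pack B l' = 0 + B ^ 0 * pack B l'
    ring
  | cons a as ih =>
    show a + B * pack B (as ++ l') = (a + B * pack B as) + B ^ (as.length + 1) * pack B l'
    rw [ih]; ring

lemma pack_flat (B : Int) {k : ℕ} (ls : List (List Int)) (h : ∀ l ∈ ls, l.length = k) :
    pack B (flat ls) = pack (B ^ k) (ls.map (pack B)) := by
  induction ls with
  | nil => rfl
  | cons l ls ih =>
    show pack B (l ++ flat ls) = pack B l + B ^ k * pack (B ^ k) (ls.map (pack B))
    rw [pack_append, h l (by simp), ih (fun l hl => h l (by simp [hl]))]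

/-- linear functional of the columns -/
lemma pack_map_zipCons (B : Int) (F G : List Int → Int) (κ lam : Int)
    (hF : ∀ a c, F (a :: c) = κ * a + lam * G c) (v : List Int) (cs : List (List Int))
    (hl : v.length = cs.length) :
    pack B ((zipCons v cs).map F) = κ * pack B v + lam * pack B (cs.map G) := by
  induction v generalizing cs with
  | nil =>
    cases cs with
    | nil => show (0 : Int) = κ * 0 + lam * 0; ring
    | cons c cs => simp at hl
  | cons a as ih =>
    cases cs with
    | nil => simp at hl
    | cons c cs =>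
      show F (a :: c) + B * pack B ((zipCons as cs).map F) =
        κ * (a + B * pack B as) + lam * (G c + B * pack B (cs.map G))
      rw [hF, ih cs (by simpa using hl)]
      ring

lemma pack_map_replicate (B : Int) (F : List Int → Int) (hF : F [] = 0) (n : ℕ) :
    pack B ((List.replicate n []).map F) = 0 := by
  rw [List.map_replicate, hF, pack_replicate]

/-- columnwise Horner = Horner of the packed rows -/
lemma pack_map_horn (B X : Int) {n : ℕ} (vs : List (List Int)) (ys : List Int)
    (h : ∀ v ∈ vs, v.length = n) (hy : ys.length = vs.length) :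
    pack B ((transp n vs).map fun c => horn X c ys) = horn X (vs.map (pack B)) ys := by
  induction vs generalizing ys with
  | nil =>
    rw [transp, pack_map_replicate B _ rfl]
    rfl
  | cons v vs ih =>
    have h1 := h v (by simp)
    have h2 : ∀ v ∈ vs, v.length = n := fun v hv => h v (by simp [hv])
    cases ys with
    | nil => simp at hy
    | cons y ys =>
      rw [transp, pack_map_zipCons B (fun c => horn X c (y :: ys)) (fun c => horn X c ys) y X
        (fun a c => by show a * y + X * _ = _; ring) v (transp n vs)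
        (by rw [h1, length_transp vs h2]), ih ys h2 (by simpa using hy)]
      show _ = pack B v * y + X * horn X (vs.map (pack B)) ys
      ring

/-- columnwise dot product -/
lemma pack_map_dotI (B : Int) {n : ℕ} (vs : List (List Int)) (zs : List Int)
    (h : ∀ v ∈ vs, v.length = n) :
    pack B ((transp n vs).map fun c => dotI c zs) = dotI zs (vs.map (pack B)) := by
  induction vs generalizing zs with
  | nil =>
    rw [transp, pack_map_replicate B _ rfl]
    cases zs <;> rfl
  | cons v vs ih =>
    have h1 := h v (by simp)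
    have h2 : ∀ v ∈ vs, v.length = n := fun v hv => h v (by simp [hv])
    cases zs with
    | nil =>
      have : ∀ cs : List (List Int), pack B (cs.map fun c => dotI c []) = 0 := by
        intro cs
        induction cs with
        | nil => rfl
        | cons c cs ih =>
          show dotI c [] + B * pack B (cs.map fun c => dotI c []) = 0
          rw [ih]
          cases c <;> · show (0 : Int) + B * 0 = 0; ring
      rw [this]
      rfl
    | cons z zs =>
      rw [transp, pack_map_zipCons B (fun c => dotI c (z :: zs)) (fun c => dotI c zs) z 1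
        (fun a c => by show a * z + dotI c zs = _; ring) v (transp n vs)
        (by rw [h1, length_transp vs h2]), ih zs h2]
      show _ = z * pack B v + dotI zs (vs.map (pack B))
      ring

theorem pack_tr2 (B ar br cr ay by' cy : Int) {n m : ℕ}
    (p : List (List Int)) (hp : p.length = n) (hrow : ∀ row ∈ p, row.length = m) :
    pack B (tr2 ar br cr ay by' cy m p) =
      pk2 (ar + br * B) (ay + by' * B ^ n) (pows (cr + cr * B) n) (pows (cy + cy * B ^ n) m) p := by
  have h1 : ∀ v ∈ p.map (fun row => (tr ay by' cy row).1), v.length = m := by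
    intro v hv
    rw [List.mem_map] at hv
    obtain ⟨row, hr, rfl⟩ := hv
    rw [(length_tr ay by' cy row).1, hrow row hr]
  have h2 := mem_transp_length _ h1
  rw [List.length_map, hp] at h2
  unfold tr2
  rw [pack_flat B (k := n) _ (by
    intro l hl
    rw [List.mem_map] at hl
    obtain ⟨c, hc, rfl⟩ := hl
    rw [(length_tr ar br cr c).1, h2 c hc]), List.map_map]
  have h3 : (transp m (p.map fun row => (tr ay by' cy row).1)).map
      (pack B ∘ fun col => (tr ar br cr col).1) =
      (transp m (p.map fun row => (tr ay by' cy row).1)).map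
        fun c => horn (ar + br * B) c (pows (cr + cr * B) n) := by
    apply List.map_congr_left
    intro c hc
    rw [Function.comp_apply, (pack_tr B ar br cr c).2, h2 c hc]
  have hpl : ∀ (Y : Int) (n : ℕ), (pows Y n).length = n := by
    intro Y n
    induction n with
    | zero => rfl
    | succ n ih => rw [pows_succ, List.length_cons, ih]
  rw [h3, pack_map_horn (B ^ n) (ar + br * B) _ _ h1 (by rw [hpl, List.length_map, hp]),
    List.map_map]
  unfold pk2
  congr 1
  apply List.map_congr_left
  intro row hr
  rw [Function.comp_apply, (pack_tr (B ^ n) ay by' cy row).2, hrow row hr]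

/-! ### norm bounds -/

/-- Horner with natural numbers -/
def hornN (X : Nat) : List Nat → List Nat → Nat
  | [], _ => 0
  | _ :: _, [] => 0
  | q0 :: q, y :: ys => Nat.add (Nat.mul q0 y) (Nat.mul X (hornN X q ys))

/-- descending powers -/
def powsN (Y : Nat) : Nat → List Nat
  | 0 => []
  | n + 1 => match powsN Y n with
    | [] => [1]
    | y :: ys => Nat.mul Y y :: y :: ys

lemma powsN_succ (Y : Nat) (n : Nat) : powsN Y (n + 1) = Y ^ n :: powsN Y n := by
  induction n with
  | zero => rfl
  | succ n ih =>
    have h : powsN Y (n + 2) = match powsN Y (n + 1) with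
      | [] => [1]
      | y :: ys => Nat.mul Y y :: y :: ys := rfl
    rw [h, ih]
    show Nat.mul Y (Y ^ n) :: Y ^ n :: powsN Y n = _
    rw [show Nat.mul Y (Y ^ n) = Y * Y ^ n from rfl, ← pow_succ']

/-- norm bound of the two-variable transform -/
def nb2 (xr xy : Nat) (yr yy : List Nat) (p : List (List Int)) : Nat :=
  hornN xr (p.map fun row => hornN xy (row.map Int.natAbs) yy) yr

lemma maxAbs_smul (c : Int) (l : List Int) : maxAbs (smul c l) = Int.natAbs c * maxAbs l := by
  induction l with
  | nil => rfl
  | cons a as ih =>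
    show Int.natAbs (c * a) + maxAbs (smul c as) = Int.natAbs c * (Int.natAbs a + maxAbs as)
    rw [ih, Int.natAbs_mul]; ring

lemma maxAbs_add (l l' : List Int) (h : l.length = l'.length) :
    maxAbs (add l l') ≤ maxAbs l + maxAbs l' := by
  induction l generalizing l' with
  | nil =>
    cases l' with
    | nil => exact le_rfl
    | cons b bs => simp at h
  | cons a as ih =>
    cases l' with
    | nil => simp at h
    | cons b bs =>
      show Int.natAbs (a + b) + maxAbs (add as bs) ≤
        (Int.natAbs a + maxAbs as) + (Int.natAbs b + maxAbs bs)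
      have := ih bs (by simpa using h)
      have := Int.natAbs_add_le a b
      omega

lemma maxAbs_mulLinAux (a b prev : Int) (l : List Int) :
    maxAbs (mulLinAux a b prev l) ≤ Int.natAbs b * Int.natAbs prev +
      (Int.natAbs a + Int.natAbs b) * maxAbs l := by
  induction l generalizing prev with
  | nil =>
    show Int.natAbs (b * prev) + 0 ≤ _ + _ * 0
    rw [Int.natAbs_mul]; omega
  | cons x xs ih =>
    show Int.natAbs (a * x + b * prev) + maxAbs (mulLinAux a b x xs) ≤
      _ + (Int.natAbs a + Int.natAbs b) * (Int.natAbs x + maxAbs xs)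
    have h1 := ih x
    have h2 := Int.natAbs_add_le (a * x) (b * prev)
    rw [Int.natAbs_mul, Int.natAbs_mul] at h2
    nlinarith

lemma maxAbs_mulLin (a b : Int) (l : List Int) :
    maxAbs (mulLin a b l) ≤ (Int.natAbs a + Int.natAbs b) * maxAbs l := by
  cases l with
  | nil => exact le_rfl
  | cons x xs =>
    show Int.natAbs (a * x) + maxAbs (mulLinAux a b x xs) ≤
      (Int.natAbs a + Int.natAbs b) * (Int.natAbs x + maxAbs xs)
    have h1 := maxAbs_mulLinAux a b x xs
    rw [Int.natAbs_mul]
    nlinarith

lemma maxAbs_tr (a b c : Int) (q : List Int) :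
    maxAbs (tr a b c q).2 ≤ (Int.natAbs c + Int.natAbs c) ^ q.length ∧
    maxAbs (tr a b c q).1 ≤ hornN (Int.natAbs a + Int.natAbs b) (q.map Int.natAbs)
      (powsN (Int.natAbs c + Int.natAbs c) q.length) := by
  induction q with
  | nil =>
    constructor
    · show Int.natAbs 1 + 0 ≤ _
      simp
    · exact le_rfl
  | cons q0 q ih =>
    obtain ⟨h1, h2⟩ := ih
    constructor
    · show maxAbs (mulLin c c (tr a b c q).2) ≤ _
      refine (maxAbs_mulLin _ _ _).trans ?_
      rw [List.length_cons, pow_succ, mul_comm]
      exact Nat.mul_le_mul_right _ h1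
    · show maxAbs (add (smul q0 (tr a b c q).2) (mulLin a b (tr a b c q).1)) ≤ _
      rw [List.length_cons, powsN_succ]
      show _ ≤ Int.natAbs q0 * (Int.natAbs c + Int.natAbs c) ^ q.length +
        (Int.natAbs a + Int.natAbs b) * hornN (Int.natAbs a + Int.natAbs b) (q.map Int.natAbs)
          (powsN (Int.natAbs c + Int.natAbs c) q.length)
      by_cases hq : q = []
      · subst hq
        show maxAbs (add (smul q0 [1]) []) ≤ _
        show Int.natAbs (q0 * 1) + 0 ≤ _
        simp
      · have h3 := length_tr a b c q
        have h4 : (tr a b c q).1 ≠ [] := by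
          intro h; rw [h] at h3
          exact hq (List.length_eq_zero_iff.mp h3.1.symm)
        refine (maxAbs_add _ _ (by
          rw [length_smul, length_mulLin _ _ _ h4, h3.1, h3.2])).trans ?_
        rw [maxAbs_smul]
        have h5 := maxAbs_mulLin a b (tr a b c q).1
        have h6 := Nat.mul_le_mul_left (Int.natAbs q0) h1
        have h7 := Nat.mul_le_mul_left (Int.natAbs a + Int.natAbs b) h2
        omega

lemma maxAbs_append (l l' : List Int) : maxAbs (l ++ l') = maxAbs l + maxAbs l' := by
  induction l with
  | nil => show maxAbs l' = 0 + maxAbs l'; omega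
  | cons a as ih =>
    show Int.natAbs a + maxAbs (as ++ l') = (Int.natAbs a + maxAbs as) + maxAbs l'
    rw [ih]; omega

lemma maxAbs_flat (ls : List (List Int)) : maxAbs (flat ls) = (ls.map maxAbs).sum := by
  induction ls with
  | nil => rfl
  | cons l ls ih =>
    show maxAbs (l ++ flat ls) = _
    rw [maxAbs_append, ih]; simp

lemma sum_map_zipCons (F G : List Int → Nat) (κ lam : Nat)
    (hF : ∀ a c, F (a :: c) = κ * Int.natAbs a + lam * G c) (v : List Int) (cs : List (List Int))
    (hl : v.length = cs.length) :
    ((zipCons v cs).map F).sum = κ * maxAbs v + lam * (cs.map G).sum := by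
  induction v generalizing cs with
  | nil =>
    cases cs with
    | nil => show 0 = κ * 0 + lam * 0; ring
    | cons c cs => simp at hl
  | cons a as ih =>
    cases cs with
    | nil => simp at hl
    | cons c cs =>
      simp only [zipCons, List.map_cons, List.sum_cons]
      rw [hF, ih cs (by simpa using hl)]
      show _ = κ * (Int.natAbs a + maxAbs as) + _
      ring

lemma sum_map_hornN (X : Nat) {n : ℕ} (vs : List (List Int)) (ys : List Nat)
    (h : ∀ v ∈ vs, v.length = n) (hy : ys.length = vs.length) :
    ((transp n vs).map fun c => hornN X (c.map Int.natAbs) ys).sum =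
      hornN X (vs.map maxAbs) ys := by
  induction vs generalizing ys with
  | nil =>
    rw [transp, List.map_replicate]
    show (List.replicate n (hornN X [] ys)).sum = hornN X [] ys
    have : hornN X [] ys = 0 := rfl
    rw [this]; simp
  | cons v vs ih =>
    have h1 := h v (by simp)
    have h2 : ∀ v ∈ vs, v.length = n := fun v hv => h v (by simp [hv])
    cases ys with
    | nil => simp at hy
    | cons y ys =>
      rw [transp, sum_map_zipCons (fun c => hornN X (c.map Int.natAbs) (y :: ys))
        (fun c => hornN X (c.map Int.natAbs) ys) y X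
        (fun a c => by show Int.natAbs a * y + X * _ = _; ring) v (transp n vs)
        (by rw [h1, length_transp vs h2]), ih ys h2 (by simpa using hy)]
      show _ = maxAbs v * y + X * hornN X (vs.map maxAbs) ys
      ring

lemma hornN_mono (X : Nat) (l l' ys : List Nat) (h : List.Forall₂ (· ≤ ·) l l') :
    hornN X l ys ≤ hornN X l' ys := by
  induction h generalizing ys with
  | nil => exact le_rfl
  | @cons a b l l' hab hll ih =>
    cases ys with
    | nil => exact le_rfl
    | cons y ys =>
      show a * y + X * hornN X l ys ≤ b * y + X * hornN X l' ys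
      have h1 := Nat.mul_le_mul_right y hab
      have h2 := Nat.mul_le_mul_left X (ih ys)
      omega

lemma maxAbs_tr2 (ar br cr ay by' cy : Int) {n m : ℕ}
    (p : List (List Int)) (hp : p.length = n) (hrow : ∀ row ∈ p, row.length = m) :
    maxAbs (tr2 ar br cr ay by' cy m p) ≤
      nb2 (Int.natAbs ar + Int.natAbs br) (Int.natAbs ay + Int.natAbs by')
        (powsN (Int.natAbs cr + Int.natAbs cr) n) (powsN (Int.natAbs cy + Int.natAbs cy) m) p := by
  have h1 : ∀ v ∈ p.map (fun row => (tr ay by' cy row).1), v.length = m := by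
    intro v hv
    rw [List.mem_map] at hv
    obtain ⟨row, hr, rfl⟩ := hv
    rw [(length_tr ay by' cy row).1, hrow row hr]
  have h2 := mem_transp_length _ h1
  rw [List.length_map, hp] at h2
  have hpl : ∀ (Y : Nat) (n : ℕ), (powsN Y n).length = n := by
    intro Y n
    induction n with
    | zero => rfl
    | succ n ih => rw [powsN_succ, List.length_cons, ih]
  unfold tr2
  rw [maxAbs_flat, List.map_map]
  have h3 : ((transp m (p.map fun row => (tr ay by' cy row).1)).map
      (maxAbs ∘ fun col => (tr ar br cr col).1)).sum ≤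
      ((transp m (p.map fun row => (tr ay by' cy row).1)).map
        fun c => hornN (Int.natAbs ar + Int.natAbs br) (c.map Int.natAbs)
          (powsN (Int.natAbs cr + Int.natAbs cr) n)).sum := by
    apply List.sum_le_sum
    intro c hc
    rw [Function.comp_apply]
    have := (maxAbs_tr ar br cr c).2
    rwa [h2 c hc] at this
  refine h3.trans ?_
  rw [sum_map_hornN _ _ _ h1 (by rw [hpl, List.length_map, hp]), List.map_map]
  unfold nb2
  apply hornN_mono
  rw [List.forall₂_map_left_iff, List.forall₂_map_right_iff, List.forall₂_same]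
  intro row hr
  rw [Function.comp_apply]
  have := (maxAbs_tr ay by' cy row).2
  rwa [hrow row hr] at this


/-! ### the mask test -/

lemma off_closed (B H n : Nat) (hB : 1 < B) : off B H n = H * (B ^ n - 1) / (B - 1) := by
  have key : off B H n * (B - 1) = H * (B ^ n - 1) := by
    induction n with
    | zero => simp [off]
    | succ n ih =>
      have e : off B H (n + 1) = H + B * off B H n := rfl
      obtain ⟨b, rfl⟩ : ∃ b, B = b + 1 := ⟨B - 1, by omega⟩
      have hp : 1 ≤ (b + 1) ^ n := Nat.one_le_pow _ _ (by omega)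
      have h3 : (b + 1) ^ (n + 1) - 1 = b + (b + 1) * ((b + 1) ^ n - 1) := by
        obtain ⟨c, hc⟩ : ∃ c, (b + 1) ^ n = c + 1 := ⟨(b + 1) ^ n - 1, by omega⟩
        rw [pow_succ, hc]
        simp only [Nat.add_sub_cancel]
        have : (c + 1) * (b + 1) = b + (b + 1) * c + 1 := by ring
        omega
      rw [e, h3]
      simp only [Nat.add_sub_cancel] at ih ⊢
      calc (H + (b + 1) * off (b + 1) H n) * b = H * b + (b + 1) * (off (b + 1) H n * b) := by ring
        _ = H * b + (b + 1) * (H * ((b + 1) ^ n - 1)) := by rw [ih]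
        _ = _ := by ring
  rw [← key, Nat.mul_div_cancel _ (by omega)]

lemma and_split {k d h R S : Nat} (hd : d < 2 ^ k) (hh : h < 2 ^ k) :
    (d + 2 ^ k * R) &&& (h + 2 ^ k * S) = (d &&& h) + 2 ^ k * (R &&& S) := by
  have h1 : ((d + 2 ^ k * R) &&& (h + 2 ^ k * S)) % 2 ^ k = d &&& h := by
    rw [Nat.and_mod_two_pow, Nat.add_mul_mod_self_left, Nat.add_mul_mod_self_left,
      Nat.mod_eq_of_lt hd, Nat.mod_eq_of_lt hh]
  have h2 : ((d + 2 ^ k * R) &&& (h + 2 ^ k * S)) / 2 ^ k = R &&& S := by
    have hpos : 0 < 2 ^ k := Nat.two_pow_pos k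
    rw [Nat.and_div_two_pow, Nat.add_mul_div_left _ _ hpos, Nat.add_mul_div_left _ _ hpos,
      Nat.div_eq_of_lt hd, Nat.div_eq_of_lt hh, zero_add, zero_add]
  conv_lhs => rw [← Nat.mod_add_div ((d + 2 ^ k * R) &&& (h + 2 ^ k * S)) (2 ^ k)]
  rw [h1, h2]

lemma mask_sound {k : Nat} (l : List Int)
    (hl : ∀ x ∈ l, Int.natAbs x < 2 ^ k) (Z : Nat)
    (hZ : (Z : Int) = pack (2 ^ (k + 1) : Nat) l + off (2 ^ (k + 1)) (2 ^ k) l.length)
    (h : Z &&& off (2 ^ (k + 1)) (2 ^ k) l.length = off (2 ^ (k + 1)) (2 ^ k) l.length) :
    ∀ x ∈ l, 0 ≤ x := by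
  induction l generalizing Z with
  | nil => simp
  | cons a as ih =>
    have ha := hl a (by simp)
    have has : ∀ x ∈ as, Int.natAbs x < 2 ^ k := fun x hx => hl x (by simp [hx])
    set B := 2 ^ (k + 1) with hB
    set H := 2 ^ k with hH
    have hBH : B = 2 * H := by rw [hB, hH, pow_succ]; ring
    have hHpos : 0 < H := Nat.two_pow_pos k
    have hpk : pack B (a :: as) = a + B * pack B as := rfl
    have hoff : off B H (as.length + 1) = H + B * off B H as.length := rfl
    rw [List.length_cons, hpk, hoff] at hZ
    rw [List.length_cons, hoff] at h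
    push_cast at hZ
    have hr := pack_add_off_nonneg (B := B) (H := H) as has
    obtain ⟨R, hR⟩ := Int.eq_ofNat_of_zero_le hr
    have hd : 0 ≤ a + H := by omega
    obtain ⟨d, hd'⟩ := Int.eq_ofNat_of_zero_le hd
    have hZ2 : Z = d + B * R := by
      have : (Z : Int) = (d : Int) + B * R := by
        rw [hZ, ← hR, ← hd']; ring
      exact_mod_cast this
    have hdB : d < B := by omega
    rw [hZ2, and_split hdB (by omega), ← hB] at h
    have hand : d &&& H < B := lt_of_le_of_lt Nat.and_le_left hdB
    have hBpos : 0 < B := by omega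
    have h1 : d &&& H = H := by
      have := congrArg (· % B) h
      simp only [Nat.add_mul_mod_self_left] at this
      rwa [Nat.mod_eq_of_lt hand, Nat.mod_eq_of_lt (by omega : H < B)] at this
    have h2 : R &&& off B H as.length = off B H as.length := by
      have := congrArg (· / B) h
      simp only [Nat.add_mul_div_left _ _ hBpos] at this
      rwa [Nat.div_eq_of_lt hand, Nat.div_eq_of_lt (by omega : H < B), zero_add, zero_add] at this
    have h3 : H ≤ d := by
      calc H = d &&& H := h1.symm
        _ ≤ d := Nat.and_le_left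
    have ha0 : 0 ≤ a := by omega
    have := ih has R (by rw [← hR]) h2
    intro x hx
    simp only [List.mem_cons] at hx
    rcases hx with rfl | hx
    · exact ha0
    · exact this x hx

/-- the fast test: `k + 1` = bit size of the digits, `mask` computed in closed form -/
def fastTest (k M : Nat) (Z : Int) : Bool :=
  (fun mask : Nat => Nat.beq (Nat.land (Int.toNat (Int.add Z (Int.ofNat mask))) mask) mask)
    (Nat.div (Nat.mul (Nat.pow 2 k) (Nat.sub (Nat.pow 2 (Nat.mul (Nat.succ k) M)) 1))
      (Nat.sub (Nat.pow 2 (Nat.succ k)) 1))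

lemma fastTest_sound {k : Nat} (l : List Int) (hl : ∀ x ∈ l, Int.natAbs x < 2 ^ k)
    (h : fastTest k l.length (pack (2 ^ (k + 1) : Nat) l) = true) : ∀ x ∈ l, 0 ≤ x := by
  have hmask : Nat.div (Nat.mul (Nat.pow 2 k) (Nat.sub (Nat.pow 2 (Nat.mul (Nat.succ k) l.length)) 1))
      (Nat.sub (Nat.pow 2 (Nat.succ k)) 1) = off (2 ^ (k + 1)) (2 ^ k) l.length := by
    rw [off_closed _ _ _ (Nat.one_lt_two_pow (by omega)), ← pow_mul]
    rfl
  unfold fastTest at h
  simp only [hmask] at h
  have h1 := Nat.eq_of_beq_eq_true h
  have hnn := pack_add_off_nonneg (B := 2 ^ (k + 1)) (H := 2 ^ k) l hl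
  refine mask_sound l hl _ ?_ h1
  show ((Int.toNat (pack (2 ^ (k + 1) : Nat) l + (off (2 ^ (k + 1)) (2 ^ k) l.length : Nat)) : Nat) : Int)
    = _
  rw [Int.toNat_of_nonneg hnn]

/-! ### fast core -/

/-- dot product of naturals -/
def dotN : List Nat → List Nat → Nat
  | [], _ => 0
  | _ :: _, [] => 0
  | a :: as, b :: bs => Nat.add (Nat.mul a b) (dotN as bs)

lemma dotAbs_le_dotN (s : List Int) (bs bs' : List Nat) (sb : List Nat)
    (h : List.Forall₂ (fun x y => Int.natAbs x ≤ y) s sb) (hb : List.Forall₂ (· ≤ ·) bs bs') :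
    dotAbs s bs ≤ dotN sb bs' := by
  induction h generalizing bs bs' with
  | nil => exact Nat.zero_le _
  | @cons x y s sb hxy _ ih =>
    cases hb with
    | nil => exact Nat.zero_le _
    | @cons b b' bs bs' hbb hrest =>
      show Int.natAbs x * b + dotAbs s bs ≤ y * b' + dotN sb bs'
      have h1 := Nat.mul_le_mul hxy hbb
      have h2 := ih bs bs' hrest
      omega

/-- core soundness with packed data: it is enough to test the single integer
`dotI PW (vs.map (pack B'))` -/
theorem fast_core {k N N' : Nat} (C vs ws : List (List Int)) (bv bw : List Nat)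
    (hv : ∀ v ∈ vs, v.length = N) (hw : ∀ w ∈ ws, w.length = N')
    (hbv : List.Forall₂ (fun v b => maxAbs v ≤ b) vs bv)
    (hbw : List.Forall₂ (fun w b => maxAbs w ≤ b) ws bw)
    (hbd : dotN bv (C.map fun c => dotAbs c bw) < 2 ^ k)
    (h : fastTest k (N * N') (dotI (C.map fun c => dotI c (ws.map (pack (2 ^ (k + 1) : Nat))))
      (vs.map (pack ((2 ^ (k + 1) : Nat) ^ N' : Int)))) = true)
    (β β' : List ℝ) (hβ : ∀ x ∈ β, 0 ≤ x) (hβ' : ∀ x ∈ β', 0 ≤ x) :
    0 ≤ bil C (vs.map fun v => dotR v β) (ws.map fun w => dotR w β') := by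
  set ys := ws.map fun w => dotR w β' with hys
  set Ws := C.map (fun c => lincomb N' c ws) with hWs
  set zs := C.map (fun c => dotR c ys) with hzs
  have hWlen : ∀ W ∈ Ws, W.length = N' := by
    intro W hW
    rw [hWs, List.mem_map] at hW
    obtain ⟨c, _, rfl⟩ := hW
    exact length_lincomb c ws hw
  have hbil : ∀ (C vs : List (List Int)), bil C (vs.map fun v => dotR v β) ys =
      dotL β vs (C.map fun c => dotR c ys) := by
    intro C
    induction C with
    | nil =>
      intro vs
      cases vs <;> simp [bil, dotL]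
    | cons c C ih =>
      intro vs
      cases vs with
      | nil => simp [bil, dotL]
      | cons v vs =>
        simp only [List.map_cons, bil, dotL, ih vs]
        ring
  rw [hbil, ← sumF_transp_dot vs hv]
  -- bounds
  have hWb : List.Forall₂ (fun w b => ∀ x ∈ w, Int.natAbs x ≤ b) Ws
      (C.map fun c => dotAbs c bw) := by
    rw [hWs, List.forall₂_map_left_iff, List.forall₂_map_right_iff, List.forall₂_same]
    intro c _ x hx
    refine bound_lincomb c ws _ hw ?_ x hx
    exact hbw.imp fun w b hwb x hx => (le_maxAbs w x hx).trans hwb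
  have hrowb : ∀ s ∈ transp N vs, ∀ x ∈ lincomb N' s Ws, Int.natAbs x < 2 ^ k := by
    intro s hs x hx
    refine lt_of_le_of_lt (bound_lincomb s Ws _ hWlen hWb x hx) (lt_of_le_of_lt ?_ hbd)
    refine dotAbs_le_dotN s _ _ bv ?_ (List.forall₂_same.mpr fun _ _ => le_rfl)
    -- entries of columns are bounded
    have hcol : ∀ (vs : List (List Int)) (bv : List Nat), (∀ v ∈ vs, v.length = N) →
        List.Forall₂ (fun v b => maxAbs v ≤ b) vs bv → ∀ s ∈ transp N vs,
        List.Forall₂ (fun x y => Int.natAbs x ≤ y) s bv := by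
      intro vs bv hv hb
      induction hb with
      | nil =>
        intro s hs
        simp only [transp, List.mem_replicate] at hs
        rw [hs.2]; exact List.Forall₂.nil
      | @cons v b vs bv hvb _ ih =>
        have h1 := hv v (by simp)
        have h2 : ∀ v ∈ vs, v.length = N := fun v hv' => hv v (by simp [hv'])
        have ih' := ih h2
        have hl : v.length = (transp N vs).length := by rw [h1, length_transp vs h2]
        have hz : ∀ (v : List Int) (cs : List (List Int)), v.length = cs.length →
            (∀ x ∈ v, Int.natAbs x ≤ b) →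
            (∀ c ∈ cs, List.Forall₂ (fun x y => Int.natAbs x ≤ y) c bv) →
            ∀ c ∈ zipCons v cs, List.Forall₂ (fun x y => Int.natAbs x ≤ y) c (b :: bv) := by
          intro v
          induction v with
          | nil =>
            intro cs _ _ _ c hc
            cases cs <;> simp [zipCons] at hc
          | cons a as ih2 =>
            intro cs hl hva hcs c hc
            cases cs with
            | nil => simp at hl
            | cons d ds =>
              simp only [zipCons, List.mem_cons] at hc
              rcases hc with rfl | hc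
              · exact List.Forall₂.cons (hva a (by simp)) (hcs d (by simp))
              · exact ih2 ds (by simpa using hl) (fun x hx => hva x (by simp [hx]))
                  (fun c hc => hcs c (by simp [hc])) c hc
        exact hz v _ hl (fun x hx => (le_maxAbs v x hx).trans hvb) ih'
    exact hcol vs bv hv hbv s hs
  -- the flattened list
  set rows := (transp N vs).map (fun s => lincomb N' s Ws) with hrows
  have hrl : ∀ l ∈ rows, l.length = N' := by
    intro l hl
    rw [hrows, List.mem_map] at hl
    obtain ⟨s, _, rfl⟩ := hl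
    exact length_lincomb s Ws hWlen
  have hmemflat : ∀ (ls : List (List Int)) (x : Int), x ∈ flat ls ↔ ∃ l ∈ ls, x ∈ l := by
    intro ls x
    induction ls with
    | nil => simp [flat]
    | cons l ls ih => simp [flat, ih]
  have hlenflat : (flat rows).length = N * N' := by
    rw [length_flat rows hrl, hrows, List.length_map, length_transp vs hv]
  have hpack : pack (2 ^ (k + 1) : Nat) (flat rows) =
      dotI (C.map fun c => dotI c (ws.map (pack (2 ^ (k + 1) : Nat))))
        (vs.map (pack ((2 ^ (k + 1) : Nat) ^ N' : Int))) := by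
    rw [pack_flat _ rows hrl, hrows, List.map_map, ← pack_map_dotI _ vs _ hv]
    congr 1
    apply List.map_congr_left
    intro s _
    rw [Function.comp_apply, pack_lincomb _ _ _ hWlen, hWs, List.map_map]
    congr 1
    apply List.map_congr_left
    intro c _
    exact pack_lincomb _ c ws hw
  have hall : ∀ x ∈ flat rows, 0 ≤ x := by
    apply fastTest_sound (k := k)
    · intro x hx
      rw [hmemflat] at hx
      obtain ⟨l, hl, hx⟩ := hx
      rw [hrows, List.mem_map] at hl
      obtain ⟨s, hs, rfl⟩ := hl
      exact hrowb s hs x hx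
    · rw [hlenflat, hpack]; exact h
  have hcol : ∀ s ∈ transp N vs, 0 ≤ dotR s zs := by
    intro s hs
    have h4 : dotR s zs = dotR (lincomb N' s Ws) β' := by
      rw [dotR_lincomb s Ws hWlen, hWs, List.map_map, hzs]
      congr 1
      apply List.map_congr_left
      intro c _
      rw [Function.comp_apply, dotR_lincomb c ws hw]
    rw [h4]
    refine dotR_nonneg (fun x hx => hall x ?_) hβ'
    rw [hmemflat]
    exact ⟨_, List.mem_map_of_mem hs, hx⟩
  have hsum : ∀ (cs : List (List Int)), (∀ s ∈ cs, 0 ≤ dotR s zs) → ∀ β : List ℝ,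
      (∀ x ∈ β, 0 ≤ x) → 0 ≤ sumF (fun c => dotR c zs) cs β := by
    intro cs
    induction cs with
    | nil => intro _ β _; simp [sumF]
    | cons c cs ih =>
      intro h β hβ
      cases β with
      | nil => simp [sumF]
      | cons x xs =>
        simp only [sumF]
        have h1 := h c (by simp)
        have h2 := hβ x (by simp)
        have h3 := ih (fun s hs => h s (by simp [hs])) xs (fun x hx => hβ x (by simp [hx]))
        positivity
  exact hsum _ hcol β hβ


/-- the fast check on a product of two boxes (`B = 2^(k+1)` is the packing base) -/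
def fastBox (k n m n' m' : Nat) (C : List (List Int)) (fs gs : List (List (List Int)))
    (ar br cr ay by' cy ar' br' cr' ay' by'' cy' : Int) : Bool :=
  and (and (allB (shapeOK n m) fs) (allB (shapeOK n' m') gs))
    (and
      (Nat.ble (Nat.succ (dotN
          (fs.map (nb2 (Nat.add (Int.natAbs ar) (Int.natAbs br)) (Nat.add (Int.natAbs ay) (Int.natAbs by'))
            (powsN (Nat.add (Int.natAbs cr) (Int.natAbs cr)) n)
            (powsN (Nat.add (Int.natAbs cy) (Int.natAbs cy)) m)))
          (C.map fun c => dotAbs c
            (gs.map (nb2 (Nat.add (Int.natAbs ar') (Int.natAbs br'))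
              (Nat.add (Int.natAbs ay') (Int.natAbs by''))
              (powsN (Nat.add (Int.natAbs cr') (Int.natAbs cr')) n')
              (powsN (Nat.add (Int.natAbs cy') (Int.natAbs cy')) m'))))))
        (Nat.pow 2 k))
      (fastTest k (Nat.mul (Nat.mul m n) (Nat.mul m' n'))
        (dotI (C.map fun c => dotI c
            (gs.map (pk2
              (Int.add ar' (Int.mul br' (Int.ofNat (Nat.pow 2 (Nat.succ k)))))
              (Int.add ay' (Int.mul by'' (Int.ofNat (Nat.pow 2 (Nat.mul (Nat.succ k) n')))))
              (pows (Int.add cr' (Int.mul cr' (Int.ofNat (Nat.pow 2 (Nat.succ k))))) n')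
              (pows (Int.add cy' (Int.mul cy' (Int.ofNat (Nat.pow 2 (Nat.mul (Nat.succ k) n'))))) m'))))
          (fs.map (pk2
              (Int.add ar (Int.mul br (Int.ofNat (Nat.pow 2 (Nat.mul (Nat.succ k) (Nat.mul m' n'))))))
              (Int.add ay (Int.mul by' (Int.ofNat
                (Nat.pow 2 (Nat.mul (Nat.mul (Nat.succ k) (Nat.mul m' n')) n)))))
              (pows (Int.add cr (Int.mul cr (Int.ofNat
                (Nat.pow 2 (Nat.mul (Nat.succ k) (Nat.mul m' n')))))) n)
              (pows (Int.add cy (Int.mul cy (Int.ofNat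
                (Nat.pow 2 (Nat.mul (Nat.mul (Nat.succ k) (Nat.mul m' n')) n))))) m))))))

/-- **Soundness of the fast box check.** -/
theorem fastBox_sound {k n m n' m' : Nat} {C : List (List Int)} {fs gs : List (List (List Int))}
    {ar br cr ay by' cy ar' br' cr' ay' by'' cy' : Int}
    (hn : 0 < n) (hm : 0 < m) (hn' : 0 < n') (hm' : 0 < m')
    (hcr : 0 < cr) (hcy : 0 < cy) (hcr' : 0 < cr') (hcy' : 0 < cy')
    (hr : ar < br) (hy : ay < by') (hr' : ar' < br') (hy' : ay' < by'')
    (h : fastBox k n m n' m' C fs gs ar br cr ay by' cy ar' br' cr' ay' by'' cy' = true)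
    {r y r' y' : ℝ} (h1 : (ar : ℝ) / cr ≤ r) (h2 : r ≤ br / cr) (h3 : (ay : ℝ) / cy ≤ y)
    (h4 : y ≤ by' / cy) (h1' : (ar' : ℝ) / cr' ≤ r') (h2' : r' ≤ br' / cr')
    (h3' : (ay' : ℝ) / cy' ≤ y') (h4' : y' ≤ by'' / cy') :
    0 ≤ bil C (fs.map (ev2 r y)) (gs.map (ev2 r' y')) := by
  unfold fastBox at h
  rw [Bool.and_eq_true, Bool.and_eq_true, Bool.and_eq_true, allB_iff, allB_iff] at h
  obtain ⟨⟨hs, hs'⟩, hbd, htest⟩ := h
  have hbd' := Nat.le_of_ble_eq_true hbd
  have hvl : ∀ v ∈ fs.map (tr2 ar br cr ay by' cy m), v.length = m * n := by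
    intro v hv
    rw [List.mem_map] at hv
    obtain ⟨p, hp, rfl⟩ := hv
    obtain ⟨hp1, hp2⟩ := shapeOK_iff (hs p hp)
    exact length_tr2 ar br cr ay by' cy p hp1 hp2
  have hwl : ∀ v ∈ gs.map (tr2 ar' br' cr' ay' by'' cy' m'), v.length = m' * n' := by
    intro v hv
    rw [List.mem_map] at hv
    obtain ⟨p, hp, rfl⟩ := hv
    obtain ⟨hp1, hp2⟩ := shapeOK_iff (hs' p hp)
    exact length_tr2 ar' br' cr' ay' by'' cy' p hp1 hp2
  have hBn : ∀ j : ℕ, Int.ofNat (Nat.pow 2 (Nat.mul (Nat.succ k) j)) = ((2 ^ (k + 1) : Nat) : Int) ^ j := by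
    intro j
    show ((2 ^ ((k + 1) * j) : Nat) : Int) = _
    rw [pow_mul]; push_cast; ring
  have hBn2 : ∀ j i : ℕ, Int.ofNat (Nat.pow 2 (Nat.mul (Nat.mul (Nat.succ k) j) i)) =
      (((2 ^ (k + 1) : Nat) : Int) ^ j) ^ i := by
    intro j i
    show ((2 ^ ((k + 1) * j * i) : Nat) : Int) = _
    rw [pow_mul, pow_mul]; push_cast; ring
  have e1 := fast_core (k := k) C _ _ (hv := hvl) (hw := hwl)
    (bv := fs.map (nb2 (Int.natAbs ar + Int.natAbs br) (Int.natAbs ay + Int.natAbs by')
        (powsN (Int.natAbs cr + Int.natAbs cr) n) (powsN (Int.natAbs cy + Int.natAbs cy) m)))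
    (bw := gs.map (nb2 (Int.natAbs ar' + Int.natAbs br') (Int.natAbs ay' + Int.natAbs by'')
        (powsN (Int.natAbs cr' + Int.natAbs cr') n') (powsN (Int.natAbs cy' + Int.natAbs cy') m')))
    (by
      rw [List.forall₂_map_left_iff, List.forall₂_map_right_iff, List.forall₂_same]
      intro p hp
      obtain ⟨hp1, hp2⟩ := shapeOK_iff (hs p hp)
      exact maxAbs_tr2 ar br cr ay by' cy p hp1 hp2)
    (by
      rw [List.forall₂_map_left_iff, List.forall₂_map_right_iff, List.forall₂_same]
      intro p hp
      obtain ⟨hp1, hp2⟩ := shapeOK_iff (hs' p hp)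
      exact maxAbs_tr2 ar' br' cr' ay' by'' cy' p hp1 hp2)
    hbd'
    (by
      have e3 : (gs.map (tr2 ar' br' cr' ay' by'' cy' m')).map (pack (2 ^ (k + 1) : Nat)) =
          gs.map (pk2
              (Int.add ar' (Int.mul br' (Int.ofNat (Nat.pow 2 (Nat.succ k)))))
              (Int.add ay' (Int.mul by'' (Int.ofNat (Nat.pow 2 (Nat.mul (Nat.succ k) n')))))
              (pows (Int.add cr' (Int.mul cr' (Int.ofNat (Nat.pow 2 (Nat.succ k))))) n')
              (pows (Int.add cy' (Int.mul cy' (Int.ofNat (Nat.pow 2 (Nat.mul (Nat.succ k) n'))))) m')) := by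
        rw [List.map_map]
        apply List.map_congr_left
        intro p hp
        obtain ⟨hp1, hp2⟩ := shapeOK_iff (hs' p hp)
        rw [Function.comp_apply, pack_tr2 _ ar' br' cr' ay' by'' cy' p hp1 hp2, hBn]
        rfl
      have e4 : (fs.map (tr2 ar br cr ay by' cy m)).map
          (pack ((2 ^ (k + 1) : Nat) ^ (m' * n') : Int)) =
          fs.map (pk2
              (Int.add ar (Int.mul br (Int.ofNat (Nat.pow 2 (Nat.mul (Nat.succ k) (Nat.mul m' n'))))))
              (Int.add ay (Int.mul by' (Int.ofNat
                (Nat.pow 2 (Nat.mul (Nat.mul (Nat.succ k) (Nat.mul m' n')) n)))))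
              (pows (Int.add cr (Int.mul cr (Int.ofNat
                (Nat.pow 2 (Nat.mul (Nat.succ k) (Nat.mul m' n')))))) n)
              (pows (Int.add cy (Int.mul cy (Int.ofNat
                (Nat.pow 2 (Nat.mul (Nat.mul (Nat.succ k) (Nat.mul m' n')) n))))) m)) := by
        rw [List.map_map]
        apply List.map_congr_left
        intro p hp
        obtain ⟨hp1, hp2⟩ := shapeOK_iff (hs p hp)
        rw [Function.comp_apply, pack_tr2 _ ar br cr ay by' cy p hp1 hp2, hBn, hBn2]
        rfl
      rw [e3, e4]
      exact htest)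
    (kron (bas ((by' : ℝ) / cy - y) (y - ay / cy) m) (bas ((br : ℝ) / cr - r) (r - ar / cr) n))
    (kron (bas ((by'' : ℝ) / cy' - y') (y' - ay' / cy') m')
      (bas ((br' : ℝ) / cr' - r') (r' - ar' / cr') n'))
    (kron_nonneg (bas_nonneg (by linarith) (by linarith) _) (bas_nonneg (by linarith) (by linarith) _))
    (kron_nonneg (bas_nonneg (by linarith) (by linarith) _) (bas_nonneg (by linarith) (by linarith) _))
  rw [List.map_map, List.map_map, bil_map_mul C (List (List Int)) fs
    (((br : ℝ) - ar) ^ (n - 1) * ((by' : ℝ) - ay) ^ (m - 1))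
    (((br' : ℝ) - ar') ^ (n' - 1) * ((by'' : ℝ) - ay') ^ (m' - 1)) (ev2 r y) _
    (fun p hp => by
      obtain ⟨hp1, hp2⟩ := shapeOK_iff (hs p hp)
      exact dotR_tr2 hn hm p hp1 hp2 hcr hcy r y) (ev2 r' y') _ gs
    (fun p hp => by
      obtain ⟨hp1, hp2⟩ := shapeOK_iff (hs' p hp)
      exact dotR_tr2 hn' hm' p hp1 hp2 hcr' hcy' r' y')] at e1
  have c1 : (0 : ℝ) < br - ar := by
    have : (ar : ℝ) < br := by exact_mod_cast hr
    linarith
  have c2 : (0 : ℝ) < by' - ay := by
    have : (ay : ℝ) < by' := by exact_mod_cast hy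
    linarith
  have c3 : (0 : ℝ) < br' - ar' := by
    have : (ar' : ℝ) < br' := by exact_mod_cast hr'
    linarith
  have c4 : (0 : ℝ) < by'' - ay' := by
    have : (ay' : ℝ) < by'' := by exact_mod_cast hy'
    linarith
  have c5 : 0 < ((br : ℝ) - ar) ^ (n - 1) * ((by' : ℝ) - ay) ^ (m - 1) *
      (((br' : ℝ) - ar') ^ (n' - 1) * ((by'' : ℝ) - ay') ^ (m' - 1)) := by positivity
  exact nonneg_of_mul_nonneg_right e1 c5

end Crest.Agent.R163.Bern
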