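import Mathlib
import Crest.Agent.R163.Bern3

/-! Row 163: Bernstein checker, part 4: shared version, one right cell against many left cells. -/

set_option autoImplicit false

namespace Crest.Agent.R163.Bern

noncomputable section

/-! ### fast integer operations (for the kernel) -/

/-- negative of a natural number -/
def negN (k : Nat) : Int := Nat.rec (Int.ofNat 0) (fun m _ => Int.negSucc m) k

/-- difference of natural numbers -/
def subN (m n : Nat) : Int := Nat.rec (Int.ofNat (Nat.sub m n)) (fun j _ => Int.negSucc j) (Nat.sub n m)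

/-- product -/
def im (x y : Int) : Int :=
  Int.rec (fun m => Int.rec (fun n => Int.ofNat (Nat.mul m n)) (fun n => negN (Nat.mul m (Nat.succ n))) y)
    (fun m => Int.rec (fun n => negN (Nat.mul (Nat.succ m) n))
      (fun n => Int.ofNat (Nat.mul (Nat.succ m) (Nat.succ n))) y) x

/-- sum -/
def ia (x y : Int) : Int :=
  Int.rec (fun m => Int.rec (fun n => Int.ofNat (Nat.add m n)) (fun n => subN m (Nat.succ n)) y)
    (fun m => Int.rec (fun n => subN n (Nat.succ m))
      (fun n => Int.negSucc (Nat.succ (Nat.add m n))) y) x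

/-- shift -/
def shl (s : Nat) (x : Int) : Int :=
  Int.rec (fun m => Int.ofNat (Nat.shiftLeft m s))
    (fun m => negN (Nat.shiftLeft (Nat.succ m) s)) x

lemma negN_eq (k : Nat) : negN k = -(k : Int) := by
  cases k with
  | zero => rfl
  | succ m => rfl

lemma subN_eq (m n : Nat) : subN m n = (m : Int) - n := by
  unfold subN
  rcases h : Nat.sub n m with _ | j
  · show ((Nat.sub m n : Nat) : Int) = _
    have h' : n - m = 0 := h
    show ((m - n : Nat) : Int) = _
    omega
  · show Int.negSucc j = _
    have h' : n - m = j + 1 := h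
    omega

lemma im_eq (x y : Int) : im x y = x * y := by
  cases x with
  | ofNat m =>
    cases y with
    | ofNat n => rfl
    | negSucc n =>
      show negN (m * (n + 1)) = _
      rw [negN_eq, Int.negSucc_eq]
      push_cast
      show -((m : Int) * (n + 1)) = (m : Int) * -(n + 1)
      ring
  | negSucc m =>
    cases y with
    | ofNat n =>
      show negN ((m + 1) * n) = _
      rw [negN_eq, Int.negSucc_eq]
      push_cast
      show -(((m : Int) + 1) * n) = -(m + 1) * (n : Int)
      ring
    | negSucc n => rfl

lemma ia_eq (x y : Int) : ia x y = x + y := by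
  cases x with
  | ofNat m =>
    cases y with
    | ofNat n => rfl
    | negSucc n =>
      show subN m (n + 1) = _
      rw [subN_eq, Int.negSucc_eq]
      push_cast
      show (m : Int) - (n + 1) = (m : Int) + -(n + 1)
      ring
  | negSucc m =>
    cases y with
    | ofNat n =>
      show subN n (m + 1) = _
      rw [subN_eq, Int.negSucc_eq]
      push_cast
      show (n : Int) - (m + 1) = -(m + 1) + (n : Int)
      ring
    | negSucc n =>
      show Int.negSucc (m + n + 1) = _
      rw [Int.negSucc_eq, Int.negSucc_eq, Int.negSucc_eq]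
      push_cast
      ring

lemma shl_eq (s : Nat) (x : Int) : shl s x = x * 2 ^ s := by
  cases x with
  | ofNat m =>
    show ((m <<< s : Nat) : Int) = (m : Int) * 2 ^ s
    rw [Nat.shiftLeft_eq]; push_cast; ring
  | negSucc m =>
    show negN ((m + 1) <<< s) = _
    rw [negN_eq, Nat.shiftLeft_eq, Int.negSucc_eq]; push_cast; ring

/-! ### fast list operations -/

/-- dot product -/
def fdot (xs : List Int) : List Int → Int :=
  List.rec (fun _ => Int.ofNat 0)
    (fun x _ ih ys => List.rec (Int.ofNat 0) (fun y ys _ => ia (im x y) (ih ys)) ys) xs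

/-- Horner -/
def fhorn (X : Int) (xs : List Int) : List Int → Int :=
  List.rec (fun _ => Int.ofNat 0)
    (fun x _ ih ys => List.rec (Int.ofNat 0) (fun y ys _ => ia (im x y) (im X (ih ys))) ys) xs

/-- Horner with `X = a + b 2^s` -/
def shorn (a b : Int) (s : Nat) (xs : List Int) : List Int → Int :=
  List.rec (fun _ => Int.ofNat 0)
    (fun x _ ih ys => List.rec (Int.ofNat 0)
      (fun y ys _ => ia (im x y) ((fun A : Int => ia (im a A) (shl s (im b A))) (ih ys))) ys) xs

/-- `g * x + acc` entrywise; a missing `acc` means zero -/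
def addSmul (g : Int) (xs : List Int) : List Int → List Int :=
  List.rec (fun _ => [])
    (fun x _ ih acc => List.rec (im g x :: ih []) (fun A as _ => ia (im g x) A :: ih as) acc) xs

/-- matrices -/
def addSmulM (g : Int) (xs : List (List Int)) : List (List Int) → List (List Int) :=
  List.rec (fun _ => [])
    (fun x _ ih acc => List.rec (addSmul g x [] :: ih []) (fun A as _ => addSmul g x A :: ih as) acc) xs

/-- linear combination of matrices -/
def combM (gs : List Int) : List (List (List Int)) → List (List Int) :=
  List.rec (fun _ => [])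
    (fun g _ ih ps => List.rec [] (fun p ps _ => addSmulM g p (ih ps)) ps) gs

/-- `y * x + (a + b 2^s) * acc` entrywise; a missing `acc` means zero -/
def stepRow (a b : Int) (s : Nat) (y : Int) (xs : List Int) : List Int → List Int :=
  List.rec (fun _ => [])
    (fun x _ ih acc => List.rec (im x y :: ih [])
      (fun A as _ => ia (im x y) (ia (im a A) (shl s (im b A))) :: ih as) acc) xs

/-- Horner on rows -/
def hornRow (a b : Int) (s : Nat) (rows : List (List Int)) : List Int → List Int :=
  List.rec (fun _ => [])
    (fun row _ ih ys => List.rec [] (fun y ys _ => stepRow a b s y row (ih ys)) ys) rows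

lemma fdot_eq (xs ys : List Int) : fdot xs ys = dotI xs ys := by
  induction xs generalizing ys with
  | nil => rfl
  | cons x xs ih =>
    cases ys with
    | nil => rfl
    | cons y ys =>
      show ia (im x y) (fdot xs ys) = x * y + dotI xs ys
      rw [ih, ia_eq, im_eq]

lemma fhorn_eq (X : Int) (xs ys : List Int) : fhorn X xs ys = horn X xs ys := by
  induction xs generalizing ys with
  | nil => rfl
  | cons x xs ih =>
    cases ys with
    | nil => rfl
    | cons y ys =>
      show ia (im x y) (im X (fhorn X xs ys)) = x * y + X * horn X xs ys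
      rw [ih, ia_eq, im_eq, im_eq]

lemma shorn_eq (a b : Int) (s : Nat) (xs ys : List Int) :
    shorn a b s xs ys = horn (a + b * 2 ^ s) xs ys := by
  induction xs generalizing ys with
  | nil => rfl
  | cons x xs ih =>
    cases ys with
    | nil => rfl
    | cons y ys =>
      show ia (im x y) (ia (im a (shorn a b s xs ys)) (shl s (im b (shorn a b s xs ys)))) =
        x * y + (a + b * 2 ^ s) * horn (a + b * 2 ^ s) xs ys
      rw [ih, ia_eq, ia_eq, im_eq, im_eq, im_eq, shl_eq]
      ring

lemma length_addSmul (g : Int) (xs acc : List Int) : (addSmul g xs acc).length = xs.length := by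
  induction xs generalizing acc with
  | nil => rfl
  | cons x xs ih =>
    cases acc with
    | nil =>
      show (addSmul g xs []).length + 1 = xs.length + 1
      rw [ih]
    | cons A as =>
      show (addSmul g xs as).length + 1 = xs.length + 1
      rw [ih]

lemma horn_addSmul (X g : Int) (xs acc ys : List Int) (h : acc = [] ∨ acc.length = xs.length) :
    horn X (addSmul g xs acc) ys = g * horn X xs ys + horn X acc ys := by
  induction xs generalizing acc ys with
  | nil =>
    have : acc = [] := by
      rcases h with h | h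
      · exact h
      · exact List.length_eq_zero_iff.mp h
    subst this
    show (0 : Int) = g * 0 + 0
    ring
  | cons x xs ih =>
    cases ys with
    | nil =>
      cases acc with
      | nil => show (0 : Int) = g * 0 + 0; ring
      | cons A as => show (0 : Int) = g * 0 + 0; ring
    | cons y ys =>
      cases acc with
      | nil =>
        show im g x * y + X * horn X (addSmul g xs []) ys = g * (x * y + X * horn X xs ys) + 0
        rw [ih [] ys (Or.inl rfl), im_eq]
        have : horn X [] ys = 0 := rfl
        rw [this]; ring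
      | cons A as =>
        have h' : as.length = xs.length := by
          rcases h with h | h
          · exact absurd h (by simp)
          · simpa using h
        show ia (im g x) A * y + X * horn X (addSmul g xs as) ys =
          g * (x * y + X * horn X xs ys) + (A * y + X * horn X as ys)
        rw [ih as ys (Or.inr h'), im_eq, ia_eq]
        ring

lemma horn_stepRow (X a b : Int) (s : Nat) (y : Int) (xs acc ys : List Int)
    (h : acc = [] ∨ acc.length = xs.length) :
    horn X (stepRow a b s y xs acc) ys = horn X xs ys * y + (a + b * 2 ^ s) * horn X acc ys := by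
  induction xs generalizing acc ys with
  | nil =>
    have : acc = [] := by
      rcases h with h | h
      · exact h
      · exact List.length_eq_zero_iff.mp h
    subst this
    show (0 : Int) = 0 * y + (a + b * 2 ^ s) * 0
    ring
  | cons x xs ih =>
    cases ys with
    | nil =>
      cases acc with
      | nil => show (0 : Int) = 0 * y + (a + b * 2 ^ s) * 0; ring
      | cons A as => show (0 : Int) = 0 * y + (a + b * 2 ^ s) * 0; ring
    | cons z ys =>
      cases acc with
      | nil =>
        show im x y * z + X * horn X (stepRow a b s y xs []) ys =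
          (x * z + X * horn X xs ys) * y + (a + b * 2 ^ s) * 0
        rw [ih [] ys (Or.inl rfl), im_eq]
        have : horn X [] ys = 0 := rfl
        rw [this]; ring
      | cons A as =>
        have h' : as.length = xs.length := by
          rcases h with h | h
          · exact absurd h (by simp)
          · simpa using h
        show ia (im x y) (ia (im a A) (shl s (im b A))) * z + X * horn X (stepRow a b s y xs as) ys =
          (x * z + X * horn X xs ys) * y + (a + b * 2 ^ s) * (A * z + X * horn X as ys)
        rw [ih as ys (Or.inr h'), ia_eq, ia_eq, im_eq, im_eq, im_eq, shl_eq]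
        ring

lemma length_stepRow (a b : Int) (s : Nat) (y : Int) (xs acc : List Int) :
    (stepRow a b s y xs acc).length = xs.length := by
  induction xs generalizing acc with
  | nil => rfl
  | cons x xs ih =>
    cases acc with
    | nil =>
      show (stepRow a b s y xs []).length + 1 = xs.length + 1
      rw [ih]
    | cons A as =>
      show (stepRow a b s y xs as).length + 1 = xs.length + 1
      rw [ih]

lemma hornRow_spec (X a b : Int) (s : Nat) {m : ℕ} (rows : List (List Int)) (ys yy : List Int)
    (hr : ∀ row ∈ rows, row.length = m) :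
    (hornRow a b s rows ys = [] ∨ (hornRow a b s rows ys).length = m) ∧
    horn X (hornRow a b s rows ys) yy =
      horn (a + b * 2 ^ s) (rows.map fun row => horn X row yy) ys := by
  induction rows generalizing ys with
  | nil => exact ⟨Or.inl rfl, rfl⟩
  | cons row rows ih =>
    have h1 := hr row (by simp)
    have h2 : ∀ row ∈ rows, row.length = m := fun v hv => hr v (by simp [hv])
    cases ys with
    | nil => exact ⟨Or.inl rfl, rfl⟩
    | cons y ys =>
      obtain ⟨h3, h4⟩ := ih ys h2
      have e : hornRow a b s (row :: rows) (y :: ys) = stepRow a b s y row (hornRow a b s rows ys) := rfl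
      rw [e]
      constructor
      · right; rw [length_stepRow, h1]
      · rw [horn_stepRow X a b s y row _ yy (by rw [h1]; exact h3), h4]
        rfl

/-- two-variable Horner with shifts equals `pk2` -/
lemma horn_hornRow (ar br ay by' : Int) (s t : Nat) {m : ℕ} (p : List (List Int)) (yr yy : List Int)
    (hr : ∀ row ∈ p, row.length = m) :
    shorn ay by' t (hornRow ar br s p yr) yy =
      pk2 (ar + br * 2 ^ s) (ay + by' * 2 ^ t) yr yy p := by
  rw [shorn_eq, (hornRow_spec _ ar br s p yr yy hr).2]
  rfl

lemma pk2_addSmulM (Xr Xy g : Int) (yr yy : List Int) {n m : ℕ} (p acc : List (List Int))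
    (hp : p.length = n) (hrow : ∀ row ∈ p, row.length = m)
    (ha : acc = [] ∨ (acc.length = n ∧ ∀ row ∈ acc, row.length = m)) :
    pk2 Xr Xy yr yy (addSmulM g p acc) = g * pk2 Xr Xy yr yy p + pk2 Xr Xy yr yy acc := by
  induction p generalizing acc yr n with
  | nil =>
    have : acc = [] := by
      rcases ha with h | h
      · exact h
      · rw [← hp] at h; exact List.length_eq_zero_iff.mp h.1
    subst this
    show (0 : Int) = g * 0 + 0
    ring
  | cons x xs ih =>
    have h1 := hrow x (by simp)
    have h2 : ∀ row ∈ xs, row.length = m := fun v hv => hrow v (by simp [hv])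
    cases yr with
    | nil =>
      cases acc with
      | nil => show (0 : Int) = g * 0 + 0; ring
      | cons A as => show (0 : Int) = g * 0 + 0; ring
    | cons y ys =>
      cases acc with
      | nil =>
        show horn Xy (addSmul g x []) yy * y + Xr * pk2 Xr Xy ys yy (addSmulM g xs []) =
          g * (horn Xy x yy * y + Xr * pk2 Xr Xy ys yy xs) + 0
        rw [ih ys (n := xs.length) [] rfl h2 (Or.inl rfl), horn_addSmul _ _ _ _ _ (Or.inl rfl)]
        have e1 : horn Xy [] yy = 0 := rfl
        have e2 : pk2 Xr Xy ys yy [] = 0 := rfl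
        rw [e1, e2]; ring
      | cons A as =>
        rcases ha with h | ⟨h3, h4⟩
        · exact absurd h (by simp)
        have h5 : as.length = xs.length := by
          rw [← hp] at h3; simpa using h3
        have h6 := h4 A (by simp)
        show horn Xy (addSmul g x A) yy * y + Xr * pk2 Xr Xy ys yy (addSmulM g xs as) =
          g * (horn Xy x yy * y + Xr * pk2 Xr Xy ys yy xs) +
            (horn Xy A yy * y + Xr * pk2 Xr Xy ys yy as)
        rw [ih ys (n := xs.length) as rfl h2 (Or.inr ⟨h5, fun v hv => h4 v (by simp [hv])⟩),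
          horn_addSmul _ _ _ _ _ (Or.inr (by rw [h6, h1]))]
        ring

lemma shape_addSmulM (g : Int) {n m : ℕ} (p acc : List (List Int))
    (hp : p.length = n) (hrow : ∀ row ∈ p, row.length = m) :
    (addSmulM g p acc).length = n ∧ ∀ row ∈ addSmulM g p acc, row.length = m := by
  induction p generalizing acc n with
  | nil => exact ⟨hp, by intro row h; cases h⟩
  | cons x xs ih =>
    have h1 := hrow x (by simp)
    have h2 : ∀ row ∈ xs, row.length = m := fun v hv => hrow v (by simp [hv])
    cases acc with
    | nil =>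
      obtain ⟨h3, h4⟩ := ih (n := xs.length) [] rfl h2
      constructor
      · show (addSmulM g xs []).length + 1 = n
        rw [h3, ← hp]; rfl
      · intro row h
        have h' : row ∈ addSmul g x [] :: addSmulM g xs [] := h
        rcases List.mem_cons.mp h' with rfl | h'
        · rw [length_addSmul, h1]
        · exact h4 row h'
    | cons A as =>
      obtain ⟨h3, h4⟩ := ih (n := xs.length) as rfl h2
      constructor
      · show (addSmulM g xs as).length + 1 = n
        rw [h3, ← hp]; rfl
      · intro row h
        have h' : row ∈ addSmul g x A :: addSmulM g xs as := h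
        rcases List.mem_cons.mp h' with rfl | h'
        · rw [length_addSmul, h1]
        · exact h4 row h'

lemma combM_spec (Xr Xy : Int) (yr yy : List Int) {n m : ℕ} (gs : List Int)
    (ps : List (List (List Int))) (hs : ∀ p ∈ ps, p.length = n ∧ ∀ row ∈ p, row.length = m) :
    (combM gs ps = [] ∨ ((combM gs ps).length = n ∧ ∀ row ∈ combM gs ps, row.length = m)) ∧
    pk2 Xr Xy yr yy (combM gs ps) = dotI gs (ps.map (pk2 Xr Xy yr yy)) := by
  induction gs generalizing ps with
  | nil => exact ⟨Or.inl rfl, rfl⟩
  | cons g gs ih =>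
    cases ps with
    | nil => exact ⟨Or.inl rfl, rfl⟩
    | cons p ps =>
      obtain ⟨h1, h2⟩ := hs p (by simp)
      obtain ⟨h3, h4⟩ := ih ps (fun q hq => hs q (by simp [hq]))
      have e : combM (g :: gs) (p :: ps) = addSmulM g p (combM gs ps) := rfl
      rw [e]
      constructor
      · right; exact shape_addSmulM g p _ h1 h2
      · rw [pk2_addSmulM _ _ _ _ _ p _ h1 h2 h3, h4]
        rfl

/-! ### crude bounds -/

/-- sum of a list of naturals -/
def sumN (l : List Nat) : Nat := List.rec 0 (fun x _ ih => Nat.add x ih) l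

/-- sum of the absolute values of the coefficients -/
def norm1 (p : List (List Int)) : Nat := sumN (p.map maxAbs)

lemma hornN_le (X Y M : Nat) (hX : X ≤ M) (hY : Y ≤ M) (l : List Nat) :
    hornN X l (powsN Y l.length) ≤ sumN l * M ^ (l.length - 1) := by
  induction l with
  | nil => exact Nat.zero_le _
  | cons x l ih =>
    rw [List.length_cons, powsN_succ]
    show x * Y ^ l.length + X * hornN X l (powsN Y l.length) ≤ (x + sumN l) * M ^ (l.length + 1 - 1)
    rw [Nat.add_sub_cancel]
    have h1 : x * Y ^ l.length ≤ x * M ^ l.length := Nat.mul_le_mul_left _ (Nat.pow_le_pow_left hY _)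
    have h2 : X * hornN X l (powsN Y l.length) ≤ sumN l * M ^ l.length := by
      rcases l with _ | ⟨z, l⟩
      · exact Nat.zero_le _
      · calc X * hornN X (z :: l) (powsN Y (z :: l).length) ≤
            M * (sumN (z :: l) * M ^ ((z :: l).length - 1)) := Nat.mul_le_mul hX ih
          _ = sumN (z :: l) * M ^ (z :: l).length := by
            rw [List.length_cons, Nat.add_sub_cancel, pow_succ]; ring
    calc _ ≤ x * M ^ l.length + sumN l * M ^ l.length := Nat.add_le_add h1 h2
      _ = _ := by ring

lemma sumN_map_mul (l : List Nat) (c : Nat) : sumN (l.map (· * c)) = sumN l * c := by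
  induction l with
  | nil => show 0 = 0 * c; ring
  | cons x l ih =>
    show x * c + sumN (l.map (· * c)) = (x + sumN l) * c
    rw [ih]; ring

lemma sumN_natAbs (l : List Int) : sumN (l.map Int.natAbs) = maxAbs l := by
  induction l with
  | nil => rfl
  | cons x l ih =>
    show Int.natAbs x + sumN (l.map Int.natAbs) = Int.natAbs x + maxAbs l
    rw [ih]

lemma nb2_le (xr xy cr cy XM YM : Nat) {n m : ℕ} (hxr : xr ≤ XM) (hcr : cr ≤ XM) (hxy : xy ≤ YM)
    (hcy : cy ≤ YM) (p : List (List Int)) (hp : p.length = n) (hrow : ∀ row ∈ p, row.length = m) :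
    nb2 xr xy (powsN cr n) (powsN cy m) p ≤ norm1 p * (XM ^ (n - 1) * YM ^ (m - 1)) := by
  unfold nb2
  have h1 : hornN xr (p.map fun row => hornN xy (row.map Int.natAbs) (powsN cy m)) (powsN cr n) ≤
      hornN xr ((p.map maxAbs).map (· * YM ^ (m - 1))) (powsN cr n) := by
    apply hornN_mono
    rw [List.map_map, List.forall₂_map_left_iff, List.forall₂_map_right_iff, List.forall₂_same]
    intro row hr
    have h2 := hornN_le xy cy YM hxy hcy (row.map Int.natAbs)
    rw [List.length_map, hrow row hr, sumN_natAbs] at h2
    exact h2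
  refine h1.trans ?_
  have h3 := hornN_le xr cr XM hxr hcr ((p.map maxAbs).map (· * YM ^ (m - 1)))
  rw [List.length_map, List.length_map, hp, sumN_map_mul] at h3
  refine h3.trans (le_of_eq ?_)
  unfold norm1
  ring

lemma dotAbs_le (c : List Int) (bs : List Nat) (M : Nat) (hb : ∀ b ∈ bs, b ≤ M) :
    dotAbs c bs ≤ maxAbs c * M := by
  induction c generalizing bs with
  | nil => exact Nat.zero_le _
  | cons a as ih =>
    cases bs with
    | nil => exact Nat.zero_le _
    | cons b bs =>
      show Int.natAbs a * b + dotAbs as bs ≤ (Int.natAbs a + maxAbs as) * M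
      have h1 := Nat.mul_le_mul_left (Int.natAbs a) (hb b (by simp))
      have h2 := ih bs (fun b hb' => hb b (by simp [hb']))
      nlinarith

lemma dotN_le (bv bw : List Nat) (M : Nat) (hb : ∀ b ∈ bv, b ≤ M) :
    dotN bv bw ≤ M * sumN bw := by
  induction bv generalizing bw with
  | nil => exact Nat.zero_le _
  | cons a as ih =>
    cases bw with
    | nil => exact Nat.zero_le _
    | cons b bs =>
      show a * b + dotN as bs ≤ M * (b + sumN bs)
      have h1 := Nat.mul_le_mul_right b (hb a (by simp))
      have h2 := ih bs (fun b hb' => hb b (by simp [hb']))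
      nlinarith

lemma sumN_le_map (C : List (List Int)) (F : List Int → Nat) (M : Nat)
    (h : ∀ c ∈ C, F c ≤ maxAbs c * M) : sumN (C.map F) ≤ norm1 C * M := by
  induction C with
  | nil => exact Nat.zero_le _
  | cons c C ih =>
    show F c + sumN (C.map F) ≤ (maxAbs c + norm1 C) * M
    have h1 := h c (by simp)
    have h2 := ih (fun c hc => h c (by simp [hc]))
    nlinarith

/-! ### the row test: one right cell, many left cells -/

/-- data sanity: shapes and norms -/
def dataOK (n m S : Nat) (fs : List (List (List Int))) : Bool :=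
  allB (fun p => and (shapeOK n m p) (Nat.ble (norm1 p) S)) fs

lemma dataOK_iff {n m S : Nat} {fs : List (List (List Int))} (h : dataOK n m S fs = true) :
    ∀ p ∈ fs, (p.length = n ∧ ∀ row ∈ p, row.length = m) ∧ norm1 p ≤ S := by
  intro p hp
  have := (allB_iff _ _).mp h p hp
  rw [Bool.and_eq_true] at this
  exact ⟨shapeOK_iff this.1, Nat.le_of_ble_eq_true this.2⟩

/-- interval sanity -/
def ivOK (M : Nat) (a b c : Int) : Bool :=
  and (Nat.ble (Nat.add (Int.natAbs a) (Int.natAbs b)) M) (Nat.ble (Nat.add (Int.natAbs c) (Int.natAbs c)) M)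

/-- `a + b 2^s` -/
def lin2 (a b : Int) (s : Nat) : Int := ia a (shl s b)

/-- one left column: all `y`-intervals for one `r`-interval -/
def colTest (k M YM : Nat) (t : Nat) (cy : Int) (yy : List Int) (R : List Int)
    (J : List (Int × Int)) : Bool :=
  allB (fun J => and (ivOK YM J.1 J.2 cy) (fastTest k M (shorn J.1 J.2 t R yy))) J

/-- the row test for given combined matrix `H` -/
def rowTestH (k n m K : Nat) (XM YM : Nat) (cr cy : Int) (H : List (List Int))
    (left : List ((Int × Int) × List (Int × Int))) : Bool :=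
  allB (fun I => and (ivOK XM I.1.1 I.1.2 cr)
    (colTest k (Nat.mul (Nat.mul m n) K) YM (Nat.mul (Nat.mul (Nat.succ k) K) n) cy
      (pows (lin2 cy cy (Nat.mul (Nat.mul (Nat.succ k) K) n)) m)
      (hornRow I.1.1 I.1.2 (Nat.mul (Nat.succ k) K) H
        (pows (lin2 cr cr (Nat.mul (Nat.succ k) K)) n)) I.2)) left

/-- packed transform with fast Horner -/
def fpk2 (Xr Xy : Int) (yr yy : List Int) (p : List (List Int)) : Int :=
  fhorn Xr (p.map fun row => fhorn Xy row yy) yr

/-- the packed right vectors combined with `C` -/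
def rightG (k n' m' : Nat) (C : List (List Int)) (gs : List (List (List Int)))
    (ar' br' cr' ay' by'' cy' : Int) : List Int :=
  (fun P : List Int => C.map fun c => fdot c P)
    (gs.map (fpk2 (lin2 ar' br' (Nat.succ k)) (lin2 ay' by'' (Nat.mul (Nat.succ k) n'))
      (pows (lin2 cr' cr' (Nat.succ k)) n')
      (pows (lin2 cy' cy' (Nat.mul (Nat.succ k) n')) m')))

/-- the row test -/
def rowTest (k n m n' m' : Nat) (XM YM XM' YM' : Nat) (C : List (List Int))
    (fs gs : List (List (List Int))) (cr cy cr' cy' : Int) (I' J' : Int × Int)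
    (left : List ((Int × Int) × List (Int × Int))) : Bool :=
  and (and (ivOK XM' I'.1 I'.2 cr') (ivOK YM' J'.1 J'.2 cy'))
    (rowTestH k n m (Nat.mul m' n') XM YM cr cy
      (combM (rightG k n' m' C gs I'.1 I'.2 cr' J'.1 J'.2 cy') fs) left)

/-- global bound: norms of the data and of the intervals -/
def bndOK (k n m n' m' : Nat) (XM YM XM' YM' S S' SC : Nat) : Bool :=
  Nat.ble (Nat.succ (Nat.mul SC (Nat.mul (Nat.mul S (Nat.mul (Nat.pow XM (Nat.sub n 1))
    (Nat.pow YM (Nat.sub m 1)))) (Nat.mul S' (Nat.mul (Nat.pow XM' (Nat.sub n' 1))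
    (Nat.pow YM' (Nat.sub m' 1))))))) (Nat.pow 2 k)

lemma lin2_eq (a b : Int) (s : Nat) : lin2 a b s = a + b * 2 ^ s := by
  unfold lin2
  rw [ia_eq, shl_eq]

lemma fpk2_eq (Xr Xy : Int) (yr yy : List Int) (p : List (List Int)) :
    fpk2 Xr Xy yr yy p = pk2 Xr Xy yr yy p := by
  unfold fpk2 pk2
  rw [fhorn_eq]
  congr 1
  apply List.map_congr_left
  intro row _
  exact fhorn_eq _ _ _

theorem rowTest_fastBox {k n m n' m' XM YM XM' YM' S S' SC : Nat} {C : List (List Int)}
    {fs gs : List (List (List Int))} {cr cy cr' cy' : Int} {I' J' : Int × Int}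
    {left : List ((Int × Int) × List (Int × Int))}
    (hf : dataOK n m S fs = true) (hg : dataOK n' m' S' gs = true) (hC : Nat.ble (norm1 C) SC = true)
    (hb : bndOK k n m n' m' XM YM XM' YM' S S' SC = true)
    (h : rowTest k n m n' m' XM YM XM' YM' C fs gs cr cy cr' cy' I' J' left = true) :
    ∀ I ∈ left, ∀ J ∈ I.2,
      fastBox k n m n' m' C fs gs I.1.1 I.1.2 cr J.1 J.2 cy I'.1 I'.2 cr' J'.1 J'.2 cy' = true := by
  intro I hI J hJ
  have hf' := dataOK_iff hf
  have hg' := dataOK_iff hg
  have hC' := Nat.le_of_ble_eq_true hC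
  unfold rowTest rowTestH at h
  rw [Bool.and_eq_true, Bool.and_eq_true, allB_iff] at h
  obtain ⟨⟨hi', hj'⟩, h⟩ := h
  have h1 := h I hI
  rw [Bool.and_eq_true] at h1
  obtain ⟨hi, h1⟩ := h1
  unfold colTest at h1
  rw [allB_iff] at h1
  have h2 := h1 J hJ
  rw [Bool.and_eq_true] at h2
  obtain ⟨hj, h3⟩ := h2
  unfold ivOK at hi hj hi' hj'
  rw [Bool.and_eq_true] at hi hj hi' hj'
  have hi1 := Nat.le_of_ble_eq_true hi.1
  have hi2 := Nat.le_of_ble_eq_true hi.2
  have hj1 := Nat.le_of_ble_eq_true hj.1
  have hj2 := Nat.le_of_ble_eq_true hj.2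
  have hi1' := Nat.le_of_ble_eq_true hi'.1
  have hi2' := Nat.le_of_ble_eq_true hi'.2
  have hj1' := Nat.le_of_ble_eq_true hj'.1
  have hj2' := Nat.le_of_ble_eq_true hj'.2
  have hbd := Nat.le_of_ble_eq_true hb
  unfold fastBox
  rw [Bool.and_eq_true, Bool.and_eq_true, Bool.and_eq_true]
  refine ⟨⟨?_, ?_⟩, ?_, ?_⟩
  · rw [allB_iff]
    intro p hp
    have := (allB_iff _ _).mp hf p hp
    rw [Bool.and_eq_true] at this
    exact this.1
  · rw [allB_iff]
    intro p hp
    have := (allB_iff _ _).mp hg p hp
    rw [Bool.and_eq_true] at this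
    exact this.1
  · rw [Nat.ble_eq]
    refine le_trans (Nat.succ_le_succ ?_) hbd
    have e1 : ∀ b ∈ (fs.map (nb2 (Nat.add (Int.natAbs I.1.1) (Int.natAbs I.1.2))
        (Nat.add (Int.natAbs J.1) (Int.natAbs J.2))
            (powsN (Nat.add (Int.natAbs cr) (Int.natAbs cr)) n)
            (powsN (Nat.add (Int.natAbs cy) (Int.natAbs cy)) m))),
        b ≤ S * (XM ^ (n - 1) * YM ^ (m - 1)) := by
      intro b hb
      rw [List.mem_map] at hb
      obtain ⟨p, hp, rfl⟩ := hb
      obtain ⟨⟨hp1, hp2⟩, hp3⟩ := hf' p hp
      exact (nb2_le _ _ _ _ XM YM hi1 hi2 hj1 hj2 p hp1 hp2).trans (Nat.mul_le_mul_right _ hp3)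
    have e2 : ∀ b ∈ (gs.map (nb2 (Nat.add (Int.natAbs I'.1) (Int.natAbs I'.2))
        (Nat.add (Int.natAbs J'.1) (Int.natAbs J'.2))
            (powsN (Nat.add (Int.natAbs cr') (Int.natAbs cr')) n')
            (powsN (Nat.add (Int.natAbs cy') (Int.natAbs cy')) m'))),
        b ≤ S' * (XM' ^ (n' - 1) * YM' ^ (m' - 1)) := by
      intro b hb
      rw [List.mem_map] at hb
      obtain ⟨p, hp, rfl⟩ := hb
      obtain ⟨⟨hp1, hp2⟩, hp3⟩ := hg' p hp
      exact (nb2_le _ _ _ _ XM' YM' hi1' hi2' hj1' hj2' p hp1 hp2).trans (Nat.mul_le_mul_right _ hp3)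
    refine (dotN_le _ _ _ e1).trans ?_
    have e3 := sumN_le_map C (fun c => dotAbs c (gs.map (nb2 (Nat.add (Int.natAbs I'.1) (Int.natAbs I'.2))
        (Nat.add (Int.natAbs J'.1) (Int.natAbs J'.2))
            (powsN (Nat.add (Int.natAbs cr') (Int.natAbs cr')) n')
            (powsN (Nat.add (Int.natAbs cy') (Int.natAbs cy')) m'))))
      (S' * (XM' ^ (n' - 1) * YM' ^ (m' - 1))) (fun c _ => dotAbs_le c _ _ e2)
    calc _ ≤ S * (XM ^ (n - 1) * YM ^ (m - 1)) * (norm1 C * (S' * (XM' ^ (n' - 1) * YM' ^ (m' - 1)))) :=
          Nat.mul_le_mul_left _ e3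
      _ ≤ S * (XM ^ (n - 1) * YM ^ (m - 1)) * (SC * (S' * (XM' ^ (n' - 1) * YM' ^ (m' - 1)))) :=
          Nat.mul_le_mul_left _ (Nat.mul_le_mul_right _ hC')
      _ = _ := by
        show _ = SC * ((S * (XM ^ (n - 1) * YM ^ (m - 1))) * (S' * (XM' ^ (n' - 1) * YM' ^ (m' - 1))))
        ring
  · have hZ : shorn J.1 J.2 (Nat.mul (Nat.mul (Nat.succ k) (Nat.mul m' n')) n)
        (hornRow I.1.1 I.1.2 (Nat.mul (Nat.succ k) (Nat.mul m' n'))
          (combM (rightG k n' m' C gs I'.1 I'.2 cr' J'.1 J'.2 cy') fs)
          (pows (lin2 cr cr (Nat.mul (Nat.succ k) (Nat.mul m' n'))) n))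
        (pows (lin2 cy cy (Nat.mul (Nat.mul (Nat.succ k) (Nat.mul m' n')) n)) m) =
      (dotI (C.map fun c => dotI c
            (gs.map (pk2
              (Int.add I'.1 (Int.mul I'.2 (Int.ofNat (Nat.pow 2 (Nat.succ k)))))
              (Int.add J'.1 (Int.mul J'.2 (Int.ofNat (Nat.pow 2 (Nat.mul (Nat.succ k) n')))))
              (pows (Int.add cr' (Int.mul cr' (Int.ofNat (Nat.pow 2 (Nat.succ k))))) n')
              (pows (Int.add cy' (Int.mul cy' (Int.ofNat (Nat.pow 2 (Nat.mul (Nat.succ k) n'))))) m'))))
          (fs.map (pk2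
              (Int.add I.1.1 (Int.mul I.1.2 (Int.ofNat (Nat.pow 2 (Nat.mul (Nat.succ k) (Nat.mul m' n'))))))
              (Int.add J.1 (Int.mul J.2 (Int.ofNat
                (Nat.pow 2 (Nat.mul (Nat.mul (Nat.succ k) (Nat.mul m' n')) n)))))
              (pows (Int.add cr (Int.mul cr (Int.ofNat
                (Nat.pow 2 (Nat.mul (Nat.succ k) (Nat.mul m' n')))))) n)
              (pows (Int.add cy (Int.mul cy (Int.ofNat
                (Nat.pow 2 (Nat.mul (Nat.mul (Nat.succ k) (Nat.mul m' n')) n))))) m)))) := by
      have hlin : ∀ (a b : Int) (s : Nat), lin2 a b s = Int.add a (Int.mul b (Int.ofNat (Nat.pow 2 s))) := by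
        intro a b s
        rw [lin2_eq]
        show _ = a + b * ((2 ^ s : Nat) : Int)
        push_cast; ring
      have hshape : ∀ p ∈ fs, p.length = n ∧ ∀ row ∈ p, row.length = m := fun p hp => (hf' p hp).1
      have hG : rightG k n' m' C gs I'.1 I'.2 cr' J'.1 J'.2 cy' =
          C.map fun c => dotI c
            (gs.map (pk2
              (Int.add I'.1 (Int.mul I'.2 (Int.ofNat (Nat.pow 2 (Nat.succ k)))))
              (Int.add J'.1 (Int.mul J'.2 (Int.ofNat (Nat.pow 2 (Nat.mul (Nat.succ k) n')))))
              (pows (Int.add cr' (Int.mul cr' (Int.ofNat (Nat.pow 2 (Nat.succ k))))) n')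
              (pows (Int.add cy' (Int.mul cy' (Int.ofNat (Nat.pow 2 (Nat.mul (Nat.succ k) n'))))) m'))) := by
        unfold rightG
        apply List.map_congr_left
        intro c _
        rw [fdot_eq]
        congr 1
        apply List.map_congr_left
        intro p _
        rw [fpk2_eq, hlin, hlin, hlin, hlin]
      have hrows : ∀ row ∈ combM (rightG k n' m' C gs I'.1 I'.2 cr' J'.1 J'.2 cy') fs,
          row.length = m := by
        rcases (combM_spec 0 0 [] [] (rightG k n' m' C gs I'.1 I'.2 cr' J'.1 J'.2 cy') fs hshape).1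
          with h4 | h4
        · rw [h4]; intro row hr; cases hr
        · exact h4.2
      rw [horn_hornRow _ _ _ _ _ _ _ _ _ hrows, (combM_spec _ _ _ _ _ fs hshape).2, hG,
        ← lin2_eq, ← lin2_eq, hlin, hlin, hlin, hlin]
    rw [← hZ]
    exact h3

end

end Crest.Agent.R163.Bern
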