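import Mathlib
import Crest.Agent.R163.Bern4

/-! Row 163: Bernstein checker, part 5: covers of the domain by cells, symmetric version. -/

set_option autoImplicit false

namespace Crest.Agent.R163.Bern

/-! ### symmetry of the bilinear form -/

lemma bil_nil_right (C : List (List Int)) (xs : List ℝ) : bil C xs [] = 0 := by
  induction C generalizing xs with
  | nil => simp [bil]
  | cons c C ih =>
    cases xs with
    | nil => simp [bil]
    | cons x xs =>
      have : dotR c [] = 0 := by cases c <;> simp [dotR]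
      simp [bil, ih, this]

lemma bil_replicate (N : ℕ) (xs ys : List ℝ) : bil (List.replicate N []) xs ys = 0 := by
  induction N generalizing xs with
  | zero => simp [bil]
  | succ N ih =>
    cases xs with
    | nil => simp [List.replicate_succ, bil]
    | cons x xs => simp [List.replicate_succ, bil, ih, dotR]

lemma bil_zipCons (c : List Int) (T : List (List Int)) (ys xs : List ℝ) (x : ℝ)
    (h : c.length = T.length) :
    bil (zipCons c T) ys (x :: xs) = x * dotR c ys + bil T ys xs := by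
  induction c generalizing T ys with
  | nil =>
    cases T with
    | nil => simp [zipCons, bil, dotR]
    | cons t T => simp at h
  | cons a as ih =>
    cases T with
    | nil => simp at h
    | cons t T =>
      cases ys with
      | nil => simp [zipCons, bil, dotR]
      | cons y ys =>
        simp only [zipCons, bil, dotR, ih T ys (by simpa using h)]
        ring

lemma bil_transp {N : ℕ} (C : List (List Int)) (hC : ∀ c ∈ C, c.length = N) (xs ys : List ℝ)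
    (h : xs.length = C.length) : bil C xs ys = bil (transp N C) ys xs := by
  induction C generalizing xs with
  | nil =>
    rw [transp, bil_replicate]; simp [bil]
  | cons c C ih =>
    cases xs with
    | nil => simp at h
    | cons x xs =>
      have h1 := hC c (by simp)
      have h2 : ∀ c ∈ C, c.length = N := fun v hv => hC v (by simp [hv])
      rw [transp, bil_zipCons _ _ _ _ _ (by rw [h1, length_transp C h2]), bil,
        ih h2 xs (by simpa using h)]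

/-- symmetry test for the matrix -/
def symOK (N : ℕ) (C : List (List Int)) : Bool :=
  and (and (Nat.beq C.length N) (allB (fun c => Nat.beq c.length N) C)) (decide (transp N C = C))

lemma bil_comm {N : ℕ} {C : List (List Int)} (h : symOK N C = true) (xs ys : List ℝ)
    (hx : xs.length = N) : bil C xs ys = bil C ys xs := by
  unfold symOK at h
  rw [Bool.and_eq_true, Bool.and_eq_true, allB_iff] at h
  obtain ⟨⟨h1, h2⟩, h3⟩ := h
  have h1' := Nat.eq_of_beq_eq_true h1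
  rw [bil_transp C (fun c hc => Nat.eq_of_beq_eq_true (h2 c hc)) xs ys (by rw [hx, h1']),
    of_decide_eq_true h3]

/-! ### covers -/

/-- `l` is a chain of consecutive intervals from `a` to `b` -/
def chain (b : Int) (l : List (Int × Int)) : Int → Bool :=
  List.rec (fun _ => false)
    (fun I l ih a => and (and (decide (I.1 = a)) (decide (I.1 < I.2)))
      (List.rec (decide (I.2 = b)) (fun _ _ _ => ih I.2) l)) l

lemma chain_cover {b : Int} {c : Int} (_hc : 0 < c) (l : List (Int × Int)) (a : Int)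
    (h : chain b l a = true) {r : ℝ} (h1 : (a : ℝ) / c ≤ r) (h2 : r ≤ (b : ℝ) / c) :
    ∃ I ∈ l, I.1 < I.2 ∧ (I.1 : ℝ) / c ≤ r ∧ r ≤ (I.2 : ℝ) / c := by
  induction l generalizing a with
  | nil => exact absurd h (by show ¬ (false = true); simp)
  | cons I l ih =>
    have e : chain b (I :: l) a = and (and (decide (I.1 = a)) (decide (I.1 < I.2)))
      (List.rec (decide (I.2 = b)) (fun _ _ _ => chain b l I.2) l) := rfl
    rw [e, Bool.and_eq_true, Bool.and_eq_true, decide_eq_true_iff, decide_eq_true_iff] at h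
    obtain ⟨⟨h3, h4⟩, h5⟩ := h
    cases l with
    | nil =>
      have h6 : decide (I.2 = b) = true := h5
      rw [decide_eq_true_iff] at h6
      exact ⟨I, by simp, h4, by rw [h3]; exact h1, by rw [h6]; exact h2⟩
    | cons I2 l =>
      have h6 : chain b (I2 :: l) I.2 = true := h5
      by_cases h7 : r ≤ (I.2 : ℝ) / c
      · exact ⟨I, by simp, h4, by rw [h3]; exact h1, h7⟩
      · obtain ⟨K, hK, hK2⟩ := ih I.2 h6 (by linarith [not_le.mp h7])
        exact ⟨K, List.mem_cons_of_mem _ hK, hK2⟩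

/-- `left` covers `[ρ0, ρ1] × [η0, η1]` (in units `1/cr`, `1/cy`) -/
def covOK (ρ0 ρ1 η0 η1 : Int) (left : List ((Int × Int) × List (Int × Int))) : Bool :=
  and (chain ρ1 (left.map Prod.fst) ρ0) (allB (fun I => chain η1 I.2 η0) left)

lemma covOK_cover {ρ0 ρ1 η0 η1 cr cy : Int} (hcr : 0 < cr) (hcy : 0 < cy)
    {left : List ((Int × Int) × List (Int × Int))} (h : covOK ρ0 ρ1 η0 η1 left = true)
    {r y : ℝ} (h1 : (ρ0 : ℝ) / cr ≤ r) (h2 : r ≤ (ρ1 : ℝ) / cr)
    (h3 : (η0 : ℝ) / cy ≤ y) (h4 : y ≤ (η1 : ℝ) / cy) :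
    ∃ I ∈ left, ∃ J ∈ I.2, I.1.1 < I.1.2 ∧ (I.1.1 : ℝ) / cr ≤ r ∧ r ≤ (I.1.2 : ℝ) / cr ∧
      J.1 < J.2 ∧ (J.1 : ℝ) / cy ≤ y ∧ y ≤ (J.2 : ℝ) / cy := by
  unfold covOK at h
  rw [Bool.and_eq_true, allB_iff] at h
  obtain ⟨h5, h6⟩ := h
  obtain ⟨I0, hI0, h7, h8, h9⟩ := chain_cover hcr _ _ h5 h1 h2
  rw [List.mem_map] at hI0
  obtain ⟨I, hI, rfl⟩ := hI0
  obtain ⟨J, hJ, h10, h11, h12⟩ := chain_cover hcy _ _ (h6 I hI) h3 h4
  exact ⟨I, hI, J, hJ, h7, h8, h9, h10, h11, h12⟩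

/-- common data of the checks -/
structure Data where
  k : Nat
  n : Nat
  m : Nat
  n' : Nat
  m' : Nat
  XM : Nat
  YM : Nat
  XM' : Nat
  YM' : Nat
  S : Nat
  S' : Nat
  SC : Nat
  cr : Int
  cy : Int
  cr' : Int
  cy' : Int
  C : List (List Int)
  fs : List (List (List Int))
  gs : List (List (List Int))

/-- sanity of the data -/
def Data.ok (D : Data) : Bool :=
  and (and (dataOK D.n D.m D.S D.fs) (dataOK D.n' D.m' D.S' D.gs))
    (and (and (Nat.ble (norm1 D.C) D.SC)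
      (bndOK D.k D.n D.m D.n' D.m' D.XM D.YM D.XM' D.YM' D.S D.S' D.SC))
      (and (and (and (decide (0 < D.n)) (decide (0 < D.m))) (and (decide (0 < D.n')) (decide (0 < D.m'))))
        (and (and (decide (0 < D.cr)) (decide (0 < D.cy)))
          (and (decide (0 < D.cr')) (decide (0 < D.cy'))))))

/-- value of the form -/
noncomputable def Data.val (D : Data) (r y r' y' : ℝ) : ℝ :=
  bil D.C (D.fs.map (ev2 r y)) (D.gs.map (ev2 r' y'))

/-- one right cell against a cover -/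
noncomputable def Data.row (D : Data) (ρ0 ρ1 η0 η1 : Int) (I' J' : Int × Int)
    (left : List ((Int × Int) × List (Int × Int))) : Bool :=
  and (and (and (decide (I'.1 < I'.2)) (decide (J'.1 < J'.2))) (covOK ρ0 ρ1 η0 η1 left))
    (rowTest D.k D.n D.m D.n' D.m' D.XM D.YM D.XM' D.YM' D.C D.fs D.gs D.cr D.cy D.cr' D.cy' I' J' left)

theorem Data.row_sound {D : Data} (hD : D.ok = true) {ρ0 ρ1 η0 η1 : Int} {I' J' : Int × Int}
    {left : List ((Int × Int) × List (Int × Int))} (h : D.row ρ0 ρ1 η0 η1 I' J' left = true)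
    {r y r' y' : ℝ}
    (h1 : (ρ0 : ℝ) / D.cr ≤ r) (h2 : r ≤ (ρ1 : ℝ) / D.cr)
    (h3 : (η0 : ℝ) / D.cy ≤ y) (h4 : y ≤ (η1 : ℝ) / D.cy)
    (h1' : (I'.1 : ℝ) / D.cr' ≤ r') (h2' : r' ≤ (I'.2 : ℝ) / D.cr')
    (h3' : (J'.1 : ℝ) / D.cy' ≤ y') (h4' : y' ≤ (J'.2 : ℝ) / D.cy') :
    0 ≤ D.val r y r' y' := by
  unfold Data.ok at hD
  simp only [Bool.and_eq_true, decide_eq_true_iff] at hD
  obtain ⟨⟨hf, hg⟩, ⟨hC, hb⟩, ⟨⟨hn, hm⟩, hn', hm'⟩, ⟨hcr, hcy⟩, hcr', hcy'⟩ := hD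
  unfold Data.row at h
  simp only [Bool.and_eq_true, decide_eq_true_iff] at h
  obtain ⟨⟨⟨h5, h6⟩, h7⟩, h8⟩ := h
  obtain ⟨I, hI, J, hJ, h9, h10, h11, h12, h13, h14⟩ := covOK_cover hcr hcy h7 h1 h2 h3 h4
  have := rowTest_fastBox hf hg hC hb h8 I hI J hJ
  exact fastBox_sound hn hm hn' hm' hcr hcy hcr' hcy' h9 h12 h5 h6 this h10 h11 h13 h14 h1' h2' h3' h4'

/-- **product domain**: every right cell of a cover is tested against the whole left domain -/
theorem Data.grid_sound {D : Data} (hD : D.ok = true) {ρ0 ρ1 η0 η1 ρ0' ρ1' η0' η1' : Int}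
    {right : List ((Int × Int) × List (Int × Int))} (hcov : covOK ρ0' ρ1' η0' η1' right = true)
    (h : ∀ I' ∈ right, ∀ J' ∈ I'.2, ∃ left, D.row ρ0 ρ1 η0 η1 I'.1 J' left = true)
    {r y r' y' : ℝ}
    (h1 : (ρ0 : ℝ) / D.cr ≤ r) (h2 : r ≤ (ρ1 : ℝ) / D.cr)
    (h3 : (η0 : ℝ) / D.cy ≤ y) (h4 : y ≤ (η1 : ℝ) / D.cy)
    (h1' : (ρ0' : ℝ) / D.cr' ≤ r') (h2' : r' ≤ (ρ1' : ℝ) / D.cr')
    (h3' : (η0' : ℝ) / D.cy' ≤ y') (h4' : y' ≤ (η1' : ℝ) / D.cy') :
    0 ≤ D.val r y r' y' := by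
  have hD' := hD
  unfold Data.ok at hD'
  simp only [Bool.and_eq_true, decide_eq_true_iff] at hD'
  obtain ⟨⟨hf, hg⟩, ⟨hC, hb⟩, ⟨⟨hn, hm⟩, hn', hm'⟩, ⟨hcr, hcy⟩, hcr', hcy'⟩ := hD'
  obtain ⟨I', hI', J', hJ', h9, h10, h11, h12, h13, h14⟩ :=
    covOK_cover hcr' hcy' hcov h1' h2' h3' h4'
  obtain ⟨left, hl⟩ := h I' hI' J' hJ'
  exact Data.row_sound hD hl h1 h2 h3 h4 h10 h11 h13 h14

/-- **symmetric version**: same data on both sides, symmetric matrix; a right cell with `r`-interval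
starting at `a` is only tested against the left domain `r ≥ a` -/
theorem Data.sym_sound {D : Data} (hD : D.ok = true) (hfg : D.gs = D.fs) (hcr2 : D.cr' = D.cr)
    (hcy2 : D.cy' = D.cy) (hsym : symOK D.fs.length D.C = true) {ρ0 ρ1 η0 η1 : Int}
    {right : List ((Int × Int) × List (Int × Int))} (hcov : covOK ρ0 ρ1 η0 η1 right = true)
    (h : ∀ I' ∈ right, ∀ J' ∈ I'.2, ∃ left, D.row I'.1.1 ρ1 η0 η1 I'.1 J' left = true)
    {r y r' y' : ℝ}
    (h1 : (ρ0 : ℝ) / D.cr ≤ r) (h2 : r ≤ (ρ1 : ℝ) / D.cr)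
    (h3 : (η0 : ℝ) / D.cy ≤ y) (h4 : y ≤ (η1 : ℝ) / D.cy)
    (h1' : (ρ0 : ℝ) / D.cr ≤ r') (h2' : r' ≤ (ρ1 : ℝ) / D.cr)
    (h3' : (η0 : ℝ) / D.cy ≤ y') (h4' : y' ≤ (η1 : ℝ) / D.cy) :
    0 ≤ D.val r y r' y' := by
  have hD' := hD
  unfold Data.ok at hD'
  simp only [Bool.and_eq_true, decide_eq_true_iff] at hD'
  obtain ⟨⟨hf, hg⟩, ⟨hC, hb⟩, ⟨⟨hn, hm⟩, hn', hm'⟩, ⟨hcr, hcy⟩, hcr', hcy'⟩ := hD'
  have key : ∀ {r y r' y' : ℝ}, (ρ0 : ℝ) / D.cr ≤ r → r ≤ (ρ1 : ℝ) / D.cr →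
      (η0 : ℝ) / D.cy ≤ y → y ≤ (η1 : ℝ) / D.cy → (ρ0 : ℝ) / D.cr ≤ r' → r' ≤ (ρ1 : ℝ) / D.cr →
      (η0 : ℝ) / D.cy ≤ y' → y' ≤ (η1 : ℝ) / D.cy → r' ≤ r → 0 ≤ D.val r y r' y' := by
    intro r y r' y' h1 h2 h3 h4 h1' h2' h3' h4' hrr
    obtain ⟨I', hI', J', hJ', h9, h10, h11, h12, h13, h14⟩ :=
      covOK_cover hcr hcy hcov h1' h2' h3' h4'
    obtain ⟨left, hl⟩ := h I' hI' J' hJ'
    exact Data.row_sound hD hl (h10.trans hrr) h2 h3 h4 (by rw [hcr2]; exact h10)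
      (by rw [hcr2]; exact h11) (by rw [hcy2]; exact h13) (by rw [hcy2]; exact h14)
  rcases le_total r' r with hrr | hrr
  · exact key h1 h2 h3 h4 h1' h2' h3' h4' hrr
  · have h5 := key h1' h2' h3' h4' h1 h2 h3 h4 hrr
    unfold Data.val at h5 ⊢
    rw [hfg] at h5 ⊢
    rw [bil_comm hsym _ _ (by simp)]
    exact h5

end Crest.Agent.R163.Bern
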