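import Mathlib
import Crest.Prelude.Def_TreeBroadcast

/-! Row 163 (S0246): deterministic part, basics on `LocFinTree`. -/

set_option autoImplicit false
set_option linter.unusedSectionVars false

open Finset

namespace Crest.Agent.R163.CapF

open Crest.ProbabilityR.TreeBroadcast

variable {V : Type*} [DecidableEq V] (T : LocFinTree V)

lemma root_depth : T.depth T.root = 0 := (T.depth_eq_zero_iff _).2 rfl

lemma level_zero : T.level 0 = {T.root} := by
  ext v
  rw [T.mem_level_iff, T.depth_eq_zero_iff, Finset.mem_singleton]

lemma mem_children {v w : V} : w ∈ T.children v ↔ w ≠ T.root ∧ T.parent w = v := by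
  unfold LocFinTree.children
  rw [Finset.mem_filter, T.mem_level_iff]
  constructor
  · rintro ⟨h1, h2⟩
    refine ⟨?_, h2⟩
    rintro rfl
    rw [root_depth] at h1
    omega
  · rintro ⟨h1, h2⟩
    have := T.depth_parent w h1
    rw [h2] at this
    exact ⟨this.symm, h2⟩

lemma depth_of_mem_children {v w : V} (h : w ∈ T.children v) : T.depth w = T.depth v + 1 := by
  rw [mem_children] at h
  have := T.depth_parent w h.1
  rw [h.2] at this
  exact this.symm

lemma parent_of_mem_children {v w : V} (h : w ∈ T.children v) : T.parent w = v :=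
  ((mem_children T).1 h).2

lemma mem_children_parent {w : V} (h : w ≠ T.root) : w ∈ T.children (T.parent w) :=
  (mem_children T).2 ⟨h, rfl⟩

lemma level_succ (k : ℕ) : T.level (k + 1) = (T.level k).biUnion T.children := by
  ext w
  rw [Finset.mem_biUnion, T.mem_level_iff]
  constructor
  · intro h
    have hw : w ≠ T.root := by
      rintro rfl
      rw [root_depth] at h
      omega
    refine ⟨T.parent w, ?_, mem_children_parent T hw⟩
    rw [T.mem_level_iff]
    have := T.depth_parent w hw
    omega
  · rintro ⟨v, hv, hw⟩
    rw [T.mem_level_iff] at hv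
    rw [depth_of_mem_children T hw, hv]

lemma sum_level_succ (k : ℕ) (F : V → ℝ) :
    ∑ w ∈ T.level (k + 1), F w = ∑ v ∈ T.level k, ∑ w ∈ T.children v, F w := by
  rw [level_succ, Finset.sum_biUnion]
  intro v _ v' _ hne
  rw [Function.onFun, Finset.disjoint_left]
  intro w hw hw'
  exact hne ((parent_of_mem_children T hw).symm.trans (parent_of_mem_children T hw'))

lemma sum_level_zero (F : V → ℝ) : ∑ w ∈ T.level 0, F w = F T.root := by
  rw [level_zero, Finset.sum_singleton]

end Crest.Agent.R163.CapF
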