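import Mathlib
import Crest.Agent.R163.CapBasic

/-! Row 163 (S0246): deterministic part, forward direction: from a supermartingale-like recursion
with cubic loss to a flow of finite potential. -/

set_option autoImplicit false
set_option linter.unusedSectionVars false

open Finset Filter Topology

namespace Crest.Agent.R163.CapF

open Crest.ProbabilityR.TreeBroadcast

variable {V : Type*} [DecidableEq V] (T : LocFinTree V)

/-! ### merging `k` children -/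

/-- the cubic correction -/
def cub (η x : ℝ) : ℝ := x + η * x ^ 3

lemma cub_nonneg {η x : ℝ} (hη : 0 ≤ η) (hx : 0 ≤ x) : 0 ≤ cub η x := by
  unfold cub; positivity

lemma le_cub {η x : ℝ} (hη : 0 ≤ η) (hx : 0 ≤ x) : x ≤ cub η x := by
  unfold cub
  have : 0 ≤ η * x ^ 3 := by positivity
  linarith

lemma cub_le {η x M : ℝ} (hη : 0 ≤ η) (hx : 0 ≤ x) (hM : x ≤ M) :
    cub η x ≤ (1 + η * M ^ 2) * x := by
  unfold cub
  have h1 : x ^ 2 ≤ M ^ 2 := by nlinarith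
  have h2 : η * x ^ 2 ≤ η * M ^ 2 := mul_le_mul_of_nonneg_left h1 hη
  nlinarith

lemma cub_mono {η x y : ℝ} (hη : 0 ≤ η) (hx : 0 ≤ x) (h : x ≤ y) : cub η x ≤ cub η y := by
  unfold cub
  have h1 : x ^ 3 ≤ y ^ 3 := by gcongr
  have := mul_le_mul_of_nonneg_left h1 hη
  linarith

/-- one merge step with the cubic defect. `a` = value of the partial merge, `s` = sum of the
inputs of the partial merge, `D` = defect. -/
lemma merge_step {c η M K c₁ a s b z F D : ℝ} (hc : 0 < c) (hη : 0 ≤ η) (hη3 : 3 * η ≤ c / 2)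
    (hM : 0 ≤ M) (hηM : η * M ^ 2 ≤ 1 / 4) (hK : 0 < K)
    (hc₁ : 0 ≤ c₁) (hc₁K : 56 * K ^ 2 * c₁ ≤ 3) (hc₁c : 24 * c₁ ≤ c)
    (ha : 0 ≤ a) (haM : a ≤ M) (hs : 0 ≤ s) (hb : 0 ≤ b) (hsb : s + b ≤ K)
    (hz : 0 ≤ z) (hzle : z ≤ a + b - c * (a ^ 2 * b + a * b ^ 2))
    (hsF : s ≤ F) (hD : D ≤ s ^ 3) (hIH : cub η a ≤ F - c₁ * D) :
    cub η z ≤ F + cub η b - c₁ * (D + ((s + b) ^ 3 - s ^ 3 - b ^ 3)) := by
  have hab : 0 ≤ a ^ 2 * b + a * b ^ 2 := by positivity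
  have h1 : cub η z ≤ cub η a + cub η b - (c - 3 * η) * (a ^ 2 * b + a * b ^ 2) := by
    unfold cub
    have h2 : z ≤ a + b := by nlinarith
    have h3 : z ^ 3 ≤ (a + b) ^ 3 := by gcongr
    have h4 := mul_le_mul_of_nonneg_left h3 hη
    nlinarith
  by_cases hcase : a ≤ s / 2
  · -- crude bound
    have h2 : cub η a ≤ (5 / 8) * s := by
      have := cub_le hη ha haM
      nlinarith
    have h3 : 0 ≤ (c - 3 * η) * (a ^ 2 * b + a * b ^ 2) := by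
      apply mul_nonneg _ hab; linarith
    have h4 : D + ((s + b) ^ 3 - s ^ 3 - b ^ 3) ≤ 7 * K ^ 2 * s := by
      have h5 : (s + b) ^ 3 - b ^ 3 = s * (s ^ 2 + 3 * s * b + 3 * b ^ 2) := by ring
      have h6 : s ^ 2 + 3 * s * b + 3 * b ^ 2 ≤ 7 * K ^ 2 := by
        have h7 : s ≤ K := by linarith
        have h8 : b ≤ K := by linarith
        have h9 : s ^ 2 ≤ K ^ 2 := by nlinarith
        have h10 : b ^ 2 ≤ K ^ 2 := by nlinarith
        have h11 : s * b ≤ K ^ 2 := by nlinarith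
        nlinarith
      have h12 := mul_le_mul_of_nonneg_left h6 hs
      nlinarith
    have h5 : c₁ * (D + ((s + b) ^ 3 - s ^ 3 - b ^ 3)) ≤ c₁ * (7 * K ^ 2 * s) :=
      mul_le_mul_of_nonneg_left h4 hc₁
    have h6 : c₁ * (7 * K ^ 2 * s) ≤ (3 / 8) * s := by nlinarith
    linarith
  · push Not at hcase
    have h2 : c₁ * ((s + b) ^ 3 - s ^ 3 - b ^ 3) ≤ (c - 3 * η) * (a ^ 2 * b + a * b ^ 2) := by
      have h3 : (s + b) ^ 3 - s ^ 3 - b ^ 3 = 3 * (s ^ 2 * b + s * b ^ 2) := by ring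
      have h4 : s ^ 2 * b + s * b ^ 2 ≤ 4 * (a ^ 2 * b + a * b ^ 2) := by
        have h5 : s ≤ 2 * a := by linarith
        have h6 : s ^ 2 ≤ 4 * a ^ 2 := by nlinarith
        have h7 : s ^ 2 * b ≤ 4 * a ^ 2 * b := mul_le_mul_of_nonneg_right h6 hb
        have h8 : s * b ^ 2 ≤ 2 * a * b ^ 2 := mul_le_mul_of_nonneg_right h5 (by positivity)
        have h9 : 0 ≤ a * b ^ 2 := by positivity
        linarith
      rw [h3]
      calc c₁ * (3 * (s ^ 2 * b + s * b ^ 2)) ≤ c₁ * (3 * (4 * (a ^ 2 * b + a * b ^ 2))) := by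
            gcongr
        _ = 12 * c₁ * (a ^ 2 * b + a * b ^ 2) := by ring
        _ ≤ (c - 3 * η) * (a ^ 2 * b + a * b ^ 2) := by
            apply mul_le_mul_of_nonneg_right _ hab
            linarith
    linarith

/-- **merging finitely many children**: pairwise subadditivity with cubic loss gives
subadditivity of `x + η x³` with a fully symmetric cubic loss -/
lemma merge_all {ι : Type*} [DecidableEq ι] {c η M K c₁ : ℝ} (hc : 0 < c) (hη : 0 ≤ η)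
    (hη3 : 3 * η ≤ c / 2) (hM : 0 ≤ M) (hηM : η * M ^ 2 ≤ 1 / 4) (hK : 0 < K)
    (hc₁ : 0 ≤ c₁) (hc₁K : 56 * K ^ 2 * c₁ ≤ 3) (hc₁c : 24 * c₁ ≤ c)
    (S : Finset ι) (y : ι → ℝ) (hy : ∀ i ∈ S, 0 ≤ y i) (hSK : ∑ i ∈ S, y i ≤ K)
    (Z : Finset ι → ℝ) (hZ0 : ∀ A ⊆ S, 0 ≤ Z A) (hZM : ∀ A ⊆ S, Z A ≤ M) (hZe : Z ∅ = 0)
    (hZ : ∀ A ⊆ S, ∀ i ∈ S, i ∉ A → Z (insert i A) ≤
      Z A + y i - c * ((Z A) ^ 2 * y i + Z A * (y i) ^ 2)) :
    cub η (Z S) ≤ ∑ i ∈ S, cub η (y i) - c₁ * ((∑ i ∈ S, y i) ^ 3 - ∑ i ∈ S, (y i) ^ 3) := by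
  have key : ∀ A : Finset ι, A ⊆ S → cub η (Z A) ≤ ∑ i ∈ A, cub η (y i) -
      c₁ * ((∑ i ∈ A, y i) ^ 3 - ∑ i ∈ A, (y i) ^ 3) := by
    intro A
    induction A using Finset.induction_on with
    | empty =>
      intro _
      rw [hZe]
      simp [cub]
    | insert i A hi ih =>
      intro hA
      have hAS : A ⊆ S := (Finset.subset_insert i A).trans hA
      have hiS : i ∈ S := hA (Finset.mem_insert_self i A)
      have hyA : ∀ j ∈ A, 0 ≤ y j := fun j hj => hy j (hAS hj)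
      rw [Finset.sum_insert hi, Finset.sum_insert hi, Finset.sum_insert hi]
      have hsum : y i + ∑ j ∈ A, y j ≤ K := by
        rw [← Finset.sum_insert hi]
        exact (Finset.sum_le_sum_of_subset_of_nonneg hA (fun j hj _ => hy j hj)).trans hSK
      have := merge_step (F := ∑ j ∈ A, cub η (y j))
        (D := (∑ j ∈ A, y j) ^ 3 - ∑ j ∈ A, (y j) ^ 3) hc hη hη3 hM hηM hK hc₁ hc₁K hc₁c
        (hZ0 A hAS) (hZM A hAS) (Finset.sum_nonneg hyA) (hy i hiS) (by linarith)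
        (hZ0 _ hA) (hZ A hAS i hiS hi) (Finset.sum_le_sum fun j hj => le_cub hη (hyA j hj))
        (by
          have : 0 ≤ ∑ j ∈ A, (y j) ^ 3 :=
            Finset.sum_nonneg fun j hj => pow_nonneg (hyA j hj) 3
          linarith) (ih hAS)
      refine this.trans (le_of_eq ?_)
      ring
  exact key S Finset.Subset.rfl

/-- the cubic defect dominates each `x₀² ∑ x` up to the diagonal -/
lemma defect_ge {ι : Type*} [DecidableEq ι] (S : Finset ι) (y : ι → ℝ) (hy : ∀ i ∈ S, 0 ≤ y i)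
    {i₀ : ι} (hi₀ : i₀ ∈ S) :
    3 * ((y i₀) ^ 2 * (∑ i ∈ S, y i) - (y i₀) ^ 3) ≤
      (∑ i ∈ S, y i) ^ 3 - ∑ i ∈ S, (y i) ^ 3 := by
  rw [← Finset.insert_erase hi₀]
  set A := S.erase i₀ with hA
  have hi : i₀ ∉ A := Finset.notMem_erase i₀ S
  rw [Finset.sum_insert hi, Finset.sum_insert hi]
  have hyA : ∀ j ∈ A, 0 ≤ y j := fun j hj => hy j (Finset.mem_of_mem_erase hj)
  have hR : 0 ≤ ∑ j ∈ A, y j := Finset.sum_nonneg hyA
  have hP : 0 ≤ y i₀ := hy i₀ hi₀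
  have h3 : ∑ j ∈ A, (y j) ^ 3 ≤ (∑ j ∈ A, y j) ^ 3 := by
    calc ∑ j ∈ A, (y j) ^ 3 ≤ ∑ j ∈ A, y j * (∑ j ∈ A, y j) ^ 2 := by
          apply Finset.sum_le_sum
          intro j hj
          have h4 : y j ≤ ∑ j ∈ A, y j := Finset.single_le_sum hyA hj
          have h5 := hyA j hj
          have h6 : (y j) ^ 2 ≤ (∑ j ∈ A, y j) ^ 2 := by nlinarith
          have := mul_le_mul_of_nonneg_left h6 h5
          nlinarith
      _ = (∑ j ∈ A, y j) ^ 3 := by rw [← Finset.sum_mul]; ring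
  set R := ∑ j ∈ A, y j
  nlinarith [mul_nonneg hP (mul_nonneg hR hR)]

/-- the recursion hypothesis with loss, from `merge_all` and the edge contraction -/
lemma vertex_loss {ι : Type*} [DecidableEq ι] {c η M K c₁ lam : ℝ} (hl0 : 0 < lam) (hl1 : lam < 1)
    (hc : 0 < c) (hη : 0 < η)
    (hη3 : 3 * η ≤ c / 2) (hM : 0 ≤ M) (hηM : η * M ^ 2 ≤ 1 / 4) (hK : 0 < K)
    (hc₁ : 0 < c₁) (hc₁K : 56 * K ^ 2 * c₁ ≤ 3) (hc₁c : 24 * c₁ ≤ c)
    (S : Finset ι) (x : ι → ℝ) (hx : ∀ i ∈ S, 0 ≤ x i) (hSK : ∑ i ∈ S, x i ≤ K)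
    (Z : Finset ι → ℝ) (hZ0 : ∀ A ⊆ S, 0 ≤ Z A) (hZM : ∀ A ⊆ S, Z A ≤ M) (hZe : Z ∅ = 0)
    (hZ : ∀ A ⊆ S, ∀ i ∈ S, i ∉ A → Z (insert i A) ≤
      Z A + lam ^ 2 * x i - c * ((Z A) ^ 2 * (lam ^ 2 * x i) + Z A * (lam ^ 2 * x i) ^ 2))
    {i₀ : ι} (hi₀ : i₀ ∈ S) :
    cub η (Z S) ≤ lam ^ 2 * ∑ i ∈ S, cub η (x i) -
      min (η * lam ^ 2 * (1 - lam ^ 4)) (3 * c₁ * lam ^ 6) * ((x i₀) ^ 2 * ∑ i ∈ S, x i) := by
  have hl2 : lam ^ 2 ≤ 1 := by nlinarith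
  have hl4 : lam ^ 4 ≤ 1 := by nlinarith [sq_nonneg (lam ^ 2)]
  have h1 := merge_all hc hη.le hη3 hM hηM hK hc₁.le hc₁K hc₁c S (fun i => lam ^ 2 * x i)
    (fun i hi => mul_nonneg (by positivity) (hx i hi))
    (by
      rw [← Finset.mul_sum]
      have : 0 ≤ ∑ i ∈ S, x i := Finset.sum_nonneg hx
      nlinarith) Z hZ0 hZM hZe hZ
  have h2 : ∑ i ∈ S, cub η (lam ^ 2 * x i) = lam ^ 2 * ∑ i ∈ S, cub η (x i) -
      η * lam ^ 2 * (1 - lam ^ 4) * ∑ i ∈ S, (x i) ^ 3 := by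
    rw [Finset.mul_sum, Finset.mul_sum, ← Finset.sum_sub_distrib]
    apply Finset.sum_congr rfl
    intro i _
    unfold cub
    ring
  have h3 : (∑ i ∈ S, lam ^ 2 * x i) ^ 3 - ∑ i ∈ S, (lam ^ 2 * x i) ^ 3 =
      lam ^ 6 * ((∑ i ∈ S, x i) ^ 3 - ∑ i ∈ S, (x i) ^ 3) := by
    rw [← Finset.mul_sum]
    have : ∑ i ∈ S, (lam ^ 2 * x i) ^ 3 = lam ^ 6 * ∑ i ∈ S, (x i) ^ 3 := by
      rw [Finset.mul_sum]
      apply Finset.sum_congr rfl
      intro i _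
      ring
    rw [this]; ring
  rw [h2, h3] at h1
  have h4 := defect_ge S x hx hi₀
  have h5 : (x i₀) ^ 3 ≤ ∑ i ∈ S, (x i) ^ 3 :=
    Finset.single_le_sum (f := fun i => (x i) ^ 3) (fun i hi => pow_nonneg (hx i hi) 3) hi₀
  set s := ∑ i ∈ S, x i with hs
  set μ := min (η * lam ^ 2 * (1 - lam ^ 4)) (3 * c₁ * lam ^ 6) with hμ
  have h6 : μ ≤ η * lam ^ 2 * (1 - lam ^ 4) := min_le_left _ _
  have h7 : μ ≤ 3 * c₁ * lam ^ 6 := min_le_right _ _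
  have hxi : 0 ≤ x i₀ := hx i₀ hi₀
  have h8 : 0 ≤ (x i₀) ^ 2 * s - (x i₀) ^ 3 := by
    have : x i₀ ≤ s := Finset.single_le_sum hx hi₀
    nlinarith [sq_nonneg (x i₀)]
  have h9 : μ * (x i₀) ^ 3 ≤ η * lam ^ 2 * (1 - lam ^ 4) * ∑ i ∈ S, (x i) ^ 3 := by
    calc μ * (x i₀) ^ 3 ≤ η * lam ^ 2 * (1 - lam ^ 4) * (x i₀) ^ 3 :=
          mul_le_mul_of_nonneg_right h6 (pow_nonneg hxi 3)
      _ ≤ _ := by
          apply mul_le_mul_of_nonneg_left h5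
          apply mul_nonneg (by positivity)
          linarith
  have h10 : μ * ((x i₀) ^ 2 * s - (x i₀) ^ 3) ≤
      c₁ * (lam ^ 6 * (s ^ 3 - ∑ i ∈ S, (x i) ^ 3)) := by
    calc μ * ((x i₀) ^ 2 * s - (x i₀) ^ 3) ≤ 3 * c₁ * lam ^ 6 * ((x i₀) ^ 2 * s - (x i₀) ^ 3) :=
          mul_le_mul_of_nonneg_right h7 h8
      _ = c₁ * lam ^ 6 * (3 * ((x i₀) ^ 2 * s - (x i₀) ^ 3)) := by ring
      _ ≤ c₁ * lam ^ 6 * (s ^ 3 - ∑ i ∈ S, (x i) ^ 3) := by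
          apply mul_le_mul_of_nonneg_left h4 (by positivity)
      _ = _ := by ring
  nlinarith

end Crest.Agent.R163.CapF
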