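import Mathlib
import Crest.Agent.R163.CapFwd

/-! Row 163 (S0246): deterministic part, forward direction: construction of the flow. -/

set_option autoImplicit false
set_option linter.unusedSectionVars false

open Finset Filter Topology

namespace Crest.Agent.R163.CapF

open Crest.ProbabilityR.TreeBroadcast

variable {V : Type*} [DecidableEq V] (T : LocFinTree V)

/-- split the mass `m` proportionally to `g` -/
noncomputable def thN (g : V → ℝ) (m : ℝ) : ℕ → V → ℝ
  | 0, _ => m
  | k + 1, w => thN g m k (T.parent w) * (g w / ∑ w' ∈ T.children (T.parent w), g w')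

/-- the flow of mass `m` split proportionally to `g` -/
noncomputable def th (g : V → ℝ) (m : ℝ) (w : V) : ℝ := thN T g m (T.depth w) w

lemma th_root (g : V → ℝ) (m : ℝ) : th T g m T.root = m := by
  unfold th
  rw [root_depth]
  rfl

lemma th_child (g : V → ℝ) (m : ℝ) {v w : V} (h : w ∈ T.children v) :
    th T g m w = th T g m v * (g w / ∑ w' ∈ T.children v, g w') := by
  unfold th
  rw [depth_of_mem_children T h]
  show thN T g m (T.depth v) (T.parent w) * (g w / ∑ w' ∈ T.children (T.parent w), g w') = _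
  rw [parent_of_mem_children T h]

/-- induction along the tree -/
lemma tree_induction {P : V → Prop} (h0 : P T.root)
    (h1 : ∀ v w, w ∈ T.children v → P v → P w) (v : V) : P v := by
  induction hd : T.depth v generalizing v with
  | zero => rw [(T.depth_eq_zero_iff v).1 hd]; exact h0
  | succ k ih =>
    have hv : v ≠ T.root := by
      rintro rfl
      rw [root_depth] at hd
      omega
    have h2 := T.depth_parent v hv
    exact h1 (T.parent v) v (mem_children_parent T hv) (ih (T.parent v) (by omega))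

lemma th_nonneg {g : V → ℝ} (hg : ∀ v, 0 ≤ g v) {m : ℝ} (hm : 0 ≤ m) (v : V) :
    0 ≤ th T g m v := by
  refine tree_induction T (P := fun v => 0 ≤ th T g m v) ?_ ?_ v
  · show 0 ≤ th T g m T.root
    rw [th_root]; exact hm
  · intro v w hw h
    show 0 ≤ th T g m w
    rw [th_child T g m hw]
    exact mul_nonneg h (div_nonneg (hg w) (Finset.sum_nonneg fun i _ => hg i))

lemma th_le {g : V → ℝ} (hg : ∀ v, 0 ≤ g v) {m : ℝ} (hm : 0 ≤ m) (v : V) :
    th T g m v ≤ m := by
  refine tree_induction T (P := fun v => th T g m v ≤ m) ?_ ?_ v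
  · show th T g m T.root ≤ m
    rw [th_root]
  · intro v w hw h
    show th T g m w ≤ m
    rw [th_child T g m hw]
    have h1 : g w / ∑ w' ∈ T.children v, g w' ≤ 1 := by
      apply div_le_one_of_le₀ _ (Finset.sum_nonneg fun i _ => hg i)
      exact Finset.single_le_sum (fun i _ => hg i) hw
    have h2 := th_nonneg T hg hm v
    calc th T g m v * (g w / ∑ w' ∈ T.children v, g w') ≤ th T g m v * 1 :=
          mul_le_mul_of_nonneg_left h1 h2
      _ ≤ m := by rw [mul_one]; exact h

lemma th_eq_zero {g : V → ℝ} {m : ℝ} {v : V} (hv : v ≠ T.root) (h : g v = 0) :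
    th T g m v = 0 := by
  rw [th_child T g m (mem_children_parent T hv), h, zero_div, mul_zero]

lemma sum_th {g : V → ℝ} {m : ℝ} {v : V}
    (h : ∑ w ∈ T.children v, g w = 0 → th T g m v = 0) :
    ∑ w ∈ T.children v, th T g m w = th T g m v := by
  rw [Finset.sum_congr rfl fun w hw => th_child T g m hw, ← Finset.mul_sum, ← Finset.sum_div]
  by_cases h0 : ∑ w ∈ T.children v, g w = 0
  · rw [h h0, zero_mul]
  · rw [div_self h0, mul_one]

set_option maxHeartbeats 1600000 in
/-- one step of the telescoping -/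
lemma tele_step {lam η M μ : ℝ} (hl : 0 < lam) (hη : 0 ≤ η) (hM : 0 ≤ M) (hμ : 0 < μ)
    {x : V → ℝ} (hx0 : ∀ v, 0 ≤ x v) (hxM : ∀ v, x v ≤ M) {m : ℝ} (hm : 0 ≤ m)
    {v w : V} (hw : w ∈ T.children v)
    (hrec : cub η (x v) ≤ lam ^ 2 * ∑ w' ∈ T.children v, cub η (x w') -
      μ * ((x w) ^ 2 * ∑ w' ∈ T.children v, x w'))
    (hz : cub η (x v) = 0 → th T (fun v => cub η (x v)) m v = 0) :
    (th T (fun v => cub η (x v)) m w / lam ^ (2 * T.depth w)) ^ 2 +
      (1 + η * M ^ 2) ^ 3 * lam ^ 2 / μ *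
        (th T (fun v => cub η (x v)) m w / (lam ^ (2 * T.depth w) * cub η (x w))) ^ 2 ≤
      (1 + η * M ^ 2) ^ 3 * lam ^ 2 / μ *
        (th T (fun v => cub η (x v)) m v / (lam ^ (2 * T.depth v) * cub η (x v))) ^ 2 := by
  set g : V → ℝ := fun v => cub η (x v) with hg
  have hg0 : ∀ v, 0 ≤ g v := fun v => cub_nonneg hη (hx0 v)
  set L := 1 + η * M ^ 2 with hL
  have hL1 : 1 ≤ L := by
    rw [hL]; have : 0 ≤ η * M ^ 2 := by positivity
    linarith
  set A := L ^ 3 * lam ^ 2 / μ with hA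
  have hA0 : 0 < A := by positivity
  show (th T g m w / lam ^ (2 * T.depth w)) ^ 2 +
      A * (th T g m w / (lam ^ (2 * T.depth w) * g w)) ^ 2 ≤
      A * (th T g m v / (lam ^ (2 * T.depth v) * g v)) ^ 2
  have hRHS : 0 ≤ A * (th T g m v / (lam ^ (2 * T.depth v) * g v)) ^ 2 := by positivity
  have hch := th_child T g m hw
  rcases (hg0 w).eq_or_lt with h0 | hgw
  · have h1 : th T g m w = 0 := by rw [hch, ← h0, zero_div, mul_zero]
    rw [h1]
    simpa using hRHS
  rcases (hg0 v).eq_or_lt with h0 | hgv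
  · have h1 : th T g m w = 0 := by rw [hch, hz h0.symm, zero_mul]
    rw [h1]
    simpa using hRHS
  set G := ∑ w' ∈ T.children v, g w' with hG
  set X := ∑ w' ∈ T.children v, x w' with hX
  have hGpos : 0 < G := lt_of_lt_of_le hgw (Finset.single_le_sum (fun i _ => hg0 i) hw)
  have hX0 : 0 ≤ X := Finset.sum_nonneg fun i _ => hx0 i
  have hGX : G ≤ L * X := by
    rw [hG, hX, Finset.mul_sum]
    exact Finset.sum_le_sum fun i _ => cub_le hη (hx0 i) (hxM i)
  have hgwx : g w ≤ L * x w := cub_le hη (hx0 w) (hxM w)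
  have hd := depth_of_mem_children T hw
  set P := lam ^ (2 * T.depth v) with hP
  have hP0 : 0 < P := by positivity
  have hPw : lam ^ (2 * T.depth w) = P * lam ^ 2 := by
    rw [hd, hP, ← pow_add]; congr 1
  have hth0 : 0 ≤ th T g m v := th_nonneg T hg0 hm v
  set r := th T g m v / (P * g v) with hr
  have hr0 : 0 ≤ r := by positivity
  set q := g v / (lam ^ 2 * G) with hq
  have hq0 : 0 ≤ q := by positivity
  have e1 : th T g m w / (lam ^ (2 * T.depth w) * g w) = r * q := by
    rw [hPw, hch, hr, hq]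
    field_simp
  have e2 : th T g m w / lam ^ (2 * T.depth w) = r * q * g w := by
    rw [← e1]
    field_simp
  have hq1 : q ≤ 1 - μ / (lam ^ 2 * L) * (x w) ^ 2 := by
    rw [hq, div_le_iff₀ (by positivity)]
    have h1 : μ * ((x w) ^ 2 * G) ≤ μ * ((x w) ^ 2 * (L * X)) := by gcongr
    have h2 : (1 - μ / (lam ^ 2 * L) * (x w) ^ 2) * (lam ^ 2 * G) =
        lam ^ 2 * G - μ * ((x w) ^ 2 * G) / L := by
      field_simp
    rw [h2]
    have h3 : μ * ((x w) ^ 2 * G) / L ≤ μ * ((x w) ^ 2 * X) := by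
      rw [div_le_iff₀ (by positivity)]
      calc μ * ((x w) ^ 2 * G) ≤ μ * ((x w) ^ 2 * (L * X)) := h1
        _ = μ * ((x w) ^ 2 * X) * L := by ring
    have h4 : g v ≤ lam ^ 2 * G - μ * ((x w) ^ 2 * X) := hrec
    linarith
  have hq1' : q ≤ 1 := by
    have : 0 ≤ μ / (lam ^ 2 * L) * (x w) ^ 2 := by positivity
    linarith
  rw [e1, e2]
  have h5 : (r * q * g w) ^ 2 ≤ r ^ 2 * (L ^ 2 * (x w) ^ 2) := by
    have h6 : q ^ 2 ≤ 1 := by nlinarith
    have h7 : (g w) ^ 2 ≤ (L * x w) ^ 2 := by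
      apply pow_le_pow_left₀ hgw.le hgwx
    calc (r * q * g w) ^ 2 = r ^ 2 * (q ^ 2 * (g w) ^ 2) := by ring
      _ ≤ r ^ 2 * (1 * (L * x w) ^ 2) := by gcongr
      _ = _ := by ring
  have h8 : A * (r ^ 2 * (1 - q ^ 2)) ≥ r ^ 2 * (L ^ 2 * (x w) ^ 2) := by
    have h9 : 1 - q ^ 2 ≥ μ / (lam ^ 2 * L) * (x w) ^ 2 := by nlinarith
    have h10 : A * (μ / (lam ^ 2 * L) * (x w) ^ 2) = L ^ 2 * (x w) ^ 2 := by
      rw [hA]; field_simp
    calc A * (r ^ 2 * (1 - q ^ 2)) = r ^ 2 * (A * (1 - q ^ 2)) := by ring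
      _ ≥ r ^ 2 * (A * (μ / (lam ^ 2 * L) * (x w) ^ 2)) := by
          apply mul_le_mul_of_nonneg_left _ (by positivity)
          exact mul_le_mul_of_nonneg_left h9 hA0.le
      _ = _ := by rw [h10]
  nlinarith

/-- **Forward direction, deterministic part.** -/
theorem exists_flow {lam η M μ ε : ℝ} (hl : 0 < lam) (hη : 0 ≤ η) (hM : 0 ≤ M) (hμ : 0 < μ)
    (hε : 0 < ε) (x : ℕ → V → ℝ) (hx0 : ∀ n v, 0 ≤ x n v) (hxM : ∀ n v, x n v ≤ M)
    (hroot : ∀ n, ε ≤ x n T.root)
    (hleaf : ∀ n v, T.depth v < n → T.children v = ∅ → x n v = 0)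
    (hrec : ∀ n v, T.depth v < n → ∀ w ∈ T.children v,
      cub η (x n v) ≤ lam ^ 2 * ∑ w' ∈ T.children v, cub η (x n w') -
        μ * ((x n w) ^ 2 * ∑ w' ∈ T.children v, x n w')) :
    ∃ θ : V → ℝ, IsFlow T θ ∧ 0 < flowMass T θ ∧
      ∀ ξ : ℕ → V, T.IsRay ξ → rayPotential lam θ ξ ≤ 1 := by
  set L := 1 + η * M ^ 2 with hL
  have hL1 : 1 ≤ L := by
    rw [hL]; have : 0 ≤ η * M ^ 2 := by positivity
    linarith
  set A := L ^ 3 * lam ^ 2 / μ with hA
  have hA0 : 0 < A := by positivity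
  set m := ε / (A + 1) with hm
  have hm0 : 0 < m := by positivity
  set g : ℕ → V → ℝ := fun n v => cub η (x n v) with hg
  have hg0 : ∀ n v, 0 ≤ g n v := fun n v => cub_nonneg hη (hx0 n v)
  have hgroot : ∀ n, ε ≤ g n T.root := fun n =>
    (hroot n).trans (le_cub hη (hx0 n T.root))
  set F : ℕ → V → ℝ := fun n v => th T (g n) m v with hF
  have hF0 : ∀ n v, 0 ≤ F n v := fun n v => th_nonneg T (hg0 n) hm0.le v
  have hFm : ∀ n v, F n v ≤ m := fun n v => th_le T (hg0 n) hm0.le v
  -- vanishing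
  have hz : ∀ n v, g n v = 0 → F n v = 0 := by
    intro n v h
    have hv : v ≠ T.root := by
      rintro rfl
      have := hgroot n
      rw [h] at this
      linarith
    exact th_eq_zero T hv h
  -- conservation
  have hcons : ∀ n v, T.depth v < n → ∑ w ∈ T.children v, F n w = F n v := by
    intro n v hv
    apply sum_th
    intro h
    apply hz
    by_cases hc : T.children v = ∅
    · show cub η (x n v) = 0
      rw [hleaf n v hv hc]
      simp [cub]
    · obtain ⟨w, hw⟩ := Finset.nonempty_iff_ne_empty.mpr hc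
      have h1 := hrec n v hv w hw
      have h2 : ∑ w' ∈ T.children v, cub η (x n w') = 0 := h
      rw [h2, mul_zero] at h1
      have h3 : 0 ≤ μ * ((x n w) ^ 2 * ∑ w' ∈ T.children v, x n w') := by
        have : 0 ≤ ∑ w' ∈ T.children v, x n w' := Finset.sum_nonneg fun i _ => hx0 n i
        positivity
      have h4 := hg0 n v
      have h5 : g n v = cub η (x n v) := rfl
      rw [h5] at h4 ⊢
      linarith
  -- potentials
  have hpot : ∀ (ξ : ℕ → V), T.IsRay ξ → ∀ n K, K ≤ n →
      ∑ k ∈ Finset.range K, (F n (ξ (k + 1)) / lam ^ (2 * (k + 1))) ^ 2 ≤ 1 := by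
    intro ξ hξ n K hK
    have hdepth : ∀ k, T.depth (ξ k) = k := by
      intro k
      induction k with
      | zero => rw [hξ.1, root_depth]
      | succ k ih => rw [depth_of_mem_children T (hξ.2 k), ih]
    have key : ∀ K, K ≤ n →
        ∑ k ∈ Finset.range K, (F n (ξ (k + 1)) / lam ^ (2 * (k + 1))) ^ 2 +
          A * (F n (ξ K) / (lam ^ (2 * K) * g n (ξ K))) ^ 2 ≤
          A * (F n (ξ 0) / (lam ^ (2 * 0) * g n (ξ 0))) ^ 2 := by
      intro K
      induction K with
      | zero => intro _; simp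
      | succ K ih =>
        intro hK
        have h1 := ih (by omega)
        have h2 := tele_step T hl hη hM hμ (hx0 n) (hxM n) hm0.le (hξ.2 K)
          (hrec n (ξ K) (by rw [hdepth]; omega) _ (hξ.2 K)) (fun h => hz n (ξ K) h)
        rw [hdepth K, hdepth (K + 1)] at h2
        rw [Finset.sum_range_succ]
        have h3 : (F n (ξ (K + 1)) / lam ^ (2 * (K + 1))) ^ 2 +
            A * (F n (ξ (K + 1)) / (lam ^ (2 * (K + 1)) * g n (ξ (K + 1)))) ^ 2 ≤
            A * (F n (ξ K) / (lam ^ (2 * K) * g n (ξ K))) ^ 2 := h2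
        linarith
    have h1 := key K hK
    have h2 : 0 ≤ A * (F n (ξ K) / (lam ^ (2 * K) * g n (ξ K))) ^ 2 := by positivity
    have h3 : A * (F n (ξ 0) / (lam ^ (2 * 0) * g n (ξ 0))) ^ 2 ≤ 1 := by
      rw [hξ.1]
      have h4 : F n T.root = m := th_root T (g n) m
      rw [h4, mul_zero, pow_zero, one_mul]
      have h5 : m / g n T.root ≤ m / ε := div_le_div_of_nonneg_left hm0.le hε (hgroot n)
      have h6 : 0 ≤ m / g n T.root := div_nonneg hm0.le (hg0 n _)
      have h7 : (m / g n T.root) ^ 2 ≤ (m / ε) ^ 2 := pow_le_pow_left₀ h6 h5 2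
      have h8 : m / ε = 1 / (A + 1) := by
        rw [hm]; field_simp
      rw [h8] at h7
      calc A * (m / g n T.root) ^ 2 ≤ A * (1 / (A + 1)) ^ 2 :=
            mul_le_mul_of_nonneg_left h7 hA0.le
        _ = A / (A + 1) ^ 2 := by rw [one_div, inv_pow]; rfl
        _ ≤ 1 := by
            rw [div_le_one (by positivity)]
            nlinarith
    linarith
  -- compactness
  let U : Ultrafilter ℕ := Filter.hyperfilter ℕ
  have hlim : ∀ v, ∃ a ∈ Set.Icc 0 m, Tendsto (fun n => F n v) (U : Filter ℕ) (𝓝 a) := by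
    intro v
    have h1 : Set.Icc (0 : ℝ) m ∈ (U.map fun n => F n v) := by
      rw [Ultrafilter.mem_map]
      apply Filter.univ_mem'
      intro n
      exact ⟨hF0 n v, hFm n v⟩
    obtain ⟨a, ha, h2⟩ := isCompact_Icc.ultrafilter_le_nhds' (U.map fun n => F n v) h1
    exact ⟨a, ha, h2⟩
  choose θ hθ hθlim using hlim
  have hev : ∀ N : ℕ, ∀ᶠ n in (U : Filter ℕ), N ≤ n := by
    intro N
    have h1 : (U : Filter ℕ) ≤ atTop := Nat.hyperfilter_le_atTop
    exact h1 (Filter.eventually_ge_atTop N)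
  have hcons' : ∀ v, θ v = ∑ w ∈ T.children v, θ w := by
    intro v
    have h1 : Tendsto (fun n => ∑ w ∈ T.children v, F n w) (U : Filter ℕ)
        (𝓝 (∑ w ∈ T.children v, θ w)) := tendsto_finsetSum _ fun w _ => hθlim w
    have h2 : Tendsto (fun n => F n v) (U : Filter ℕ) (𝓝 (∑ w ∈ T.children v, θ w)) := by
      refine h1.congr' ?_
      filter_upwards [hev (T.depth v + 1)] with n hn
      exact hcons n v (by omega)
    exact tendsto_nhds_unique (hθlim v) h2
  refine ⟨θ, ⟨fun v => (hθ v).1, fun v _ => hcons' v⟩, ?_, ?_⟩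
  · unfold flowMass
    rw [← hcons' T.root]
    have h1 : Tendsto (fun n => F n T.root) (U : Filter ℕ) (𝓝 m) := by
      have : (fun n => F n T.root) = fun _ => m := by
        funext n
        exact th_root T (g n) m
      rw [this]
      exact tendsto_const_nhds
    rw [tendsto_nhds_unique (hθlim T.root) h1]
    exact hm0
  · intro ξ hξ
    unfold rayPotential
    apply ENNReal.tsum_le_of_sum_range_le
    intro K
    rw [← ENNReal.ofReal_sum_of_nonneg (fun _ _ => sq_nonneg _), ← ENNReal.ofReal_one]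
    apply ENNReal.ofReal_le_ofReal
    have h1 : Tendsto (fun n => ∑ k ∈ Finset.range K,
        (F n (ξ (k + 1)) / lam ^ (2 * (k + 1))) ^ 2) (U : Filter ℕ)
        (𝓝 (∑ k ∈ Finset.range K, (θ (ξ (k + 1)) / lam ^ (2 * (k + 1))) ^ 2)) :=
      tendsto_finsetSum _ fun k _ => ((hθlim (ξ (k + 1))).div_const _).pow 2
    apply le_of_tendsto h1
    filter_upwards [hev K] with n hn
    exact hpot ξ hξ n K hn

end Crest.Agent.R163.CapF
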