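import Crest.Agent.R163.CenWin
import Crest.Agent.R163.WinRows

/-!
Row 163, centre region: `CenOK` for lists of rows.
-/

set_option autoImplicit false

namespace Crest.Agent.R163.Cen

open Win

lemma cenOK_mono {side pos : Bool} {s0 s1 : ℚ} {w : List Int} (h : CenOK side pos s1 w)
    (h01 : s0 ≤ s1) : CenOK side pos s0 w := fun x y z a b c d e f =>
  h x y z a b c d e (f.trans (by exact_mod_cast h01))

lemma cenOK_all {side pos : Bool} {U s0 : ℚ} {n D : ℕ} {ws : List (List Int)}
    (h : (ws.all fun w => cenTest side pos U n D w) = true) (hs0 : s0 ≤ U ^ 2) :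
    ∀ w ∈ ws, CenOK side pos s0 w := fun w hw =>
  cenOK_of_test (List.all_eq_true.1 h w hw) hs0

end Crest.Agent.R163.Cen
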