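import Crest.Agent.R163.CenEst

/-!
Row 163, centre region: norm bounds and the truncation estimate for one of the three terms.
-/

set_option autoImplicit false
set_option linter.unusedVariables false

namespace Crest.Agent.R163.Cen

open Complex

/-- numerical constants for one functional -/
structure Cst (x t u0 : ℝ) where
  l : ℝ
  K1 : ℝ
  K2 : ℝ
  K3 : ℝ
  K4 : ℝ
  K5 : ℝ
  K6 : ℝ
  K7 : ℝ
  K8 : ℝ
  K9 : ℝ
  K10 : ℝ
  K11 : ℝ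
  K12 : ℝ
  K13 : ℝ
  g1 : ℝ
  g2 : ℝ
  g3 : ℝ
  g4 : ℝ
  g5 : ℝ
  g6 : ℝ
  g7 : ℝ
  g8 : ℝ
  g9 : ℝ
  g10 : ℝ
  g11 : ℝ
  g12 : ℝ
  Dm : ℝ
  r0 : ℝ
  C : ℝ
  hx0 : 0 ≤ x
  hx1 : x ≤ 1 / 2
  hu0 : 0 ≤ u0
  hl0 : 0 ≤ l
  hl : ∀ v, 0 ≤ v → v ≤ 2 → (1 - 3 * x) ^ 2 * v + t ^ 2 * (6 - 3 * v) ≤ l ^ 2
  hK1 : 0 ≤ K1 ∧ ∀ v, 0 ≤ v → v ≤ 2 →
    (3 / 2 * (0 - 2 * x) - (1 - 3 * x) * v) ^ 2 + 3 * t ^ 2 * (v * (2 - v)) ≤ K1 ^ 2
  hK2 : 0 ≤ K2 ∧ ∀ v, 0 ≤ v → v ≤ 2 →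
    (3 / 2 * (1 - 2 * x) - (1 - 3 * x) * v) ^ 2 + 3 * t ^ 2 * (v * (2 - v)) ≤ K2 ^ 2
  hK3 : 0 ≤ K3 ∧ ∀ v, 0 ≤ v → v ≤ 2 →
    (3 / 2 * (2 - 2 * x) - (1 - 3 * x) * v) ^ 2 + 3 * t ^ 2 * (v * (2 - v)) ≤ K3 ^ 2
  hK4 : 0 ≤ K4 ∧ ∀ v, 0 ≤ v → v ≤ 2 →
    (3 / 2 * (3 - 2 * x) - (1 - 3 * x) * v) ^ 2 + 3 * t ^ 2 * (v * (2 - v)) ≤ K4 ^ 2
  hK5 : 0 ≤ K5 ∧ ∀ v, 0 ≤ v → v ≤ 2 →
    (3 / 2 * (4 - 2 * x) - (1 - 3 * x) * v) ^ 2 + 3 * t ^ 2 * (v * (2 - v)) ≤ K5 ^ 2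
  hK6 : 0 ≤ K6 ∧ ∀ v, 0 ≤ v → v ≤ 2 →
    (3 / 2 * (5 - 2 * x) - (1 - 3 * x) * v) ^ 2 + 3 * t ^ 2 * (v * (2 - v)) ≤ K6 ^ 2
  hK7 : 0 ≤ K7 ∧ ∀ v, 0 ≤ v → v ≤ 2 →
    (3 / 2 * (6 - 2 * x) - (1 - 3 * x) * v) ^ 2 + 3 * t ^ 2 * (v * (2 - v)) ≤ K7 ^ 2
  hK8 : 0 ≤ K8 ∧ ∀ v, 0 ≤ v → v ≤ 2 →
    (3 / 2 * (7 - 2 * x) - (1 - 3 * x) * v) ^ 2 + 3 * t ^ 2 * (v * (2 - v)) ≤ K8 ^ 2
  hK9 : 0 ≤ K9 ∧ ∀ v, 0 ≤ v → v ≤ 2 →
    (3 / 2 * (8 - 2 * x) - (1 - 3 * x) * v) ^ 2 + 3 * t ^ 2 * (v * (2 - v)) ≤ K9 ^ 2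
  hK10 : 0 ≤ K10 ∧ ∀ v, 0 ≤ v → v ≤ 2 →
    (3 / 2 * (9 - 2 * x) - (1 - 3 * x) * v) ^ 2 + 3 * t ^ 2 * (v * (2 - v)) ≤ K10 ^ 2
  hK11 : 0 ≤ K11 ∧ ∀ v, 0 ≤ v → v ≤ 2 →
    (3 / 2 * (10 - 2 * x) - (1 - 3 * x) * v) ^ 2 + 3 * t ^ 2 * (v * (2 - v)) ≤ K11 ^ 2
  hK12 : 0 ≤ K12 ∧ ∀ v, 0 ≤ v → v ≤ 2 →
    (3 / 2 * (11 - 2 * x) - (1 - 3 * x) * v) ^ 2 + 3 * t ^ 2 * (v * (2 - v)) ≤ K12 ^ 2
  hK13 : 0 ≤ K13 ∧ ∀ v, 0 ≤ v → v ≤ 2 →
    (3 / 2 * (12 - 2 * x) - (1 - 3 * x) * v) ^ 2 + 3 * t ^ 2 * (v * (2 - v)) ≤ K13 ^ 2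
  hg1 : l ≤ g1
  hg2 : l * g1 + K1 ≤ 2 * g2
  hg3 : l * g2 + K2 * g1 + 7072 / 10000 ≤ 3 * g3
  hg4 : l * g3 + K3 * g2 ≤ 4 * g4
  hg5 : l * g4 + K4 * g3 + 7072 / 10000 * g2 ≤ 5 * g5
  hg6 : l * g5 + K5 * g4 + 2 * (7072 / 10000) * g3 ≤ 6 * g6
  hg7 : l * g6 + K6 * g5 + 3 * (7072 / 10000) * g4 ≤ 7 * g7
  hg8 : l * g7 + K7 * g6 + 4 * (7072 / 10000) * g5 ≤ 8 * g8
  hg9 : l * g8 + K8 * g7 + 5 * (7072 / 10000) * g6 ≤ 9 * g9
  hg10 : l * g9 + K9 * g8 + 6 * (7072 / 10000) * g7 ≤ 10 * g10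
  hg11 : l * g10 + K10 * g9 + 7 * (7072 / 10000) * g8 ≤ 11 * g11
  hg12 : l * g11 + K11 * g10 + 8 * (7072 / 10000) * g9 ≤ 12 * g12
  hDm0 : 0 < Dm
  hDm : Dm ≤ 1 - 3 / 2 * u0 ^ 2 - 7072 / 10000 * u0 ^ 3
  hr0 : 0 ≤ r0
  hr1 : r0 < 1
  hr : 2 * u0 ^ 2 ≤ r0 ^ 2
  hC : (l * g12 + K12 * g11 + 9 * (7072 / 10000) * g10) + (K13 * g12 + 10 * (7072 / 10000) * g11) * u0
    + 11 * (7072 / 10000) * g12 * u0 ^ 2 ≤ C * (Dm * (1 - r0))

/-- geometry: `y = a`, `s = avg z²` -/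
structure Geo (a b c s : ℝ) : Prop where
  h1 : a + b + c = 0
  h2 : a ^ 2 + b ^ 2 + c ^ 2 = 3 * s

lemma Geo.e (a b c s : ℝ) (h : Geo a b c s) : a * b + b * c + c * a = -(3 / 2) * s := by
  have := h.h1; have := h.h2
  nlinarith [sq_nonneg (a + b + c), congrArg (fun z => z ^ 2) h.h1]

lemma Geo.s_nonneg {a b c s : ℝ} (h : Geo a b c s) : 0 ≤ s := by
  have := h.h2; nlinarith [sq_nonneg a, sq_nonneg b, sq_nonneg c]

lemma Geo.a_sq {a b c s : ℝ} (h : Geo a b c s) : a ^ 2 ≤ 2 * s := by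
  have h1 := h.h1; have h2 := h.h2
  have h3 : a ^ 2 = (b + c) ^ 2 := by
    have : a = -(b + c) := by linarith
    rw [this]; ring
  nlinarith [sq_nonneg (b - c)]

lemma Geo.rot {a b c s : ℝ} (h : Geo a b c s) : Geo b a c s :=
  ⟨by linarith [h.h1], by linarith [h.h2]⟩

lemma Geo.rot2 {a b c s : ℝ} (h : Geo a b c s) : Geo c a b s :=
  ⟨by linarith [h.h1], by linarith [h.h2]⟩

/-- `w² ≤ s³/2` -/
lemma Geo.w_sq {a b c s : ℝ} (h : Geo a b c s) : (a * b * c) ^ 2 ≤ s ^ 3 / 2 := by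
  have h1 := h.h1; have h2 := h.h2
  have hc : c = -(a + b) := by linarith
  have hs : s = 2 / 3 * (a ^ 2 + a * b + b ^ 2) := by subst hc; linarith
  subst hs; subst hc
  nlinarith [sq_nonneg ((a - b) * (a + 2 * b) * (2 * a + b))]

lemma norm_le_of_sq {z : ℂ} {B : ℝ} (hB : 0 ≤ B) (h : z.re ^ 2 + z.im ^ 2 ≤ B ^ 2) : ‖z‖ ≤ B := by
  rw [Complex.norm_eq_sqrt_sq_add_sq]
  exact Real.sqrt_le_iff.mpr ⟨hB, h⟩

lemma quad1 {A B L s y2 : ℝ} (h : ∀ v, 0 ≤ v → v ≤ 2 → A * v + B * (6 - 3 * v) ≤ L) (hs : 0 ≤ s)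
    (h0 : 0 ≤ y2) (h1 : y2 ≤ 2 * s) : A * y2 + B * (6 * s - 3 * y2) ≤ L * s := by
  rcases hs.eq_or_lt with rfl | hs'
  · obtain rfl : y2 = 0 := by linarith
    simp
  · have h2 := h (y2 / s) (div_nonneg h0 hs) (by rw [div_le_iff₀ hs']; exact h1)
    have h3 : A * y2 + B * (6 * s - 3 * y2) = (A * (y2 / s) + B * (6 - 3 * (y2 / s))) * s := by
      field_simp
    rw [h3]
    exact mul_le_mul_of_nonneg_right h2 hs

lemma quad2 {α β T K s y2 : ℝ}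
    (h : ∀ v, 0 ≤ v → v ≤ 2 → (α - β * v) ^ 2 + 3 * T * (v * (2 - v)) ≤ K) (hs : 0 ≤ s)
    (h0 : 0 ≤ y2) (h1 : y2 ≤ 2 * s) :
    (α * s - β * y2) ^ 2 + 3 * T * (y2 * (2 * s - y2)) ≤ K * s ^ 2 := by
  rcases hs.eq_or_lt with rfl | hs'
  · obtain rfl : y2 = 0 := by linarith
    simp
  · have h2 := h (y2 / s) (div_nonneg h0 hs) (by rw [div_le_iff₀ hs']; exact h1)
    have h3 : (α * s - β * y2) ^ 2 + 3 * T * (y2 * (2 * s - y2))
        = ((α - β * (y2 / s)) ^ 2 + 3 * T * (y2 / s * (2 - y2 / s))) * s ^ 2 := by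
      field_simp
    rw [h3]
    exact mul_le_mul_of_nonneg_right h2 (sq_nonneg s)

section bounds

variable {x t u0 a b c s u : ℝ}

lemma d_sq (h : Geo a b c s) : (b - c) ^ 2 = 6 * s - 3 * a ^ 2 := by
  have h1 := h.h1; have h2 := h.h2
  have : a = -(b + c) := by linarith
  subst this
  linarith

lemma lam0_le (k : Cst x t u0) (h : Geo a b c s) (hu : 0 ≤ u) (hus : u ^ 2 = s) :
    ‖lam0 x t a (b - c)‖ ≤ k.l * u := by
  apply norm_le_of_sq (mul_nonneg k.hl0 hu)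
  have h1 : (lam0 x t a (b - c)).re = (1 - 3 * x) * a := by simp [lam0]
  have h2 : (lam0 x t a (b - c)).im = t * (b - c) := by simp [lam0]
  rw [h1, h2]
  have h3 := quad1 (A := (1 - 3 * x) ^ 2) (B := t ^ 2) (L := k.l ^ 2) k.hl h.s_nonneg
    (sq_nonneg a) h.a_sq
  have h4 := d_sq h
  calc ((1 - 3 * x) * a) ^ 2 + (t * (b - c)) ^ 2
      = (1 - 3 * x) ^ 2 * a ^ 2 + t ^ 2 * (6 * s - 3 * a ^ 2) := by rw [← h4]; ring
    _ ≤ k.l ^ 2 * s := h3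
    _ = (k.l * u) ^ 2 := by rw [← hus]; ring

lemma lam1_le (m K : ℝ) (hK : 0 ≤ K ∧ ∀ v, 0 ≤ v → v ≤ 2 →
      (3 / 2 * (m - 2 * x) - (1 - 3 * x) * v) ^ 2 + 3 * t ^ 2 * (v * (2 - v)) ≤ K ^ 2)
    (h : Geo a b c s) (hus : u ^ 2 = s) :
    ‖lam1 x t a (b - c) (-(3 / 2) * s) - (m : ℂ) * ((-(3 / 2) * s : ℝ) : ℂ)‖ ≤ K * u ^ 2 := by
  apply norm_le_of_sq (mul_nonneg hK.1 (sq_nonneg u))
  have h1 : (lam1 x t a (b - c) (-(3 / 2) * s) - (m : ℂ) * ((-(3 / 2) * s : ℝ) : ℂ)).re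
      = 3 / 2 * (m - 2 * x) * s - (1 - 3 * x) * a ^ 2 := by
    rw [← Complex.ofReal_mul]
    simp only [lam1, Complex.sub_re, Complex.add_re, Complex.ofReal_re, Complex.mul_re,
      Complex.ofReal_im, Complex.I_re, Complex.I_im]
    ring
  have h2 : (lam1 x t a (b - c) (-(3 / 2) * s) - (m : ℂ) * ((-(3 / 2) * s : ℝ) : ℂ)).im
      = t * a * (b - c) := by
    rw [← Complex.ofReal_mul]
    simp only [lam1, Complex.sub_im, Complex.add_im, Complex.ofReal_re, Complex.mul_im,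
      Complex.ofReal_im, Complex.I_re, Complex.I_im]
    ring
  rw [h1, h2]
  have h3 := quad2 (α := 3 / 2 * (m - 2 * x)) (β := 1 - 3 * x) (T := t ^ 2) (K := K ^ 2) hK.2
    h.s_nonneg (sq_nonneg a) h.a_sq
  have h4 := d_sq h
  calc (3 / 2 * (m - 2 * x) * s - (1 - 3 * x) * a ^ 2) ^ 2 + (t * a * (b - c)) ^ 2
      = (3 / 2 * (m - 2 * x) * s - (1 - 3 * x) * a ^ 2) ^ 2
        + 3 * t ^ 2 * (a ^ 2 * (2 * s - a ^ 2)) := by
        have : (t * a * (b - c)) ^ 2 = t ^ 2 * a ^ 2 * (b - c) ^ 2 := by ring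
        rw [this, h4]; ring
    _ ≤ K ^ 2 * s ^ 2 := h3
    _ = (K * u ^ 2) ^ 2 := by rw [← hus]; ring

lemma w_le (h : Geo a b c s) (hu : 0 ≤ u) (hus : u ^ 2 = s) :
    |a * b * c| ≤ 7072 / 10000 * u ^ 3 := by
  apply abs_le_of_sq_le_sq _ (by positivity)
  have h1 := h.w_sq
  rw [← hus] at h1
  nlinarith [pow_nonneg hu 6]

lemma hw_norm (h : Geo a b c s) (hu : 0 ≤ u) (hus : u ^ 2 = s) :
    ‖((a * b * c : ℝ) : ℂ)‖ ≤ 7072 / 10000 * u ^ 3 := by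
  rw [Complex.norm_real]; exact w_le h hu hus

/-- one step of the norm recursion -/
lemma step3 {z l0 A W G2 G1 G0 : ℂ} {N l K κ γ γ2 γ1 γ0 u : ℝ} {n : ℕ} (hN : 0 < N)
    (hz : (N : ℂ) * z = l0 * G2 + A * G1 + W * G0) (hu : 0 ≤ u) (hl0 : 0 ≤ l) (hK0 : 0 ≤ K)
    (hκ : 0 ≤ κ) (h0 : ‖l0‖ ≤ l * u) (hA : ‖A‖ ≤ K * u ^ 2) (hW : ‖W‖ ≤ κ * u ^ 3)
    (hG2 : ‖G2‖ ≤ γ2 * u ^ (n + 2)) (hG1 : ‖G1‖ ≤ γ1 * u ^ (n + 1)) (hG0 : ‖G0‖ ≤ γ0 * u ^ n)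
    (hγ : l * γ2 + K * γ1 + κ * γ0 ≤ N * γ) : ‖z‖ ≤ γ * u ^ (n + 3) := by
  have h1 : N * ‖z‖ = ‖(N : ℂ) * z‖ := by
    rw [norm_mul, Complex.norm_real, Real.norm_of_nonneg hN.le]
  have h2 : ‖(N : ℂ) * z‖ ≤ l * u * (γ2 * u ^ (n + 2)) + K * u ^ 2 * (γ1 * u ^ (n + 1))
      + κ * u ^ 3 * (γ0 * u ^ n) := by
    rw [hz]
    refine (norm_add₃_le).trans ?_
    rw [norm_mul, norm_mul, norm_mul]
    gcongr
  have h3 : l * u * (γ2 * u ^ (n + 2)) + K * u ^ 2 * (γ1 * u ^ (n + 1))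
      + κ * u ^ 3 * (γ0 * u ^ n) = (l * γ2 + K * γ1 + κ * γ0) * u ^ (n + 3) := by ring
  have h4 : N * ‖z‖ ≤ N * (γ * u ^ (n + 3)) := by
    rw [h1]
    refine h2.trans ?_
    rw [h3, ← mul_assoc]
    exact mul_le_mul_of_nonneg_right hγ (by positivity)
  exact le_of_mul_le_mul_left h4 hN

/-- norm bounds for a solution of the recursion -/
structure GB (k : Cst x t u0) (g : ℕ → ℂ) (u : ℝ) : Prop where
  b10 : ‖g 10‖ ≤ k.g10 * u ^ 10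
  b11 : ‖g 11‖ ≤ k.g11 * u ^ 11
  b12 : ‖g 12‖ ≤ k.g12 * u ^ 12

lemma gbound (k : Cst x t u0) (h : Geo a b c s) (hu : 0 ≤ u) (hus : u ^ 2 = s) (g : ℕ → ℂ)
    (hg : Rec (lam0 x t a (b - c)) (lam1 x t a (b - c) (-(3 / 2) * s)) (-(3 / 2) * s)
      (a * b * c) g) : GB k g u := by
  have L0 := lam0_le k h hu hus
  have W0 := hw_norm h hu hus
  have b0 : ‖g 0‖ ≤ 1 * u ^ 0 := by rw [hg.h0]; simp
  have b1 : ‖g 1‖ ≤ k.g1 * u ^ 1 := by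
    rw [hg.h1, hg.h0, mul_one, pow_one]
    exact L0.trans (mul_le_mul_of_nonneg_right k.hg1 hu)
  have b2 : ‖g 2‖ ≤ k.g2 * u ^ 2 := by
    have A := lam1_le 0 k.K1 k.hK1 h hus
    have h1 : 2 * ‖g 2‖ = ‖2 * g 2‖ := by rw [norm_mul]; simp
    have h2 : 2 * ‖g 2‖ ≤ k.l * u * (k.g1 * u ^ 1) + k.K1 * u ^ 2 * (1 * u ^ 0) := by
      rw [h1, hg.h2]
      refine (norm_add_le _ _).trans ?_
      rw [norm_mul, norm_mul]
      have hl := k.hl0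
      have hK := k.hK1.1
      simp only [Complex.ofReal_zero, zero_mul, sub_zero] at A
      gcongr
    have h3 : k.l * u * (k.g1 * u ^ 1) + k.K1 * u ^ 2 * (1 * u ^ 0)
        = (k.l * k.g1 + k.K1) * u ^ 2 := by ring
    rw [h3] at h2
    have := mul_le_mul_of_nonneg_right k.hg2 (sq_nonneg u)
    linarith
  have b3 : ‖g 3‖ ≤ k.g3 * u ^ 3 := by
    have A := lam1_le 1 k.K2 k.hK2 h hus
    refine step3 (N := 3) (n := 0) (by norm_num) ?_ hu k.hl0 k.hK2.1 (by norm_num) L0 A W0 b2 b1 b0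
      (by linarith [k.hg3])
    have hh := hg.h3
    push_cast at hh ⊢
    linear_combination hh
  have b4 : ‖g 4‖ ≤ k.g4 * u ^ 4 := by
    have A := lam1_le 2 k.K3 k.hK3 h hus
    refine step3 (N := 4) (n := 1) (κ := 0) (W := 0) (by norm_num) ?_ hu k.hl0 k.hK3.1 le_rfl L0 A
      (by simp) b3 b2 b1 (by linarith [k.hg4])
    have hh := hg.h4
    push_cast at hh ⊢
    linear_combination hh
  have b5 : ‖g 5‖ ≤ k.g5 * u ^ 5 := by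
    have A := lam1_le 3 k.K4 k.hK4 h hus
    refine step3 (N := 5) (n := 2) (κ := 7072 / 10000) (W := -((a * b * c : ℝ) : ℂ))
      (by norm_num) ?_ hu k.hl0 k.hK4.1 (by norm_num) L0 A (by rw [norm_neg]; exact W0) b4 b3 b2
      (by linarith [k.hg5])
    have hh := hg.h5
    push_cast at hh ⊢
    linear_combination hh
  have b6 : ‖g 6‖ ≤ k.g6 * u ^ 6 := by
    have A := lam1_le 4 k.K5 k.hK5 h hus
    refine step3 (N := 6) (n := 3) (κ := 2 * (7072 / 10000)) (W := -2 * ((a * b * c : ℝ) : ℂ))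
      (by norm_num) ?_ hu k.hl0 k.hK5.1 (by norm_num) L0 A ?_ b5 b4 b3 (by linarith [k.hg6])
    · have hh := hg.h6
      push_cast at hh ⊢
      linear_combination hh
    · rw [norm_mul, norm_neg]; simp only [Complex.norm_ofNat]; nlinarith [W0]
  have b7 : ‖g 7‖ ≤ k.g7 * u ^ 7 := by
    have A := lam1_le 5 k.K6 k.hK6 h hus
    refine step3 (N := 7) (n := 4) (κ := 3 * (7072 / 10000)) (W := -3 * ((a * b * c : ℝ) : ℂ))
      (by norm_num) ?_ hu k.hl0 k.hK6.1 (by norm_num) L0 A ?_ b6 b5 b4 (by linarith [k.hg7])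
    · have hh := hg.h7
      push_cast at hh ⊢
      linear_combination hh
    · rw [norm_mul, norm_neg]; simp only [Complex.norm_ofNat]; nlinarith [W0]
  have b8 : ‖g 8‖ ≤ k.g8 * u ^ 8 := by
    have A := lam1_le 6 k.K7 k.hK7 h hus
    refine step3 (N := 8) (n := 5) (κ := 4 * (7072 / 10000)) (W := -4 * ((a * b * c : ℝ) : ℂ))
      (by norm_num) ?_ hu k.hl0 k.hK7.1 (by norm_num) L0 A ?_ b7 b6 b5 (by linarith [k.hg8])
    · have hh := hg.h8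
      push_cast at hh ⊢
      linear_combination hh
    · rw [norm_mul, norm_neg]; simp only [Complex.norm_ofNat]; nlinarith [W0]
  have b9 : ‖g 9‖ ≤ k.g9 * u ^ 9 := by
    have A := lam1_le 7 k.K8 k.hK8 h hus
    refine step3 (N := 9) (n := 6) (κ := 5 * (7072 / 10000)) (W := -5 * ((a * b * c : ℝ) : ℂ))
      (by norm_num) ?_ hu k.hl0 k.hK8.1 (by norm_num) L0 A ?_ b8 b7 b6 (by linarith [k.hg9])
    · have hh := hg.h9
      push_cast at hh ⊢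
      linear_combination hh
    · rw [norm_mul, norm_neg]; simp only [Complex.norm_ofNat]; nlinarith [W0]
  have b10 : ‖g 10‖ ≤ k.g10 * u ^ 10 := by
    have A := lam1_le 8 k.K9 k.hK9 h hus
    refine step3 (N := 10) (n := 7) (κ := 6 * (7072 / 10000)) (W := -6 * ((a * b * c : ℝ) : ℂ))
      (by norm_num) ?_ hu k.hl0 k.hK9.1 (by norm_num) L0 A ?_ b9 b8 b7 (by linarith [k.hg10])
    · have hh := hg.h10
      push_cast at hh ⊢
      linear_combination hh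
    · rw [norm_mul, norm_neg]; simp only [Complex.norm_ofNat]; nlinarith [W0]
  have b11 : ‖g 11‖ ≤ k.g11 * u ^ 11 := by
    have A := lam1_le 9 k.K10 k.hK10 h hus
    refine step3 (N := 11) (n := 8) (κ := 7 * (7072 / 10000)) (W := -7 * ((a * b * c : ℝ) : ℂ))
      (by norm_num) ?_ hu k.hl0 k.hK10.1 (by norm_num) L0 A ?_ b10 b9 b8 (by linarith [k.hg11])
    · have hh := hg.h11
      push_cast at hh ⊢
      linear_combination hh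
    · rw [norm_mul, norm_neg]; simp only [Complex.norm_ofNat]; nlinarith [W0]
  have b12 : ‖g 12‖ ≤ k.g12 * u ^ 12 := by
    have A := lam1_le 10 k.K11 k.hK11 h hus
    refine step3 (N := 12) (n := 9) (κ := 8 * (7072 / 10000)) (W := -8 * ((a * b * c : ℝ) : ℂ))
      (by norm_num) ?_ hu k.hl0 k.hK11.1 (by norm_num) L0 A ?_ b11 b10 b9 (by linarith [k.hg12])
    · have hh := hg.h12
      push_cast at hh ⊢
      linear_combination hh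
    · rw [norm_mul, norm_neg]; simp only [Complex.norm_ofNat]; nlinarith [W0]
  exact ⟨b10, b11, b12⟩

/-- truncation error for one of the three terms -/
theorem one_term (k : Cst x t u0) (h : Geo a b c s) (hu : 0 ≤ u) (hus : u ^ 2 = s) (huu : u ≤ u0)
    (g : ℕ → ℂ)
    (hg : Rec (lam0 x t a (b - c)) (lam1 x t a (b - c) (-(3 / 2) * s)) (-(3 / 2) * s)
      (a * b * c) g) :
    ‖Tf g 1 * exp (-Lf x t a b c 1) - 1‖ ≤ k.C * u ^ 13 / 13 := by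
  have GBk := gbound k h hu hus g hg
  have he := h.e
  have L0 := lam0_le k h hu hus
  have W0 := hw_norm h hu hus
  have A8 := lam1_le 11 k.K12 k.hK12 h hus
  have A9 := lam1_le 12 k.K13 k.hK13 h hus
  have hsmall : ∀ v : ℝ, v ^ 2 ≤ 2 * s → |v| ≤ k.r0 := by
    intro v hv
    apply abs_le_of_sq_le_sq _ k.hr0
    have := k.hr
    have hu2 : u ^ 2 ≤ u0 ^ 2 := pow_le_pow_left₀ hu huu 2
    nlinarith
  have ha := hsmall a h.a_sq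
  have hb := hsmall b h.rot.a_sq
  have hc := hsmall c h.rot2.a_sq
  refine trunc x t a b c k.r0 k.Dm (k.C * u ^ 13) g h.h1 k.hx0 k.hx1 k.hr1 ha hb hc k.hDm0 ?_ ?_ ?_
  · intro τ h0 h1
    have hD : (1 + τ * a) * (1 + τ * b) * (1 + τ * c)
        = 1 + (a * b + b * c + c * a) * τ ^ 2 + (a * b * c) * τ ^ 3 := by
      linear_combination τ * h.h1
    rw [hD, he, ← hus]
    have hw := abs_le.mp (w_le h hu hus)
    have hu2 : u ^ 2 ≤ u0 ^ 2 := pow_le_pow_left₀ hu huu 2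
    have hu3 : u ^ 3 ≤ u0 ^ 3 := pow_le_pow_left₀ hu huu 3
    have ht2 : τ ^ 2 ≤ 1 := pow_le_one₀ h0 h1
    have ht3 : τ ^ 3 ≤ 1 := pow_le_one₀ h0 h1
    have e1 : u ^ 2 * τ ^ 2 ≤ u ^ 2 * 1 := mul_le_mul_of_nonneg_left ht2 (sq_nonneg u)
    have e2 : -(7072 / 10000 * u ^ 3) * 1 ≤ -(7072 / 10000 * u ^ 3) * τ ^ 3 := by
      have : 0 ≤ 7072 / 10000 * u ^ 3 := by positivity
      nlinarith
    have e3 : -(7072 / 10000 * u ^ 3) * τ ^ 3 ≤ a * b * c * τ ^ 3 :=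
      mul_le_mul_of_nonneg_right hw.1 (by positivity)
    have := k.hDm
    nlinarith
  · rw [he]; exact hg
  · intro τ h0 h1
    rw [he]
    have hτ : ‖(τ : ℂ)‖ ≤ 1 := by rw [Complex.norm_real, Real.norm_of_nonneg h0]; exact h1
    have hl := k.hl0
    have hK8 := k.hK12.1
    have hK9 := k.hK13.1
    have hg6 : 0 ≤ k.g10 * u ^ 10 := (norm_nonneg _).trans GBk.b10
    have hg7 : 0 ≤ k.g11 * u ^ 11 := (norm_nonneg _).trans GBk.b11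
    have hg8 : 0 ≤ k.g12 * u ^ 12 := (norm_nonneg _).trans GBk.b12
    have t1 : ‖lam0 x t a (b - c) * g 12
        + (lam1 x t a (b - c) (-(3 / 2) * s) - 11 * ((-(3 / 2) * s : ℝ) : ℂ)) * g 11
        - 9 * ((a * b * c : ℝ) : ℂ) * g 10‖
        ≤ (k.l * k.g12 + k.K12 * k.g11 + 9 * (7072 / 10000) * k.g10) * u ^ 13 := by
      have h5 : ‖(9 : ℂ) * ((a * b * c : ℝ) : ℂ)‖ ≤ 9 * (7072 / 10000 * u ^ 3) := by
        rw [norm_mul]; simp only [Complex.norm_ofNat]; linarith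
      calc _ ≤ ‖lam0 x t a (b - c) * g 12‖
            + ‖(lam1 x t a (b - c) (-(3 / 2) * s) - 11 * ((-(3 / 2) * s : ℝ) : ℂ)) * g 11‖
            + ‖9 * ((a * b * c : ℝ) : ℂ) * g 10‖ :=
            (norm_sub_le _ _).trans (by gcongr; exact norm_add_le _ _)
        _ ≤ k.l * u * (k.g12 * u ^ 12) + k.K12 * u ^ 2 * (k.g11 * u ^ 11)
            + 9 * (7072 / 10000 * u ^ 3) * (k.g10 * u ^ 10) := by
            rw [norm_mul, norm_mul, norm_mul (9 * ((a * b * c : ℝ) : ℂ))]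
            have A8' : ‖lam1 x t a (b - c) (-(3 / 2) * s) - 11 * ((-(3 / 2) * s : ℝ) : ℂ)‖
              ≤ k.K12 * u ^ 2 := by simpa using A8
            have := GBk.b10; have := GBk.b11; have := GBk.b12
            gcongr
        _ = _ := by ring
    have t2 : ‖(lam1 x t a (b - c) (-(3 / 2) * s) - 12 * ((-(3 / 2) * s : ℝ) : ℂ)) * g 12
        - 10 * ((a * b * c : ℝ) : ℂ) * g 11‖
        ≤ (k.K13 * k.g12 + 10 * (7072 / 10000) * k.g11) * u ^ 14 := by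
      have h6 : ‖(10 : ℂ) * ((a * b * c : ℝ) : ℂ)‖ ≤ 10 * (7072 / 10000 * u ^ 3) := by
        rw [norm_mul]; simp only [Complex.norm_ofNat]; linarith
      calc _ ≤ ‖(lam1 x t a (b - c) (-(3 / 2) * s) - 12 * ((-(3 / 2) * s : ℝ) : ℂ)) * g 12‖
            + ‖10 * ((a * b * c : ℝ) : ℂ) * g 11‖ := norm_sub_le _ _
        _ ≤ k.K13 * u ^ 2 * (k.g12 * u ^ 12) + 10 * (7072 / 10000 * u ^ 3) * (k.g11 * u ^ 11) := by
            rw [norm_mul, norm_mul (10 * ((a * b * c : ℝ) : ℂ))]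
            have A9' : ‖lam1 x t a (b - c) (-(3 / 2) * s) - 12 * ((-(3 / 2) * s : ℝ) : ℂ)‖
              ≤ k.K13 * u ^ 2 := by simpa using A9
            have := GBk.b11; have := GBk.b12
            gcongr
        _ = _ := by ring
    have t3 : ‖11 * ((a * b * c : ℝ) : ℂ) * g 12‖ ≤ 11 * (7072 / 10000) * k.g12 * u ^ 15 := by
      have h7 : ‖(11 : ℂ) * ((a * b * c : ℝ) : ℂ)‖ ≤ 11 * (7072 / 10000 * u ^ 3) := by
        rw [norm_mul]; simp only [Complex.norm_ofNat]; linarith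
      calc _ ≤ 11 * (7072 / 10000 * u ^ 3) * (k.g12 * u ^ 12) := by
            rw [norm_mul]
            have := GBk.b12
            gcongr
        _ = _ := by ring
    have u9 : 0 ≤ u ^ 13 := by positivity
    have s2 : (k.K13 * k.g12 + 10 * (7072 / 10000) * k.g11) * u ^ 14
        ≤ (k.K13 * k.g12 + 10 * (7072 / 10000) * k.g11) * u0 * u ^ 13 := by
      have hnn : 0 ≤ (k.K13 * k.g12 + 10 * (7072 / 10000) * k.g11) * u ^ 13 := by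
        rcases hu.eq_or_lt with h0 | h0
        · rw [← h0]; simp
        · have g8 : 0 ≤ k.g12 := nonneg_of_mul_nonneg_left hg8 (by positivity)
          have g7 : 0 ≤ k.g11 := nonneg_of_mul_nonneg_left hg7 (by positivity)
          positivity
      have := mul_le_mul_of_nonneg_left huu hnn
      nlinarith
    have s3 : 11 * (7072 / 10000) * k.g12 * u ^ 15 ≤ 11 * (7072 / 10000) * k.g12 * u0 ^ 2 * u ^ 13 := by
      have hnn : 0 ≤ 11 * (7072 / 10000) * k.g12 * u ^ 13 := by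
        rcases hu.eq_or_lt with h0 | h0
        · rw [← h0]; simp
        · have g8 : 0 ≤ k.g12 := nonneg_of_mul_nonneg_left hg8 (by positivity)
          positivity
      have := mul_le_mul_of_nonneg_left (pow_le_pow_left₀ hu huu 2) hnn
      nlinarith
    have hC := mul_le_mul_of_nonneg_right k.hC u9
    calc _ ≤ (k.l * k.g12 + k.K12 * k.g11 + 9 * (7072 / 10000) * k.g10) * u ^ 13
          + (k.K13 * k.g12 + 10 * (7072 / 10000) * k.g11) * u ^ 14 * 1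
          + 11 * (7072 / 10000) * k.g12 * u ^ 15 * 1 := by
          refine (norm_sub_le _ _).trans ?_
          refine add_le_add ((norm_add_le _ _).trans (add_le_add t1 ?_)) ?_
          · rw [norm_mul]
            exact mul_le_mul t2 hτ (norm_nonneg _) ((norm_nonneg _).trans t2)
          · rw [norm_mul, norm_pow]
            exact mul_le_mul t3 (pow_le_one₀ (norm_nonneg _) hτ) (by positivity)
              ((norm_nonneg _).trans t3)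
      _ ≤ _ := by nlinarith

end bounds

end Crest.Agent.R163.Cen
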