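import Crest.Agent.R163.CenOde

/-!
Row 163, centre region: the truncation error.
-/

set_option autoImplicit false

namespace Crest.Agent.R163.Cen

open Complex

lemma Lf_re (x t a b c τ : ℝ) : (Lf x t a b c τ).re
    = (1 - 2 * x) * Real.log (1 + τ * a) + x * (Real.log (1 + τ * b) + Real.log (1 + τ * c)) := by
  simp [Lf]

lemma Lf_im (x t a b c τ : ℝ) : (Lf x t a b c τ).im
    = t * (Real.log (1 + τ * b) - Real.log (1 + τ * c)) := by
  simp [Lf]

lemma exp_neg_Lf_le (x t a b c τ r : ℝ) (hx0 : 0 ≤ x) (hx1 : x ≤ 1 / 2) (hr : r < 1)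
    (ha : 1 - r ≤ 1 + τ * a) (hb : 1 - r ≤ 1 + τ * b) (hc : 1 - r ≤ 1 + τ * c) :
    ‖exp (-Lf x t a b c τ)‖ ≤ 1 / (1 - r) := by
  have h1r : 0 < 1 - r := by linarith
  rw [Complex.norm_exp, Complex.neg_re, Lf_re, Real.exp_neg, ← one_div]
  apply one_div_le_one_div_of_le h1r
  have la : Real.log (1 - r) ≤ Real.log (1 + τ * a) := Real.log_le_log h1r ha
  have lb : Real.log (1 - r) ≤ Real.log (1 + τ * b) := Real.log_le_log h1r hb
  have lc : Real.log (1 - r) ≤ Real.log (1 + τ * c) := Real.log_le_log h1r hc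
  calc 1 - r = Real.exp (Real.log (1 - r)) := (Real.exp_log h1r).symm
    _ ≤ _ := by
      apply Real.exp_le_exp.mpr
      nlinarith [mul_le_mul_of_nonneg_left la (by linarith : 0 ≤ 1 - 2 * x),
        mul_le_mul_of_nonneg_left lb hx0, mul_le_mul_of_nonneg_left lc hx0]

/-- Main truncation estimate: `‖T(1)/G(1) - 1‖ ≤ C / 13` when the residual is `≤ C τ^8`. -/
theorem trunc (x t a b c r Dm C : ℝ) (g : ℕ → ℂ) (hs : a + b + c = 0) (hx0 : 0 ≤ x)
    (hx1 : x ≤ 1 / 2) (hr : r < 1) (ha : |a| ≤ r) (hb : |b| ≤ r) (hc : |c| ≤ r)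
    (hD : 0 < Dm)
    (hDm : ∀ τ : ℝ, 0 ≤ τ → τ ≤ 1 → Dm ≤ (1 + τ * a) * (1 + τ * b) * (1 + τ * c))
    (hg : Rec (lam0 x t a (b - c)) (lam1 x t a (b - c) (a * b + b * c + c * a))
      (a * b + b * c + c * a) (a * b * c) g)
    (hC : ∀ τ : ℝ, 0 ≤ τ → τ ≤ 1 →
      ‖(lam0 x t a (b - c) * g 12
          + (lam1 x t a (b - c) (a * b + b * c + c * a) - 11 * ((a * b + b * c + c * a : ℝ) : ℂ)) * g 11
          - 9 * ((a * b * c : ℝ) : ℂ) * g 10)
          + ((lam1 x t a (b - c) (a * b + b * c + c * a) - 12 * ((a * b + b * c + c * a : ℝ) : ℂ)) * g 12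
          - 10 * ((a * b * c : ℝ) : ℂ) * g 11) * τ
          - 11 * ((a * b * c : ℝ) : ℂ) * g 12 * (τ : ℂ) ^ 2‖ ≤ C * (Dm * (1 - r))) :
    ‖Tf g 1 * exp (-Lf x t a b c 1) - 1‖ ≤ C / 13 := by
  have h1r : 0 < 1 - r := by linarith
  have hr0 : 0 ≤ r := (abs_nonneg a).trans ha
  have pos : ∀ (v : ℝ), |v| ≤ r → ∀ τ : ℝ, 0 ≤ τ → τ ≤ 1 → 1 - r ≤ 1 + τ * v := by
    intro v hv τ h0 h1
    have := abs_le.mp hv
    nlinarith
  set F : ℝ → ℂ := fun τ => Tf g τ * exp (-Lf x t a b c τ) with hF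
  set F' : ℝ → ℂ := fun τ => Tf' g τ * exp (-Lf x t a b c τ)
    + Tf g τ * (exp (-Lf x t a b c τ) * (-Lf' x t a b c τ)) with hF'
  have hder : ∀ τ : ℝ, 0 ≤ τ → τ ≤ 1 → HasDerivAt F (F' τ) τ := by
    intro τ h0 h1
    have p1 := lt_of_lt_of_le h1r (pos a ha τ h0 h1)
    have p2 := lt_of_lt_of_le h1r (pos b hb τ h0 h1)
    have p3 := lt_of_lt_of_le h1r (pos c hc τ h0 h1)
    have hL := (hasDerivAt_Lf x t a b c τ p1 p2 p3).neg.cexp
    exact (hasDerivAt_Tf g τ).mul hL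
  have hbound : ∀ τ : ℝ, 0 ≤ τ → τ ≤ 1 → ‖F' τ‖ ≤ C * τ ^ 12 := by
    intro τ h0 h1
    have q1 := pos a ha τ h0 h1
    have q2 := pos b hb τ h0 h1
    have q3 := pos c hc τ h0 h1
    have p1 := lt_of_lt_of_le h1r q1
    have p2 := lt_of_lt_of_le h1r q2
    have p3 := lt_of_lt_of_le h1r q3
    have hDτ := hDm τ h0 h1
    have hDpos := lt_of_lt_of_le hD hDτ
    set D : ℝ := (1 + τ * a) * (1 + τ * b) * (1 + τ * c) with hDdef
    have hDe : (D : ℂ) = 1 + ((a * b + b * c + c * a : ℝ) : ℂ) * (τ : ℂ) ^ 2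
        + ((a * b * c : ℝ) : ℂ) * (τ : ℂ) ^ 3 := by
      have : D = 1 + (a * b + b * c + c * a) * τ ^ 2 + (a * b * c) * τ ^ 3 := by
        rw [hDdef]
        linear_combination τ * hs
      rw [this]; push_cast; ring
    have hres := hg.residual (τ : ℂ)
    have hLm := Lf'_mul x t a b c τ hs p1 p2 p3
    have key : F' τ * (D : ℂ) = exp (-Lf x t a b c τ) * (-(τ : ℂ) ^ 12 *
        ((lam0 x t a (b - c) * g 12
          + (lam1 x t a (b - c) (a * b + b * c + c * a) - 11 * ((a * b + b * c + c * a : ℝ) : ℂ)) * g 11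
          - 9 * ((a * b * c : ℝ) : ℂ) * g 10)
          + ((lam1 x t a (b - c) (a * b + b * c + c * a) - 12 * ((a * b + b * c + c * a : ℝ) : ℂ)) * g 12
          - 10 * ((a * b * c : ℝ) : ℂ) * g 11) * τ
          - 11 * ((a * b * c : ℝ) : ℂ) * g 12 * (τ : ℂ) ^ 2)) := by
      rw [← hres, ← hDe, ← hLm, hF']
      ring
    have hn : ‖F' τ‖ * D = ‖F' τ * (D : ℂ)‖ := by
      rw [norm_mul, Complex.norm_real, Real.norm_of_nonneg hDpos.le]
    have hE := exp_neg_Lf_le x t a b c τ r hx0 hx1 hr q1 q2 q3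
    have hC' := hC τ h0 h1
    have hC0 : 0 ≤ C * (Dm * (1 - r)) := (norm_nonneg _).trans hC'
    have h2 : ‖F' τ‖ * D ≤ 1 / (1 - r) * (τ ^ 12 * (C * (Dm * (1 - r)))) := by
      rw [hn, key, norm_mul, norm_mul, norm_neg, norm_pow, Complex.norm_real,
        Real.norm_of_nonneg h0]
      gcongr
    have h3 : 1 / (1 - r) * (τ ^ 12 * (C * (Dm * (1 - r)))) = C * τ ^ 12 * Dm := by
      field_simp
    rw [h3] at h2
    have hC1 : 0 ≤ C * τ ^ 12 := by
      have : 0 ≤ C := by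
        by_contra hneg
        push Not at hneg
        have := mul_neg_of_neg_of_pos hneg (mul_pos hD h1r)
        linarith
      positivity
    have h4 : ‖F' τ‖ * Dm ≤ C * τ ^ 12 * Dm :=
      (mul_le_mul_of_nonneg_left hDτ (norm_nonneg _)).trans h2
    exact le_of_mul_le_mul_right h4 hD
  have hfin := image_norm_le_of_norm_deriv_right_le_deriv_boundary (f := fun τ => F τ - 1)
    (f' := F') (a := 0) (b := 1) (B := fun τ => C / 13 * τ ^ 13) (B' := fun τ => C * τ ^ 12)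
    (fun τ hτ => ((hder τ hτ.1 hτ.2).sub_const 1).continuousAt.continuousWithinAt)
    (fun τ hτ => ((hder τ hτ.1 hτ.2.le).sub_const 1).hasDerivWithinAt)
    (by
      have : F 0 = 1 := by
        simp only [hF]
        simp [Tf, Lf, hg.h0]
      simp [this])
    (fun τ => by
      have := (hasDerivAt_pow 13 τ).const_mul (C / 13)
      refine this.congr_deriv ?_
      norm_num; ring)
    (fun τ hτ => hbound τ hτ.1 hτ.2.le)
  have := @hfin 1 ⟨zero_le_one, le_rfl⟩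
  simpa [hF] using this

end Crest.Agent.R163.Cen
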