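import Crest.Agent.R163.CenRec

/-!
Row 163, centre region: numeric data for one functional.
-/

set_option autoImplicit false
set_option linter.unusedVariables false
set_option maxRecDepth 4000

namespace Crest.Agent.R163.Cen

/-! ### `C(1/2, 1/2)` -/

noncomputable def h1_p (y e w : ℝ) : ℕ → ℝ
  | 0 =>
      1
  | 1 =>
      -(1 / 2) * y
  | 2 =>
      e + (3 / 4) * y ^ 2
  | 3 =>
      (3 / 8) * w + (1 / 8) * y * e
  | 4 =>
      -(1 / 6) * e ^ 2 + (3 / 32) * y * w - (3 / 32) * y ^ 2 * e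
  | 5 =>
      -(13 / 64) * e * w - (3 / 64) * y * e ^ 2 - (3 / 64) * y ^ 2 * w
  | 6 =>
      -(9 / 128) * w ^ 2 + (1 / 18) * e ^ 3 - (5 / 64) * y * e * w + (3 / 128) * y ^ 2 * e ^ 2
  | 7 =>
      (89 / 768) * e ^ 2 * w - (9 / 256) * y * w ^ 2 + (53 / 2304) * y * e ^ 3 + (3 / 128) * y ^ 2
        * e * w
  | 8 =>
      (619 / 7168) * e * w ^ 2 - (11 / 504) * e ^ 4 + (879 / 14336) * y * e ^ 2 * w + (69 / 14336)
        * y ^ 2 * w ^ 2 - (69 / 14336) * y ^ 2 * e ^ 3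
  | 9 =>
      (93 / 4096) * w ^ 3 - (2341 / 36864) * e ^ 3 * w + (233 / 4096) * y * e * w ^ 2 - (475 /
        36864) * y * e ^ 4 - (9 / 4096) * y ^ 2 * e ^ 2 * w
  | 10 =>
      -(4167 / 57344) * e ^ 2 * w ^ 2 + (37 / 4536) * e ^ 5 + (1035 / 57344) * y * w ^ 3 - (55 /
        1152) * y * e ^ 3 * w + (323 / 57344) * y ^ 2 * e * w ^ 2 - (2755 / 1548288) * y ^ 2 * e ^
        4
  | 11 =>
      -(4429 / 114688) * e * w ^ 3 + (3319 / 114688) * e ^ 4 * w - (3909 / 57344) * y * e ^ 2 * w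
        ^ 2 + (8017 / 1032192) * y * e ^ 5 + (411 / 114688) * y ^ 2 * w ^ 3 - (7 / 512) * y ^ 2 *
        e ^ 3 * w
  | 12 =>
      -(40437 / 5046272) * w ^ 4 + (481805 / 11354112) * e ^ 3 * w ^ 2 - (521 / 299376) * e ^ 6 -
        (55507 / 1261568) * y * e * w ^ 3 + (1685311 / 45416448) * y * e ^ 4 * w - (68087 /
        2523136) * y ^ 2 * e ^ 2 * w ^ 2 + (598439 / 136249344) * y ^ 2 * e ^ 5
  | _ => 0

noncomputable def h1_q (y e w : ℝ) : ℕ → ℝ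
  | 0 =>
      0
  | 1 =>
      (1 / 2)
  | 2 =>
      0
  | 3 =>
      (1 / 6) * e + (1 / 8) * y ^ 2
  | 4 =>
      (1 / 8) * w + (1 / 24) * y * e
  | 5 =>
      -(1 / 12) * e ^ 2 + (3 / 64) * y * w - (3 / 64) * y ^ 2 * e
  | 6 =>
      -(13 / 96) * e * w - (1 / 32) * y * e ^ 2 - (1 / 32) * y ^ 2 * w
  | 7 =>
      -(101 / 1792) * w ^ 2 + (13 / 252) * e ^ 3 - (163 / 2688) * y * e * w + (19 / 768) * y ^ 2 *
        e ^ 2
  | 8 =>
      (101 / 768) * e ^ 2 * w - (51 / 1792) * y * w ^ 2 + (125 / 5376) * y * e ^ 3 + (33 / 896) *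
        y ^ 2 * e * w
  | 9 =>
      (1627 / 14336) * e * w ^ 2 - (323 / 9072) * e ^ 4 + (1887 / 28672) * y * e ^ 2 * w + (405 /
        28672) * y ^ 2 * w ^ 2 - (11831 / 774144) * y ^ 2 * e ^ 3
  | 10 =>
      (237 / 7168) * w ^ 3 - (24095 / 193536) * e ^ 3 * w + (63 / 1024) * y * e * w ^ 2 - (10403 /
        580608) * y * e ^ 4 - (779 / 21504) * y ^ 2 * e ^ 2 * w
  | 11 =>
      -(624445 / 3784704) * e ^ 2 * w ^ 2 + (2621 / 99792) * e ^ 5 + (24099 / 1261568) * y * w ^ 3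
        - (5969 / 88704) * y * e ^ 3 * w - (3343 / 114688) * y ^ 2 * e * w ^ 2 + (32015 / 3096576)
        * y ^ 2 * e ^ 4
  | 12 =>
      -(33737 / 344064) * e * w ^ 3 + (120833 / 1032192) * e ^ 4 * w - (178891 / 1892352) * y * e
        ^ 2 * w ^ 2 + (1457053 / 102187008) * y * e ^ 5 - (10009 / 1261568) * y ^ 2 * w ^ 3 +
        (12037 / 354816) * y ^ 2 * e ^ 3 * w
  | _ => 0

lemma h1_rec {y e w : ℝ} (h : w = y ^ 3 + e * y) :
    RRec (1 / 2) (1 / 2) y e w (h1_p y e w) (h1_q y e w) := by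
  subst h
  constructor <;> simp only [h1_p, h1_q] <;> ring

/-- Taylor polynomial of `C(1/2, 1/2)` in `(s, c)` -/
def h1_L : List (ℕ × ℕ × ℚ) :=
  [(0, 0, 1), (1, 0, -3 / 4), (0, 1, 3 / 8), (2, 0, -15 / 64), (1, 1, 33 / 128), (3, 0, -69 /
    512), (0, 2, -9 / 128), (2, 1, 231 / 1024), (4, 0, -10809 / 114688), (1, 2, -447 / 3584), (3,
    1, 6861 / 32768), (0, 3, 93 / 4096), (5, 0, -65097 / 917504), (2, 2, -39441 / 229376), (4, 1,
    353511 / 1835008), (1, 3, 14109 / 229376), (6, 0, -8586975 / 161480704), (3, 2, -1029099 /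
    5046272), (0, 4, -40437 / 5046272)]

lemma h1_sum {a b c s w : ℝ} (h1 : a + b + c = 0) (h2 : a ^ 2 + b ^ 2 + c ^ 2 = 3 * s) :
    SumP (h1_p a (-(3 / 2) * s) w) + SumP (h1_p b (-(3 / 2) * s) w)
      + SumP (h1_p c (-(3 / 2) * s) w) = 3 * pol (castPol h1_L) s w := by
  have key : ∀ y : ℝ, SumP (h1_p y (-(3 / 2) * s) w) =
      (1 + (3 / 8) * w - (9 / 128) * w ^ 2 + (93 / 4096) * w ^ 3 - (40437 / 5046272) * w ^ 4 - (3 /
        2) * s + (39 / 128) * s * w - (1857 / 14336) * s * w ^ 2 + (13287 / 229376) * s * w ^ 3 -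
        (3 / 8) * s ^ 2 + (267 / 1024) * s ^ 2 * w - (37503 / 229376) * s ^ 2 * w ^ 2 - (3 / 16) *
        s ^ 3 + (7023 / 32768) * s ^ 3 * w - (1445415 / 10092544) * s ^ 3 * w ^ 2 - (99 / 896) * s
        ^ 4 + (268839 / 1835008) * s ^ 4 * w - (111 / 1792) * s ^ 5 - (1563 / 78848) * s ^ 6)
      + (-(1 / 2) + (3 / 32) * w - (9 / 256) * w ^ 2 + (1035 / 57344) * w ^ 3 - (3 / 16) * s + (15 /
        128) * s * w - (699 / 8192) * s * w ^ 2 + (166521 / 2523136) * s * w ^ 3 - (27 / 256) * s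
        ^ 2 + (7911 / 57344) * s ^ 2 * w - (35181 / 229376) * s ^ 2 * w ^ 2 - (159 / 2048) * s ^ 3
        + (165 / 1024) * s ^ 3 * w - (4275 / 65536) * s ^ 4 + (15167799 / 80740352) * s ^ 4 * w -
        (216459 / 3670016) * s ^ 5) * y
      + ((3 / 4) - (3 / 64) * w + (69 / 14336) * w ^ 2 + (411 / 114688) * w ^ 3 + (9 / 64) * s - (9 /
        256) * s * w - (969 / 114688) * s * w ^ 2 + (27 / 512) * s ^ 2 - (81 / 16384) * s ^ 2 * w
        - (612783 / 10092544) * s ^ 2 * w ^ 2 + (1863 / 114688) * s ^ 3 + (189 / 4096) * s ^ 3 * w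
        - (8265 / 917504) * s ^ 4 - (5385951 / 161480704) * s ^ 5) * y ^ 2 := by
    intro y
    simp only [SumP, h1_p]
    ring
  rw [key a, key b, key c]
  have hP : pol (castPol h1_L) s w =
      (1 + (3 / 8) * w - (9 / 128) * w ^ 2 + (93 / 4096) * w ^ 3 - (40437 / 5046272) * w ^ 4 - (3 /
        2) * s + (39 / 128) * s * w - (1857 / 14336) * s * w ^ 2 + (13287 / 229376) * s * w ^ 3 -
        (3 / 8) * s ^ 2 + (267 / 1024) * s ^ 2 * w - (37503 / 229376) * s ^ 2 * w ^ 2 - (3 / 16) *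
        s ^ 3 + (7023 / 32768) * s ^ 3 * w - (1445415 / 10092544) * s ^ 3 * w ^ 2 - (99 / 896) * s
        ^ 4 + (268839 / 1835008) * s ^ 4 * w - (111 / 1792) * s ^ 5 - (1563 / 78848) * s ^ 6)
      + ((3 / 4) - (3 / 64) * w + (69 / 14336) * w ^ 2 + (411 / 114688) * w ^ 3 + (9 / 64) * s - (9 /
        256) * s * w - (969 / 114688) * s * w ^ 2 + (27 / 512) * s ^ 2 - (81 / 16384) * s ^ 2 * w
        - (612783 / 10092544) * s ^ 2 * w ^ 2 + (1863 / 114688) * s ^ 3 + (189 / 4096) * s ^ 3 * w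
        - (8265 / 917504) * s ^ 4 - (5385951 / 161480704) * s ^ 5) * s := by
    simp only [pol, castPol, h1_L, List.map_cons, List.map_nil, List.sum_cons, List.sum_nil]
    push_cast
    ring
  rw [hP]
  linear_combination (-(1 / 2) + (3 / 32) * w - (9 / 256) * w ^ 2 + (1035 / 57344) * w ^ 3 - (3 / 16) * s + (15 /
        128) * s * w - (699 / 8192) * s * w ^ 2 + (166521 / 2523136) * s * w ^ 3 - (27 / 256) * s
        ^ 2 + (7911 / 57344) * s ^ 2 * w - (35181 / 229376) * s ^ 2 * w ^ 2 - (159 / 2048) * s ^ 3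
        + (165 / 1024) * s ^ 3 * w - (4275 / 65536) * s ^ 4 + (15167799 / 80740352) * s ^ 4 * w -
        (216459 / 3670016) * s ^ 5) * h1
    + ((3 / 4) - (3 / 64) * w + (69 / 14336) * w ^ 2 + (411 / 114688) * w ^ 3 + (9 / 64) * s - (9 /
        256) * s * w - (969 / 114688) * s * w ^ 2 + (27 / 512) * s ^ 2 - (81 / 16384) * s ^ 2 * w
        - (612783 / 10092544) * s ^ 2 * w ^ 2 + (1863 / 114688) * s ^ 3 + (189 / 4096) * s ^ 3 * w
        - (8265 / 917504) * s ^ 4 - (5385951 / 161480704) * s ^ 5) * h2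

noncomputable def h1_cB : Cst (1 / 2) (1 / 2) (3 / 10) where
  l := 49 / 40
  K1 := 1501 / 1000
  K2 := 1061 / 1000
  K3 := 2501 / 1000
  K4 := 4001 / 1000
  K5 := 5501 / 1000
  K6 := 7001 / 1000
  K7 := 8501 / 1000
  K8 := 10001 / 1000
  K9 := 11501 / 1000
  K10 := 13001 / 1000
  K11 := 14501 / 1000
  K12 := 16001 / 1000
  K13 := 17501 / 1000
  g1 := 49 / 40
  g2 := 1501 / 1000
  g3 := 641 / 500
  g4 := 333 / 250
  g5 := 313 / 200
  g6 := 1843 / 1000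
  g7 := 573 / 250
  g8 := 2863 / 1000
  g9 := 3661 / 1000
  g10 := 2357 / 500
  g11 := 6141 / 1000
  g12 := 161 / 20
  Dm := 8459 / 10000
  r0 := 4243 / 10000
  C := 2044 / 5
  hx0 := by norm_num
  hx1 := by norm_num
  hu0 := by norm_num
  hl0 := by norm_num
  hl := fun v h0 h1 => by nlinarith [h0, h1]
  hK1 := ⟨by norm_num, fun v h0 h1 => by nlinarith [mul_nonneg h0 (sub_nonneg.2 h1)]⟩
  hK2 := ⟨by norm_num, fun v h0 h1 => by nlinarith [sq_nonneg (v - 3 / 2)]⟩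
  hK3 := ⟨by norm_num, fun v h0 h1 => by nlinarith [mul_nonneg h0 (sub_nonneg.2 h1)]⟩
  hK4 := ⟨by norm_num, fun v h0 h1 => by nlinarith [mul_nonneg h0 (sub_nonneg.2 h1)]⟩
  hK5 := ⟨by norm_num, fun v h0 h1 => by nlinarith [mul_nonneg h0 (sub_nonneg.2 h1)]⟩
  hK6 := ⟨by norm_num, fun v h0 h1 => by nlinarith [mul_nonneg h0 (sub_nonneg.2 h1)]⟩
  hK7 := ⟨by norm_num, fun v h0 h1 => by nlinarith [mul_nonneg h0 (sub_nonneg.2 h1)]⟩
  hK8 := ⟨by norm_num, fun v h0 h1 => by nlinarith [mul_nonneg h0 (sub_nonneg.2 h1)]⟩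
  hK9 := ⟨by norm_num, fun v h0 h1 => by nlinarith [mul_nonneg h0 (sub_nonneg.2 h1)]⟩
  hK10 := ⟨by norm_num, fun v h0 h1 => by nlinarith [mul_nonneg h0 (sub_nonneg.2 h1)]⟩
  hK11 := ⟨by norm_num, fun v h0 h1 => by nlinarith [mul_nonneg h0 (sub_nonneg.2 h1)]⟩
  hK12 := ⟨by norm_num, fun v h0 h1 => by nlinarith [mul_nonneg h0 (sub_nonneg.2 h1)]⟩
  hK13 := ⟨by norm_num, fun v h0 h1 => by nlinarith [mul_nonneg h0 (sub_nonneg.2 h1)]⟩
  hg1 := by norm_num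
  hg2 := by norm_num
  hg3 := by norm_num
  hg4 := by norm_num
  hg5 := by norm_num
  hg6 := by norm_num
  hg7 := by norm_num
  hg8 := by norm_num
  hg9 := by norm_num
  hg10 := by norm_num
  hg11 := by norm_num
  hg12 := by norm_num
  hDm0 := by norm_num
  hDm := by norm_num
  hr0 := by norm_num
  hr1 := by norm_num
  hr := by norm_num
  hC := by norm_num

noncomputable def h1_cM : Cst (1 / 2) (1 / 2) (33 / 100) where
  l := 49 / 40
  K1 := 1501 / 1000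
  K2 := 1061 / 1000
  K3 := 2501 / 1000
  K4 := 4001 / 1000
  K5 := 5501 / 1000
  K6 := 7001 / 1000
  K7 := 8501 / 1000
  K8 := 10001 / 1000
  K9 := 11501 / 1000
  K10 := 13001 / 1000
  K11 := 14501 / 1000
  K12 := 16001 / 1000
  K13 := 17501 / 1000
  g1 := 49 / 40
  g2 := 1501 / 1000
  g3 := 641 / 500
  g4 := 333 / 250
  g5 := 313 / 200
  g6 := 1843 / 1000
  g7 := 573 / 250
  g8 := 2863 / 1000
  g9 := 3661 / 1000
  g10 := 2357 / 500
  g11 := 6141 / 1000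
  g12 := 161 / 20
  Dm := 507 / 625
  r0 := 4667 / 10000
  C := 4757 / 10
  hx0 := by norm_num
  hx1 := by norm_num
  hu0 := by norm_num
  hl0 := by norm_num
  hl := fun v h0 h1 => by nlinarith [h0, h1]
  hK1 := ⟨by norm_num, fun v h0 h1 => by nlinarith [mul_nonneg h0 (sub_nonneg.2 h1)]⟩
  hK2 := ⟨by norm_num, fun v h0 h1 => by nlinarith [sq_nonneg (v - 3 / 2)]⟩
  hK3 := ⟨by norm_num, fun v h0 h1 => by nlinarith [mul_nonneg h0 (sub_nonneg.2 h1)]⟩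
  hK4 := ⟨by norm_num, fun v h0 h1 => by nlinarith [mul_nonneg h0 (sub_nonneg.2 h1)]⟩
  hK5 := ⟨by norm_num, fun v h0 h1 => by nlinarith [mul_nonneg h0 (sub_nonneg.2 h1)]⟩
  hK6 := ⟨by norm_num, fun v h0 h1 => by nlinarith [mul_nonneg h0 (sub_nonneg.2 h1)]⟩
  hK7 := ⟨by norm_num, fun v h0 h1 => by nlinarith [mul_nonneg h0 (sub_nonneg.2 h1)]⟩
  hK8 := ⟨by norm_num, fun v h0 h1 => by nlinarith [mul_nonneg h0 (sub_nonneg.2 h1)]⟩
  hK9 := ⟨by norm_num, fun v h0 h1 => by nlinarith [mul_nonneg h0 (sub_nonneg.2 h1)]⟩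
  hK10 := ⟨by norm_num, fun v h0 h1 => by nlinarith [mul_nonneg h0 (sub_nonneg.2 h1)]⟩
  hK11 := ⟨by norm_num, fun v h0 h1 => by nlinarith [mul_nonneg h0 (sub_nonneg.2 h1)]⟩
  hK12 := ⟨by norm_num, fun v h0 h1 => by nlinarith [mul_nonneg h0 (sub_nonneg.2 h1)]⟩
  hK13 := ⟨by norm_num, fun v h0 h1 => by nlinarith [mul_nonneg h0 (sub_nonneg.2 h1)]⟩
  hg1 := by norm_num
  hg2 := by norm_num
  hg3 := by norm_num
  hg4 := by norm_num
  hg5 := by norm_num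
  hg6 := by norm_num
  hg7 := by norm_num
  hg8 := by norm_num
  hg9 := by norm_num
  hg10 := by norm_num
  hg11 := by norm_num
  hg12 := by norm_num
  hDm0 := by norm_num
  hDm := by norm_num
  hr0 := by norm_num
  hr1 := by norm_num
  hr := by norm_num
  hC := by norm_num

end Crest.Agent.R163.Cen
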