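import Crest.Agent.R163.CenRec

/-!
Row 163, centre region: numeric data for one functional.
-/

set_option autoImplicit false
set_option linter.unusedVariables false
set_option maxRecDepth 4000

namespace Crest.Agent.R163.Cen

/-! ### `C(1/2, 3/2)` -/

noncomputable def h3_p (y e w : ℝ) : ℕ → ℝ
  | 0 =>
      1
  | 1 =>
      -(1 / 2) * y
  | 2 =>
      5 * e + (15 / 4) * y ^ 2
  | 3 =>
      (15 / 8) * w + (5 / 8) * y * e
  | 4 =>
      (5 / 2) * e ^ 2 + (75 / 32) * y * w + (85 / 32) * y ^ 2 * e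
  | 5 =>
      (235 / 64) * e * w + (5 / 64) * y * e ^ 2 + (165 / 64) * y ^ 2 * w
  | 6 =>
      (219 / 128) * w ^ 2 - (3 / 2) * e ^ 3 - (1 / 64) * y * e * w - (169 / 128) * y ^ 2 * e ^ 2
  | 7 =>
      -(905 / 256) * e ^ 2 * w + (75 / 256) * y * w ^ 2 - (55 / 256) * y * e ^ 3 - (265 / 128) * y
        ^ 2 * e * w
  | 8 =>
      -(21925 / 7168) * e * w ^ 2 + (45 / 56) * e ^ 4 - (10625 / 14336) * y * e ^ 2 * w - (10635 /
        14336) * y ^ 2 * w ^ 2 + (8395 / 14336) * y ^ 2 * e ^ 3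
  | 9 =>
      -(3795 / 4096) * w ^ 3 + (10675 / 4096) * e ^ 3 * w - (4295 / 4096) * y * e * w ^ 2 + (845 /
        4096) * y * e ^ 4 + (5095 / 4096) * y ^ 2 * e ^ 2 * w
  | 10 =>
      (192333 / 57344) * e ^ 2 * w ^ 2 - (23 / 56) * e ^ 5 - (26169 / 57344) * y * w ^ 3 + (61 /
        64) * y * e ^ 3 * w + (45727 / 57344) * y ^ 2 * e * w ^ 2 - (12749 / 57344) * y ^ 2 * e ^
        4
  | 11 =>
      (227695 / 114688) * e * w ^ 3 - (192637 / 114688) * e ^ 4 * w + (98103 / 57344) * y * e ^ 2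
        * w ^ 2 - (19331 / 114688) * y * e ^ 5 + (16311 / 114688) * y ^ 2 * w ^ 3 - (261 / 512) *
        y ^ 2 * e ^ 3 * w
  | 12 =>
      (2263395 / 5046272) * w ^ 4 - (3605355 / 1261568) * e ^ 3 * w ^ 2 + (695 / 3696) * e ^ 6 +
        (1665325 / 1261568) * y * e * w ^ 3 - (4822465 / 5046272) * y * e ^ 4 * w - (733695 /
        2523136) * y ^ 2 * e ^ 2 * w ^ 2 + (197485 / 5046272) * y ^ 2 * e ^ 5
  | _ => 0

noncomputable def h3_q (y e w : ℝ) : ℕ → ℝ
  | 0 =>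
      0
  | 1 =>
      (3 / 2)
  | 2 =>
      0
  | 3 =>
      (5 / 2) * e + (15 / 8) * y ^ 2
  | 4 =>
      (15 / 8) * w + (5 / 8) * y * e
  | 5 =>
      -(1 / 4) * e ^ 2 + (81 / 64) * y * w + (15 / 64) * y ^ 2 * e
  | 6 =>
      -(5 / 32) * e * w - (11 / 32) * y * e ^ 2 + (21 / 32) * y ^ 2 * w
  | 7 =>
      (285 / 1792) * w ^ 2 - (5 / 28) * e ^ 3 - (695 / 896) * y * e * w - (105 / 256) * y ^ 2 * e
        ^ 2
  | 8 =>
      -(175 / 256) * e ^ 2 * w - (405 / 1792) * y * w ^ 2 + (265 / 1792) * y * e ^ 3 - (825 / 896)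
        * y ^ 2 * e * w
  | 9 =>
      -(12415 / 14336) * e * w ^ 2 + (85 / 336) * e ^ 4 + (9965 / 28672) * y * e ^ 2 * w - (11985
        / 28672) * y ^ 2 * w ^ 2 + (9745 / 28672) * y ^ 2 * e ^ 3
  | 10 =>
      -(2409 / 7168) * w ^ 3 + (7561 / 7168) * e ^ 3 * w + (109 / 1024) * y * e * w ^ 2 - (923 /
        21504) * y * e ^ 4 + (6885 / 7168) * y ^ 2 * e ^ 2 * w
  | 11 =>
      (2099199 / 1261568) * e ^ 2 * w ^ 2 - (887 / 3696) * e ^ 5 - (61155 / 1261568) * y * w ^ 3 -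
        (705 / 19712) * y * e ^ 3 * w + (95247 / 114688) * y ^ 2 * e * w ^ 2 - (28829 / 114688) *
        y ^ 2 * e ^ 4
  | 12 =>
      (131555 / 114688) * e * w ^ 3 - (136345 / 114688) * e ^ 4 * w + (140505 / 630784) * y * e ^
        2 * w ^ 2 - (42055 / 3784704) * y * e ^ 5 + (286905 / 1261568) * y ^ 2 * w ^ 3 - (34935 /
        39424) * y ^ 2 * e ^ 3 * w
  | _ => 0

lemma h3_rec {y e w : ℝ} (h : w = y ^ 3 + e * y) :
    RRec (1 / 2) (3 / 2) y e w (h3_p y e w) (h3_q y e w) := by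
  subst h
  constructor <;> simp only [h3_p, h3_q] <;> ring

/-- Taylor polynomial of `C(1/2, 3/2)` in `(s, c)` -/
def h3_L : List (ℕ × ℕ × ℚ) :=
  [(0, 0, 1), (1, 0, -15 / 4), (0, 1, 15 / 8), (2, 0, 105 / 64), (1, 1, -375 / 128), (3, 0, 1071 /
    512), (0, 2, 219 / 128), (2, 1, -4965 / 1024), (4, 0, 239895 / 114688), (1, 2, 13785 / 3584),
    (3, 1, -196515 / 32768), (0, 3, -3795 / 4096), (5, 0, 1828899 / 917504), (2, 2, 1456635 /
    229376), (4, 1, -12446541 / 1835008), (1, 3, -650463 / 229376), (6, 0, 42555375 / 23068672),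
    (3, 2, 45370665 / 5046272), (0, 4, 2263395 / 5046272)]

lemma h3_sum {a b c s w : ℝ} (h1 : a + b + c = 0) (h2 : a ^ 2 + b ^ 2 + c ^ 2 = 3 * s) :
    SumP (h3_p a (-(3 / 2) * s) w) + SumP (h3_p b (-(3 / 2) * s) w)
      + SumP (h3_p c (-(3 / 2) * s) w) = 3 * pol (castPol h3_L) s w := by
  have key : ∀ y : ℝ, SumP (h3_p y (-(3 / 2) * s) w) =
      (1 + (15 / 8) * w + (219 / 128) * w ^ 2 - (3795 / 4096) * w ^ 3 + (2263395 / 5046272) * w ^ 4
        - (15 / 2) * s - (705 / 128) * s * w + (65775 / 14336) * s * w ^ 2 - (683085 / 229376) * s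
        * w ^ 3 + (45 / 8) * s ^ 2 - (8145 / 1024) * s ^ 2 * w + (1730997 / 229376) * s ^ 2 * w ^
        2 + (81 / 16) * s ^ 3 - (288225 / 32768) * s ^ 3 * w + (97344585 / 10092544) * s ^ 3 * w ^
        2 + (3645 / 896) * s ^ 4 - (15603597 / 1835008) * s ^ 4 * w + (5589 / 1792) * s ^ 5 +
        (168885 / 78848) * s ^ 6)
      + (-(1 / 2) + (75 / 32) * w + (75 / 256) * w ^ 2 - (26169 / 57344) * w ^ 3 - (15 / 16) * s + (3
        / 128) * s * w + (12885 / 8192) * s * w ^ 2 - (4995975 / 2523136) * s * w ^ 3 + (45 / 256)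
        * s ^ 2 - (95625 / 57344) * s ^ 2 * w + (882927 / 229376) * s ^ 2 * w ^ 2 + (1485 / 2048)
        * s ^ 3 - (1647 / 512) * s ^ 3 * w + (68445 / 65536) * s ^ 4 - (390619665 / 80740352) * s
        ^ 4 * w + (4697433 / 3670016) * s ^ 5) * y
      + ((15 / 4) + (165 / 64) * w - (10635 / 14336) * w ^ 2 + (16311 / 114688) * w ^ 3 - (255 / 64)
        * s + (795 / 256) * s * w - (137181 / 114688) * s * w ^ 2 - (1521 / 512) * s ^ 2 + (45855
        / 16384) * s ^ 2 * w - (6603255 / 10092544) * s ^ 2 * w ^ 2 - (226665 / 114688) * s ^ 3 +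
        (7047 / 4096) * s ^ 3 * w - (1032669 / 917504) * s ^ 4 - (47988855 / 161480704) * s ^ 5) * y ^ 2 := by
    intro y
    simp only [SumP, h3_p]
    ring
  rw [key a, key b, key c]
  have hP : pol (castPol h3_L) s w =
      (1 + (15 / 8) * w + (219 / 128) * w ^ 2 - (3795 / 4096) * w ^ 3 + (2263395 / 5046272) * w ^ 4
        - (15 / 2) * s - (705 / 128) * s * w + (65775 / 14336) * s * w ^ 2 - (683085 / 229376) * s
        * w ^ 3 + (45 / 8) * s ^ 2 - (8145 / 1024) * s ^ 2 * w + (1730997 / 229376) * s ^ 2 * w ^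
        2 + (81 / 16) * s ^ 3 - (288225 / 32768) * s ^ 3 * w + (97344585 / 10092544) * s ^ 3 * w ^
        2 + (3645 / 896) * s ^ 4 - (15603597 / 1835008) * s ^ 4 * w + (5589 / 1792) * s ^ 5 +
        (168885 / 78848) * s ^ 6)
      + ((15 / 4) + (165 / 64) * w - (10635 / 14336) * w ^ 2 + (16311 / 114688) * w ^ 3 - (255 / 64)
        * s + (795 / 256) * s * w - (137181 / 114688) * s * w ^ 2 - (1521 / 512) * s ^ 2 + (45855
        / 16384) * s ^ 2 * w - (6603255 / 10092544) * s ^ 2 * w ^ 2 - (226665 / 114688) * s ^ 3 +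
        (7047 / 4096) * s ^ 3 * w - (1032669 / 917504) * s ^ 4 - (47988855 / 161480704) * s ^ 5) * s := by
    simp only [pol, castPol, h3_L, List.map_cons, List.map_nil, List.sum_cons, List.sum_nil]
    push_cast
    ring
  rw [hP]
  linear_combination (-(1 / 2) + (75 / 32) * w + (75 / 256) * w ^ 2 - (26169 / 57344) * w ^ 3 - (15 / 16) * s + (3
        / 128) * s * w + (12885 / 8192) * s * w ^ 2 - (4995975 / 2523136) * s * w ^ 3 + (45 / 256)
        * s ^ 2 - (95625 / 57344) * s ^ 2 * w + (882927 / 229376) * s ^ 2 * w ^ 2 + (1485 / 2048)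
        * s ^ 3 - (1647 / 512) * s ^ 3 * w + (68445 / 65536) * s ^ 4 - (390619665 / 80740352) * s
        ^ 4 * w + (4697433 / 3670016) * s ^ 5) * h1
    + ((15 / 4) + (165 / 64) * w - (10635 / 14336) * w ^ 2 + (16311 / 114688) * w ^ 3 - (255 / 64)
        * s + (795 / 256) * s * w - (137181 / 114688) * s * w ^ 2 - (1521 / 512) * s ^ 2 + (45855
        / 16384) * s ^ 2 * w - (6603255 / 10092544) * s ^ 2 * w ^ 2 - (226665 / 114688) * s ^ 3 +
        (7047 / 4096) * s ^ 3 * w - (1032669 / 917504) * s ^ 4 - (47988855 / 161480704) * s ^ 5) * h2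

noncomputable def h3_cB : Cst (1 / 2) (3 / 2) (3 / 10) where
  l := 147 / 40
  K1 := 2791 / 1000
  K2 := 331 / 125
  K3 := 3303 / 1000
  K4 := 4413 / 1000
  K5 := 143 / 25
  K6 := 1779 / 250
  K7 := 8557 / 1000
  K8 := 1253 / 125
  K9 := 11507 / 1000
  K10 := 13001 / 1000
  K11 := 14501 / 1000
  K12 := 16001 / 1000
  K13 := 17501 / 1000
  g1 := 147 / 40
  g2 := 8149 / 1000
  g3 := 13463 / 1000
  g4 := 19099 / 1000
  g5 := 27073 / 1000
  g6 := 9491 / 250
  g7 := 26621 / 500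
  g8 := 74639 / 1000
  g9 := 104693 / 1000
  g10 := 73477 / 500
  g11 := 25803 / 125
  g12 := 290159 / 1000
  Dm := 8459 / 10000
  r0 := 4243 / 10000
  C := 153377 / 10
  hx0 := by norm_num
  hx1 := by norm_num
  hu0 := by norm_num
  hl0 := by norm_num
  hl := fun v h0 h1 => by nlinarith [h0, h1]
  hK1 := ⟨by norm_num, fun v h0 h1 => by nlinarith [sq_nonneg (v - 12 / 13)]⟩
  hK2 := ⟨by norm_num, fun v h0 h1 => by nlinarith [sq_nonneg (v - 27 / 26)]⟩
  hK3 := ⟨by norm_num, fun v h0 h1 => by nlinarith [sq_nonneg (v - 15 / 13)]⟩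
  hK4 := ⟨by norm_num, fun v h0 h1 => by nlinarith [sq_nonneg (v - 33 / 26)]⟩
  hK5 := ⟨by norm_num, fun v h0 h1 => by nlinarith [sq_nonneg (v - 18 / 13)]⟩
  hK6 := ⟨by norm_num, fun v h0 h1 => by nlinarith [sq_nonneg (v - 3 / 2)]⟩
  hK7 := ⟨by norm_num, fun v h0 h1 => by nlinarith [sq_nonneg (v - 21 / 13)]⟩
  hK8 := ⟨by norm_num, fun v h0 h1 => by nlinarith [sq_nonneg (v - 45 / 26)]⟩
  hK9 := ⟨by norm_num, fun v h0 h1 => by nlinarith [sq_nonneg (v - 24 / 13)]⟩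
  hK10 := ⟨by norm_num, fun v h0 h1 => by nlinarith [sq_nonneg (v - 51 / 26)]⟩
  hK11 := ⟨by norm_num, fun v h0 h1 => by nlinarith [mul_nonneg h0 (sub_nonneg.2 h1)]⟩
  hK12 := ⟨by norm_num, fun v h0 h1 => by nlinarith [mul_nonneg h0 (sub_nonneg.2 h1)]⟩
  hK13 := ⟨by norm_num, fun v h0 h1 => by nlinarith [mul_nonneg h0 (sub_nonneg.2 h1)]⟩
  hg1 := by norm_num
  hg2 := by norm_num
  hg3 := by norm_num
  hg4 := by norm_num
  hg5 := by norm_num
  hg6 := by norm_num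
  hg7 := by norm_num
  hg8 := by norm_num
  hg9 := by norm_num
  hg10 := by norm_num
  hg11 := by norm_num
  hg12 := by norm_num
  hDm0 := by norm_num
  hDm := by norm_num
  hr0 := by norm_num
  hr1 := by norm_num
  hr := by norm_num
  hC := by norm_num

noncomputable def h3_cM : Cst (1 / 2) (3 / 2) (33 / 100) where
  l := 147 / 40
  K1 := 2791 / 1000
  K2 := 331 / 125
  K3 := 3303 / 1000
  K4 := 4413 / 1000
  K5 := 143 / 25
  K6 := 1779 / 250
  K7 := 8557 / 1000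
  K8 := 1253 / 125
  K9 := 11507 / 1000
  K10 := 13001 / 1000
  K11 := 14501 / 1000
  K12 := 16001 / 1000
  K13 := 17501 / 1000
  g1 := 147 / 40
  g2 := 8149 / 1000
  g3 := 13463 / 1000
  g4 := 19099 / 1000
  g5 := 27073 / 1000
  g6 := 9491 / 250
  g7 := 26621 / 500
  g8 := 74639 / 1000
  g9 := 104693 / 1000
  g10 := 73477 / 500
  g11 := 25803 / 125
  g12 := 290159 / 1000
  Dm := 507 / 625
  r0 := 4667 / 10000
  C := 178173 / 10
  hx0 := by norm_num
  hx1 := by norm_num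
  hu0 := by norm_num
  hl0 := by norm_num
  hl := fun v h0 h1 => by nlinarith [h0, h1]
  hK1 := ⟨by norm_num, fun v h0 h1 => by nlinarith [sq_nonneg (v - 12 / 13)]⟩
  hK2 := ⟨by norm_num, fun v h0 h1 => by nlinarith [sq_nonneg (v - 27 / 26)]⟩
  hK3 := ⟨by norm_num, fun v h0 h1 => by nlinarith [sq_nonneg (v - 15 / 13)]⟩
  hK4 := ⟨by norm_num, fun v h0 h1 => by nlinarith [sq_nonneg (v - 33 / 26)]⟩
  hK5 := ⟨by norm_num, fun v h0 h1 => by nlinarith [sq_nonneg (v - 18 / 13)]⟩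
  hK6 := ⟨by norm_num, fun v h0 h1 => by nlinarith [sq_nonneg (v - 3 / 2)]⟩
  hK7 := ⟨by norm_num, fun v h0 h1 => by nlinarith [sq_nonneg (v - 21 / 13)]⟩
  hK8 := ⟨by norm_num, fun v h0 h1 => by nlinarith [sq_nonneg (v - 45 / 26)]⟩
  hK9 := ⟨by norm_num, fun v h0 h1 => by nlinarith [sq_nonneg (v - 24 / 13)]⟩
  hK10 := ⟨by norm_num, fun v h0 h1 => by nlinarith [sq_nonneg (v - 51 / 26)]⟩
  hK11 := ⟨by norm_num, fun v h0 h1 => by nlinarith [mul_nonneg h0 (sub_nonneg.2 h1)]⟩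
  hK12 := ⟨by norm_num, fun v h0 h1 => by nlinarith [mul_nonneg h0 (sub_nonneg.2 h1)]⟩
  hK13 := ⟨by norm_num, fun v h0 h1 => by nlinarith [mul_nonneg h0 (sub_nonneg.2 h1)]⟩
  hg1 := by norm_num
  hg2 := by norm_num
  hg3 := by norm_num
  hg4 := by norm_num
  hg5 := by norm_num
  hg6 := by norm_num
  hg7 := by norm_num
  hg8 := by norm_num
  hg9 := by norm_num
  hg10 := by norm_num
  hg11 := by norm_num
  hg12 := by norm_num
  hDm0 := by norm_num
  hDm := by norm_num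
  hr0 := by norm_num
  hr1 := by norm_num
  hr := by norm_num
  hC := by norm_num

end Crest.Agent.R163.Cen
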