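import Crest.Agent.R163.CenRec

/-!
Row 163, centre region: numeric data for one functional.
-/

set_option autoImplicit false
set_option linter.unusedVariables false
set_option maxRecDepth 4000

namespace Crest.Agent.R163.Cen

/-! ### `C(1/3, 1/2)` -/

noncomputable def hr_p (y e w : ℝ) : ℕ → ℝ
  | 0 =>
      1
  | 1 =>
      0
  | 2 =>
      (5 / 6) * e + (3 / 8) * y ^ 2
  | 3 =>
      (17 / 24) * w + (1 / 8) * y * e
  | 4 =>
      -(17 / 72) * e ^ 2 + (15 / 128) * y * w - (7 / 128) * y ^ 2 * e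
  | 5 =>
      -(239 / 576) * e * w - (11 / 192) * y * e ^ 2 - (1 / 64) * y ^ 2 * w
  | 6 =>
      -(1789 / 9216) * w ^ 2 + (143 / 1296) * e ^ 3 - (155 / 1536) * y * e * w + (37 / 3072) * y ^
        2 * e ^ 2
  | 7 =>
      (8279 / 27648) * e ^ 2 * w - (47 / 1024) * y * w ^ 2 + (97 / 3072) * y * e ^ 3 - (1 / 1536)
        * y ^ 2 * e * w
  | 8 =>
      (871865 / 3096576) * e * w ^ 2 - (13481 / 217728) * e ^ 4 + (173231 / 2064384) * y * e ^ 2 *
        w - (5641 / 688128) * y ^ 2 * w ^ 2 + (2945 / 6193152) * y ^ 2 * e ^ 3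
  | 9 =>
      (420181 / 4644864) * w ^ 3 - (3183023 / 13934592) * e ^ 3 * w + (5615 / 73728) * y * e * w ^
        2 - (89371 / 4644864) * y * e ^ 4 + (9095 / 516096) * y ^ 2 * e ^ 2 * w
  | 10 =>
      -(48258527 / 148635648) * e ^ 2 * w ^ 2 + (49855 / 1306368) * e ^ 5 + (128969 / 5505024) * y
        * w ^ 3 - (60869 / 884736) * y * e ^ 3 * w + (476795 / 16515072) * y ^ 2 * e * w ^ 2 -
        (770521 / 148635648) * y ^ 2 * e ^ 4
  | 11 =>
      -(93231403 / 445906944) * e * w ^ 3 + (34092869 / 191102976) * e ^ 4 * w - (2326391 /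
        24772608) * y * e ^ 2 * w ^ 2 + (5535839 / 445906944) * y * e ^ 5 + (608365 / 49545216) *
        y ^ 2 * w ^ 3 - (591649 / 18579456) * y ^ 2 * e ^ 3 * w
  | 12 =>
      -(4016752595 / 78479622144) * w ^ 4 + (20044931075 / 58859716608) * e ^ 3 * w ^ 2 -
        (12840425 / 517321728) * e ^ 6 - (377633017 / 6539968512) * y * e * w ^ 3 + (4383079889 /
        78479622144) * y * e ^ 4 * w - (261357445 / 4359979008) * y ^ 2 * e ^ 2 * w ^ 2 +
        (79631293 / 11211374592) * y ^ 2 * e ^ 5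
  | _ => 0

noncomputable def hr_q (y e w : ℝ) : ℕ → ℝ
  | 0 =>
      0
  | 1 =>
      (1 / 2)
  | 2 =>
      (1 / 4) * y
  | 3 =>
      (1 / 12) * e + (1 / 16) * y ^ 2
  | 4 =>
      (13 / 96) * w - (1 / 96) * y * e
  | 5 =>
      -(1 / 16) * e ^ 2 + (25 / 768) * y * w - (17 / 768) * y ^ 2 * e
  | 6 =>
      -(655 / 4608) * e * w - (65 / 4608) * y * e ^ 2 - (19 / 1536) * y ^ 2 * w
  | 7 =>
      -(9421 / 129024) * w ^ 2 + (845 / 18144) * e ^ 3 - (3317 / 64512) * y * e * w + (193 /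
        18432) * y ^ 2 * e ^ 2
  | 8 =>
      (5363 / 36864) * e ^ 2 * w - (1153 / 36864) * y * w ^ 2 + (5813 / 331776) * y * e ^ 3 + (239
        / 18432) * y ^ 2 * e * w
  | 9 =>
      (903937 / 6193152) * e * w ^ 2 - (15769 / 435456) * e ^ 4 + (809477 / 12386304) * y * e ^ 2
        * w + (15965 / 4128768) * y ^ 2 * w ^ 2 - (207637 / 37158912) * y ^ 2 * e ^ 3
  | 10 =>
      (3561581 / 74317824) * w ^ 3 - (32557111 / 222953472) * e ^ 3 * w + (1785667 / 24772608) * y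
        * e * w ^ 2 - (3774665 / 222953472) * y * e ^ 4 - (265427 / 24772608) * y ^ 2 * e ^ 2 * w
  | 11 =>
      -(236648197 / 1089994752) * e ^ 2 * w ^ 2 + (93145 / 3193344) * e ^ 5 + (82012499 /
        3269984256) * y * w ^ 3 - (6566575 / 87588864) * y * e ^ 3 * w - (634853 / 99090432) * y ^
        2 * e * w ^ 2 + (397873 / 127401984) * y ^ 2 * e ^ 4
  | 12 =>
      -(253431739 / 1783627776) * e * w ^ 3 + (775531619 / 5350883328) * e ^ 4 * w - (35160193 /
        297271296) * y * e ^ 2 * w ^ 2 + (82892701 / 5350883328) * y * e ^ 5 - (648097 /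
        594542592) * y ^ 2 * w ^ 3 + (438397 / 55738368) * y ^ 2 * e ^ 3 * w
  | _ => 0

lemma hr_rec {y e w : ℝ} (h : w = y ^ 3 + e * y) :
    RRec (1 / 3) (1 / 2) y e w (hr_p y e w) (hr_q y e w) := by
  subst h
  constructor <;> simp only [hr_p, hr_q] <;> ring

/-- Taylor polynomial of `C(1/3, 1/2)` in `(s, c)` -/
def hr_L : List (ℕ × ℕ × ℚ) :=
  [(0, 0, 1), (1, 0, -7 / 8), (0, 1, 17 / 24), (2, 0, -115 / 256), (1, 1, 233 / 384), (3, 0, -4243
    / 12288), (0, 2, -1789 / 9216), (2, 1, 8291 / 12288), (4, 0, -1734403 / 5505024), (1, 2,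
    -222197 / 516096), (3, 1, 3346733 / 4128768), (0, 3, 420181 / 4644864), (5, 0, -27837323 /
    88080384), (2, 2, -51119297 / 66060288), (4, 1, 267049235 / 264241152), (1, 3, 96881593 /
    297271296), (6, 0, -31313961859 / 93012885504), (3, 2, -1399821755 / 1089994752), (0, 4,
    -4016752595 / 78479622144)]

lemma hr_sum {a b c s w : ℝ} (h1 : a + b + c = 0) (h2 : a ^ 2 + b ^ 2 + c ^ 2 = 3 * s) :
    SumP (hr_p a (-(3 / 2) * s) w) + SumP (hr_p b (-(3 / 2) * s) w)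
      + SumP (hr_p c (-(3 / 2) * s) w) = 3 * pol (castPol hr_L) s w := by
  have key : ∀ y : ℝ, SumP (hr_p y (-(3 / 2) * s) w) =
      (1 + (17 / 24) * w - (1789 / 9216) * w ^ 2 + (420181 / 4644864) * w ^ 3 - (4016752595 /
        78479622144) * w ^ 4 - (5 / 4) * s + (239 / 384) * s * w - (871865 / 2064384) * s * w ^ 2
        + (93231403 / 297271296) * s * w ^ 3 - (17 / 32) * s ^ 2 + (8279 / 12288) * s ^ 2 * w -
        (48258527 / 66060288) * s ^ 2 * w ^ 2 - (143 / 384) * s ^ 3 + (3183023 / 4128768) * s ^ 3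
        * w - (20044931075 / 17439916032) * s ^ 3 * w ^ 2 - (13481 / 43008) * s ^ 4 + (34092869 /
        37748736) * s ^ 4 * w - (49855 / 172032) * s ^ 5 - (12840425 / 45416448) * s ^ 6)
      + ((15 / 128) * w - (47 / 1024) * w ^ 2 + (128969 / 5505024) * w ^ 3 - (3 / 16) * s + (155 /
        1024) * s * w - (5615 / 49152) * s * w ^ 2 + (377633017 / 4359979008) * s * w ^ 3 - (33 /
        256) * s ^ 2 + (173231 / 917504) * s ^ 2 * w - (2326391 / 11010048) * s ^ 2 * w ^ 2 - (873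
        / 8192) * s ^ 3 + (60869 / 262144) * s ^ 3 * w - (89371 / 917504) * s ^ 4 + (4383079889 /
        15502147584) * s ^ 4 * w - (5535839 / 58720256) * s ^ 5) * y
      + ((3 / 8) - (1 / 64) * w - (5641 / 688128) * w ^ 2 + (608365 / 49545216) * w ^ 3 + (21 / 256)
        * s + (1 / 1024) * s * w - (476795 / 11010048) * s * w ^ 2 + (111 / 4096) * s ^ 2 + (9095
        / 229376) * s ^ 2 * w - (261357445 / 1937768448) * s ^ 2 * w ^ 2 - (2945 / 1835008) * s ^
        3 + (591649 / 5505024) * s ^ 3 * w - (770521 / 29360128) * s ^ 4 - (79631293 / 1476395008)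
        * s ^ 5) * y ^ 2 := by
    intro y
    simp only [SumP, hr_p]
    ring
  rw [key a, key b, key c]
  have hP : pol (castPol hr_L) s w =
      (1 + (17 / 24) * w - (1789 / 9216) * w ^ 2 + (420181 / 4644864) * w ^ 3 - (4016752595 /
        78479622144) * w ^ 4 - (5 / 4) * s + (239 / 384) * s * w - (871865 / 2064384) * s * w ^ 2
        + (93231403 / 297271296) * s * w ^ 3 - (17 / 32) * s ^ 2 + (8279 / 12288) * s ^ 2 * w -
        (48258527 / 66060288) * s ^ 2 * w ^ 2 - (143 / 384) * s ^ 3 + (3183023 / 4128768) * s ^ 3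
        * w - (20044931075 / 17439916032) * s ^ 3 * w ^ 2 - (13481 / 43008) * s ^ 4 + (34092869 /
        37748736) * s ^ 4 * w - (49855 / 172032) * s ^ 5 - (12840425 / 45416448) * s ^ 6)
      + ((3 / 8) - (1 / 64) * w - (5641 / 688128) * w ^ 2 + (608365 / 49545216) * w ^ 3 + (21 / 256)
        * s + (1 / 1024) * s * w - (476795 / 11010048) * s * w ^ 2 + (111 / 4096) * s ^ 2 + (9095
        / 229376) * s ^ 2 * w - (261357445 / 1937768448) * s ^ 2 * w ^ 2 - (2945 / 1835008) * s ^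
        3 + (591649 / 5505024) * s ^ 3 * w - (770521 / 29360128) * s ^ 4 - (79631293 / 1476395008)
        * s ^ 5) * s := by
    simp only [pol, castPol, hr_L, List.map_cons, List.map_nil, List.sum_cons, List.sum_nil]
    push_cast
    ring
  rw [hP]
  linear_combination ((15 / 128) * w - (47 / 1024) * w ^ 2 + (128969 / 5505024) * w ^ 3 - (3 / 16) * s + (155 /
        1024) * s * w - (5615 / 49152) * s * w ^ 2 + (377633017 / 4359979008) * s * w ^ 3 - (33 /
        256) * s ^ 2 + (173231 / 917504) * s ^ 2 * w - (2326391 / 11010048) * s ^ 2 * w ^ 2 - (873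
        / 8192) * s ^ 3 + (60869 / 262144) * s ^ 3 * w - (89371 / 917504) * s ^ 4 + (4383079889 /
        15502147584) * s ^ 4 * w - (5535839 / 58720256) * s ^ 5) * h1
    + ((3 / 8) - (1 / 64) * w - (5641 / 688128) * w ^ 2 + (608365 / 49545216) * w ^ 3 + (21 / 256)
        * s + (1 / 1024) * s * w - (476795 / 11010048) * s * w ^ 2 + (111 / 4096) * s ^ 2 + (9095
        / 229376) * s ^ 2 * w - (261357445 / 1937768448) * s ^ 2 * w ^ 2 - (2945 / 1835008) * s ^
        3 + (591649 / 5505024) * s ^ 3 * w - (770521 / 29360128) * s ^ 4 - (79631293 / 1476395008)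
        * s ^ 5) * h2

noncomputable def hr_cB : Cst (1 / 3) (1 / 2) (3 / 10) where
  l := 49 / 40
  K1 := 1323 / 1000
  K2 := 1001 / 1000
  K3 := 109 / 50
  K4 := 1803 / 500
  K5 := 203 / 40
  K6 := 3279 / 500
  K7 := 8047 / 1000
  K8 := 477 / 50
  K9 := 2207 / 200
  K10 := 1253 / 100
  K11 := 14027 / 1000
  K12 := 621 / 40
  K13 := 17023 / 1000
  g1 := 49 / 40
  g2 := 353 / 250
  g3 := 611 / 500
  g4 := 143 / 125
  g5 := 681 / 500
  g6 := 767 / 500
  g7 := 473 / 250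
  g8 := 463 / 200
  g9 := 731 / 250
  g10 := 929 / 250
  g11 := 4787 / 1000
  g12 := 6211 / 1000
  Dm := 8459 / 10000
  r0 := 4243 / 10000
  C := 1559 / 5
  hx0 := by norm_num
  hx1 := by norm_num
  hu0 := by norm_num
  hl0 := by norm_num
  hl := fun v h0 h1 => by nlinarith [h0, h1]
  hK1 := ⟨by norm_num, fun v h0 h1 => by nlinarith [sq_nonneg (v - 1)]⟩
  hK2 := ⟨by norm_num, fun v h0 h1 => by nlinarith [sq_nonneg (v - 1)]⟩
  hK3 := ⟨by norm_num, fun v h0 h1 => by nlinarith [sq_nonneg (v - 1)]⟩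
  hK4 := ⟨by norm_num, fun v h0 h1 => by nlinarith [sq_nonneg (v - 1)]⟩
  hK5 := ⟨by norm_num, fun v h0 h1 => by nlinarith [sq_nonneg (v - 1)]⟩
  hK6 := ⟨by norm_num, fun v h0 h1 => by nlinarith [sq_nonneg (v - 1)]⟩
  hK7 := ⟨by norm_num, fun v h0 h1 => by nlinarith [sq_nonneg (v - 1)]⟩
  hK8 := ⟨by norm_num, fun v h0 h1 => by nlinarith [sq_nonneg (v - 1)]⟩
  hK9 := ⟨by norm_num, fun v h0 h1 => by nlinarith [sq_nonneg (v - 1)]⟩
  hK10 := ⟨by norm_num, fun v h0 h1 => by nlinarith [sq_nonneg (v - 1)]⟩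
  hK11 := ⟨by norm_num, fun v h0 h1 => by nlinarith [sq_nonneg (v - 1)]⟩
  hK12 := ⟨by norm_num, fun v h0 h1 => by nlinarith [sq_nonneg (v - 1)]⟩
  hK13 := ⟨by norm_num, fun v h0 h1 => by nlinarith [sq_nonneg (v - 1)]⟩
  hg1 := by norm_num
  hg2 := by norm_num
  hg3 := by norm_num
  hg4 := by norm_num
  hg5 := by norm_num
  hg6 := by norm_num
  hg7 := by norm_num
  hg8 := by norm_num
  hg9 := by norm_num
  hg10 := by norm_num
  hg11 := by norm_num
  hg12 := by norm_num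
  hDm0 := by norm_num
  hDm := by norm_num
  hr0 := by norm_num
  hr1 := by norm_num
  hr := by norm_num
  hC := by norm_num

noncomputable def hr_cM : Cst (1 / 3) (1 / 2) (33 / 100) where
  l := 49 / 40
  K1 := 1323 / 1000
  K2 := 1001 / 1000
  K3 := 109 / 50
  K4 := 1803 / 500
  K5 := 203 / 40
  K6 := 3279 / 500
  K7 := 8047 / 1000
  K8 := 477 / 50
  K9 := 2207 / 200
  K10 := 1253 / 100
  K11 := 14027 / 1000
  K12 := 621 / 40
  K13 := 17023 / 1000
  g1 := 49 / 40
  g2 := 353 / 250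
  g3 := 611 / 500
  g4 := 143 / 125
  g5 := 681 / 500
  g6 := 767 / 500
  g7 := 473 / 250
  g8 := 463 / 200
  g9 := 731 / 250
  g10 := 929 / 250
  g11 := 4787 / 1000
  g12 := 6211 / 1000
  Dm := 507 / 625
  r0 := 4667 / 10000
  C := 3627 / 10
  hx0 := by norm_num
  hx1 := by norm_num
  hu0 := by norm_num
  hl0 := by norm_num
  hl := fun v h0 h1 => by nlinarith [h0, h1]
  hK1 := ⟨by norm_num, fun v h0 h1 => by nlinarith [sq_nonneg (v - 1)]⟩
  hK2 := ⟨by norm_num, fun v h0 h1 => by nlinarith [sq_nonneg (v - 1)]⟩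
  hK3 := ⟨by norm_num, fun v h0 h1 => by nlinarith [sq_nonneg (v - 1)]⟩
  hK4 := ⟨by norm_num, fun v h0 h1 => by nlinarith [sq_nonneg (v - 1)]⟩
  hK5 := ⟨by norm_num, fun v h0 h1 => by nlinarith [sq_nonneg (v - 1)]⟩
  hK6 := ⟨by norm_num, fun v h0 h1 => by nlinarith [sq_nonneg (v - 1)]⟩
  hK7 := ⟨by norm_num, fun v h0 h1 => by nlinarith [sq_nonneg (v - 1)]⟩
  hK8 := ⟨by norm_num, fun v h0 h1 => by nlinarith [sq_nonneg (v - 1)]⟩
  hK9 := ⟨by norm_num, fun v h0 h1 => by nlinarith [sq_nonneg (v - 1)]⟩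
  hK10 := ⟨by norm_num, fun v h0 h1 => by nlinarith [sq_nonneg (v - 1)]⟩
  hK11 := ⟨by norm_num, fun v h0 h1 => by nlinarith [sq_nonneg (v - 1)]⟩
  hK12 := ⟨by norm_num, fun v h0 h1 => by nlinarith [sq_nonneg (v - 1)]⟩
  hK13 := ⟨by norm_num, fun v h0 h1 => by nlinarith [sq_nonneg (v - 1)]⟩
  hg1 := by norm_num
  hg2 := by norm_num
  hg3 := by norm_num
  hg4 := by norm_num
  hg5 := by norm_num
  hg6 := by norm_num
  hg7 := by norm_num
  hg8 := by norm_num
  hg9 := by norm_num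
  hg10 := by norm_num
  hg11 := by norm_num
  hg12 := by norm_num
  hDm0 := by norm_num
  hDm := by norm_num
  hr0 := by norm_num
  hr1 := by norm_num
  hr := by norm_num
  hC := by norm_num

end Crest.Agent.R163.Cen
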