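import Mathlib

/-!
Row 163, centre region: ODE / truncation lemma.

`G τ = exp (L τ)`, `L τ = ∑ α_i log (1 + τ z_i)` with `α = (1 - 2x, x + it, x - it)`, `z₁+z₂+z₃ = 0`,
is compared with a truncated power series `T τ = ∑_{n ≤ 8} g n τ^n`, where `g` satisfies the three
term recursion of the ODE `D G' = (λ₀ + λ₁ τ + w τ²) G`.
-/

set_option autoImplicit false

namespace Crest.Agent.R163.Cen

open Complex

/-- the exponent -/
noncomputable def Lf (x t a b c : ℝ) (τ : ℝ) : ℂ :=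
  (((1 - 2 * x) * Real.log (1 + τ * a) + x * (Real.log (1 + τ * b) + Real.log (1 + τ * c)) : ℝ) : ℂ)
    + ((t * (Real.log (1 + τ * b) - Real.log (1 + τ * c)) : ℝ) : ℂ) * I

/-- derivative of the exponent -/
noncomputable def Lf' (x t a b c : ℝ) (τ : ℝ) : ℂ :=
  (((1 - 2 * x) * (a / (1 + τ * a)) + x * (b / (1 + τ * b) + c / (1 + τ * c)) : ℝ) : ℂ)
    + ((t * (b / (1 + τ * b) - c / (1 + τ * c)) : ℝ) : ℂ) * I

lemma hasDerivAt_log1 (a τ : ℝ) (h : 0 < 1 + τ * a) :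
    HasDerivAt (fun τ : ℝ => Real.log (1 + τ * a)) (a / (1 + τ * a)) τ := by
  have h1 : HasDerivAt (fun τ : ℝ => 1 + τ * a) a τ := by
    simpa using ((hasDerivAt_id τ).mul_const a).const_add 1
  exact h1.log h.ne'

lemma hasDerivAt_Lf (x t a b c τ : ℝ) (ha : 0 < 1 + τ * a) (hb : 0 < 1 + τ * b)
    (hc : 0 < 1 + τ * c) : HasDerivAt (Lf x t a b c) (Lf' x t a b c τ) τ := by
  unfold Lf Lf'
  have h1 : HasDerivAt (fun τ : ℝ => (1 - 2 * x) * Real.log (1 + τ * a)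
      + x * (Real.log (1 + τ * b) + Real.log (1 + τ * c)))
      ((1 - 2 * x) * (a / (1 + τ * a)) + x * (b / (1 + τ * b) + c / (1 + τ * c))) τ :=
    ((hasDerivAt_log1 a τ ha).const_mul _).add
      (((hasDerivAt_log1 b τ hb).add (hasDerivAt_log1 c τ hc)).const_mul _)
  have h2 : HasDerivAt (fun τ : ℝ => t * (Real.log (1 + τ * b) - Real.log (1 + τ * c)))
      (t * (b / (1 + τ * b) - c / (1 + τ * c))) τ :=
    ((hasDerivAt_log1 b τ hb).sub (hasDerivAt_log1 c τ hc)).const_mul _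
  exact h1.ofReal_comp.add (h2.ofReal_comp.mul_const I)

/-- `λ₀`, `λ₁` in terms of `y = a`, `d = b - c`, `e = ab+bc+ca` -/
noncomputable def lam0 (x t y d : ℝ) : ℂ := (((1 - 3 * x) * y : ℝ) : ℂ) + ((t * d : ℝ) : ℂ) * I

noncomputable def lam1 (x t y d e : ℝ) : ℂ :=
  ((-(1 - 3 * x) * y ^ 2 + 2 * x * e : ℝ) : ℂ) + ((t * y * d : ℝ) : ℂ) * I

lemma Lf'_mul (x t a b c τ : ℝ) (hs : a + b + c = 0) (ha : 0 < 1 + τ * a) (hb : 0 < 1 + τ * b)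
    (hc : 0 < 1 + τ * c) :
    Lf' x t a b c τ * (((1 + τ * a) * (1 + τ * b) * (1 + τ * c) : ℝ) : ℂ)
      = lam0 x t a (b - c) + lam1 x t a (b - c) (a * b + b * c + c * a) * τ
        + ((a * b * c : ℝ) : ℂ) * τ ^ 2 := by
  obtain ⟨A, hA⟩ : ∃ A, A = a / (1 + τ * a) := ⟨_, rfl⟩
  obtain ⟨B, hB⟩ : ∃ B, B = b / (1 + τ * b) := ⟨_, rfl⟩
  obtain ⟨C, hC⟩ : ∃ C, C = c / (1 + τ * c) := ⟨_, rfl⟩
  have hA' : A * (1 + τ * a) = a := by rw [hA]; exact div_mul_cancel₀ _ ha.ne'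
  have hB' : B * (1 + τ * b) = b := by rw [hB]; exact div_mul_cancel₀ _ hb.ne'
  have hC' : C * (1 + τ * c) = c := by rw [hC]; exact div_mul_cancel₀ _ hc.ne'
  unfold Lf' lam0 lam1
  rw [← hA, ← hB, ← hC]
  clear hA hB hC
  obtain rfl : a = -(b + c) := by linarith
  apply Complex.ext
  · simp only [Complex.add_re, Complex.mul_re, Complex.ofReal_re, Complex.ofReal_im, Complex.I_re,
      Complex.I_im, Complex.add_im, Complex.mul_im, sq]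
    linear_combination (1 - 2 * x) * (1 + τ * b) * (1 + τ * c) * hA'
      + x * (1 + τ * -(b + c)) * (1 + τ * c) * hB' + x * (1 + τ * -(b + c)) * (1 + τ * b) * hC'
  · simp only [Complex.add_re, Complex.mul_re, Complex.ofReal_re, Complex.ofReal_im, Complex.I_re,
      Complex.I_im, Complex.add_im, Complex.mul_im, sq]
    linear_combination t * (1 + τ * -(b + c)) * (1 + τ * c) * hB'
      - t * (1 + τ * -(b + c)) * (1 + τ * b) * hC'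

/-- the truncated series and its derivative -/
noncomputable def Tf (g : ℕ → ℂ) (τ : ℂ) : ℂ :=
  g 0 + g 1 * τ + g 2 * τ ^ 2 + g 3 * τ ^ 3 + g 4 * τ ^ 4 + g 5 * τ ^ 5 + g 6 * τ ^ 6 + g 7 * τ ^ 7
    + g 8 * τ ^ 8 + g 9 * τ ^ 9 + g 10 * τ ^ 10 + g 11 * τ ^ 11 + g 12 * τ ^ 12

noncomputable def Tf' (g : ℕ → ℂ) (τ : ℂ) : ℂ :=
  g 1 + g 2 * (2 * τ) + g 3 * (3 * τ ^ 2) + g 4 * (4 * τ ^ 3) + g 5 * (5 * τ ^ 4) + g 6 * (6 * τ ^ 5)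
    + g 7 * (7 * τ ^ 6) + g 8 * (8 * τ ^ 7) + g 9 * (9 * τ ^ 8) + g 10 * (10 * τ ^ 9) + g 11 * (11 * τ ^ 10)
    + g 12 * (12 * τ ^ 11)

lemma hasDerivAt_Tf (g : ℕ → ℂ) (τ : ℝ) :
    HasDerivAt (fun τ : ℝ => Tf g (τ : ℂ)) (Tf' g (τ : ℂ)) τ := by
  have h : HasDerivAt (Tf g) (Tf' g (τ : ℂ)) (τ : ℂ) := by
    unfold Tf Tf'
    have hp : ∀ n : ℕ, HasDerivAt (fun z : ℂ => g n * z ^ n) (g n * ((n : ℂ) * (τ : ℂ) ^ (n - 1)))
        (τ : ℂ) := fun n => (hasDerivAt_pow n (τ : ℂ)).const_mul (g n)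
    have h0 : HasDerivAt (fun _ : ℂ => g 0) 0 (τ : ℂ) := hasDerivAt_const _ _
    have := ((((((((((((h0.add (hp 1)).add (hp 2)).add (hp 3)).add (hp 4)).add (hp 5)).add (hp 6)).add (hp 7)).add (hp 8)).add (hp 9)).add (hp 10)).add (hp 11)).add (hp 12))
    refine (this.congr_deriv ?_).congr_of_eventuallyEq (Filter.Eventually.of_forall fun z => ?_)
    · norm_num
    · simp
  exact h.comp_ofReal

/-- the recursion satisfied by the coefficients -/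
structure Rec (l0 l1 : ℂ) (e w : ℝ) (g : ℕ → ℂ) : Prop where
  h0 : g 0 = 1
  h1 : g 1 = l0 * g 0
  h2 : 2 * g 2 = l0 * g 1 + l1 * g 0
  h3 : 3 * g 3 = l0 * g 2 + (l1 - e) * g 1 + w * g 0
  h4 : 4 * g 4 = l0 * g 3 + (l1 - 2 * e) * g 2
  h5 : 5 * g 5 = l0 * g 4 + (l1 - 3 * e) * g 3 - w * g 2
  h6 : 6 * g 6 = l0 * g 5 + (l1 - 4 * e) * g 4 - 2 * w * g 3
  h7 : 7 * g 7 = l0 * g 6 + (l1 - 5 * e) * g 5 - 3 * w * g 4
  h8 : 8 * g 8 = l0 * g 7 + (l1 - 6 * e) * g 6 - 4 * w * g 5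
  h9 : 9 * g 9 = l0 * g 8 + (l1 - 7 * e) * g 7 - 5 * w * g 6
  h10 : 10 * g 10 = l0 * g 9 + (l1 - 8 * e) * g 8 - 6 * w * g 7
  h11 : 11 * g 11 = l0 * g 10 + (l1 - 9 * e) * g 9 - 7 * w * g 8
  h12 : 12 * g 12 = l0 * g 11 + (l1 - 10 * e) * g 10 - 8 * w * g 9

/-- the residual -/
lemma Rec.residual {l0 l1 : ℂ} {e w : ℝ} {g : ℕ → ℂ} (h : Rec l0 l1 e w g) (τ : ℂ) :
    Tf' g τ * (1 + e * τ ^ 2 + w * τ ^ 3) - Tf g τ * (l0 + l1 * τ + w * τ ^ 2)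
      = -τ ^ 12 * ((l0 * g 12 + (l1 - 11 * e) * g 11 - 9 * w * g 10)
          + ((l1 - 12 * e) * g 12 - 10 * w * g 11) * τ - 11 * w * g 12 * τ ^ 2) := by
  unfold Tf Tf'
  linear_combination h.h1 + τ * h.h2 + τ ^ 2 * h.h3 + τ ^ 3 * h.h4 + τ ^ 4 * h.h5 + τ ^ 5 * h.h6 + τ ^ 6 * h.h7 + τ ^ 7 * h.h8 + τ ^ 8 * h.h9 + τ ^ 9 * h.h10 + τ ^ 10 * h.h11 + τ ^ 11 * h.h12

end Crest.Agent.R163.Cen
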