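import Crest.Agent.R163.Window

/-!
Row 163 (S0244 antiferro): variant of helper667's window theorem in which the certificate may use
the exact limit `x` of `J chi` (multiplier of any sign) and an a priori bound `x ≤ xm`.
The proof is a copy of `windows_core` (Window.lean).
-/

set_option autoImplicit false

universe u

namespace Crest.Agent.R163

open Crest.ProbabilityR.Broadcast

variable {q : ℕ}

/-- certificate at the value `u` of the pinned parameters and `x` of `J chi` -/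
def Cert2 {ι κ γ : Type} [Fintype ι] [Fintype κ] [Fintype γ] [NeZero q] (U : ℝ → ℝ)
    (θ lam x B0 : ℝ) (h : ι → (Fin q → ℝ) → ℝ) (g : κ → (Fin q → ℝ) → ℝ)
    (w : γ → (Fin q → ℝ) → ℝ) (u : κ → ℝ) : Prop :=
  ∃ (μ τ t0 : ι → ℝ) (l ν : κ → ℝ) (ρ : γ → ℝ) (ξ K0 : ℝ),
    (∀ j, 0 ≤ μ j) ∧ (∀ j, ∀ B ∈ Set.Icc 0 B0, U B ≤ t0 j + τ j * B) ∧ (∀ a, 0 ≤ ρ a) ∧
    (∀ f : Fin q → ℝ, (∀ i, 0 ≤ f i) → avg f = 1 →
      ∑ j, μ j * (τ j * (θ * (1 - h j (W lam f)))) + ∑ k, l k * (θ * (1 - g k (W lam f))) +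
        ξ * chi f + K0 ≤
      ∑ j, μ j * (1 - h j f) + ∑ k, ν k * (1 - g k f) -
        ∑ a, ρ a * ((1 - w a f) - U (θ * (1 - w a (W lam f))))) ∧
    ∑ j, μ j * t0 j + ∑ k, ν k * U (u k) < ∑ k, l k * u k + ξ * x + K0

lemma Cert.cert2 {ι κ γ : Type} [Fintype ι] [Fintype κ] [Fintype γ] [NeZero q] {U : ℝ → ℝ}
    {θ lam x0 x B0 : ℝ} {h : ι → (Fin q → ℝ) → ℝ} {g : κ → (Fin q → ℝ) → ℝ}
    {w : γ → (Fin q → ℝ) → ℝ} {u : κ → ℝ} (H : Cert U θ lam x0 B0 h g w u) (hx : x0 ≤ x) :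
    Cert2 U θ lam x B0 h g w u := by
  obtain ⟨μ, τ, t0, l, ν, ρ, ξ, K0, hμ, hτ, hρ, hξ, Hpt, HK⟩ := H
  have := mul_le_mul_of_nonneg_left hx hξ
  exact ⟨μ, τ, t0, l, ν, ρ, ξ, K0, hμ, hτ, hρ, Hpt, by linarith⟩

section core

variable {ι κ γ : Type} [Fintype ι] [Fintype κ] [Fintype γ]

/-- the window theorem, abstract form, with the limit `x` of `J chi` pinned in `[x0, xm]` -/
theorem windows_core2 [NeZero q] {Ω : ℕ → Type} {P : ∀ n, Ω n → Fin q → ℝ}
    (hP : ∀ n, IsChan (P n)) (hdec : ∀ n, CxLe (P (n + 1)) (P n)) {lam θ x0 xm B0 Y : ℝ}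
    (hl : Adm q lam) (hθ : 0 ≤ θ) {U : ℝ → ℝ} (hU : Continuous U)
    (hrec : ∀ φ : (Fin q → ℝ) → ℝ, LMul.{0} φ → ∀ n,
      1 - J φ (P (n + 1)) = U (θ * (1 - J φ (fun o => W lam (P n o)))))
    (hsup : ∀ B ≤ Y, ∃ s, ∀ y ≤ Y, U y ≤ U B + s * (y - B))
    {h : ι → (Fin q → ℝ) → ℝ} {g : κ → (Fin q → ℝ) → ℝ} {w : γ → (Fin q → ℝ) → ℝ}
    (hh : ∀ j, LMul.{0} (h j)) (hg : ∀ k, LMul.{0} (g k)) (hw : ∀ a, LMul.{0} (w a))
    (ch : ∀ j, ContinuousOn (h j) {v | ∀ i, 0 ≤ v i})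
    (cg : ∀ j, ContinuousOn (g j) {v | ∀ i, 0 ≤ v i})
    (cw : ∀ j, ContinuousOn (w j) {v | ∀ i, 0 ≤ v i})
    (hB0 : ∀ j n, θ * (1 - J (h j) (fun o => W lam (P n o))) ≤ B0)
    (hY : ∀ a, ∀ f : Fin q → ℝ, (∀ i, 0 ≤ f i) → avg f = 1 → θ * (1 - w a (W lam f)) ≤ Y)
    (hwY : ∀ a n, θ * (1 - J (w a) (fun o => W lam (P n o))) ≤ Y)
    (hxm : ∃ n, J chi (P n) ≤ xm)
    (H : ∀ (u : κ → ℝ) (x : ℝ), (∀ k, 0 ≤ u k) → (∀ k, u k ≤ 2 * θ) → x0 ≤ x → x ≤ xm →
      Cert2 U θ lam x B0 h g w u) :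
    ∃ n, J chi (P n) < x0 := by
  by_contra hcon
  push Not at hcon
  -- limits
  have lim : ∀ φ : (Fin q → ℝ) → ℝ, Hom φ → ContinuousOn φ {v | ∀ i, 0 ≤ v i} →
      ∃ a, Filter.Tendsto (fun n => J φ (P n)) Filter.atTop (nhds a) := fun φ h1 h2 =>
    tendsto_J h1 h2 hP hdec
  have limW : ∀ φ : (Fin q → ℝ) → ℝ, Hom φ → ContinuousOn φ {v | ∀ i, 0 ≤ v i} →
      ∃ a, Filter.Tendsto (fun n => J φ (fun o => W lam (P n o))) Filter.atTop (nhds a) :=
    fun φ h1 h2 => lim (fun v => φ (W lam v)) (h1.comp_W hl) (continuousOn_comp_W h2 hl)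
  choose α hα using fun j => lim (h j) (hh j).hom (ch j)
  choose β hβ using fun j => limW (h j) (hh j).hom (ch j)
  choose αg hαg using fun j => lim (g j) (hg j).hom (cg j)
  choose βg hβg using fun j => limW (g j) (hg j).hom (cg j)
  choose αw hαw using fun j => lim (w j) (hw j).hom (cw j)
  choose βw hβw using fun j => limW (w j) (hw j).hom (cw j)
  obtain ⟨x, hx⟩ := ch_chi.tendsto hP hdec
  have hx0 : x0 ≤ x := ge_of_tendsto' hx hcon
  have hxm' : x ≤ xm := by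
    obtain ⟨n, hn⟩ := hxm
    have hanti : Antitone fun n => J chi (P n) :=
      antitone_nat_of_succ_le fun n => hdec n chi ch_chi
    refine le_trans (le_of_tendsto hx ?_) hn
    filter_upwards [Filter.eventually_ge_atTop n] with k hk
    exact hanti hk
  -- fixed point relations
  have fix : ∀ φ : (Fin q → ℝ) → ℝ, LMul.{0} φ → ∀ a b : ℝ,
      Filter.Tendsto (fun n => J φ (P n)) Filter.atTop (nhds a) →
      Filter.Tendsto (fun n => J φ (fun o => W lam (P n o))) Filter.atTop (nhds b) →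
      1 - a = U (θ * (1 - b)) := by
    intro φ hφ a b ha hb
    have h1 : Filter.Tendsto (fun n => 1 - J φ (P (n + 1))) Filter.atTop (nhds (1 - a)) :=
      ((ha.comp (Filter.tendsto_add_atTop_nat 1)).const_sub 1)
    have h2 : Filter.Tendsto (fun n => U (θ * (1 - J φ (fun o => W lam (P n o)))))
        Filter.atTop (nhds (U (θ * (1 - b)))) :=
      (hU.tendsto _).comp ((hb.const_sub 1).const_mul θ)
    have h3 : (fun n => 1 - J φ (P (n + 1))) =
        fun n => U (θ * (1 - J φ (fun o => W lam (P n o)))) := by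
      funext n; exact hrec φ hφ n
    rw [h3] at h1
    exact tendsto_nhds_unique h1 h2
  have range : ∀ φ : (Fin q → ℝ) → ℝ, LMul.{0} φ → ∀ b : ℝ,
      Filter.Tendsto (fun n => J φ (fun o => W lam (P n o))) Filter.atTop (nhds b) →
      -1 ≤ b ∧ b ≤ 1 := by
    intro φ hφ b hb
    refine ⟨ge_of_tendsto' hb fun n => ?_, le_of_tendsto' hb fun n => ?_⟩
    · exact (abs_le.1 (hφ.abs_J_le_one ((hP n).edge hl))).1
    · exact (abs_le.1 (hφ.abs_J_le_one ((hP n).edge hl))).2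
  set u : κ → ℝ := fun k => θ * (1 - βg k) with hu
  obtain ⟨μ, τ, t0, l, ν, ρ, ξ, K0, hμ, hτ, hρ, Hpt, HK⟩ := H u x
    (fun k => mul_nonneg hθ (by linarith [(range _ (hg k) _ (hβg k)).2]))
    (fun k => by
      have := (range _ (hg k) _ (hβg k)).1
      have h1 : θ * (1 - βg k) ≤ θ * 2 := mul_le_mul_of_nonneg_left (by linarith) hθ
      simp only [hu]; linarith) hx0 hxm'
  -- supporting lines
  have hBw : ∀ a, θ * (1 - βw a) ≤ Y := fun a =>
    le_of_tendsto' ((hβw a).const_sub 1 |>.const_mul θ) fun n => hwY a n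
  choose s hs using fun a => hsup (θ * (1 - βw a)) (hBw a)
  have int : ∀ n, _ := fun n => integrate_cert (hP n) hl hh hg hw hY hρ (B := fun a =>
    θ * (1 - βw a)) hs Hpt
  have L1 : Filter.Tendsto (fun n =>
      ∑ j, μ j * (τ j * (θ * (1 - J (h j) (fun o => W lam (P n o))))) +
        ∑ k, l k * (θ * (1 - J (g k) (fun o => W lam (P n o)))) + ξ * J chi (P n) + K0)
      Filter.atTop (nhds (∑ j, μ j * (τ j * (θ * (1 - β j))) +
        ∑ k, l k * (θ * (1 - βg k)) + ξ * x + K0)) := by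
    refine (((tendsto_finsetSum _ fun j _ => ?_).add (tendsto_finsetSum _ fun k _ => ?_)).add
      (hx.const_mul ξ)).add_const K0
    · exact (((hβ j).const_sub 1).const_mul θ).const_mul _ |>.const_mul _
    · exact (((hβg k).const_sub 1).const_mul θ).const_mul _
  have L2 : Filter.Tendsto (fun n =>
      ∑ j, μ j * (1 - J (h j) (P n)) + ∑ k, ν k * (1 - J (g k) (P n)) -
        ∑ a, ρ a * ((1 - J (w a) (P n)) -
          (U (θ * (1 - βw a)) + s a * (θ * (1 - J (w a) (fun o => W lam (P n o))) -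
            θ * (1 - βw a)))))
      Filter.atTop (nhds (∑ j, μ j * (1 - α j) + ∑ k, ν k * (1 - αg k) -
        ∑ a, ρ a * ((1 - αw a) - (U (θ * (1 - βw a)) + s a * (θ * (1 - βw a) -
            θ * (1 - βw a)))))) := by
    refine ((tendsto_finsetSum _ fun j _ => ?_).add (tendsto_finsetSum _ fun k _ => ?_)).sub
      (tendsto_finsetSum _ fun a _ => ?_)
    · exact ((hα j).const_sub 1).const_mul _
    · exact ((hαg k).const_sub 1).const_mul _
    · refine (((hαw a).const_sub 1).sub (Filter.Tendsto.const_add _ ?_)).const_mul _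
      exact (((hβw a).const_sub 1).const_mul θ |>.sub_const _).const_mul _
  have fin := le_of_tendsto_of_tendsto' L1 L2 int
  have e1 : ∀ j, 1 - α j ≤ t0 j + τ j * (θ * (1 - β j)) := fun j => by
    rw [fix _ (hh j) _ _ (hα j) (hβ j)]
    refine hτ j _ ⟨mul_nonneg hθ (by linarith [(range _ (hh j) _ (hβ j)).2]), ?_⟩
    exact le_of_tendsto' ((hβ j).const_sub 1 |>.const_mul θ) fun n => hB0 j n
  have e2 : ∀ k, 1 - αg k = U (u k) := fun k => fix _ (hg k) _ _ (hαg k) (hβg k)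
  have e3 : ∀ a, 1 - αw a = U (θ * (1 - βw a)) := fun a => fix _ (hw a) _ _ (hαw a) (hβw a)
  have f1 : ∑ j, μ j * (1 - α j) ≤ ∑ j, μ j * t0 j + ∑ j, μ j * (τ j * (θ * (1 - β j))) := by
    rw [← Finset.sum_add_distrib]
    refine Finset.sum_le_sum fun j _ => ?_
    have := mul_le_mul_of_nonneg_left (e1 j) (hμ j)
    linarith
  have f2 : ∑ k, ν k * (1 - αg k) = ∑ k, ν k * U (u k) :=
    Finset.sum_congr rfl fun k _ => by rw [e2]
  have f3 : ∑ a, ρ a * ((1 - αw a) - (U (θ * (1 - βw a)) + s a * (θ * (1 - βw a) -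
            θ * (1 - βw a)))) = 0 :=
    Finset.sum_eq_zero fun a _ => by rw [e3]; ring
  have f4 : ∑ k, l k * (θ * (1 - βg k)) = ∑ k, l k * u k := rfl
  rw [f2, f3, f4] at fin
  linarith

end core

/-- `Ub b` lies below its tangents everywhere when `b` is even -/
lemma Ub_tangent_even {b : ℕ} (hb : b ≠ 0) (he : Even b) (c B : ℝ) :
    Ub b B ≤ Ub b c + (1 - c / b) ^ (b - 1) * (B - c) := by
  have hb' : (b : ℝ) ≠ 0 := Nat.cast_ne_zero.mpr hb
  have hcv := he.convexOn_pow (𝕜 := ℝ)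
  have hd : HasDerivAt (fun y : ℝ => y ^ b) (b * (1 - c / b) ^ (b - 1)) (1 - c / b) := by
    simpa using hasDerivAt_pow b (1 - c / b)
  have key : ∀ x : ℝ, (1 - c / b) ^ b + b * (1 - c / b) ^ (b - 1) * (x - (1 - c / b)) ≤ x ^ b := by
    intro x
    rcases lt_trichotomy (1 - c / b) x with h | h | h
    · have := hcv.le_slope_of_hasDerivAt (Set.mem_univ _) (Set.mem_univ _) h hd
      rw [slope_def_field, le_div_iff₀ (by linarith)] at this
      linarith
    · rw [← h]; simp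
    · have := hcv.slope_le_of_hasDerivAt (Set.mem_univ _) (Set.mem_univ _) h hd
      rw [slope_def_field, div_le_iff₀ (by linarith)] at this
      linarith
  have h := key (1 - B / b)
  unfold Ub
  have e : (b : ℝ) * (1 - c / b) ^ (b - 1) * ((1 - B / b) - (1 - c / b)) =
      -((1 - c / b) ^ (b - 1) * (B - c)) := by
    field_simp
    ring
  rw [e] at h
  linarith

/-- the window theorem for regular trees of even degree, no positivity needed, with an a priori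
bound `xm` on the limit of `J chi` -/
theorem exists_lt_reg_even_windows [NeZero q] {ι κ : Type} [Fintype ι] [Fintype κ]
    {lam x0 xm : ℝ} {b : ℕ} (hb : b ≠ 0) (hl : Adm q lam)
    {h : ι → (Fin q → ℝ) → ℝ} {g : κ → (Fin q → ℝ) → ℝ} {w : Fin 0 → (Fin q → ℝ) → ℝ}
    (hh : ∀ j, LMul.{0} (h j)) (hg : ∀ k, LMul.{0} (g k))
    (ch : ∀ j, ContinuousOn (h j) {v | ∀ i, 0 ≤ v i})
    (cg : ∀ j, ContinuousOn (g j) {v | ∀ i, 0 ≤ v i})
    (hxm : ∃ n, J chi (reg q b lam n) ≤ xm)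
    (H : ∀ (u : κ → ℝ) (x : ℝ), (∀ k, 0 ≤ u k) → (∀ k, u k ≤ 2 * b) → x0 ≤ x → x ≤ xm →
      Cert2 (Ub b) b lam x (2 * b) h g w u) :
    ∃ n, J chi (reg q b lam n) < x0 := by
  have hb' : (0 : ℝ) < b := by exact_mod_cast Nat.pos_of_ne_zero hb
  refine windows_core2 (fun n => reg_isChan b hl n) (fun n => cxLe_reg_succ b hl n) hl hb'.le
    (continuous_Ub b) (fun φ hφ n => ?_)
    (fun B hB => ⟨(1 - B / b) ^ (b - 1), fun y hy => Ub_tangent hb hB hy⟩)
    (Y := b) hh hg (fun a => a.elim0) ch cg (fun a => a.elim0) (fun j n => ?_)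
    (fun a => a.elim0) (fun a => a.elim0) hxm H
  · rw [hφ.J_reg_succ b hl]
    unfold Ub
    rw [mul_div_cancel_left₀ _ hb'.ne', sub_sub_cancel]
  · have h1 := (abs_le.1 ((hh j).abs_J_le_one ((reg_isChan b hl n).edge hl))).1
    have h2 : (b : ℝ) * (1 - J (h j) (fun o => W lam (reg q b lam n o))) ≤ b * 2 :=
      mul_le_mul_of_nonneg_left (by linarith) hb'.le
    linarith

end Crest.Agent.R163
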