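import Crest.Agent.R163.CenBd
import Crest.Agent.R163.WinH

/-!
Row 163, centre region: real form of the recursion and the final Taylor theorem for `fxt`.
-/

set_option autoImplicit false
set_option linter.unusedVariables false
set_option linter.unusedSimpArgs false

namespace Crest.Agent.R163.Cen

open Complex

/-- real form of the recursion, `g n = p n + i d q n`, `d ^ 2 = -3 y ^ 2 - 4 e` -/
structure RRec (x t y e w : ℝ) (p q : ℕ → ℝ) : Prop where
  p0 : p 0 = 1
  q0 : q 0 = 0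
  p1 : p 1 = (1 - 3 * x) * y
  q1 : q 1 = t
  p2 : 2 * p 2 = (1 - 3 * x) * y * p 1 - t * (-3 * y ^ 2 - 4 * e) * q 1
    + (-(1 - 3 * x) * y ^ 2 + 2 * x * e) * p 0 - t * y * (-3 * y ^ 2 - 4 * e) * q 0
  q2 : 2 * q 2 = (1 - 3 * x) * y * q 1 + t * p 1
    + (-(1 - 3 * x) * y ^ 2 + 2 * x * e) * q 0 + t * y * p 0
  p3 : 3 * p 3 = (1 - 3 * x) * y * p 2 - t * (-3 * y ^ 2 - 4 * e) * q 2
    + (-(1 - 3 * x) * y ^ 2 + 2 * x * e - e) * p 1 - t * y * (-3 * y ^ 2 - 4 * e) * q 1
    + w * p 0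
  q3 : 3 * q 3 = (1 - 3 * x) * y * q 2 + t * p 2
    + (-(1 - 3 * x) * y ^ 2 + 2 * x * e - e) * q 1 + t * y * p 1
    + w * q 0
  p4 : 4 * p 4 = (1 - 3 * x) * y * p 3 - t * (-3 * y ^ 2 - 4 * e) * q 3
    + (-(1 - 3 * x) * y ^ 2 + 2 * x * e - 2 * e) * p 2 - t * y * (-3 * y ^ 2 - 4 * e) * q 2
  q4 : 4 * q 4 = (1 - 3 * x) * y * q 3 + t * p 3
    + (-(1 - 3 * x) * y ^ 2 + 2 * x * e - 2 * e) * q 2 + t * y * p 2
  p5 : 5 * p 5 = (1 - 3 * x) * y * p 4 - t * (-3 * y ^ 2 - 4 * e) * q 4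
    + (-(1 - 3 * x) * y ^ 2 + 2 * x * e - 3 * e) * p 3 - t * y * (-3 * y ^ 2 - 4 * e) * q 3
    - w * p 2
  q5 : 5 * q 5 = (1 - 3 * x) * y * q 4 + t * p 4
    + (-(1 - 3 * x) * y ^ 2 + 2 * x * e - 3 * e) * q 3 + t * y * p 3
    - w * q 2
  p6 : 6 * p 6 = (1 - 3 * x) * y * p 5 - t * (-3 * y ^ 2 - 4 * e) * q 5
    + (-(1 - 3 * x) * y ^ 2 + 2 * x * e - 4 * e) * p 4 - t * y * (-3 * y ^ 2 - 4 * e) * q 4
    - 2 * w * p 3
  q6 : 6 * q 6 = (1 - 3 * x) * y * q 5 + t * p 5
    + (-(1 - 3 * x) * y ^ 2 + 2 * x * e - 4 * e) * q 4 + t * y * p 4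
    - 2 * w * q 3
  p7 : 7 * p 7 = (1 - 3 * x) * y * p 6 - t * (-3 * y ^ 2 - 4 * e) * q 6
    + (-(1 - 3 * x) * y ^ 2 + 2 * x * e - 5 * e) * p 5 - t * y * (-3 * y ^ 2 - 4 * e) * q 5
    - 3 * w * p 4
  q7 : 7 * q 7 = (1 - 3 * x) * y * q 6 + t * p 6
    + (-(1 - 3 * x) * y ^ 2 + 2 * x * e - 5 * e) * q 5 + t * y * p 5
    - 3 * w * q 4
  p8 : 8 * p 8 = (1 - 3 * x) * y * p 7 - t * (-3 * y ^ 2 - 4 * e) * q 7
    + (-(1 - 3 * x) * y ^ 2 + 2 * x * e - 6 * e) * p 6 - t * y * (-3 * y ^ 2 - 4 * e) * q 6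
    - 4 * w * p 5
  q8 : 8 * q 8 = (1 - 3 * x) * y * q 7 + t * p 7
    + (-(1 - 3 * x) * y ^ 2 + 2 * x * e - 6 * e) * q 6 + t * y * p 6
    - 4 * w * q 5
  p9 : 9 * p 9 = (1 - 3 * x) * y * p 8 - t * (-3 * y ^ 2 - 4 * e) * q 8
    + (-(1 - 3 * x) * y ^ 2 + 2 * x * e - 7 * e) * p 7 - t * y * (-3 * y ^ 2 - 4 * e) * q 7
    - 5 * w * p 6
  q9 : 9 * q 9 = (1 - 3 * x) * y * q 8 + t * p 8
    + (-(1 - 3 * x) * y ^ 2 + 2 * x * e - 7 * e) * q 7 + t * y * p 7
    - 5 * w * q 6
  p10 : 10 * p 10 = (1 - 3 * x) * y * p 9 - t * (-3 * y ^ 2 - 4 * e) * q 9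
    + (-(1 - 3 * x) * y ^ 2 + 2 * x * e - 8 * e) * p 8 - t * y * (-3 * y ^ 2 - 4 * e) * q 8
    - 6 * w * p 7
  q10 : 10 * q 10 = (1 - 3 * x) * y * q 9 + t * p 9
    + (-(1 - 3 * x) * y ^ 2 + 2 * x * e - 8 * e) * q 8 + t * y * p 8
    - 6 * w * q 7
  p11 : 11 * p 11 = (1 - 3 * x) * y * p 10 - t * (-3 * y ^ 2 - 4 * e) * q 10
    + (-(1 - 3 * x) * y ^ 2 + 2 * x * e - 9 * e) * p 9 - t * y * (-3 * y ^ 2 - 4 * e) * q 9
    - 7 * w * p 8
  q11 : 11 * q 11 = (1 - 3 * x) * y * q 10 + t * p 10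
    + (-(1 - 3 * x) * y ^ 2 + 2 * x * e - 9 * e) * q 9 + t * y * p 9
    - 7 * w * q 8
  p12 : 12 * p 12 = (1 - 3 * x) * y * p 11 - t * (-3 * y ^ 2 - 4 * e) * q 11
    + (-(1 - 3 * x) * y ^ 2 + 2 * x * e - 10 * e) * p 10 - t * y * (-3 * y ^ 2 - 4 * e) * q 10
    - 8 * w * p 9
  q12 : 12 * q 12 = (1 - 3 * x) * y * q 11 + t * p 11
    + (-(1 - 3 * x) * y ^ 2 + 2 * x * e - 10 * e) * q 10 + t * y * p 10
    - 8 * w * q 9

/-- the complex sequence -/
noncomputable def gg (p q : ℕ → ℝ) (d : ℝ) (n : ℕ) : ℂ := (p n : ℂ) + ((d * q n : ℝ) : ℂ) * I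

lemma gg_re (p q : ℕ → ℝ) (d : ℝ) (n : ℕ) : (gg p q d n).re = p n := by simp [gg]
lemma gg_im (p q : ℕ → ℝ) (d : ℝ) (n : ℕ) : (gg p q d n).im = d * q n := by simp [gg]

lemma lam0_re (x t y d : ℝ) : (lam0 x t y d).re = (1 - 3 * x) * y := by simp [lam0]
lemma lam0_im (x t y d : ℝ) : (lam0 x t y d).im = t * d := by simp [lam0]
lemma lam1_re (x t y d e : ℝ) : (lam1 x t y d e).re = -(1 - 3 * x) * y ^ 2 + 2 * x * e := by
  simp only [lam1, Complex.add_re, Complex.ofReal_re, Complex.mul_re, Complex.ofReal_im,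
    Complex.I_re, Complex.I_im]
  ring
lemma lam1_im (x t y d e : ℝ) : (lam1 x t y d e).im = t * y * d := by
  simp only [lam1, Complex.add_im, Complex.ofReal_re, Complex.mul_im, Complex.ofReal_im,
    Complex.I_re, Complex.I_im]
  ring

lemma RRec.toRec {x t y e w d : ℝ} {p q : ℕ → ℝ} (h : RRec x t y e w p q)
    (hd : d ^ 2 = -3 * y ^ 2 - 4 * e) :
    Rec (lam0 x t y d) (lam1 x t y d e) e w (gg p q d) := by
  constructor
  · apply Complex.ext
    · rw [gg_re, h.p0]; simp
    · rw [gg_im, h.q0]; simp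
  · apply Complex.ext
    · rw [Complex.mul_re, gg_re, gg_re, gg_im, lam0_re, lam0_im, h.p0, h.q0, h.p1]; ring
    · rw [Complex.mul_im, gg_im, gg_re, gg_im, lam0_re, lam0_im, h.p0, h.q0, h.q1]; ring
  · apply Complex.ext
    · simp only [Complex.mul_re, Complex.mul_im, Complex.add_re, Complex.add_im, Complex.sub_re,
        Complex.sub_im, Complex.ofReal_re, Complex.ofReal_im, Complex.re_ofNat, Complex.im_ofNat,
        gg_re, gg_im, lam0_re, lam0_im, lam1_re, lam1_im]
      linear_combination h.p2 + (t * q 1 + t * y * q 0) * hd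
    · simp only [Complex.mul_re, Complex.mul_im, Complex.add_re, Complex.add_im, Complex.sub_re,
        Complex.sub_im, Complex.ofReal_re, Complex.ofReal_im, Complex.re_ofNat, Complex.im_ofNat,
        gg_re, gg_im, lam0_re, lam0_im, lam1_re, lam1_im]
      linear_combination d * h.q2
  · apply Complex.ext
    · simp only [Complex.mul_re, Complex.mul_im, Complex.add_re, Complex.add_im, Complex.sub_re,
        Complex.sub_im, Complex.ofReal_re, Complex.ofReal_im, Complex.re_ofNat, Complex.im_ofNat,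
        gg_re, gg_im, lam0_re, lam0_im, lam1_re, lam1_im]
      linear_combination h.p3 + (t * q 2 + t * y * q 1) * hd
    · simp only [Complex.mul_re, Complex.mul_im, Complex.add_re, Complex.add_im, Complex.sub_re,
        Complex.sub_im, Complex.ofReal_re, Complex.ofReal_im, Complex.re_ofNat, Complex.im_ofNat,
        gg_re, gg_im, lam0_re, lam0_im, lam1_re, lam1_im]
      linear_combination d * h.q3
  · apply Complex.ext
    · simp only [Complex.mul_re, Complex.mul_im, Complex.add_re, Complex.add_im, Complex.sub_re,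
        Complex.sub_im, Complex.ofReal_re, Complex.ofReal_im, Complex.re_ofNat, Complex.im_ofNat,
        gg_re, gg_im, lam0_re, lam0_im, lam1_re, lam1_im]
      linear_combination h.p4 + (t * q 3 + t * y * q 2) * hd
    · simp only [Complex.mul_re, Complex.mul_im, Complex.add_re, Complex.add_im, Complex.sub_re,
        Complex.sub_im, Complex.ofReal_re, Complex.ofReal_im, Complex.re_ofNat, Complex.im_ofNat,
        gg_re, gg_im, lam0_re, lam0_im, lam1_re, lam1_im]
      linear_combination d * h.q4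
  · apply Complex.ext
    · simp only [Complex.mul_re, Complex.mul_im, Complex.add_re, Complex.add_im, Complex.sub_re,
        Complex.sub_im, Complex.ofReal_re, Complex.ofReal_im, Complex.re_ofNat, Complex.im_ofNat,
        gg_re, gg_im, lam0_re, lam0_im, lam1_re, lam1_im]
      linear_combination h.p5 + (t * q 4 + t * y * q 3) * hd
    · simp only [Complex.mul_re, Complex.mul_im, Complex.add_re, Complex.add_im, Complex.sub_re,
        Complex.sub_im, Complex.ofReal_re, Complex.ofReal_im, Complex.re_ofNat, Complex.im_ofNat,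
        gg_re, gg_im, lam0_re, lam0_im, lam1_re, lam1_im]
      linear_combination d * h.q5
  · apply Complex.ext
    · simp only [Complex.mul_re, Complex.mul_im, Complex.add_re, Complex.add_im, Complex.sub_re,
        Complex.sub_im, Complex.ofReal_re, Complex.ofReal_im, Complex.re_ofNat, Complex.im_ofNat,
        gg_re, gg_im, lam0_re, lam0_im, lam1_re, lam1_im]
      linear_combination h.p6 + (t * q 5 + t * y * q 4) * hd
    · simp only [Complex.mul_re, Complex.mul_im, Complex.add_re, Complex.add_im, Complex.sub_re,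
        Complex.sub_im, Complex.ofReal_re, Complex.ofReal_im, Complex.re_ofNat, Complex.im_ofNat,
        gg_re, gg_im, lam0_re, lam0_im, lam1_re, lam1_im]
      linear_combination d * h.q6
  · apply Complex.ext
    · simp only [Complex.mul_re, Complex.mul_im, Complex.add_re, Complex.add_im, Complex.sub_re,
        Complex.sub_im, Complex.ofReal_re, Complex.ofReal_im, Complex.re_ofNat, Complex.im_ofNat,
        gg_re, gg_im, lam0_re, lam0_im, lam1_re, lam1_im]
      linear_combination h.p7 + (t * q 6 + t * y * q 5) * hd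
    · simp only [Complex.mul_re, Complex.mul_im, Complex.add_re, Complex.add_im, Complex.sub_re,
        Complex.sub_im, Complex.ofReal_re, Complex.ofReal_im, Complex.re_ofNat, Complex.im_ofNat,
        gg_re, gg_im, lam0_re, lam0_im, lam1_re, lam1_im]
      linear_combination d * h.q7
  · apply Complex.ext
    · simp only [Complex.mul_re, Complex.mul_im, Complex.add_re, Complex.add_im, Complex.sub_re,
        Complex.sub_im, Complex.ofReal_re, Complex.ofReal_im, Complex.re_ofNat, Complex.im_ofNat,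
        gg_re, gg_im, lam0_re, lam0_im, lam1_re, lam1_im]
      linear_combination h.p8 + (t * q 7 + t * y * q 6) * hd
    · simp only [Complex.mul_re, Complex.mul_im, Complex.add_re, Complex.add_im, Complex.sub_re,
        Complex.sub_im, Complex.ofReal_re, Complex.ofReal_im, Complex.re_ofNat, Complex.im_ofNat,
        gg_re, gg_im, lam0_re, lam0_im, lam1_re, lam1_im]
      linear_combination d * h.q8
  · apply Complex.ext
    · simp only [Complex.mul_re, Complex.mul_im, Complex.add_re, Complex.add_im, Complex.sub_re,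
        Complex.sub_im, Complex.ofReal_re, Complex.ofReal_im, Complex.re_ofNat, Complex.im_ofNat,
        gg_re, gg_im, lam0_re, lam0_im, lam1_re, lam1_im]
      linear_combination h.p9 + (t * q 8 + t * y * q 7) * hd
    · simp only [Complex.mul_re, Complex.mul_im, Complex.add_re, Complex.add_im, Complex.sub_re,
        Complex.sub_im, Complex.ofReal_re, Complex.ofReal_im, Complex.re_ofNat, Complex.im_ofNat,
        gg_re, gg_im, lam0_re, lam0_im, lam1_re, lam1_im]
      linear_combination d * h.q9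
  · apply Complex.ext
    · simp only [Complex.mul_re, Complex.mul_im, Complex.add_re, Complex.add_im, Complex.sub_re,
        Complex.sub_im, Complex.ofReal_re, Complex.ofReal_im, Complex.re_ofNat, Complex.im_ofNat,
        gg_re, gg_im, lam0_re, lam0_im, lam1_re, lam1_im]
      linear_combination h.p10 + (t * q 9 + t * y * q 8) * hd
    · simp only [Complex.mul_re, Complex.mul_im, Complex.add_re, Complex.add_im, Complex.sub_re,
        Complex.sub_im, Complex.ofReal_re, Complex.ofReal_im, Complex.re_ofNat, Complex.im_ofNat,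
        gg_re, gg_im, lam0_re, lam0_im, lam1_re, lam1_im]
      linear_combination d * h.q10
  · apply Complex.ext
    · simp only [Complex.mul_re, Complex.mul_im, Complex.add_re, Complex.add_im, Complex.sub_re,
        Complex.sub_im, Complex.ofReal_re, Complex.ofReal_im, Complex.re_ofNat, Complex.im_ofNat,
        gg_re, gg_im, lam0_re, lam0_im, lam1_re, lam1_im]
      linear_combination h.p11 + (t * q 10 + t * y * q 9) * hd
    · simp only [Complex.mul_re, Complex.mul_im, Complex.add_re, Complex.add_im, Complex.sub_re,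
        Complex.sub_im, Complex.ofReal_re, Complex.ofReal_im, Complex.re_ofNat, Complex.im_ofNat,
        gg_re, gg_im, lam0_re, lam0_im, lam1_re, lam1_im]
      linear_combination d * h.q11
  · apply Complex.ext
    · simp only [Complex.mul_re, Complex.mul_im, Complex.add_re, Complex.add_im, Complex.sub_re,
        Complex.sub_im, Complex.ofReal_re, Complex.ofReal_im, Complex.re_ofNat, Complex.im_ofNat,
        gg_re, gg_im, lam0_re, lam0_im, lam1_re, lam1_im]
      linear_combination h.p12 + (t * q 11 + t * y * q 10) * hd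
    · simp only [Complex.mul_re, Complex.mul_im, Complex.add_re, Complex.add_im, Complex.sub_re,
        Complex.sub_im, Complex.ofReal_re, Complex.ofReal_im, Complex.re_ofNat, Complex.im_ofNat,
        gg_re, gg_im, lam0_re, lam0_im, lam1_re, lam1_im]
      linear_combination d * h.q12

/-- the sum of the coefficients -/
def SumP (p : ℕ → ℝ) : ℝ :=
  p 0 + p 1 + p 2 + p 3 + p 4 + p 5 + p 6 + p 7 + p 8 + p 9 + p 10 + p 11 + p 12

lemma Tf_re (p q : ℕ → ℝ) (d : ℝ) : (Tf (gg p q d) 1).re = SumP p := by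
  simp only [Tf, one_pow, mul_one, Complex.add_re, gg_re, SumP]

/-- weighted AM-GM for one of the three terms -/
lemma exp_Lf_re_le {x a b c : ℝ} (t : ℝ) (hx0 : 0 ≤ x) (hx1 : x ≤ 1 / 2) (ha : 0 < 1 + a) (hb : 0 < 1 + b)
    (hc : 0 < 1 + c) : Real.exp (Lf x t a b c 1).re
      ≤ (1 - 2 * x) * (1 + a) + x * (1 + b) + x * (1 + c) := by
  have h := Real.geom_mean_le_arith_mean3_weighted (w₁ := 1 - 2 * x) (w₂ := x) (w₃ := x)
    (by linarith) hx0 hx0 ha.le hb.le hc.le (by ring)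
  refine le_trans (le_of_eq ?_) h
  rw [Lf_re, Real.rpow_def_of_pos ha, Real.rpow_def_of_pos hb, Real.rpow_def_of_pos hc,
    ← Real.exp_add, ← Real.exp_add]
  congr 1
  simp only [one_mul]
  ring

lemma exp_Lf_re (x t a b c : ℝ) (ha : 0 < 1 + a) (hb : 0 < 1 + b) (hc : 0 < 1 + c) :
    (exp (Lf x t a b c 1)).re = (1 + a) ^ (1 - 2 * x) * ((1 + b) * (1 + c)) ^ x *
      Real.cos (t * (Real.log (1 + b) - Real.log (1 + c))) := by
  rw [Complex.exp_re, Lf_re, Lf_im, Real.rpow_def_of_pos ha, Real.rpow_def_of_pos (mul_pos hb hc),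
    Real.log_mul hb.ne' hc.ne', ← Real.exp_add]
  simp only [one_mul]
  congr 2
  ring

/-- one of the three terms -/
lemma term_le {x t u0 a b c s u : ℝ} (k : Cst x t u0) (h : Geo a b c s) (hu : 0 ≤ u)
    (hus : u ^ 2 = s) (huu : u ≤ u0) {p q : ℕ → ℝ}
    (hr : RRec x t a (-(3 / 2) * s) (a * b * c) p q) :
    |SumP p - (exp (Lf x t a b c 1)).re|
      ≤ k.C * u ^ 13 / 13 * ((1 - 2 * x) * (1 + a) + x * (1 + b) + x * (1 + c)) := by
  have hd : (b - c) ^ 2 = -3 * a ^ 2 - 4 * (-(3 / 2) * s) := by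
    rw [d_sq h]; ring
  have h1 := one_term k h hu hus huu _ (hr.toRec hd)
  have hsmall : ∀ v : ℝ, v ^ 2 ≤ 2 * s → 0 < 1 + v := by
    intro v hv
    have hu2 : u ^ 2 ≤ u0 ^ 2 := pow_le_pow_left₀ hu huu 2
    have := abs_le.1 (abs_le_of_sq_le_sq (a := v) (b := k.r0) (by nlinarith [k.hr]) k.hr0)
    have := k.hr1
    linarith
  have ha := hsmall a h.a_sq
  have hb := hsmall b h.rot.a_sq
  have hc := hsmall c h.rot2.a_sq
  have e0 : 0 ≤ k.C * u ^ 13 / 13 := (norm_nonneg _).trans h1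
  have h2 : ‖Tf (gg p q (b - c)) 1 - exp (Lf x t a b c 1)‖
      ≤ k.C * u ^ 13 / 13 * Real.exp (Lf x t a b c 1).re := by
    have e1 : Tf (gg p q (b - c)) 1 - exp (Lf x t a b c 1)
        = (Tf (gg p q (b - c)) 1 * exp (-Lf x t a b c 1) - 1) * exp (Lf x t a b c 1) := by
      rw [Complex.exp_neg]
      field_simp [Complex.exp_ne_zero]
    rw [e1, norm_mul, Complex.norm_exp]
    exact mul_le_mul_of_nonneg_right h1 (Real.exp_pos _).le
  have h3 := (Complex.abs_re_le_norm _).trans h2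
  rw [Complex.sub_re, Tf_re] at h3
  exact h3.trans (mul_le_mul_of_nonneg_left (exp_Lf_re_le t k.hx0 k.hx1 ha hb hc) e0)

/-- the Taylor theorem of the centre region -/
theorem fxt_taylor {x t u0 : ℝ} (k : Cst x t u0) {p q : ℝ → ℝ → ℝ → ℕ → ℝ} {L : List (ℕ × ℕ × ℚ)}
    (hrec : ∀ {y e w : ℝ}, w = y ^ 3 + e * y → RRec x t y e w (p y e w) (q y e w))
    (hsum : ∀ {a b c s w : ℝ}, a + b + c = 0 → a ^ 2 + b ^ 2 + c ^ 2 = 3 * s →
      SumP (p a (-(3 / 2) * s) w) + SumP (p b (-(3 / 2) * s) w)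
        + SumP (p c (-(3 / 2) * s) w) = 3 * pol (castPol L) s w)
    {a b c s u : ℝ} (h : Geo a b c s) (hu : 0 ≤ u) (hus : u ^ 2 = s) (huu : u ≤ u0) :
    |fxt x t (1 + a) (1 + b) (1 + c) - pol (castPol L) s (a * b * c)| ≤ k.C * u ^ 13 / 13 := by
  have hroot : ∀ {a b c : ℝ}, Geo a b c s → a * b * c = a ^ 3 + -(3 / 2) * s * a := by
    intro a b c h
    have h1 := h.e
    have h2 : a = -(b + c) := by linarith [h.h1]
    rw [← h1]
    rw [h2]; ring
  have g2 : Geo b c a s := ⟨by linarith [h.h1], by linarith [h.h2]⟩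
  have g3 : Geo c a b s := ⟨by linarith [h.h1], by linarith [h.h2]⟩
  have w2 : b * c * a = a * b * c := by ring
  have w3 : c * a * b = a * b * c := by ring
  have t1 := term_le k h hu hus huu (hrec (hroot h))
  have t2 := term_le k g2 hu hus huu (p := p b (-(3 / 2) * s) (a * b * c))
    (q := q b (-(3 / 2) * s) (a * b * c)) (by rw [w2]; exact hrec (by rw [← hroot g2, w2]))
  have t3 := term_le k g3 hu hus huu (p := p c (-(3 / 2) * s) (a * b * c))
    (q := q c (-(3 / 2) * s) (a * b * c)) (by rw [w3]; exact hrec (by rw [← hroot g3, w3]))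
  have hsmall : ∀ v : ℝ, v ^ 2 ≤ 2 * s → 0 < 1 + v := by
    intro v hv
    have hu2 : u ^ 2 ≤ u0 ^ 2 := pow_le_pow_left₀ hu huu 2
    have := abs_le.1 (abs_le_of_sq_le_sq (a := v) (b := k.r0) (by nlinarith [k.hr]) k.hr0)
    have := k.hr1
    linarith
  have ha := hsmall a h.a_sq
  have hb := hsmall b h.rot.a_sq
  have hc := hsmall c h.rot2.a_sq
  rw [exp_Lf_re x t a b c ha hb hc] at t1
  rw [exp_Lf_re x t b c a hb hc ha] at t2
  rw [exp_Lf_re x t c a b hc ha hb] at t3
  have hs := hsum (w := a * b * c) h.h1 h.h2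
  have key : fxt x t (1 + a) (1 + b) (1 + c) - pol (castPol L) s (a * b * c)
      = -((SumP (p a (-(3 / 2) * s) (a * b * c)) - (1 + a) ^ (1 - 2 * x) * ((1 + b) * (1 + c)) ^ x *
          Real.cos (t * (Real.log (1 + b) - Real.log (1 + c))))
        + (SumP (p b (-(3 / 2) * s) (a * b * c)) - (1 + b) ^ (1 - 2 * x) * ((1 + c) * (1 + a)) ^ x *
          Real.cos (t * (Real.log (1 + c) - Real.log (1 + a))))
        + (SumP (p c (-(3 / 2) * s) (a * b * c)) - (1 + c) ^ (1 - 2 * x) * ((1 + a) * (1 + b)) ^ x *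
          Real.cos (t * (Real.log (1 + a) - Real.log (1 + b))))) / 3 := by
    unfold fxt
    linear_combination (1 / 3 : ℝ) * hs
  rw [key, abs_div, abs_neg, abs_of_pos (by norm_num : (0 : ℝ) < 3), div_le_iff₀ (by norm_num)]
  refine (abs_add_three _ _ _).trans ?_
  have h1 := h.h1
  have hc' : c = -(a + b) := by linarith
  calc _ ≤ k.C * u ^ 13 / 13 * ((1 - 2 * x) * (1 + a) + x * (1 + b) + x * (1 + c))
      + k.C * u ^ 13 / 13 * ((1 - 2 * x) * (1 + b) + x * (1 + c) + x * (1 + a))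
      + k.C * u ^ 13 / 13 * ((1 - 2 * x) * (1 + c) + x * (1 + a) + x * (1 + b)) := by
        linarith [t1, t2, t3]
    _ = k.C * u ^ 13 / 13 * 3 := by rw [hc']; ring

end Crest.Agent.R163.Cen
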