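import Crest.Agent.R163.CenAll
import Crest.Agent.R163.WinRows

/-!
Row 163, centre region: `CenOK` for the posterior side.
-/

set_option autoImplicit false

namespace Crest.Agent.R163.Cen

open Win

theorem cenB_true : ((grpB true).all fun w =>
    cenTest false true (3 / 10) 6 (2 ^ 160) w) = true := by
  decide +kernel

theorem cenB_false : ((grpB false).all fun w =>
    cenTest false false (3 / 10) 2 (2 ^ 160) w) = true := by
  decide +kernel

/-- centre region, group `B` -/
theorem cenB (pos : Bool) : ∀ w ∈ grpB pos, CenOK false pos (9 / 100) w := by
  cases pos
  · exact cenOK_all cenB_false (by norm_num)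
  · exact cenOK_all cenB_true (by norm_num)

end Crest.Agent.R163.Cen
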