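import Crest.Agent.R163.CenAll
import Crest.Agent.R163.WinRows

/-!
Row 163, centre region: `CenOK` for the message side, `ρ = 1`.
-/

set_option autoImplicit false

namespace Crest.Agent.R163.Cen

open Win

theorem cenM1_true : ((grpM1 true).all fun w =>
    cenTest true true (66 / 100) 8 (2 ^ 160) w) = true := by
  decide +kernel

theorem cenM1_false : ((grpM1 false).all fun w =>
    cenTest true false (66 / 100) 8 (2 ^ 160) w) = true := by
  decide +kernel

/-- centre region, group `M1` -/
theorem cenM1 (pos : Bool) : ∀ w ∈ grpM1 pos, CenOK true pos (43 / 100) w := by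
  cases pos
  · exact cenOK_all cenM1_false (by norm_num)
  · exact cenOK_all cenM1_true (by norm_num)

end Crest.Agent.R163.Cen
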