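import Crest.Agent.R163.CenAll
import Crest.Agent.R163.WinRows

/-!
Row 163, centre region: `CenOK` for the message side, `b = 5, 6`.
-/

set_option autoImplicit false

namespace Crest.Agent.R163.Cen

open Win

theorem cenM5_true : ((grpM5 true).all fun w =>
    cenTest true true (3 / 5) 12 (2 ^ 160) w) = true := by
  decide +kernel

theorem cenM5_false : ((grpM5 false).all fun w =>
    cenTest true false (3 / 5) 6 (2 ^ 160) w) = true := by
  decide +kernel

/-- centre region, group `M5` -/
theorem cenM5 (pos : Bool) : ∀ w ∈ grpM5 pos, CenOK true pos (9 / 25) w := by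
  cases pos
  · exact cenOK_all cenM5_false (by norm_num)
  · exact cenOK_all cenM5_true (by norm_num)

end Crest.Agent.R163.Cen
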