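import Crest.Agent.R163.WinDec

/-!
Row 163, window engine: the exact shape of the pointwise inequalities.

Fixed functional list `C(1/2,0), C(1/2,1/2), C(1/2,3/2), C(1/6,1/2), C(1/3,1/2)`; side `false` = (B)
(arguments `x, y, z`), side `true` = (M) (arguments `(3-x)/2, ...`); sorted points `0 < z < y < x`,
`x + y + z = 3`; `pos = true`: `y < 1` (`c > 0`), `pos = false`: `1 < y`.
-/

set_option autoImplicit false

namespace Crest.Agent.R163.Win

/-- argument of the functionals -/
noncomputable def arg (side : Bool) (x : ℝ) : ℝ := if side then (3 - x) / 2 else x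

/-- linear combination with integer coefficients -/
noncomputable def dotR : List Int → List ℝ → ℝ
  | [], _ => 0
  | _ :: _, [] => 0
  | w :: ws, b :: bs => (w : ℝ) * b + dotR ws bs

/-- constant and functionals -/
noncomputable def basF (a b c : ℝ) : List ℝ :=
  [1, fxt (1 / 2) 0 a b c, fxt (1 / 2) (1 / 2) a b c, fxt (1 / 2) (3 / 2) a b c,
    fxt (1 / 6) (1 / 2) a b c, fxt (1 / 3) (1 / 2) a b c]

/-- polynomials -/
noncomputable def basP (pos : Bool) (s c : ℝ) : List ℝ :=
  if pos then [s, s ^ 2, s * c, s ^ 17 / 2 ^ 16] else [s, s ^ 2, s ^ 5]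

/-- all basis functions -/
noncomputable def basis (side pos : Bool) (x y z : ℝ) : List ℝ :=
  basF (arg side x) (arg side y) (arg side z) ++ basP pos (s3 x y z) (c3 x y z)

/-- the outer region: to be proved by the engine -/
def OutOK (side pos : Bool) (zmin s0 : ℚ) (w : List Int) : Prop :=
  ∀ x y z : ℝ, 0 < z → z < y → y < x → x + y + z = 3 → (if pos then y < 1 else 1 < y) →
    (zmin : ℝ) < z → (s0 : ℝ) < s3 x y z → 0 ≤ dotR w (basis side pos x y z)

/-- the centre region -/
def CenOK (side pos : Bool) (s0 : ℚ) (w : List Int) : Prop :=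
  ∀ x y z : ℝ, 0 < z → z < y → y < x → x + y + z = 3 → (if pos then y < 1 else 1 < y) →
    s3 x y z ≤ (s0 : ℝ) → 0 ≤ dotR w (basis side pos x y z)

/-- the equation lemmas of the definitions above, realized here once -/
theorem eqns_realized : True := by
  have _ := @arg.eq_1
  have _ := @dotR.eq_1
  have _ := @dotR.eq_2
  have _ := @dotR.eq_3
  have _ := @dotR.eq_def
  have _ := @basF.eq_1
  have _ := @basP.eq_1
  have _ := @basis.eq_1
  trivial

end Crest.Agent.R163.Win
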