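import Crest.Agent.R163.CenChk
import Crest.Agent.R163.CenF_h0
import Crest.Agent.R163.CenF_h1
import Crest.Agent.R163.CenF_h3
import Crest.Agent.R163.CenF_hs
import Crest.Agent.R163.CenF_hr
import Crest.Agent.R163.WinSpec

/-!
Row 163, centre region: kernel test for the pointwise window inequalities near the centre.
-/

set_option autoImplicit false
set_option linter.unusedVariables false

namespace Crest.Agent.R163.Cen

open Win (s3 c3)

/-- the functionals: `0..3` positive, `4` = `r` -/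
noncomputable def xF : Fin 5 → ℝ := ![1 / 2, 1 / 2, 1 / 2, 1 / 6, 1 / 3]

/-- the functionals: `0..3` positive, `4` = `r` -/
noncomputable def tF : Fin 5 → ℝ := ![0, 1 / 2, 3 / 2, 1 / 2, 1 / 2]

/-- Taylor polynomials -/
def LF : Fin 5 → List (ℕ × ℕ × ℚ) := ![h0_L, h1_L, h3_L, hs_L, hr_L]

/-- Taylor bounds with constants `C` for `u ≤ u0` -/
def Fams (u0 : ℝ) (C : Fin 5 → ℚ) : Prop :=
  ∀ f : Fin 5, ∀ a b c s u : ℝ, Geo a b c s → 0 ≤ u → u ^ 2 = s → u ≤ u0 →
    |fxt (xF f) (tF f) (1 + a) (1 + b) (1 + c) - pol (castPol (LF f)) s (a * b * c)|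
      ≤ C f * u ^ 13 / 13

/-- constants for `u ≤ 3/10` -/
def CB : Fin 5 → ℚ := ![927 / 5, 2044 / 5, 153377 / 10, 2044 / 5, 1559 / 5]

/-- constants for `u ≤ 33/100` -/
def CM : Fin 5 → ℚ := ![1079 / 5, 4757 / 10, 178173 / 10, 4757 / 10, 3627 / 10]

theorem famB : Fams (3 / 10) CB := by
  intro f a b c s u h hu hus huu
  fin_cases f
  · have := fxt_taylor h0_cB h0_rec h0_sum h hu hus huu
    simpa [xF, tF, LF, CB, h0_cB] using this
  · have := fxt_taylor h1_cB h1_rec h1_sum h hu hus huu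
    simpa [xF, tF, LF, CB, h1_cB] using this
  · have := fxt_taylor h3_cB h3_rec h3_sum h hu hus huu
    simpa [xF, tF, LF, CB, h3_cB] using this
  · have := fxt_taylor hs_cB hs_rec hs_sum h hu hus huu
    simpa [xF, tF, LF, CB, hs_cB] using this
  · have := fxt_taylor hr_cB hr_rec hr_sum h hu hus huu
    simpa [xF, tF, LF, CB, hr_cB] using this

theorem famM : Fams (33 / 100) CM := by
  intro f a b c s u h hu hus huu
  fin_cases f
  · have := fxt_taylor h0_cM h0_rec h0_sum h hu hus huu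
    simpa [xF, tF, LF, CM, h0_cM] using this
  · have := fxt_taylor h1_cM h1_rec h1_sum h hu hus huu
    simpa [xF, tF, LF, CM, h1_cM] using this
  · have := fxt_taylor h3_cM h3_rec h3_sum h hu hus huu
    simpa [xF, tF, LF, CM, h3_cM] using this
  · have := fxt_taylor hs_cM hs_rec hs_sum h hu hus huu
    simpa [xF, tF, LF, CM, hs_cM] using this
  · have := fxt_taylor hr_cM hr_rec hr_sum h hu hus huu
    simpa [xF, tF, LF, CM, hr_cM] using this

/-! ### monomials in `(u, θ)`, `s = u²`, `c = sg θ u³` -/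

/-- every monomial but the first has weight at least 2; the first is `1` -/
def okL : List (ℕ × ℕ × ℚ) → Bool
  | [] => false
  | e :: T => decide (e = (0, 0, 1)) && T.all fun e => decide (2 ≤ 2 * e.1 + 3 * e.2.1)

/-- monomials of `k (pol L (lam² s) (lam³ c) - 1) / u²` -/
def monT (lam sg : ℚ) (k : ℤ) (T : List (ℕ × ℕ × ℚ)) : List (ℕ × ℕ × ℚ) :=
  T.map fun e => (2 * e.1 + 3 * e.2.1 - 2, e.2.1,
    (k : ℚ) * e.2.2 * (lam ^ (2 * e.1 + 3 * e.2.1) * sg ^ e.2.1))

lemma monT_val (lam sg : ℚ) (k : ℤ) (u θ : ℝ) : ∀ T : List (ℕ × ℕ × ℚ),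
    (T.all fun e => decide (2 ≤ 2 * e.1 + 3 * e.2.1)) = true →
    u ^ 2 * msum (monT lam sg k T) u θ
      = k * pol (castPol T) (lam ^ 2 * u ^ 2) (lam ^ 3 * (sg * (θ * u ^ 3)))
  | [], _ => by simp [monT, msum, castPol, pol]
  | e :: T, h => by
    rw [List.all_cons, Bool.and_eq_true, decide_eq_true_eq] at h
    have ih := monT_val lam sg k u θ T h.2
    have h1 : monT lam sg k (e :: T) = (2 * e.1 + 3 * e.2.1 - 2, e.2.1,
      (k : ℚ) * e.2.2 * (lam ^ (2 * e.1 + 3 * e.2.1) * sg ^ e.2.1)) :: monT lam sg k T := rfl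
    have h2 : pol (castPol (e :: T)) (lam ^ 2 * u ^ 2) (lam ^ 3 * (sg * (θ * u ^ 3)))
        = (e.2.2 : ℝ) * ((lam : ℝ) ^ 2 * u ^ 2) ^ e.1 *
          ((lam : ℝ) ^ 3 * (sg * (θ * u ^ 3))) ^ e.2.1
          + pol (castPol T) (lam ^ 2 * u ^ 2) (lam ^ 3 * (sg * (θ * u ^ 3))) := by
      simp [pol, castPol]
    rw [h1, h2, msum_cons, mul_add, ih, mul_add]
    congr 1
    have h3 : u ^ 2 * u ^ (2 * e.1 + 3 * e.2.1 - 2) = u ^ (2 * e.1) * u ^ (3 * e.2.1) := by
      rw [← pow_add, ← pow_add]; congr 1; omega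
    push_cast
    calc u ^ 2 * ((k : ℝ) * e.2.2 * ((lam : ℝ) ^ (2 * e.1 + 3 * e.2.1) * (sg : ℝ) ^ e.2.1)
          * u ^ (2 * e.1 + 3 * e.2.1 - 2) * θ ^ e.2.1)
        = (k : ℝ) * e.2.2 * ((lam : ℝ) ^ (2 * e.1 + 3 * e.2.1) * (sg : ℝ) ^ e.2.1)
          * (u ^ 2 * u ^ (2 * e.1 + 3 * e.2.1 - 2)) * θ ^ e.2.1 := by ring
      _ = _ := by
        rw [h3, pow_add, mul_pow, mul_pow, mul_pow, mul_pow, ← pow_mul, ← pow_mul, ← pow_mul,
          ← pow_mul]
        ring

/-- the polynomial part of the basis -/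
def monP (pos : Bool) : List Int → List (ℕ × ℕ × ℚ)
  | [] => []
  | [a] => [(0, 0, (a : ℚ))]
  | [a, b] => [(0, 0, (a : ℚ)), (2, 0, (b : ℚ))]
  | [a, b, c] => [(0, 0, (a : ℚ)), (2, 0, (b : ℚ)), if pos then (3, 1, (c : ℚ)) else (8, 0, (c : ℚ))]
  | a :: b :: c :: d :: _ =>
    if pos then [(0, 0, (a : ℚ)), (2, 0, (b : ℚ)), (3, 1, (c : ℚ)), (32, 0, (d : ℚ) / 2 ^ 16)]
    else [(0, 0, (a : ℚ)), (2, 0, (b : ℚ)), (8, 0, (c : ℚ))]

lemma monP_val (pos : Bool) (w : List Int) (u θ : ℝ) :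
    u ^ 2 * msum (monP pos w) u θ
      = Win.dotR w (Win.basP pos (u ^ 2) ((if pos then 1 else -1) * (θ * u ^ 3))) := by
  match w with
  | [] => simp [monP, msum, Win.dotR]
  | [a] => cases pos <;> simp [monP, msum, Win.dotR, Win.basP] <;> ring
  | [a, b] => cases pos <;> simp [monP, msum, Win.dotR, Win.basP] <;> ring
  | [a, b, c] => cases pos <;> simp [monP, msum, Win.dotR, Win.basP] <;> ring
  | a :: b :: c :: d :: l =>
    cases pos <;> cases l <;> simp [monP, msum, Win.dotR, Win.basP] <;> ring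

/-- scale of the arguments -/
def lamS (side : Bool) : ℚ := if side then -1 / 2 else 1

/-- error constants -/
def CS (side : Bool) : Fin 5 → ℚ := if side then CM else CB

/-- range of validity in `u = sqrt s3` -/
def US (side : Bool) : ℚ := if side then 66 / 100 else 3 / 10

lemma tay (side : Bool) (f : Fin 5) {a b c u : ℝ} (h : Geo a b c (u ^ 2)) (hu : 0 ≤ u)
    (huu : u ≤ US side) :
    |fxt (xF f) (tF f) (1 + lamS side * a) (1 + lamS side * b) (1 + lamS side * c)
      - pol (castPol (LF f)) ((lamS side) ^ 2 * u ^ 2) ((lamS side) ^ 3 * (a * b * c))|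
      ≤ CS side f * |(lamS side : ℝ)| ^ 13 / 13 * u ^ 13 := by
  have g : ∀ l : ℝ, Geo (l * a) (l * b) (l * c) (l ^ 2 * u ^ 2) := fun l =>
    ⟨by linear_combination l * h.h1, by linear_combination l ^ 2 * h.h2⟩
  cases side
  · have := famB f _ _ _ _ u (g 1) hu (by ring) (by simpa [US] using huu)
    simp only [lamS, CS, Bool.false_eq_true, if_false]
    push_cast
    rw [abs_one]
    convert this using 1
    · congr 2
      congr 1
      ring
    · ring
  · have := famM f _ _ _ _ (u / 2) (g (-1 / 2)) (by linarith) (by ring)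
      (by
        have : u ≤ 66 / 100 := by simpa [US] using huu
        linarith)
    simp only [lamS, CS, if_true]
    push_cast
    have e : |(-1 / 2 : ℝ)| = 1 / 2 := by rw [abs_of_neg (by norm_num)]; norm_num
    rw [e]
    convert this using 1
    · congr 2
      congr 1
      ring
    · ring

/-- the five functional blocks and the polynomial block -/
def rowMon (side pos : Bool) (U : ℚ) (w0 w1 w2 w3 w4 w5 : ℤ) (ws : List Int) :
    List (ℕ × ℕ × ℚ) :=
  (0, 0, ((w0 + w1 + w2 + w3 + w4 + w5 : ℤ) : ℚ) / U ^ 2) ::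
  (11, 0, -((|w1| : ℤ) * CS side 0 + (|w2| : ℤ) * CS side 1 + (|w3| : ℤ) * CS side 2 +
    (|w4| : ℤ) * CS side 3 + (|w5| : ℤ) * CS side 4) * (|lamS side| ^ 13 / 13)) ::
  (monT (lamS side) (if pos then 1 else -1) w1 (LF 0).tail ++
  (monT (lamS side) (if pos then 1 else -1) w2 (LF 1).tail ++
  (monT (lamS side) (if pos then 1 else -1) w3 (LF 2).tail ++
  (monT (lamS side) (if pos then 1 else -1) w4 (LF 3).tail ++
  (monT (lamS side) (if pos then 1 else -1) w5 (LF 4).tail ++ monP pos ws)))))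

/-- the test -/
def cenTest (side pos : Bool) (U : ℚ) (n D : ℕ) : List Int → Bool
  | w0 :: w1 :: w2 :: w3 :: w4 :: w5 :: ws =>
    decide (0 ≤ w0 + w1 + w2 + w3 + w4 + w5) && decide (0 < U) && decide (U ≤ US side) &&
      chkL U (7072 / 10000) n D (rowMon side pos U w0 w1 w2 w3 w4 w5 ws)
  | _ => false

lemma LF_ok (f : Fin 5) : ∃ T, LF f = (0, 0, 1) :: T ∧ (LF f).tail = T ∧
    (T.all fun e => decide (2 ≤ 2 * e.1 + 3 * e.2.1)) = true := by
  fin_cases f
  · exact ⟨h0_L.tail, rfl, rfl, by decide +kernel⟩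
  · exact ⟨h1_L.tail, rfl, rfl, by decide +kernel⟩
  · exact ⟨h3_L.tail, rfl, rfl, by decide +kernel⟩
  · exact ⟨hs_L.tail, rfl, rfl, by decide +kernel⟩
  · exact ⟨hr_L.tail, rfl, rfl, by decide +kernel⟩

lemma block (side pos : Bool) (f : Fin 5) (k : ℤ) {a b c u θ : ℝ} (h : Geo a b c (u ^ 2))
    (hu : 0 ≤ u) (huu : u ≤ US side)
    (hc : a * b * c = (if pos then 1 else -1) * (θ * u ^ 3)) :
    k + u ^ 2 * msum (monT (lamS side) (if pos then 1 else -1) k (LF f).tail) u θ
      - (|k| : ℤ) * (CS side f * |(lamS side : ℝ)| ^ 13 / 13 * u ^ 13)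
      ≤ k * fxt (xF f) (tF f) (1 + lamS side * a) (1 + lamS side * b) (1 + lamS side * c) := by
  obtain ⟨T, h1, h2, h3⟩ := LF_ok f
  have ht := tay side f h hu huu
  rw [h2, monT_val _ _ _ _ _ T h3]
  have e : pol (castPol (LF f)) ((lamS side) ^ 2 * u ^ 2) ((lamS side) ^ 3 * (a * b * c))
      = 1 + pol (castPol T) ((lamS side) ^ 2 * u ^ 2)
        ((lamS side) ^ 3 * (((if pos then 1 else -1 : ℚ) : ℝ) * (θ * u ^ 3))) := by
    rw [h1, hc]
    have : (((if pos then 1 else -1 : ℚ) : ℝ)) = (if pos then 1 else -1 : ℝ) := by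
      cases pos <;> simp
    rw [this]
    simp [pol, castPol]
  rw [e] at ht
  set F := fxt (xF f) (tF f) (1 + lamS side * a) (1 + lamS side * b) (1 + lamS side * c)
  set Q := pol (castPol T) ((lamS side) ^ 2 * u ^ 2)
        ((lamS side) ^ 3 * (((if pos then 1 else -1 : ℚ) : ℝ) * (θ * u ^ 3)))
  set E := CS side f * |(lamS side : ℝ)| ^ 13 / 13 * u ^ 13
  have h4 : |(k : ℝ) * (F - (1 + Q))| ≤ |(k : ℝ)| * E := by
    rw [abs_mul]; exact mul_le_mul_of_nonneg_left ht (abs_nonneg _)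
  have h5 := (abs_le.1 h4).1
  have h6 : ((|k| : ℤ) : ℝ) = |(k : ℝ)| := by push_cast; rfl
  rw [h6]
  linarith

theorem cenOK_of_test {side pos : Bool} {U s0 : ℚ} {n D : ℕ} {w : List Int}
    (h : cenTest side pos U n D w = true) (hs0 : s0 ≤ U ^ 2) : Win.CenOK side pos s0 w := by
  intro x y z hz hzy hyx hsum hy hs
  match w, h with
  | w0 :: w1 :: w2 :: w3 :: w4 :: w5 :: ws, h =>
    simp only [cenTest, Bool.and_eq_true, decide_eq_true_eq] at h
    obtain ⟨⟨⟨hK, hU0⟩, hU1⟩, hc⟩ := h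
    have hU0' : (0 : ℝ) < U := by exact_mod_cast hU0
    have hU1' : (U : ℝ) ≤ US side := by exact_mod_cast hU1
    have hs3 : 0 ≤ s3 x y z := by unfold s3; positivity
    set u := Real.sqrt (s3 x y z) with hu
    have hu0 : 0 ≤ u := Real.sqrt_nonneg _
    have hus : u ^ 2 = s3 x y z := Real.sq_sqrt hs3
    have huU : u ≤ U := by
      rw [hu, Real.sqrt_le_left hU0'.le]
      refine hs.trans ?_
      exact_mod_cast hs0
    have hG : Geo (x - 1) (y - 1) (z - 1) (u ^ 2) :=
      ⟨by linarith, by rw [hus]; unfold s3; ring⟩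
    have hw := w_le hG hu0 rfl
    -- the variable θ
    obtain ⟨θ, hθ0, hθ1, hθ⟩ : ∃ θ : ℝ, 0 ≤ θ ∧ θ ≤ (7072 / 10000 : ℚ) ∧
        (x - 1) * (y - 1) * (z - 1) = (if pos then 1 else -1) * (θ * u ^ 3) := by
      have hz1 : z - 1 < 0 := by linarith
      have hx1 : 0 < x - 1 := by linarith
      have habs : |(x - 1) * (y - 1) * (z - 1)| = (if pos then 1 else -1) *
          ((x - 1) * (y - 1) * (z - 1)) := by
        cases pos
        · simp only [Bool.false_eq_true, if_false] at hy ⊢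
          rw [abs_of_nonpos]
          · ring
          · exact mul_nonpos_of_nonneg_of_nonpos (mul_nonneg hx1.le (by linarith)) hz1.le
        · simp only [if_true] at hy ⊢
          rw [abs_of_nonneg, one_mul]
          exact mul_nonneg_of_nonpos_of_nonpos
            (mul_nonpos_of_nonneg_of_nonpos hx1.le (by linarith)) hz1.le
      rcases hu0.eq_or_lt with h0 | h0
      · refine ⟨0, le_rfl, by norm_num, ?_⟩
        rw [← h0] at hw ⊢
        have : |(x - 1) * (y - 1) * (z - 1)| ≤ 0 := by simpa using hw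
        have := abs_nonpos_iff.1 this
        rw [this]; simp
      · refine ⟨|(x - 1) * (y - 1) * (z - 1)| / u ^ 3, by positivity, ?_, ?_⟩
        · rw [div_le_iff₀ (by positivity)]
          push_cast
          exact hw
        · rw [div_mul_cancel₀ _ (by positivity : u ^ 3 ≠ 0), habs, ← mul_assoc]
          cases pos <;> simp
    have key := chkL_sound hc hu0 huU hθ0 hθ1
    have key2 : 0 ≤ u ^ 2 * msum (rowMon side pos U w0 w1 w2 w3 w4 w5 ws) u θ :=
      mul_nonneg (sq_nonneg u) key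
    have b1 := block side pos 0 w1 hG hu0 (huU.trans hU1') hθ
    have b2 := block side pos 1 w2 hG hu0 (huU.trans hU1') hθ
    have b3 := block side pos 2 w3 hG hu0 (huU.trans hU1') hθ
    have b4 := block side pos 3 w4 hG hu0 (huU.trans hU1') hθ
    have b5 := block side pos 4 w5 hG hu0 (huU.trans hU1') hθ
    have bp := monP_val pos ws u θ
    have hK' : (0 : ℝ) ≤ ((w0 + w1 + w2 + w3 + w4 + w5 : ℤ) : ℝ) := by exact_mod_cast hK
    have hK2 : ((w0 + w1 + w2 + w3 + w4 + w5 : ℤ) : ℝ) / (U : ℝ) ^ 2 * u ^ 2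
        ≤ ((w0 + w1 + w2 + w3 + w4 + w5 : ℤ) : ℝ) := by
      rw [div_mul_eq_mul_div, div_le_iff₀ (by positivity)]
      exact mul_le_mul_of_nonneg_left (pow_le_pow_left₀ hu0 huU 2) hK'
    have harg : ∀ v : ℝ, Win.arg side v = 1 + lamS side * (v - 1) := by
      intro v
      cases side
      · simp [Win.arg, lamS]
      · simp only [Win.arg, lamS, if_true]; push_cast; ring
    have hbas : Win.dotR (w0 :: w1 :: w2 :: w3 :: w4 :: w5 :: ws) (Win.basis side pos x y z)
        = w0 + (w1 * fxt (xF 0) (tF 0) (1 + lamS side * (x - 1)) (1 + lamS side * (y - 1))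
            (1 + lamS side * (z - 1))
          + w2 * fxt (xF 1) (tF 1) (1 + lamS side * (x - 1)) (1 + lamS side * (y - 1))
            (1 + lamS side * (z - 1))
          + w3 * fxt (xF 2) (tF 2) (1 + lamS side * (x - 1)) (1 + lamS side * (y - 1))
            (1 + lamS side * (z - 1))
          + w4 * fxt (xF 3) (tF 3) (1 + lamS side * (x - 1)) (1 + lamS side * (y - 1))
            (1 + lamS side * (z - 1))
          + w5 * fxt (xF 4) (tF 4) (1 + lamS side * (x - 1)) (1 + lamS side * (y - 1))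
            (1 + lamS side * (z - 1)))
          + Win.dotR ws (Win.basP pos (s3 x y z) (c3 x y z)) := by
      simp only [Win.basis, Win.basF, List.cons_append, List.nil_append, Win.dotR, harg]
      simp only [xF, tF, Matrix.cons_val_zero, Matrix.cons_val_one, Matrix.cons_val]
      ring
    rw [hbas]
    have hc3 : c3 x y z = (if pos then 1 else -1) * (θ * u ^ 3) := hθ
    rw [hc3, ← hus, ← bp]
    have hexp : u ^ 2 * msum (rowMon side pos U w0 w1 w2 w3 w4 w5 ws) u θ =
        ((w0 + w1 + w2 + w3 + w4 + w5 : ℤ) : ℝ) / (U : ℝ) ^ 2 * u ^ 2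
        - ((|w1| : ℤ) * (CS side 0 * |(lamS side : ℝ)| ^ 13 / 13 * u ^ 13)
          + (|w2| : ℤ) * (CS side 1 * |(lamS side : ℝ)| ^ 13 / 13 * u ^ 13)
          + (|w3| : ℤ) * (CS side 2 * |(lamS side : ℝ)| ^ 13 / 13 * u ^ 13)
          + (|w4| : ℤ) * (CS side 3 * |(lamS side : ℝ)| ^ 13 / 13 * u ^ 13)
          + (|w5| : ℤ) * (CS side 4 * |(lamS side : ℝ)| ^ 13 / 13 * u ^ 13))
        + (u ^ 2 * msum (monT (lamS side) (if pos then 1 else -1) w1 (LF 0).tail) u θ
          + u ^ 2 * msum (monT (lamS side) (if pos then 1 else -1) w2 (LF 1).tail) u θ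
          + u ^ 2 * msum (monT (lamS side) (if pos then 1 else -1) w3 (LF 2).tail) u θ
          + u ^ 2 * msum (monT (lamS side) (if pos then 1 else -1) w4 (LF 3).tail) u θ
          + u ^ 2 * msum (monT (lamS side) (if pos then 1 else -1) w5 (LF 4).tail) u θ)
        + u ^ 2 * msum (monP pos ws) u θ := by
      simp only [rowMon, msum_cons, msum_append]
      push_cast
      ring
    rw [hexp] at key2
    push_cast at key2 hK2 b1 b2 b3 b4 b5 ⊢
    linarith

end Crest.Agent.R163.Cen
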