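import Mathlib
import Crest.Prelude.Def_Broadcast

/-!
Row 163: discrete `q`-ary channels (families of likelihood vectors), functionals of them,
merging, and the transfer of pointwise orbit inequalities to functionals.
-/

set_option autoImplicit false

namespace Crest.Agent.R163

variable {q : ℕ}

/-- mean of a vector -/
noncomputable def avg (v : Fin q → ℝ) : ℝ := (∑ i, v i) / q

/-- A symmetric discrete channel, given by its family of likelihood vectors. -/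
structure IsChan {Ω : Type*} (L : Ω → Fin q → ℝ) : Prop where
  nonneg : ∀ o i, 0 ≤ L o i
  hasSum : ∀ i, HasSum (fun o => L o i) 1
  symm : ∀ σ : Equiv.Perm (Fin q), ∃ e : Ω ≃ Ω, ∀ o i, L (e o) (σ i) = L o i

/-- the functional `∑' o, φ (L o)` -/
noncomputable def J {Ω : Type*} (φ : (Fin q → ℝ) → ℝ) (L : Ω → Fin q → ℝ) : ℝ :=
  ∑' o, φ (L o)

/-- `φ` is dominated by a multiple of the mean on nonnegative vectors. -/
def Bdd (φ : (Fin q → ℝ) → ℝ) : Prop :=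
  ∃ K : ℝ, 0 ≤ K ∧ ∀ v : Fin q → ℝ, (∀ i, 0 ≤ v i) → |φ v| ≤ K * avg v

lemma avg_nonneg {v : Fin q → ℝ} (hv : ∀ i, 0 ≤ v i) : 0 ≤ avg v :=
  div_nonneg (Finset.sum_nonneg fun i _ => hv i) (Nat.cast_nonneg _)

lemma bdd_avg : Bdd (avg (q := q)) :=
  ⟨1, zero_le_one, fun v hv => by rw [abs_of_nonneg (avg_nonneg hv), one_mul]⟩

lemma Bdd.add {φ ψ : (Fin q → ℝ) → ℝ} (h₁ : Bdd φ) (h₂ : Bdd ψ) : Bdd (fun v => φ v + ψ v) := by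
  obtain ⟨K, hK, h⟩ := h₁
  obtain ⟨K', hK', h'⟩ := h₂
  refine ⟨K + K', add_nonneg hK hK', fun v hv => ?_⟩
  calc |φ v + ψ v| ≤ |φ v| + |ψ v| := abs_add_le _ _
    _ ≤ K * avg v + K' * avg v := add_le_add (h v hv) (h' v hv)
    _ = (K + K') * avg v := by ring

lemma Bdd.const_mul {φ : (Fin q → ℝ) → ℝ} (c : ℝ) (h₁ : Bdd φ) : Bdd (fun v => c * φ v) := by
  obtain ⟨K, hK, h⟩ := h₁
  refine ⟨|c| * K, mul_nonneg (abs_nonneg _) hK, fun v hv => ?_⟩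
  rw [abs_mul, mul_assoc]
  exact mul_le_mul_of_nonneg_left (h v hv) (abs_nonneg _)

lemma Bdd.neg {φ : (Fin q → ℝ) → ℝ} (h₁ : Bdd φ) : Bdd (fun v => -φ v) := by
  simpa using h₁.const_mul (-1)

lemma Bdd.sub {φ ψ : (Fin q → ℝ) → ℝ} (h₁ : Bdd φ) (h₂ : Bdd ψ) : Bdd (fun v => φ v - ψ v) := by
  simpa [sub_eq_add_neg] using h₁.add h₂.neg

lemma Bdd.congr {φ ψ : (Fin q → ℝ) → ℝ} (h₁ : Bdd φ)
    (h : ∀ v : Fin q → ℝ, (∀ i, 0 ≤ v i) → ψ v = φ v) : Bdd ψ := by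
  obtain ⟨K, hK, h'⟩ := h₁
  exact ⟨K, hK, fun v hv => by rw [h v hv]; exact h' v hv⟩

section basic

variable {Ω : Type*} {L : Ω → Fin q → ℝ}

lemma IsChan.avg_hasSum [NeZero q] (h : IsChan L) : HasSum (fun o => avg (L o)) 1 := by
  have h1 : HasSum (fun o => ∑ i, L o i) (∑ _i : Fin q, (1 : ℝ)) :=
    hasSum_sum fun i _ => h.hasSum i
  have h2 := h1.div_const (q : ℝ)
  have hq : (q : ℝ) ≠ 0 := Nat.cast_ne_zero.mpr (NeZero.ne q)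
  simpa [avg, hq] using h2

lemma IsChan.J_avg [NeZero q] (h : IsChan L) : J avg L = 1 := h.avg_hasSum.tsum_eq

lemma IsChan.summable [NeZero q] (h : IsChan L) {φ : (Fin q → ℝ) → ℝ} (hφ : Bdd φ) :
    Summable (fun o => φ (L o)) := by
  obtain ⟨K, _, hK⟩ := hφ
  refine Summable.of_norm_bounded (h.avg_hasSum.summable.mul_left K) fun o => ?_
  rw [Real.norm_eq_abs]
  exact hK _ (h.nonneg o)

lemma IsChan.summable_abs [NeZero q] (h : IsChan L) {φ : (Fin q → ℝ) → ℝ} (hφ : Bdd φ) :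
    Summable (fun o => |φ (L o)|) := by
  simpa [Real.norm_eq_abs] using (h.summable hφ).norm

lemma IsChan.J_mono [NeZero q] (h : IsChan L) {φ ψ : (Fin q → ℝ) → ℝ} (hφ : Bdd φ) (hψ : Bdd ψ)
    (hle : ∀ v : Fin q → ℝ, (∀ i, 0 ≤ v i) → φ v ≤ ψ v) : J φ L ≤ J ψ L :=
  Summable.tsum_le_tsum (fun o => hle _ (h.nonneg o)) (h.summable hφ) (h.summable hψ)

lemma IsChan.J_nonneg (h : IsChan L) {φ : (Fin q → ℝ) → ℝ}
    (hle : ∀ v : Fin q → ℝ, (∀ i, 0 ≤ v i) → 0 ≤ φ v) : 0 ≤ J φ L :=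
  tsum_nonneg fun o => hle _ (h.nonneg o)

lemma IsChan.J_add [NeZero q] (h : IsChan L) {φ ψ : (Fin q → ℝ) → ℝ} (hφ : Bdd φ) (hψ : Bdd ψ) :
    J (fun v => φ v + ψ v) L = J φ L + J ψ L :=
  (h.summable hφ).tsum_add (h.summable hψ)

lemma IsChan.J_sub [NeZero q] (h : IsChan L) {φ ψ : (Fin q → ℝ) → ℝ} (hφ : Bdd φ) (hψ : Bdd ψ) :
    J (fun v => φ v - ψ v) L = J φ L - J ψ L :=
  (h.summable hφ).tsum_sub (h.summable hψ)

lemma J_const_mul (c : ℝ) (φ : (Fin q → ℝ) → ℝ) (L : Ω → Fin q → ℝ) :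
    J (fun v => c * φ v) L = c * J φ L := tsum_mul_left

lemma IsChan.J_congr (h : IsChan L) {φ ψ : (Fin q → ℝ) → ℝ}
    (hle : ∀ v : Fin q → ℝ, (∀ i, 0 ≤ v i) → φ v = ψ v) : J φ L = J ψ L :=
  tsum_congr fun o => hle _ (h.nonneg o)

/-- reindexing -/
lemma J_equiv {Ω' : Type*} (e : Ω' ≃ Ω) (φ : (Fin q → ℝ) → ℝ) (L : Ω → Fin q → ℝ) :
    J φ (fun o => L (e o)) = J φ L := e.tsum_eq (fun o => φ (L o))

lemma IsChan.reindex {Ω' : Type*} (h : IsChan L) (e : Ω' ≃ Ω) : IsChan (fun o => L (e o)) where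
  nonneg o i := h.nonneg _ i
  hasSum i := (e.hasSum_iff (f := fun o => L o i)).2 (h.hasSum i)
  symm σ := by
    obtain ⟨f, hf⟩ := h.symm σ
    refine ⟨(e.trans f).trans e.symm, fun o i => ?_⟩
    simp [hf]

/-- a symmetric channel functional does not see a permutation of the spins -/
lemma IsChan.tsum_perm (h : IsChan L) (φ : (Fin q → ℝ) → ℝ) (σ : Equiv.Perm (Fin q)) :
    ∑' o, φ (fun i => L o (σ i)) = J φ L := by
  obtain ⟨e, he⟩ := h.symm σ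
  rw [← e.tsum_eq (fun o => φ (fun i => L o (σ i)))]
  refine tsum_congr fun o => ?_
  congr 1
  funext i
  exact he o i

end basic

section merge

variable {Ω₁ Ω₂ : Type*}

/-- merging two conditionally independent observations -/
def mrg (L₁ : Ω₁ → Fin q → ℝ) (L₂ : Ω₂ → Fin q → ℝ) : Ω₁ × Ω₂ → Fin q → ℝ :=
  fun p i => L₁ p.1 i * L₂ p.2 i

lemma IsChan.mrg {L₁ : Ω₁ → Fin q → ℝ} {L₂ : Ω₂ → Fin q → ℝ} (h₁ : IsChan L₁)
    (h₂ : IsChan L₂) : IsChan (mrg L₁ L₂) where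
  nonneg p i := mul_nonneg (h₁.nonneg _ _) (h₂.nonneg _ _)
  hasSum i := by
    have hs : Summable (fun p : Ω₁ × Ω₂ => L₁ p.1 i * L₂ p.2 i) :=
      (h₁.hasSum i).summable.mul_of_nonneg (h₂.hasSum i).summable (fun o => h₁.nonneg o i)
        (fun o => h₂.nonneg o i)
    have := (h₁.hasSum i).mul (h₂.hasSum i) hs
    simpa [R163.mrg] using this
  symm σ := by
    obtain ⟨e, he⟩ := h₁.symm σ
    obtain ⟨f, hf⟩ := h₂.symm σ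
    refine ⟨e.prodCongr f, fun p i => ?_⟩
    simp [R163.mrg, he, hf]

/-- orbit average of `φ (u * σ v)` over all permutations -/
noncomputable def orb (φ : (Fin q → ℝ) → ℝ) (u v : Fin q → ℝ) : ℝ :=
  (∑ σ : Equiv.Perm (Fin q), φ (fun i => u i * v (σ i))) / (Nat.factorial q)

lemma J_mrg_perm {L₁ : Ω₁ → Fin q → ℝ} {L₂ : Ω₂ → Fin q → ℝ}
    (h₂ : IsChan L₂) (φ : (Fin q → ℝ) → ℝ) (σ : Equiv.Perm (Fin q)) :
    ∑' p : Ω₁ × Ω₂, φ (fun i => L₁ p.1 i * L₂ p.2 (σ i)) = J φ (mrg L₁ L₂) := by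
  obtain ⟨e, he⟩ := h₂.symm σ
  rw [← ((Equiv.refl Ω₁).prodCongr e).tsum_eq
    (fun p : Ω₁ × Ω₂ => φ (fun i => L₁ p.1 i * L₂ p.2 (σ i)))]
  refine tsum_congr fun p => ?_
  congr 1
  funext i
  simp [mrg, he]

lemma summable_mrg_perm [NeZero q] {L₁ : Ω₁ → Fin q → ℝ} {L₂ : Ω₂ → Fin q → ℝ}
    (h₁ : IsChan L₁) (h₂ : IsChan L₂) {φ : (Fin q → ℝ) → ℝ} (hφ : Bdd φ)
    (σ : Equiv.Perm (Fin q)) :
    Summable (fun p : Ω₁ × Ω₂ => φ (fun i => L₁ p.1 i * L₂ p.2 (σ i))) := by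
  obtain ⟨e, he⟩ := h₂.symm σ
  rw [← ((Equiv.refl Ω₁).prodCongr e).summable_iff]
  refine ((h₁.mrg h₂).summable hφ).congr fun p => ?_
  simp only [Function.comp]
  congr 1
  funext i
  simp [mrg, he]

lemma J_mrg_orb [NeZero q] {L₁ : Ω₁ → Fin q → ℝ} {L₂ : Ω₂ → Fin q → ℝ}
    (h₁ : IsChan L₁) (h₂ : IsChan L₂) {φ : (Fin q → ℝ) → ℝ} (hφ : Bdd φ) :
    HasSum (fun p : Ω₁ × Ω₂ => orb φ (L₁ p.1) (L₂ p.2)) (J φ (mrg L₁ L₂)) := by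
  have h : HasSum (fun p : Ω₁ × Ω₂ => ∑ σ : Equiv.Perm (Fin q),
      φ (fun i => L₁ p.1 i * L₂ p.2 (σ i)))
      (∑ _σ : Equiv.Perm (Fin q), J φ (mrg L₁ L₂)) := by
    refine hasSum_sum fun σ _ => ?_
    rw [← J_mrg_perm h₂ φ σ]
    exact (summable_mrg_perm h₁ h₂ hφ σ).hasSum
  have h2 := h.div_const (Nat.factorial q : ℝ)
  have hf : (Nat.factorial q : ℝ) ≠ 0 := by exact_mod_cast Nat.factorial_ne_zero q
  simpa [orb, Finset.sum_const, Finset.card_univ, Fintype.card_perm, nsmul_eq_mul, hf] using h2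

lemma hasSum_mul_J [NeZero q] {L₁ : Ω₁ → Fin q → ℝ} {L₂ : Ω₂ → Fin q → ℝ}
    (h₁ : IsChan L₁) (h₂ : IsChan L₂) {α β : (Fin q → ℝ) → ℝ} (hα : Bdd α) (hβ : Bdd β) :
    HasSum (fun p : Ω₁ × Ω₂ => α (L₁ p.1) * β (L₂ p.2)) (J α L₁ * J β L₂) := by
  have hs : Summable (fun p : Ω₁ × Ω₂ => α (L₁ p.1) * β (L₂ p.2)) :=
    summable_mul_of_summable_norm (h₁.summable hα).norm (h₂.summable hβ).norm
  have := (h₁.summable hα).tsum_mul_tsum (h₂.summable hβ) hs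
  unfold J
  rw [this]
  exact hs.hasSum

/-- transfer of a pointwise orbit inequality (upper bound) -/
theorem J_mrg_le [NeZero q] {L₁ : Ω₁ → Fin q → ℝ} {L₂ : Ω₂ → Fin q → ℝ}
    (h₁ : IsChan L₁) (h₂ : IsChan L₂) {φ : (Fin q → ℝ) → ℝ} (hφ : Bdd φ)
    {κ : Type*} (s : Finset κ) {α β : κ → (Fin q → ℝ) → ℝ} (hα : ∀ k ∈ s, Bdd (α k))
    (hβ : ∀ k ∈ s, Bdd (β k))
    (H : ∀ u v : Fin q → ℝ, (∀ i, 0 ≤ u i) → (∀ i, 0 ≤ v i) →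
      orb φ u v ≤ ∑ k ∈ s, α k u * β k v) :
    J φ (mrg L₁ L₂) ≤ ∑ k ∈ s, J (α k) L₁ * J (β k) L₂ := by
  have hr : HasSum (fun p : Ω₁ × Ω₂ => ∑ k ∈ s, α k (L₁ p.1) * β k (L₂ p.2))
      (∑ k ∈ s, J (α k) L₁ * J (β k) L₂) :=
    hasSum_sum fun k hk => hasSum_mul_J h₁ h₂ (hα k hk) (hβ k hk)
  exact hasSum_le (fun p => H _ _ (h₁.nonneg _) (h₂.nonneg _)) (J_mrg_orb h₁ h₂ hφ) hr

/-- transfer of a pointwise orbit inequality (lower bound) -/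
theorem le_J_mrg [NeZero q] {L₁ : Ω₁ → Fin q → ℝ} {L₂ : Ω₂ → Fin q → ℝ}
    (h₁ : IsChan L₁) (h₂ : IsChan L₂) {φ : (Fin q → ℝ) → ℝ} (hφ : Bdd φ)
    {κ : Type*} (s : Finset κ) {α β : κ → (Fin q → ℝ) → ℝ} (hα : ∀ k ∈ s, Bdd (α k))
    (hβ : ∀ k ∈ s, Bdd (β k))
    (H : ∀ u v : Fin q → ℝ, (∀ i, 0 ≤ u i) → (∀ i, 0 ≤ v i) →
      ∑ k ∈ s, α k u * β k v ≤ orb φ u v) :
    ∑ k ∈ s, J (α k) L₁ * J (β k) L₂ ≤ J φ (mrg L₁ L₂) := by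
  have hr : HasSum (fun p : Ω₁ × Ω₂ => ∑ k ∈ s, α k (L₁ p.1) * β k (L₂ p.2))
      (∑ k ∈ s, J (α k) L₁ * J (β k) L₂) :=
    hasSum_sum fun k hk => hasSum_mul_J h₁ h₂ (hα k hk) (hβ k hk)
  exact hasSum_le (fun p => H _ _ (h₁.nonneg _) (h₂.nonneg _)) hr (J_mrg_orb h₁ h₂ hφ)

end merge

end Crest.Agent.R163
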