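import Crest.Agent.R163.Pow

/-!
Row 163: multiplicative functionals `h (u * v) = h u * h v` (monomials `∏ v_i ^ a_i`, `∑ a_i = 1`,
real or complex exponents with nonnegative real part): exact under merging, powers, Poisson
mixtures, hence exact recursions along the regular and the Poisson tree.
-/

set_option autoImplicit false

namespace Crest.Agent.R163

variable {q : ℕ} {𝕜 : Type*} [RCLike 𝕜]

/-- the functional `∑' o, h (L o)` with values in `ℝ` or `ℂ` -/
noncomputable def JK {Ω : Type*} (h : (Fin q → ℝ) → 𝕜) (L : Ω → Fin q → ℝ) : 𝕜 :=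
  ∑' o, h (L o)

lemma JK_real_eq_J {Ω : Type*} (h : (Fin q → ℝ) → ℝ) (L : Ω → Fin q → ℝ) : JK h L = J h L := rfl

/-- multiplicative, homogeneous, dominated by the mean -/
structure MulFun (h : (Fin q → ℝ) → 𝕜) : Prop where
  map_one : h (fun _ => 1) = 1
  map_mul : ∀ u v : Fin q → ℝ, (∀ i, 0 ≤ u i) → (∀ i, 0 ≤ v i) →
    h (fun i => u i * v i) = h u * h v
  hom : ∀ (c : ℝ) (v : Fin q → ℝ), 0 ≤ c → (∀ i, 0 ≤ v i) → h (fun i => c * v i) = (c : 𝕜) * h v
  bdd : ∃ K : ℝ, 0 ≤ K ∧ ∀ v : Fin q → ℝ, (∀ i, 0 ≤ v i) → ‖h v‖ ≤ K * avg v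

section

variable {Ω Ω₁ Ω₂ : Type*}

lemma IsChan.summableK [NeZero q] {L : Ω → Fin q → ℝ} (hL : IsChan L) {h : (Fin q → ℝ) → 𝕜}
    (hb : ∃ K : ℝ, 0 ≤ K ∧ ∀ v : Fin q → ℝ, (∀ i, 0 ≤ v i) → ‖h v‖ ≤ K * avg v) :
    Summable (fun o => ‖h (L o)‖) := by
  obtain ⟨K, _, hK⟩ := hb
  exact Summable.of_nonneg_of_le (fun _ => norm_nonneg _) (fun o => hK _ (hL.nonneg o))
    (hL.avg_hasSum.summable.mul_left K)

lemma JK_equiv {Ω' : Type*} (e : Ω' ≃ Ω) (h : (Fin q → ℝ) → 𝕜) (L : Ω → Fin q → ℝ) :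
    JK h (fun o => L (e o)) = JK h L := e.tsum_eq (fun o => h (L o))

lemma IsChan.JK_perm {L : Ω → Fin q → ℝ} (hL : IsChan L) (h : (Fin q → ℝ) → 𝕜)
    (σ : Equiv.Perm (Fin q)) : JK (fun v => h (fun i => v (σ i))) L = JK h L := by
  obtain ⟨e, he⟩ := hL.symm σ
  unfold JK
  rw [← e.tsum_eq (fun o => h (fun i => L o (σ i)))]
  refine tsum_congr fun o => ?_
  congr 1
  funext i
  exact he o i

lemma JK_mrg [NeZero q] {L₁ : Ω₁ → Fin q → ℝ} {L₂ : Ω₂ → Fin q → ℝ}
    (h₁ : IsChan L₁) (h₂ : IsChan L₂) {h : (Fin q → ℝ) → 𝕜} (hh : MulFun h) :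
    JK h (mrg L₁ L₂) = JK h L₁ * JK h L₂ := by
  have hf : Summable (fun o => ‖h (L₁ o)‖) := h₁.summableK hh.bdd
  have hg : Summable (fun o => ‖h (L₂ o)‖) := h₂.summableK hh.bdd
  have h3 : (∑' x, h (L₁ x)) * (∑' y, h (L₂ y)) = ∑' z : Ω₁ × Ω₂, h (L₁ z.1) * h (L₂ z.2) :=
    tsum_mul_tsum_of_summable_norm hf hg
  have h4 : JK h (mrg L₁ L₂) = ∑' z : Ω₁ × Ω₂, h (L₁ z.1) * h (L₂ z.2) :=
    tsum_congr fun p => hh.map_mul _ _ (h₁.nonneg _) (h₂.nonneg _)
  exact h4.trans h3.symm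

lemma JK_pw [NeZero q] {L : Ω → Fin q → ℝ} (hL : IsChan L) {h : (Fin q → ℝ) → 𝕜}
    (hh : MulFun h) (c : ℕ) : JK h (pw L c) = JK h L ^ c := by
  induction c with
  | zero =>
    have : pw L 0 = fun _ _ => 1 := by funext o i; simp [pw]
    rw [this, pow_zero]
    unfold JK
    simp [hh.map_one]
  | succ c ih =>
    rw [← JK_equiv (Fin.consEquiv (fun _ => Ω))]
    have : (fun o => pw L (c + 1) ((Fin.consEquiv fun _ => Ω) o)) = mrg L (pw L c) := by
      funext p; rw [← pw_cons]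
    rw [this, JK_mrg hL (hL.pw c) hh, ih, pow_succ']

lemma JK_pois [NeZero q] {d : ℝ} (hd : 0 ≤ d) {L : Ω → Fin q → ℝ} (hL : IsChan L)
    {h : (Fin q → ℝ) → 𝕜} (hh : MulFun h) :
    HasSum (fun n => ((pwt d n : ℝ) : 𝕜) * JK h L ^ n) (JK h (pois d L)) := by
  have hs : Summable (fun o => h (pois d L o)) := ((pois_isChan hd hL).summableK hh.bdd).of_norm
  have h1 : HasSum (fun s : (n : ℕ) × (Fin n → Ω) => h (fun i => pwt d s.1 * pw L s.1 s.2 i))
      (JK h (pois d L)) := by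
    have h2 := ((List.equivSigmaTuple (α := Ω)).symm.hasSum_iff
      (f := fun o => h (pois d L o))).2 hs.hasSum
    have h5 : (fun o => h (pois d L o)) ∘ (List.equivSigmaTuple (α := Ω)).symm =
        fun s : (n : ℕ) × (Fin n → Ω) => h (fun i => pwt d s.1 * pw L s.1 s.2 i) := by
      funext s
      simp only [Function.comp]
      rw [pois_equiv]
    rw [h5] at h2
    exact h2
  refine h1.sigma fun n => ?_
  have h3 : ∀ f : Fin n → Ω, h (fun i => pwt d n * pw L n f i) =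
      ((pwt d n : ℝ) : 𝕜) * h (pw L n f) :=
    fun f => hh.hom _ _ (pwt_nonneg hd n) ((hL.pw n).nonneg f)
  simp only [h3]
  rw [← JK_pw hL hh n]
  exact (((hL.pw n).summableK hh.bdd).of_norm).hasSum.mul_left _

lemma J_pois_real [NeZero q] {d : ℝ} (hd : 0 ≤ d) {L : Ω → Fin q → ℝ} (hL : IsChan L)
    {h : (Fin q → ℝ) → ℝ} (hh : MulFun h) :
    JK h (pois d L) = Real.exp (-d * (1 - JK h L)) :=
  (JK_pois hd hL hh).unique (by simpa using pwt_hasSum_pow d (JK h L))

lemma J_pois_complex [NeZero q] {d : ℝ} (hd : 0 ≤ d) {L : Ω → Fin q → ℝ} (hL : IsChan L)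
    {h : (Fin q → ℝ) → ℂ} (hh : MulFun h) :
    JK h (pois d L) = Complex.exp (-d * (1 - JK h L)) := by
  refine (JK_pois hd hL hh).unique ?_
  have h5 := (NormedSpace.expSeries_div_hasSum_exp ((d : ℂ) * JK h L)).mul_left
      (Complex.exp (-d))
  rw [← Complex.exp_eq_exp_ℂ, ← Complex.exp_add] at h5
  have h6 : (fun n => ((pwt d n : ℝ) : ℂ) * JK h L ^ n) =
      fun n => Complex.exp (-d) * (((d : ℂ) * JK h L) ^ n / (Nat.factorial n : ℂ)) := by
    funext n
    unfold pwt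
    push_cast
    rw [mul_pow]; ring
  have h7 : (-(d : ℂ) * (1 - JK h L)) = -d + d * JK h L := by ring
  rw [h7]
  change HasSum (fun n => ((pwt d n : ℝ) : ℂ) * JK h L ^ n) _
  rw [h6]
  exact h5

end

/-! ### recursions along trees -/

lemma JK_reg_succ [NeZero q] (b : ℕ) {lam : ℝ} (hl : Adm q lam) (ℓ : ℕ)
    {h : (Fin q → ℝ) → 𝕜} (hh : MulFun h) :
    JK h (reg q b lam (ℓ + 1)) = JK h (fun o => W lam (reg q b lam ℓ o)) ^ b := by
  rw [← JK_pw ((reg_isChan b hl ℓ).edge hl) hh, ← JK_equiv (regEquiv q b ℓ)]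
  unfold JK
  exact tsum_congr fun o => by rw [reg_succ]

lemma J_gw_succ_real [NeZero q] {lam d : ℝ} (hl : Adm q lam) (hd : 0 ≤ d) (ℓ : ℕ)
    {h : (Fin q → ℝ) → ℝ} (hh : MulFun h) :
    JK h (gw q lam d (ℓ + 1)) =
      Real.exp (-d * (1 - JK h (fun o => W lam (gw q lam d ℓ o)))) := by
  rw [gw_succ, J_pois_real hd ((gw_isChan hl hd ℓ).edge hl) hh]

lemma J_gw_succ_complex [NeZero q] {lam d : ℝ} (hl : Adm q lam) (hd : 0 ≤ d) (ℓ : ℕ)
    {h : (Fin q → ℝ) → ℂ} (hh : MulFun h) :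
    JK h (gw q lam d (ℓ + 1)) =
      Complex.exp (-d * (1 - JK h (fun o => W lam (gw q lam d ℓ o)))) := by
  rw [gw_succ, J_pois_complex hd ((gw_isChan hl hd ℓ).edge hl) hh]

/-! ### monomials -/

/-- real monomial `∏ v_i ^ a_i` -/
noncomputable def mon (a : Fin q → ℝ) (v : Fin q → ℝ) : ℝ := ∏ i, v i ^ a i

lemma mon_mulFun [NeZero q] {a : Fin q → ℝ} (ha : ∀ i, 0 ≤ a i) (hs : ∑ i, a i = 1) :
    MulFun (mon a) where
  map_one := by simp [mon]
  map_mul u v hu hv := by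
    unfold mon
    rw [← Finset.prod_mul_distrib]
    exact Finset.prod_congr rfl fun i _ => Real.mul_rpow (hu i) (hv i)
  hom c v hc hv := by
    unfold mon
    have : ∏ i, (c * v i) ^ a i = (∏ i, c ^ a i) * ∏ i, v i ^ a i := by
      rw [← Finset.prod_mul_distrib]
      exact Finset.prod_congr rfl fun i _ => Real.mul_rpow hc (hv i)
    rw [this]
    have h2 : ∏ i, c ^ a i = c := by
      rcases hc.eq_or_lt with hc0 | hc0
      · subst hc0
        have : ∃ i, a i ≠ 0 := by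
          by_contra hcon
          push Not at hcon
          simp [hcon] at hs
        obtain ⟨i, hi⟩ := this
        exact Finset.prod_eq_zero (Finset.mem_univ i) (Real.zero_rpow hi)
      · rw [← Real.rpow_sum_of_pos hc0, hs, Real.rpow_one]
    rw [h2]; rfl
  bdd := by
    refine ⟨q, Nat.cast_nonneg _, fun v hv => ?_⟩
    have hq : (q : ℝ) ≠ 0 := Nat.cast_ne_zero.mpr (NeZero.ne q)
    have h1 : mon a v ≤ ∑ i, a i * v i :=
      Real.geom_mean_le_arith_mean_weighted Finset.univ a v (fun i _ => ha i) hs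
        (fun i _ => hv i)
    have h2 : ∀ i, a i ≤ 1 := fun i => by
      rw [← hs]; exact Finset.single_le_sum (fun j _ => ha j) (Finset.mem_univ i)
    have h3 : ∑ i, a i * v i ≤ ∑ i, v i :=
      Finset.sum_le_sum fun i _ => mul_le_of_le_one_left (hv i) (h2 i)
    have h4 : (q : ℝ) * avg v = ∑ i, v i := by unfold avg; field_simp
    have h0 : 0 ≤ mon a v := Finset.prod_nonneg fun i _ => Real.rpow_nonneg (hv i) _
    rw [h4, Real.norm_eq_abs, abs_of_nonneg h0]
    linarith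

/-- complex monomial `∏ v_i ^ a_i` -/
noncomputable def cmon (a : Fin q → ℂ) (v : Fin q → ℝ) : ℂ := ∏ i, (v i : ℂ) ^ a i

lemma norm_cpow_le {x : ℝ} (hx : 0 ≤ x) {a : ℂ} (ha : 0 ≤ a.re) :
    ‖(x : ℂ) ^ a‖ ≤ x ^ a.re := by
  rcases hx.eq_or_lt with hx0 | hx0
  · subst hx0
    by_cases h : a = 0
    · subst h; simp
    · simp [Complex.zero_cpow h]
      positivity
  · rw [Complex.norm_cpow_eq_rpow_re_of_pos hx0]

lemma cmon_mulFun [NeZero q] {a : Fin q → ℂ} (ha : ∀ i, 0 ≤ (a i).re) (hs : ∑ i, a i = 1) :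
    MulFun (cmon a) where
  map_one := by simp [cmon]
  map_mul u v hu hv := by
    unfold cmon
    rw [← Finset.prod_mul_distrib]
    refine Finset.prod_congr rfl fun i _ => ?_
    push_cast
    exact Complex.mul_cpow_ofReal_nonneg (hu i) (hv i) _
  hom c v hc hv := by
    unfold cmon
    have : ∏ i, (((c * v i : ℝ)) : ℂ) ^ a i = (∏ i, (c : ℂ) ^ a i) * ∏ i, (v i : ℂ) ^ a i := by
      rw [← Finset.prod_mul_distrib]
      refine Finset.prod_congr rfl fun i _ => ?_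
      push_cast
      exact Complex.mul_cpow_ofReal_nonneg hc (hv i) _
    rw [this]
    have h2 : ∏ i, (c : ℂ) ^ a i = c := by
      rcases hc.eq_or_lt with hc0 | hc0
      · subst hc0
        have : ∃ i, a i ≠ 0 := by
          by_contra hcon
          push Not at hcon
          simp [hcon] at hs
        obtain ⟨i, hi⟩ := this
        rw [Finset.prod_eq_zero (Finset.mem_univ i)]
        · simp
        · simp [Complex.zero_cpow hi]
      · have hc1 : (c : ℂ) ≠ 0 := by exact_mod_cast hc0.ne'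
        have : ∏ i, (c : ℂ) ^ a i = (c : ℂ) ^ (∑ i, a i) := by
          simp only [Complex.cpow_def_of_ne_zero hc1]
          rw [Finset.mul_sum, Complex.exp_sum]
        rw [this, hs, Complex.cpow_one]
    rw [h2]; rfl
  bdd := by
    refine ⟨q, Nat.cast_nonneg _, fun v hv => ?_⟩
    have hq : (q : ℝ) ≠ 0 := Nat.cast_ne_zero.mpr (NeZero.ne q)
    have hs' : ∑ i, (a i).re = 1 := by
      have := congrArg Complex.re hs
      simpa using this
    have h0 : ‖cmon a v‖ ≤ ∏ i, v i ^ (a i).re := by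
      unfold cmon
      rw [norm_prod]
      exact Finset.prod_le_prod (fun _ _ => norm_nonneg _) fun i _ => norm_cpow_le (hv i) (ha i)
    have h1 : ∏ i, v i ^ (a i).re ≤ ∑ i, (a i).re * v i :=
      Real.geom_mean_le_arith_mean_weighted Finset.univ (fun i => (a i).re) v (fun i _ => ha i) hs'
        (fun i _ => hv i)
    have h2 : ∀ i, (a i).re ≤ 1 := fun i => by
      rw [← hs']
      exact Finset.single_le_sum (f := fun i => (a i).re) (fun j _ => ha j) (Finset.mem_univ i)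
    have h3 : ∑ i, (a i).re * v i ≤ ∑ i, v i :=
      Finset.sum_le_sum fun i _ => mul_le_of_le_one_left (hv i) (h2 i)
    have h4 : (q : ℝ) * avg v = ∑ i, v i := by unfold avg; field_simp
    rw [h4]
    linarith

end Crest.Agent.R163
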