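import Crest.Agent.R163.Tree2
import Crest.Agent.R163.Mult

/-!
Row 163: the class argument. `LawHyp`: a functional `J ψ` with a class `{c·X² ≤ J ψ}` closed under
edges and merging, on which `X = J chi` is subadditive with a cubic loss. Consequences for the
regular tree, the Poisson tree and general trees. `PairHyp`: the pointwise (orbit) inequalities
that imply `LawHyp`.
-/

set_option autoImplicit false

universe u

namespace Crest.Agent.R163

open Crest.ProbabilityR.TreeBroadcast Crest.ProbabilityR.Broadcast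

variable {q : ℕ}

lemma hasSum_cast {ι : Type*} {f g : ι → ℝ} {a : ℝ} (h : HasSum f a) (hfg : ∀ n, g n = f n) :
    HasSum g a := by
  have : g = f := funext hfg
  rw [this]; exact h

/-- law-level hypotheses -/
structure LawHyp (q : ℕ) [NeZero q] (ψ : (Fin q → ℝ) → ℝ) (c κ : ℝ) (Λ : Set ℝ) : Prop where
  bdd : Bdd ψ
  hom : Hom ψ
  cpos : 0 < c
  κpos : 0 < κ
  adm : ∀ lam ∈ Λ, Adm q lam
  unit : 0 ≤ ψ (fun _ => 1)
  perfect : c * (q - 1) ^ 2 ≤ ∑ o : Fin q, ψ (fun i => if o = i then 1 else 0)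
  edge : ∀ lam ∈ Λ, ∀ {Ω : Type u} (L : Ω → Fin q → ℝ), IsChan L →
    c * (J chi L) ^ 2 ≤ J ψ L → c * (lam ^ 2 * J chi L) ^ 2 ≤ J ψ (fun o => W lam (L o))
  merge : ∀ {Ω₁ Ω₂ : Type u} (L₁ : Ω₁ → Fin q → ℝ) (L₂ : Ω₂ → Fin q → ℝ),
    IsChan L₁ → IsChan L₂ → c * (J chi L₁) ^ 2 ≤ J ψ L₁ → c * (J chi L₂) ^ 2 ≤ J ψ L₂ →
    c * (J chi (mrg L₁ L₂)) ^ 2 ≤ J ψ (mrg L₁ L₂) ∧
    J chi (mrg L₁ L₂) ≤ J chi L₁ + J chi L₂ -
      κ * ((J chi L₁) ^ 2 * J chi L₂ + J chi L₁ * (J chi L₂) ^ 2)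

lemma IsChan.X_nonneg [NeZero q] {Ω : Type*} {L : Ω → Fin q → ℝ} (h : IsChan L) :
    0 ≤ J chi L := h.J_nonneg fun _ hv => chi_nonneg hv

lemma IsChan.X_le [NeZero q] {Ω : Type*} {L : Ω → Fin q → ℝ} (h : IsChan L) :
    J chi L ≤ q - 1 := by
  have h1 := h.J_mono bdd_chi (bdd_avg.const_mul (q - 1 : ℝ)) fun v hv => chi_le hv
  rwa [J_const_mul, h.J_avg, mul_one] at h1

lemma chi_one [NeZero q] : chi (fun _ : Fin q => (1 : ℝ)) = 0 := by
  have hq : (q : ℝ) ≠ 0 := Nat.cast_ne_zero.mpr (NeZero.ne q)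
  simp [chi, avg, hq]

/-- class membership of the perfect channel, in the three models -/
lemma J_perfect {Ω : Type*} (e : Ω ≃ Fin q) (φ : (Fin q → ℝ) → ℝ) :
    J φ (fun (o : Ω) (i : Fin q) => if e o = i then (1 : ℝ) else 0) =
      ∑ o : Fin q, φ (fun i => if o = i then 1 else 0) := by
  have := J_equiv e φ (fun (o : Fin q) (i : Fin q) => if o = i then (1 : ℝ) else 0)
  rw [this]
  unfold J
  rw [tsum_fintype]

lemma perfect_isChan {Ω : Type*} (e : Ω ≃ Fin q) :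
    IsChan (fun (o : Ω) (i : Fin q) => if e o = i then (1 : ℝ) else 0) := by
  have h : IsChan (fun (o : Fin q) (i : Fin q) => if o = i then (1 : ℝ) else 0) := by
    refine ⟨fun o i => ?_, fun i => hasSum_ite_eq i (1 : ℝ), fun σ => ⟨σ, fun o i => ?_⟩⟩
    · split_ifs <;> norm_num
    · simp
  exact h.reindex e

section merges

variable [NeZero q] {ψ : (Fin q → ℝ) → ℝ} {c κ : ℝ} {Λ : Set ℝ}

/-- membership in the class -/
def InC {Ω : Type*} (ψ : (Fin q → ℝ) → ℝ) (c : ℝ) (L : Ω → Fin q → ℝ) : Prop :=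
  IsChan L ∧ c * (J chi L) ^ 2 ≤ J ψ L

lemma LawHyp.inC_perfect (H : LawHyp.{u} q ψ c κ Λ) {Ω : Type*} (e : Ω ≃ Fin q) :
    InC ψ c (fun (o : Ω) (i : Fin q) => if e o = i then (1 : ℝ) else 0) := by
  refine ⟨perfect_isChan e, ?_⟩
  have h1 := (perfect_isChan e).X_le
  have h0 := (perfect_isChan e).X_nonneg
  rw [J_perfect e ψ]
  refine le_trans ?_ H.perfect
  exact mul_le_mul_of_nonneg_left (pow_le_pow_left₀ h0 h1 2) H.cpos.le

lemma LawHyp.inC_edge (H : LawHyp.{u} q ψ c κ Λ) {Ω : Type u} {L : Ω → Fin q → ℝ}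
    (hL : InC ψ c L) {lam : ℝ} (hlam : lam ∈ Λ) : InC ψ c (fun o => W lam (L o)) := by
  refine ⟨hL.1.edge (H.adm lam hlam), ?_⟩
  rw [hL.1.J_chi_edge lam]
  exact H.edge lam hlam L hL.1 hL.2

lemma LawHyp.inC_mrg (H : LawHyp.{u} q ψ c κ Λ) {Ω₁ Ω₂ : Type u} {L₁ : Ω₁ → Fin q → ℝ}
    {L₂ : Ω₂ → Fin q → ℝ} (h₁ : InC ψ c L₁) (h₂ : InC ψ c L₂) : InC ψ c (mrg L₁ L₂) :=
  ⟨h₁.1.mrg h₂.1, (H.merge L₁ L₂ h₁.1 h₂.1 h₁.2 h₂.2).1⟩

lemma LawHyp.inC_unit (H : LawHyp.{u} q ψ c κ Λ) {Ω : Type*} [Unique Ω] :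
    InC ψ c (fun (_ : Ω) (_ : Fin q) => (1 : ℝ)) := by
  refine ⟨isChan_unit, ?_⟩
  rw [J_unit, J_unit, chi_one]
  simpa using H.unit

lemma LawHyp.X_mrg_le (H : LawHyp.{u} q ψ c κ Λ) {Ω₁ Ω₂ : Type u} {L₁ : Ω₁ → Fin q → ℝ}
    {L₂ : Ω₂ → Fin q → ℝ} (h₁ : InC ψ c L₁) (h₂ : InC ψ c L₂) :
    J chi (mrg L₁ L₂) ≤ J chi L₁ + J chi L₂ -
      κ * ((J chi L₁) ^ 2 * J chi L₂ + J chi L₁ * (J chi L₂) ^ 2) :=
  (H.merge L₁ L₂ h₁.1 h₂.1 h₁.2 h₂.2).2

lemma LawHyp.X_mrg_le' (H : LawHyp.{u} q ψ c κ Λ) {Ω₁ Ω₂ : Type u} {L₁ : Ω₁ → Fin q → ℝ}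
    {L₂ : Ω₂ → Fin q → ℝ} (h₁ : InC ψ c L₁) (h₂ : InC ψ c L₂) :
    J chi (mrg L₁ L₂) ≤ J chi L₁ + J chi L₂ := by
  have := H.X_mrg_le h₁ h₂
  have a := h₁.1.X_nonneg
  have b := h₂.1.X_nonneg
  have : 0 ≤ κ * ((J chi L₁) ^ 2 * J chi L₂ + J chi L₁ * (J chi L₂) ^ 2) := by
    have := H.κpos
    positivity
  linarith

/-- the strictly subadditive functional `f x = x + η x³` -/
lemma LawHyp.f_mrg_le (H : LawHyp.{u} q ψ c κ Λ) {Ω₁ Ω₂ : Type u} {L₁ : Ω₁ → Fin q → ℝ}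
    {L₂ : Ω₂ → Fin q → ℝ} (h₁ : InC ψ c L₁) (h₂ : InC ψ c L₂) {η : ℝ} (h0 : 0 ≤ η)
    (hη : 3 * η ≤ κ) :
    J chi (mrg L₁ L₂) + η * J chi (mrg L₁ L₂) ^ 3 ≤
      (J chi L₁ + η * J chi L₁ ^ 3) + (J chi L₂ + η * J chi L₂ ^ 3) := by
  have h := H.X_mrg_le h₁ h₂
  have h' := H.X_mrg_le' h₁ h₂
  have a := h₁.1.X_nonneg
  have b := h₂.1.X_nonneg
  have z := (h₁.1.mrg h₂.1).X_nonneg
  set x := J chi L₁
  set y := J chi L₂
  set w := J chi (mrg L₁ L₂)
  have h3 : w ^ 3 ≤ (x + y) ^ 3 := pow_le_pow_left₀ z h' 3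
  have h4 : η * w ^ 3 ≤ η * (x + y) ^ 3 := mul_le_mul_of_nonneg_left h3 h0
  have h5 : 0 ≤ (κ - 3 * η) * (x ^ 2 * y + x * y ^ 2) := by
    apply mul_nonneg (by linarith)
    positivity
  nlinarith

end merges

section pw

variable [NeZero q] {ψ : (Fin q → ℝ) → ℝ} {c κ : ℝ} {Λ : Set ℝ}

lemma inC_congr {Ω Ω' : Type*} (e : Ω' ≃ Ω) {L : Ω → Fin q → ℝ} (h : InC ψ c L) :
    InC ψ c (fun o => L (e o)) := by
  refine ⟨h.1.reindex e, ?_⟩
  rw [J_equiv, J_equiv]
  exact h.2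

lemma inC_of_J {Ω Ω' : Type*} {L : Ω → Fin q → ℝ} {L' : Ω' → Fin q → ℝ} (h : InC ψ c L)
    (hc : IsChan L') (hJ : ∀ φ : (Fin q → ℝ) → ℝ, J φ L' = J φ L) : InC ψ c L' := by
  refine ⟨hc, ?_⟩
  rw [hJ, hJ]
  exact h.2

lemma LawHyp.inC_pw (H : LawHyp.{u} q ψ c κ Λ) {Ω : Type u} {L : Ω → Fin q → ℝ}
    (h : InC ψ c L) (n : ℕ) : InC ψ c (pw L n) := by
  induction n with
  | zero =>
    have : pw L 0 = fun _ _ => 1 := by funext o i; simp [pw]
    rw [this]
    exact H.inC_unit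
  | succ n ih => exact inC_of_J (H.inC_mrg h ih) (h.1.pw _) fun φ => J_pw_succ φ L n

lemma J_pw_one {Ω : Type*} (φ : (Fin q → ℝ) → ℝ) (L : Ω → Fin q → ℝ) : J φ (pw L 1) = J φ L := by
  rw [← J_equiv (Equiv.funUnique (Fin 1) Ω) φ L]
  unfold J
  refine tsum_congr fun o => ?_
  congr 1
  funext i
  simp [pw]

lemma LawHyp.X_pw_le (H : LawHyp.{u} q ψ c κ Λ) {Ω : Type u} {L : Ω → Fin q → ℝ}
    (h : InC ψ c L) (n : ℕ) : J chi (pw L n) ≤ n * J chi L := by
  induction n with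
  | zero => rw [J_pw_zero, chi_one]; simp
  | succ n ih =>
    rw [J_pw_succ]
    have := H.X_mrg_le' h (H.inC_pw h n)
    push_cast
    linarith

lemma LawHyp.X_pw_le_loss (H : LawHyp.{u} q ψ c κ Λ) {Ω : Type u} {L : Ω → Fin q → ℝ}
    (h : InC ψ c L) {n : ℕ} (hn : 2 ≤ n) :
    J chi (pw L n) ≤ n * J chi L - 2 * κ * J chi L ^ 3 := by
  induction n, hn using Nat.le_induction with
  | base =>
    rw [J_pw_succ]
    have := H.X_mrg_le h (H.inC_pw h 1)
    rw [J_pw_one] at this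
    push_cast
    nlinarith [this]
  | succ n _ ih =>
    rw [J_pw_succ]
    have := H.X_mrg_le' h (H.inC_pw h n)
    push_cast
    linarith

end pw

/-! ### convergence of scalar recursions -/

lemma tendsto_zero_of_cubic {x : ℕ → ℝ} {a : ℝ} (ha : 0 < a) (h0 : ∀ n, 0 ≤ x n)
    (h : ∀ n, x (n + 1) ≤ x n - a * x n ^ 3) : Filter.Tendsto x Filter.atTop (nhds 0) := by
  have hanti : Antitone x := antitone_nat_of_succ_le fun n => by
    have := h n
    have h1 : 0 ≤ a * x n ^ 3 := mul_nonneg ha.le (pow_nonneg (h0 n) 3)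
    linarith
  have hbdd : BddBelow (Set.range x) := ⟨0, by rintro _ ⟨n, rfl⟩; exact h0 n⟩
  have hlim := tendsto_atTop_ciInf hanti hbdd
  set l := ⨅ n, x n with hl
  have hl0 : 0 ≤ l := le_ciInf h0
  have h1 : Filter.Tendsto (fun n => x n - a * x n ^ 3) Filter.atTop (nhds (l - a * l ^ 3)) :=
    hlim.sub ((hlim.pow 3).const_mul a)
  have h2 : Filter.Tendsto (fun n => x (n + 1)) Filter.atTop (nhds l) :=
    hlim.comp (Filter.tendsto_add_atTop_nat 1)
  have h3 : l ≤ l - a * l ^ 3 := le_of_tendsto_of_tendsto' h2 h1 h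
  have h4 : a * l ^ 3 ≤ 0 := by linarith
  have h5 : l = 0 := by
    by_contra hne
    have : 0 < l := lt_of_le_of_ne hl0 (Ne.symm hne)
    have : 0 < a * l ^ 3 := by positivity
    linarith
  rw [h5] at hlim
  exact hlim

lemma tv_tendsto [NeZero q] {Ω : ℕ → Type*} (L : ∀ n, Ω n → Fin q → ℝ) (h : ∀ n, IsChan (L n))
    (hX : Filter.Tendsto (fun n => J chi (L n)) Filter.atTop (nhds 0)) :
    Filter.Tendsto (fun n => J tv (L n)) Filter.atTop (nhds 0) := by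
  have h1 : Filter.Tendsto (fun n => (1 / 2) * Real.sqrt (J chi (L n))) Filter.atTop (nhds 0) := by
    have := (Real.continuous_sqrt.tendsto 0).comp hX
    rw [Real.sqrt_zero] at this
    have h2 := this.const_mul (1 / 2)
    rw [mul_zero] at h2
    exact h2
  exact squeeze_zero (fun n => (h n).J_nonneg fun v _ => tv_nonneg v) (fun n => (h n).J_tv_le) h1

section trees

variable [NeZero q] {ψ : (Fin q → ℝ) → ℝ} {c κ : ℝ} {Λ : Set ℝ}

lemma reg_zero (b : ℕ) (lam : ℝ) : reg q b lam 0 =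
    fun o i => if (Equiv.funUnique (Fin 0 → Fin b) (Fin q)) o = i then 1 else 0 := by
  funext o i
  simp only [reg, leafLaw, Equiv.funUnique_apply]
  congr!

lemma LawHyp.inC_reg (H : LawHyp.{0} q ψ c κ Λ) (b : ℕ) {lam : ℝ} (hlam : lam ∈ Λ) (ℓ : ℕ) :
    InC ψ c (reg q b lam ℓ) := by
  induction ℓ with
  | zero => rw [reg_zero]; exact H.inC_perfect _
  | succ ℓ ih =>
    exact inC_of_J (H.inC_pw (H.inC_edge ih hlam) b) (reg_isChan b (H.adm lam hlam) _)
      fun φ => J_reg_succ φ b lam ℓ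

/-- regular trees: non-reconstruction up to and including the Kesten–Stigum bound -/
theorem LawHyp.regular (H : LawHyp.{0} q ψ c κ Λ) {b : ℕ} (hb : 2 ≤ b) {lam : ℝ} (hlam : lam ∈ Λ)
    (hks : (b : ℝ) * lam ^ 2 ≤ 1) :
    Filter.Tendsto (advantage q b lam) Filter.atTop (nhds 0) := by
  have hfun : advantage q b lam = fun ℓ => J tv (reg q b lam ℓ) := by
    funext ℓ; exact advantage_eq q b lam ℓ
  rw [hfun]
  refine tv_tendsto _ (fun ℓ => reg_isChan b (H.adm lam hlam) ℓ) ?_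
  have hX0 : ∀ ℓ, 0 ≤ J chi (reg q b lam ℓ) := fun ℓ =>
    (reg_isChan b (H.adm lam hlam) ℓ).X_nonneg
  have hrec : ∀ ℓ, J chi (reg q b lam (ℓ + 1)) ≤
      b * (lam ^ 2 * J chi (reg q b lam ℓ)) - 2 * κ * (lam ^ 2 * J chi (reg q b lam ℓ)) ^ 3 := by
    intro ℓ
    have h1 := H.inC_edge (H.inC_reg b hlam ℓ) hlam
    have h2 := H.X_pw_le_loss h1 hb
    rw [(H.inC_reg b hlam ℓ).1.J_chi_edge lam] at h2
    rw [J_reg_succ]
    exact h2
  by_cases hz : lam = 0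
  · subst hz
    have : ∀ ℓ, J chi (reg q b 0 (ℓ + 1)) = 0 := fun ℓ => by
      have := hrec ℓ
      simp only [ne_eq, OfNat.ofNat_ne_zero, not_false_eq_true, zero_pow, zero_mul, mul_zero,
        sub_zero] at this
      exact le_antisymm this (hX0 _)
    rw [← Filter.tendsto_add_atTop_iff_nat 1]
    simp only [this]
    exact tendsto_const_nhds
  · have hl2 : 0 < lam ^ 2 := by positivity
    refine tendsto_zero_of_cubic (a := 2 * κ * (lam ^ 2) ^ 3) (by have := H.κpos; positivity) hX0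
      fun ℓ => ?_
    have h1 := hrec ℓ
    have h2 : (b : ℝ) * (lam ^ 2 * J chi (reg q b lam ℓ)) ≤ 1 * J chi (reg q b lam ℓ) := by
      rw [← mul_assoc]
      exact mul_le_mul_of_nonneg_right hks (hX0 ℓ)
    calc J chi (reg q b lam (ℓ + 1)) ≤ _ := h1
      _ ≤ 1 * J chi (reg q b lam ℓ) - 2 * κ * (lam ^ 2 * J chi (reg q b lam ℓ)) ^ 3 := by linarith
      _ = _ := by ring

/-! #### Poisson -/

lemma hom_chi : Hom (chi (q := q)) := by
  intro a v ha hv
  have h1 : avg (fun i => a * v i) = a * avg v := by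
    unfold avg; rw [← Finset.mul_sum, mul_div_assoc]
  have h2 : avg (fun i => (a * v i) ^ 2) = a ^ 2 * avg (fun i => v i ^ 2) := by
    unfold avg
    simp only [mul_pow]
    rw [← Finset.mul_sum, mul_div_assoc]
  unfold chi
  rw [h1, h2]
  rcases ha.eq_or_lt with h0 | h0
  · subst h0; simp
  · by_cases hv0 : avg v = 0
    · simp [hv0]
    · field_simp

lemma LawHyp.inC_pois (H : LawHyp.{0} q ψ c κ Λ) {Ω : Type} {L : Ω → Fin q → ℝ}
    (h : InC ψ c L) {d : ℝ} (hd : 0 ≤ d) : InC ψ c (pois d L) := by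
  refine ⟨pois_isChan hd h.1, ?_⟩
  have h1 := J_pois hd h.1 H.bdd H.hom
  have h2 := J_pois hd h.1 bdd_chi hom_chi
  have hX : 0 ≤ J chi (pois d L) := (pois_isChan hd h.1).X_nonneg
  -- tangent-line form of Jensen
  set t := J chi (pois d L) with ht
  have h3 : HasSum (fun n => pwt d n * (2 * t * J chi (pw L n) - t ^ 2)) (2 * t * t - 1 * t ^ 2) := by
    have := (h2.mul_left (2 * t)).sub ((pwt_hasSum d).mul_right (t ^ 2))
    exact hasSum_cast this fun n => by ring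
  have h4 : c * (2 * t * t - 1 * t ^ 2) ≤ J ψ (pois d L) := by
    refine hasSum_le (fun n => ?_) (h3.mul_left c) h1
    have h5 := (H.inC_pw h n).2
    have h6 : c * (2 * t * J chi (pw L n) - t ^ 2) ≤ c * J chi (pw L n) ^ 2 := by
      apply mul_le_mul_of_nonneg_left _ H.cpos.le
      nlinarith [sq_nonneg (J chi (pw L n) - t)]
    have h7 := mul_le_mul_of_nonneg_left (h6.trans h5) (pwt_nonneg hd n)
    linarith
  linarith

lemma LawHyp.inC_gw (H : LawHyp.{0} q ψ c κ Λ) {lam d : ℝ} (hlam : lam ∈ Λ) (hd : 0 ≤ d) (ℓ : ℕ) :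
    InC ψ c (gw q lam d ℓ) := by
  induction ℓ with
  | zero => exact H.inC_perfect (Equiv.refl (Fin q))
  | succ ℓ ih =>
    rw [gw_succ]
    exact H.inC_pois (H.inC_edge ih hlam) hd

/-- the mean of the Poisson weights -/
lemma pwt_mean (d : ℝ) : HasSum (fun n => pwt d n * n) d := by
  have h1 : HasSum (fun n => pwt d (n + 1) * ((n + 1 : ℕ) : ℝ)) d := by
    have := (pwt_hasSum d).mul_left d
    rw [mul_one] at this
    refine hasSum_cast this fun n => ?_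
    unfold pwt
    rw [Nat.factorial_succ]
    push_cast
    have : (n : ℝ) + 1 ≠ 0 := by positivity
    have h2 : (Nat.factorial n : ℝ) ≠ 0 := by exact_mod_cast Nat.factorial_ne_zero n
    field_simp
    ring
  have h2 := (hasSum_nat_add_iff (f := fun n : ℕ => pwt d n * (n : ℝ)) 1).1 h1
  simpa using h2

/-- Poisson tree: non-reconstruction up to and including the Kesten–Stigum bound -/
theorem LawHyp.poisson (H : LawHyp.{0} q ψ c κ Λ) {lam d : ℝ} (hlam : lam ∈ Λ) (hd : 0 < d)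
    (hks : d * lam ^ 2 ≤ 1) :
    Filter.Tendsto (gwAdvantage q lam d) Filter.atTop (nhds 0) := by
  have hfun : gwAdvantage q lam d = fun ℓ => J tv (gw q lam d ℓ) := by
    funext ℓ; exact gwAdvantage_eq q lam d ℓ
  rw [hfun]
  refine tv_tendsto _ (fun ℓ => gw_isChan (H.adm lam hlam) hd.le ℓ) ?_
  have hX0 : ∀ ℓ, 0 ≤ J chi (gw q lam d ℓ) := fun ℓ =>
    (gw_isChan (H.adm lam hlam) hd.le ℓ).X_nonneg
  have hrec : ∀ ℓ, J chi (gw q lam d (ℓ + 1)) ≤
      d * (lam ^ 2 * J chi (gw q lam d ℓ)) -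
        pwt d 2 * (2 * κ * (lam ^ 2 * J chi (gw q lam d ℓ)) ^ 3) := by
    intro ℓ
    have h1 := H.inC_edge (H.inC_gw hlam hd.le ℓ) hlam
    have h2 := J_pois hd.le h1.1 bdd_chi hom_chi
    rw [gw_succ]
    set Y := lam ^ 2 * J chi (gw q lam d ℓ) with hY
    have hYe : J chi (fun o => W lam (gw q lam d ℓ o)) = Y :=
      (H.inC_gw hlam hd.le ℓ).1.J_chi_edge lam
    have h3 : HasSum (fun n : ℕ => pwt d n * (n * Y) - if n = 2 then pwt d 2 * (2 * κ * Y ^ 3) else 0)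
        (d * Y - pwt d 2 * (2 * κ * Y ^ 3)) := by
      have h4 := (pwt_mean d).mul_right Y
      have h5 := hasSum_ite_eq 2 (pwt d 2 * (2 * κ * Y ^ 3))
      have h6 := h4.sub h5
      exact hasSum_cast h6 fun n => by ring
    refine hasSum_le (fun n => ?_) h2 h3
    by_cases hn : n = 2
    · subst hn
      have h7 := H.X_pw_le_loss h1 (le_refl 2)
      rw [hYe] at h7
      have h8 := mul_le_mul_of_nonneg_left h7 (pwt_nonneg hd.le 2)
      rw [if_pos rfl]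
      linarith
    · have h7 := H.X_pw_le h1 n
      rw [hYe] at h7
      have h8 := mul_le_mul_of_nonneg_left h7 (pwt_nonneg hd.le n)
      rw [if_neg hn]
      linarith
  have hp2 : 0 < pwt d 2 := by unfold pwt; positivity
  by_cases hz : lam = 0
  · subst hz
    have : ∀ ℓ, J chi (gw q 0 d (ℓ + 1)) = 0 := fun ℓ => by
      have := hrec ℓ
      simp only [ne_eq, OfNat.ofNat_ne_zero, not_false_eq_true, zero_pow, zero_mul, mul_zero,
        sub_zero] at this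
      exact le_antisymm this (hX0 _)
    rw [← Filter.tendsto_add_atTop_iff_nat 1]
    simp only [this]
    exact tendsto_const_nhds
  · have hl2 : 0 < lam ^ 2 := by positivity
    refine tendsto_zero_of_cubic (a := pwt d 2 * (2 * κ * (lam ^ 2) ^ 3))
      (by have := H.κpos; positivity) hX0 fun ℓ => ?_
    have h1 := hrec ℓ
    have h2 : d * (lam ^ 2 * J chi (gw q lam d ℓ)) ≤ 1 * J chi (gw q lam d ℓ) := by
      rw [← mul_assoc]
      exact mul_le_mul_of_nonneg_right hks (hX0 ℓ)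
    calc J chi (gw q lam d (ℓ + 1)) ≤ _ := h1
      _ ≤ 1 * J chi (gw q lam d ℓ) - pwt d 2 * (2 * κ * (lam ^ 2 * J chi (gw q lam d ℓ)) ^ 3) := by
          linarith
      _ = _ := by ring

/-! #### general trees -/

variable {V : Type u} [DecidableEq V]

lemma LawHyp.inC_sc_of (H : LawHyp.{u} q ψ c κ Λ) (T : LocFinTree V) {lam : ℝ} (hlam : lam ∈ Λ)
    (k : ℕ) (S : Finset V) (h : ∀ w ∈ S, InC ψ c (tc q T lam k w)) :
    InC ψ c (sc q T lam k S) := by
  induction S using Finset.induction_on with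
  | empty =>
    rw [sc_empty]
    have : IsEmpty ↥((∅ : Finset V).biUnion (D T k)) := by
      rw [Finset.biUnion_empty]
      infer_instance
    exact H.inC_unit
  | insert a S ha ih =>
    have ih' := ih fun w hw => h w (Finset.mem_insert_of_mem hw)
    have h1 := H.inC_edge (h a (Finset.mem_insert_self a S)) hlam
    exact inC_of_J (H.inC_mrg h1 ih') (sc_isChan T (H.adm lam hlam) k _)
      fun φ => J_sc_insert T lam k ha φ

lemma LawHyp.inC_tc (H : LawHyp.{u} q ψ c κ Λ) (T : LocFinTree V) {lam : ℝ} (hlam : lam ∈ Λ)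
    (k : ℕ) (v : V) : InC ψ c (tc q T lam k v) := by
  induction k generalizing v with
  | zero =>
    have hv : v ∈ D T 0 v := Finset.mem_singleton_self v
    have hd : ∀ x : ↥(D T 0 v), x = ⟨v, hv⟩ := fun x => Subtype.ext (Finset.mem_singleton.1 x.2)
    have hu : Unique ↥(D T 0 v) := { default := ⟨v, hv⟩, uniq := hd }
    have : tc q T lam 0 v =
        fun o i => if (Equiv.funUnique ↥(D T 0 v) (Fin q)) o = i then 1 else 0 := by
      funext τ i
      simp only [tc, res, F, ext_mem τ hv, Equiv.funUnique_apply]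
      rw [hd default]
    rw [this]
    exact H.inC_perfect _
  | succ k ih => rw [tc_succ]; exact H.inC_sc_of T hlam k _ fun w _ => ih w

lemma LawHyp.f_tree_aux (H : LawHyp.{u} q ψ c κ Λ) (T : LocFinTree V) {lam : ℝ} (hlam : lam ∈ Λ)
    {η : ℝ} (h0 : 0 ≤ η) (hη : 3 * η ≤ κ) (k : ℕ) (S : Finset V) :
    J chi (sc q T lam k S) + η * J chi (sc q T lam k S) ^ 3 ≤
      ∑ w ∈ S, (lam ^ 2 * J chi (tc q T lam k w) +
        η * (lam ^ 2 * J chi (tc q T lam k w)) ^ 3) := by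
  induction S using Finset.induction_on with
  | empty =>
    rw [sc_empty]
    have : IsEmpty ↥((∅ : Finset V).biUnion (D T k)) := by
      rw [Finset.biUnion_empty]
      infer_instance
    rw [J_unit, chi_one]
    simp
  | insert a S ha ih =>
    have h1 := H.inC_edge (H.inC_tc T hlam k a) hlam
    have h2 := H.inC_sc_of T hlam k S fun w _ => H.inC_tc T hlam k w
    have h3 := H.f_mrg_le h1 h2 h0 hη
    rw [(H.inC_tc T hlam k a).1.J_chi_edge lam] at h3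
    rw [J_sc_insert T lam k ha, Finset.sum_insert ha]
    linarith

/-- the vertex inequality for `f x = x + η x³` on a general tree -/
theorem LawHyp.f_tree (H : LawHyp.{u} q ψ c κ Λ) (T : LocFinTree V) {lam : ℝ} (hlam : lam ∈ Λ)
    {η : ℝ} (h0 : 0 ≤ η) (hη : 3 * η ≤ κ) (k : ℕ) (v : V) :
    J chi (tc q T lam (k + 1) v) + η * J chi (tc q T lam (k + 1) v) ^ 3 ≤
      ∑ w ∈ T.children v, (lam ^ 2 * J chi (tc q T lam k w) +
        η * (lam ^ 2 * J chi (tc q T lam k w)) ^ 3) := by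
  have key : ∀ S : Finset V, J chi (sc q T lam k S) + η * J chi (sc q T lam k S) ^ 3 ≤
      ∑ w ∈ S, (lam ^ 2 * J chi (tc q T lam k w) +
        η * (lam ^ 2 * J chi (tc q T lam k w)) ^ 3) := by
    intro S
    exact H.f_tree_aux T hlam h0 hη k S
  exact key _

end trees

end Crest.Agent.R163
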