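import Crest.Agent.R163.Pair

/-!
Row 163: reduction of the pointwise hypotheses `PairHyp` to vectors of mean one, homogenisation,
orbit averages of pairwise functionals and of symmetric monomial means.
-/

set_option autoImplicit false

universe u

namespace Crest.Agent.R163

variable {q : ℕ}

lemma Hom.zero {φ : (Fin q → ℝ) → ℝ} (h : Hom φ) : φ (fun _ => 0) = 0 := by
  have := h 0 (fun _ => 0) le_rfl (fun _ => le_rfl)
  simpa using this

lemma Hom.orb_smul {φ : (Fin q → ℝ) → ℝ} (h : Hom φ) {a b : ℝ} (ha : 0 ≤ a) (hb : 0 ≤ b)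
    {f g : Fin q → ℝ} (hf : ∀ i, 0 ≤ f i) (hg : ∀ i, 0 ≤ g i) :
    orb φ (fun i => a * f i) (fun i => b * g i) = a * b * orb φ f g := by
  unfold orb
  rw [← mul_div_assoc, Finset.mul_sum]
  congr 1
  refine Finset.sum_congr rfl fun σ _ => ?_
  rw [← h (a * b) (fun i => f i * g (σ i)) (mul_nonneg ha hb) (fun i => mul_nonneg (hf i) (hg _))]
  congr 1
  funext i
  ring

lemma Hom.orb_zero_left {φ : (Fin q → ℝ) → ℝ} (h : Hom φ) (g : Fin q → ℝ) :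
    orb φ (fun _ => 0) g = 0 := by
  unfold orb
  simp [h.zero]

lemma Hom.orb_zero_right {φ : (Fin q → ℝ) → ℝ} (h : Hom φ) (g : Fin q → ℝ) :
    orb φ g (fun _ => 0) = 0 := by
  unfold orb
  simp [h.zero]

lemma avg_smul (a : ℝ) (v : Fin q → ℝ) : avg (fun i => a * v i) = a * avg v := by
  unfold avg
  rw [← Finset.mul_sum, mul_div_assoc]

lemma W_smul (lam a : ℝ) (v : Fin q → ℝ) : W lam (fun i => a * v i) = fun i => a * W lam v i := by
  funext i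
  unfold W
  rw [avg_smul]
  ring

lemma avg_zero_vec : avg (fun _ : Fin q => (0 : ℝ)) = 0 := by simp [avg]

/-- every nonnegative vector is a nonnegative multiple of a nonnegative vector of mean one -/
lemma exists_norm [NeZero q] {v : Fin q → ℝ} (hv : ∀ i, 0 ≤ v i) :
    ∃ (a : ℝ) (f : Fin q → ℝ), 0 ≤ a ∧ (∀ i, 0 ≤ f i) ∧ avg f = 1 ∧ v = fun i => a * f i := by
  have hq : (q : ℝ) ≠ 0 := Nat.cast_ne_zero.mpr (NeZero.ne q)
  by_cases h : avg v = 0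
  · refine ⟨0, fun _ => 1, le_rfl, fun _ => zero_le_one, by simp [avg, hq], ?_⟩
    rw [eq_zero_of_avg hv h]
    simp
  · have hpos : 0 < avg v := lt_of_le_of_ne (avg_nonneg hv) (Ne.symm h)
    refine ⟨avg v, fun i => (avg v)⁻¹ * v i, hpos.le,
      fun i => mul_nonneg (inv_nonneg.2 hpos.le) (hv i), ?_, ?_⟩
    · rw [avg_smul, inv_mul_cancel₀ h]
    · funext i
      rw [← mul_assoc, mul_inv_cancel₀ h, one_mul]

lemma bdd_of_norm [NeZero q] {φ : (Fin q → ℝ) → ℝ} (h : Hom φ) {K : ℝ} (hK : 0 ≤ K)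
    (hb : ∀ v : Fin q → ℝ, (∀ i, 0 ≤ v i) → avg v = 1 → |φ v| ≤ K) : Bdd φ := by
  refine ⟨K, hK, fun v hv => ?_⟩
  obtain ⟨a, f, ha, hf, hf1, rfl⟩ := exists_norm hv
  rw [h a f ha hf, avg_smul, hf1, abs_mul, abs_of_nonneg ha, mul_one, mul_comm]
  exact mul_le_mul_of_nonneg_right (hb f hf hf1) ha

/-- `PairHyp` from the inequalities on vectors of mean one -/
theorem PairHyp.of_norm [NeZero q] {ψ θ B : (Fin q → ℝ) → ℝ} {δ C β : ℝ}
    (bψ : Bdd ψ) (bθ : Bdd θ) (bB : Bdd B) (hψ : Hom ψ) (hθ : Hom θ) (hB : Hom B)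
    (δpos : 0 < δ) (Cnn : 0 ≤ C) (βpos : 0 < β) (one : 0 ≤ ψ (fun _ => 1))
    (perfect : 0 < ∑ o : Fin q, ψ (fun i => if o = i then 1 else 0))
    (edge : ∀ lam : ℝ, 0 ≤ lam → lam ≤ 1 → ∀ v : Fin q → ℝ, (∀ i, 0 ≤ v i) → avg v = 1 →
      lam ^ 3 * ψ v ≤ ψ (W lam v))
    (θ0 : ∀ v : Fin q → ℝ, (∀ i, 0 ≤ v i) → avg v = 1 → 0 ≤ θ v)
    (θ1 : ∀ v : Fin q → ℝ, (∀ i, 0 ≤ v i) → avg v = 1 → 1 - C * chi v ≤ θ v)
    (B1 : ∀ v : Fin q → ℝ, (∀ i, 0 ≤ v i) → avg v = 1 → β * chi v ≤ B v)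
    (closure : ∀ u v : Fin q → ℝ, (∀ i, 0 ≤ u i) → (∀ i, 0 ≤ v i) → avg u = 1 → avg v = 1 →
      θ v * ψ u + θ u * ψ v + δ * chi u * chi v ≤ orb ψ u v)
    (chisub : ∀ u v : Fin q → ℝ, (∀ i, 0 ≤ u i) → (∀ i, 0 ≤ v i) → avg u = 1 → avg v = 1 →
      orb chi u v ≤ chi u + chi v - B v * ψ u - B u * ψ v) :
    PairHyp q ψ θ B δ C β where
  bψ := bψ
  bθ := bθ
  bB := bB
  hψ := hψ
  δpos := δpos
  Cnn := Cnn
  βpos := βpos
  one := one
  perfect := perfect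
  edge := fun lam h0 h1 v hv => by
    obtain ⟨a, f, ha, hf, hf1, rfl⟩ := exists_norm hv
    have hadm : Adm q lam := ⟨h1, by
      have : 0 ≤ 1 - lam := by linarith
      positivity⟩
    rw [W_smul, hψ a f ha hf, hψ a (W lam f) ha (W_nonneg hadm hf)]
    have := mul_le_mul_of_nonneg_left (edge lam h0 h1 f hf hf1) ha
    linarith
  θ0 := fun v hv => by
    obtain ⟨a, f, ha, hf, hf1, rfl⟩ := exists_norm hv
    rw [hθ a f ha hf]
    exact mul_nonneg ha (θ0 f hf hf1)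
  θ1 := fun v hv => by
    obtain ⟨a, f, ha, hf, hf1, rfl⟩ := exists_norm hv
    rw [hθ a f ha hf, avg_smul, hom_chi a f ha hf, hf1]
    have := mul_le_mul_of_nonneg_left (θ1 f hf hf1) ha
    linarith
  B1 := fun v hv => by
    obtain ⟨a, f, ha, hf, hf1, rfl⟩ := exists_norm hv
    rw [hB a f ha hf, hom_chi a f ha hf]
    have := mul_le_mul_of_nonneg_left (B1 f hf hf1) ha
    linarith
  closure := fun u v hu hv => by
    obtain ⟨a, f, ha, hf, hf1, rfl⟩ := exists_norm hu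
    obtain ⟨b, g, hb, hg, hg1, rfl⟩ := exists_norm hv
    rw [hθ a f ha hf, hθ b g hb hg, hψ a f ha hf, hψ b g hb hg, hom_chi a f ha hf,
      hom_chi b g hb hg, hψ.orb_smul ha hb hf hg]
    have := mul_le_mul_of_nonneg_left (closure f g hf hg hf1 hg1) (mul_nonneg ha hb)
    linarith
  chisub := fun u v hu hv => by
    obtain ⟨a, f, ha, hf, hf1, rfl⟩ := exists_norm hu
    obtain ⟨b, g, hb, hg, hg1, rfl⟩ := exists_norm hv
    rw [hB a f ha hf, hB b g hb hg, hψ a f ha hf, hψ b g hb hg, hom_chi a f ha hf,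
      hom_chi b g hb hg, hom_chi.orb_smul ha hb hf hg, avg_smul, avg_smul, hf1, hg1]
    have := mul_le_mul_of_nonneg_left (chisub f g hf hg hf1 hg1) (mul_nonneg ha hb)
    linarith

/-! #### homogenisation -/

/-- positively homogeneous extension of a functional of vectors of mean one -/
noncomputable def hm (φ : (Fin q → ℝ) → ℝ) (v : Fin q → ℝ) : ℝ :=
  avg v * φ (fun i => v i / avg v)

lemma hom_hm [NeZero q] (φ : (Fin q → ℝ) → ℝ) : Hom (hm φ) := by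
  intro a v ha hv
  unfold hm
  rw [avg_smul]
  rcases ha.eq_or_lt with h | h
  · rw [← h]; simp
  · have : (fun i => a * v i / (a * avg v)) = fun i => v i / avg v := by
      funext i
      rw [mul_div_mul_left _ _ h.ne']
    rw [this, mul_assoc]

lemma hm_of_norm {φ : (Fin q → ℝ) → ℝ} {v : Fin q → ℝ} (h : avg v = 1) : hm φ v = φ v := by
  unfold hm
  rw [h, one_mul]
  congr 1
  funext i
  rw [div_one]

/-! #### two-point averages -/

/-- average over ordered pairs of distinct spins -/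
noncomputable def pr (Φ : ℝ → ℝ → ℝ) (v : Fin q → ℝ) : ℝ :=
  (∑ x : Fin q, ∑ y : Fin q, if x ≠ y then Φ (v x) (v y) else 0) / (q * (q - 1))

lemma exists_perm_pair {x y x' y' : Fin q} (h : x ≠ y) (h' : x' ≠ y') :
    ∃ τ : Equiv.Perm (Fin q), τ x = x' ∧ τ y = y' := by
  refine ⟨(Equiv.swap x x').trans (Equiv.swap ((Equiv.swap x x') y) y'), ?_, ?_⟩
  · rw [Equiv.trans_apply, Equiv.swap_apply_left, Equiv.swap_apply_of_ne_of_ne]
    · intro hc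
      have : Equiv.swap x x' x = Equiv.swap x x' y := by rw [Equiv.swap_apply_left, ← hc]
      exact h ((Equiv.swap x x').injective this)
    · exact h'
  · rw [Equiv.trans_apply, Equiv.swap_apply_left]

lemma sum_perm_pair (g : Fin q → Fin q → ℝ) {x y : Fin q} (h : x ≠ y) :
    (∑ σ : Equiv.Perm (Fin q), g (σ x) (σ y)) * (q * (q - 1)) =
      Nat.factorial q * ∑ x' : Fin q, ∑ y' : Fin q, if x' ≠ y' then g x' y' else 0 := by
  set S := ∑ σ : Equiv.Perm (Fin q), g (σ x) (σ y) with hS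
  have hconst : ∀ x' y' : Fin q, x' ≠ y' → ∑ σ : Equiv.Perm (Fin q), g (σ x') (σ y') = S := by
    intro x' y' h'
    obtain ⟨τ, h1, h2⟩ := exists_perm_pair h h'
    have := Equiv.sum_comp (Equiv.mulRight τ) (fun σ : Equiv.Perm (Fin q) => g (σ x) (σ y))
    rw [hS, ← this]
    refine Finset.sum_congr rfl fun σ _ => ?_
    simp [Equiv.Perm.mul_apply, h1, h2]
  have h1 : ∑ x' : Fin q, ∑ y' : Fin q, (if x' ≠ y' then
      ∑ σ : Equiv.Perm (Fin q), g (σ x') (σ y') else 0) = S * (q * (q - 1)) := by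
    have : ∀ x' : Fin q, ∑ y' : Fin q, (if x' ≠ y' then
        ∑ σ : Equiv.Perm (Fin q), g (σ x') (σ y') else 0) = S * (q - 1) := by
      intro x'
      have e : ∀ y' : Fin q, (if x' ≠ y' then
        ∑ σ : Equiv.Perm (Fin q), g (σ x') (σ y') else 0) = S - if x' = y' then S else 0 := by
        intro y'
        by_cases hh : x' = y'
        · simp [hh]
        · rw [if_pos hh, if_neg hh, hconst x' y' hh, sub_zero]
      rw [Finset.sum_congr rfl fun y' _ => e y', Finset.sum_sub_distrib, Finset.sum_ite_eq]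
      simp only [Finset.sum_const, Finset.card_univ, Fintype.card_fin, nsmul_eq_mul,
        Finset.mem_univ, if_true]
      ring
    rw [Finset.sum_congr rfl fun x' _ => this x']
    simp only [Finset.sum_const, Finset.card_univ, Fintype.card_fin, nsmul_eq_mul]
    ring
  rw [← h1]
  have h2 : ∀ x' y' : Fin q, (if x' ≠ y' then
      ∑ σ : Equiv.Perm (Fin q), g (σ x') (σ y') else 0) =
      ∑ σ : Equiv.Perm (Fin q), if σ x' ≠ σ y' then g (σ x') (σ y') else 0 := by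
    intro x' y'
    by_cases hh : x' = y'
    · simp [hh]
    · rw [if_pos hh]
      refine Finset.sum_congr rfl fun σ _ => ?_
      rw [if_pos fun hc => hh (σ.injective hc)]
  simp only [h2]
  have h3 : ∑ x' : Fin q, ∑ y' : Fin q, ∑ σ : Equiv.Perm (Fin q),
      (if σ x' ≠ σ y' then g (σ x') (σ y') else 0) =
      ∑ σ : Equiv.Perm (Fin q), ∑ x' : Fin q, ∑ y' : Fin q,
        (if σ x' ≠ σ y' then g (σ x') (σ y') else 0) := by
    rw [Finset.sum_congr rfl fun x' _ => Finset.sum_comm]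
    exact Finset.sum_comm
  rw [h3]
  have h4 : ∀ σ : Equiv.Perm (Fin q), ∑ x' : Fin q, ∑ y' : Fin q,
        (if σ x' ≠ σ y' then g (σ x') (σ y') else 0) =
      ∑ x' : Fin q, ∑ y' : Fin q, if x' ≠ y' then g x' y' else 0 := by
    intro σ
    rw [← Equiv.sum_comp σ (fun x' => ∑ y' : Fin q, if x' ≠ y' then g x' y' else 0)]
    refine Finset.sum_congr rfl fun x' _ => ?_
    rw [← Equiv.sum_comp σ (fun y' => if σ x' ≠ y' then g (σ x') y' else 0)]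
  rw [Finset.sum_congr rfl fun σ _ => h4 σ]
  simp only [Finset.sum_const, Finset.card_univ, Fintype.card_perm, Fintype.card_fin,
    nsmul_eq_mul]


/-- two-point double average -/
noncomputable def pr2 (Ψ : ℝ → ℝ → ℝ → ℝ → ℝ) (u v : Fin q → ℝ) : ℝ :=
  (∑ x : Fin q, ∑ y : Fin q, if x ≠ y then
    ∑ x' : Fin q, ∑ y' : Fin q, (if x' ≠ y' then Ψ (u x) (u y) (v x') (v y') else 0) else 0) /
      ((q * (q - 1)) * (q * (q - 1)))

lemma orb_pr (hq : 2 ≤ q) (Φ : ℝ → ℝ → ℝ) (u v : Fin q → ℝ) :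
    orb (pr Φ) u v = pr2 (fun a b c d => Φ (a * c) (b * d)) u v := by
  have h1 : (0 : ℝ) < (q : ℝ) * (q - 1) := by
    have : (2 : ℝ) ≤ q := by exact_mod_cast hq
    have : (0 : ℝ) < q - 1 := by linarith
    positivity
  have hf : (0 : ℝ) < Nat.factorial q := by exact_mod_cast Nat.factorial_pos q
  unfold orb pr pr2
  rw [← Finset.sum_div, Finset.sum_comm]
  have e : ∀ x : Fin q, ∑ σ : Equiv.Perm (Fin q), ∑ y : Fin q,
      (if x ≠ y then Φ (u x * v (σ x)) (u y * v (σ y)) else 0) =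
      ∑ y : Fin q, if x ≠ y then (Nat.factorial q * ∑ x' : Fin q, ∑ y' : Fin q,
        if x' ≠ y' then Φ (u x * v x') (u y * v y') else 0) / (q * (q - 1)) else 0 := by
    intro x
    rw [Finset.sum_comm]
    refine Finset.sum_congr rfl fun y _ => ?_
    by_cases hxy : x = y
    · simp [hxy]
    · have hxy' : x ≠ y := hxy
      rw [if_pos hxy']
      rw [← sum_perm_pair (fun x' y' => Φ (u x * v x') (u y * v y')) hxy']
      rw [mul_div_cancel_right₀ _ h1.ne']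
      exact Finset.sum_congr rfl fun σ _ => by rw [if_pos hxy']
  rw [Finset.sum_congr rfl fun x _ => e x]
  have e2 : ∀ x : Fin q, (∑ y : Fin q, if x ≠ y then (Nat.factorial q * ∑ x' : Fin q, ∑ y' : Fin q,
        if x' ≠ y' then Φ (u x * v x') (u y * v y') else 0) / (q * (q - 1)) else 0) =
      (Nat.factorial q / (q * (q - 1))) * ∑ y : Fin q, if x ≠ y then (∑ x' : Fin q, ∑ y' : Fin q,
        if x' ≠ y' then Φ (u x * v x') (u y * v y') else 0) else 0 := by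
    intro x
    rw [Finset.mul_sum]
    refine Finset.sum_congr rfl fun y _ => ?_
    split_ifs
    · ring
    · simp
  rw [Finset.sum_congr rfl fun x _ => e2 x, ← Finset.mul_sum]
  generalize (∑ x : Fin q, ∑ y : Fin q, if x ≠ y then (∑ x' : Fin q, ∑ y' : Fin q,
        if x' ≠ y' then Φ (u x * v x') (u y * v y') else 0) else 0) = S
  generalize (q : ℝ) * (q - 1) = P at h1
  field_simp

lemma pr_const_mul (c : ℝ) (Φ : ℝ → ℝ → ℝ) (v : Fin q → ℝ) :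
    pr (fun a b => c * Φ a b) v = c * pr Φ v := by
  unfold pr
  rw [← mul_div_assoc]
  congr 1
  rw [Finset.mul_sum]
  refine Finset.sum_congr rfl fun x _ => ?_
  rw [Finset.mul_sum]
  refine Finset.sum_congr rfl fun y _ => ?_
  split_ifs <;> ring

lemma pr_add (Φ Ψ : ℝ → ℝ → ℝ) (v : Fin q → ℝ) :
    pr (fun a b => Φ a b + Ψ a b) v = pr Φ v + pr Ψ v := by
  unfold pr
  rw [← add_div]
  congr 1
  rw [← Finset.sum_add_distrib]
  refine Finset.sum_congr rfl fun x _ => ?_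
  rw [← Finset.sum_add_distrib]
  refine Finset.sum_congr rfl fun y _ => ?_
  split_ifs <;> simp

lemma pr_sub (Φ Ψ : ℝ → ℝ → ℝ) (v : Fin q → ℝ) :
    pr (fun a b => Φ a b - Ψ a b) v = pr Φ v - pr Ψ v := by
  have h1 := pr_add Φ (fun a b => (-1) * Ψ a b) v
  rw [pr_const_mul] at h1
  simp only [neg_mul, one_mul] at h1
  simpa [sub_eq_add_neg] using h1

lemma pr_congr {Φ Ψ : ℝ → ℝ → ℝ} {v : Fin q → ℝ} (h : ∀ x y, x ≠ y → Φ (v x) (v y) = Ψ (v x) (v y)) :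
    pr Φ v = pr Ψ v := by
  unfold pr
  congr 1
  refine Finset.sum_congr rfl fun x _ => Finset.sum_congr rfl fun y _ => ?_
  split_ifs with hxy
  · exact h x y hxy
  · rfl

lemma pr_swap (Φ : ℝ → ℝ → ℝ) (v : Fin q → ℝ) : pr (fun a b => Φ b a) v = pr Φ v := by
  unfold pr
  congr 1
  rw [Finset.sum_comm]
  refine Finset.sum_congr rfl fun x _ => Finset.sum_congr rfl fun y _ => ?_
  by_cases h : x = y
  · simp [h]
  · rw [if_pos h, if_pos (Ne.symm h)]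

lemma pr_le (hq : 2 ≤ q) {Φ Ψ : ℝ → ℝ → ℝ} {v : Fin q → ℝ}
    (h : ∀ x y, x ≠ y → Φ (v x) (v y) ≤ Ψ (v x) (v y)) : pr Φ v ≤ pr Ψ v := by
  have h1 : (0 : ℝ) < (q : ℝ) * (q - 1) := by
    have : (2 : ℝ) ≤ q := by exact_mod_cast hq
    have : (0 : ℝ) < q - 1 := by linarith
    positivity
  unfold pr
  refine div_le_div_of_nonneg_right ?_ h1.le
  refine Finset.sum_le_sum fun x _ => Finset.sum_le_sum fun y _ => ?_
  split_ifs with hxy
  · exact h x y hxy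
  · exact le_rfl

lemma pr_nonneg (hq : 2 ≤ q) {Φ : ℝ → ℝ → ℝ} {v : Fin q → ℝ}
    (h : ∀ x y, x ≠ y → 0 ≤ Φ (v x) (v y)) : 0 ≤ pr Φ v := by
  have := pr_le hq (Φ := fun _ _ => 0) (Ψ := Φ) (v := v) h
  have h0 : pr (fun _ _ => (0 : ℝ)) v = 0 := by simp [pr]
  linarith

lemma pr2_eq_pr_pr (Ψ : ℝ → ℝ → ℝ → ℝ → ℝ) (u v : Fin q → ℝ) :
    pr2 Ψ u v = pr (fun a b => pr (fun c d => Ψ a b c d) v) u := by
  unfold pr2 pr
  rw [← div_div]
  congr 1
  rw [Finset.sum_div]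
  refine Finset.sum_congr rfl fun x _ => ?_
  rw [Finset.sum_div]
  refine Finset.sum_congr rfl fun y _ => ?_
  split_ifs
  · rfl
  · simp

lemma pr2_mul (Φ Ψ : ℝ → ℝ → ℝ) (u v : Fin q → ℝ) :
    pr2 (fun a b c d => Φ a b * Ψ c d) u v = pr Φ u * pr Ψ v := by
  rw [pr2_eq_pr_pr]
  have : (fun a b => pr (fun c d => Φ a b * Ψ c d) v) = fun a b => pr Ψ v * Φ a b := by
    funext a b
    rw [pr_const_mul, mul_comm]
  rw [this, pr_const_mul, mul_comm]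

lemma pr2_const_mul (c : ℝ) (Ψ : ℝ → ℝ → ℝ → ℝ → ℝ) (u v : Fin q → ℝ) :
    pr2 (fun a b x y => c * Ψ a b x y) u v = c * pr2 Ψ u v := by
  rw [pr2_eq_pr_pr, pr2_eq_pr_pr]
  simp only [pr_const_mul]

lemma pr2_add (Φ Ψ : ℝ → ℝ → ℝ → ℝ → ℝ) (u v : Fin q → ℝ) :
    pr2 (fun a b x y => Φ a b x y + Ψ a b x y) u v = pr2 Φ u v + pr2 Ψ u v := by
  rw [pr2_eq_pr_pr, pr2_eq_pr_pr, pr2_eq_pr_pr]
  simp only [pr_add]

lemma pr2_sub (Φ Ψ : ℝ → ℝ → ℝ → ℝ → ℝ) (u v : Fin q → ℝ) :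
    pr2 (fun a b x y => Φ a b x y - Ψ a b x y) u v = pr2 Φ u v - pr2 Ψ u v := by
  rw [pr2_eq_pr_pr, pr2_eq_pr_pr, pr2_eq_pr_pr]
  simp only [pr_sub]

lemma pr2_sum {κ : Type*} (s : Finset κ) (Φ : κ → ℝ → ℝ → ℝ → ℝ → ℝ) (u v : Fin q → ℝ) :
    pr2 (fun a b x y => ∑ k ∈ s, Φ k a b x y) u v = ∑ k ∈ s, pr2 (Φ k) u v := by
  classical
  induction s using Finset.induction_on with
  | empty => simp [pr2]
  | insert a s ha ih => simp only [Finset.sum_insert ha, pr2_add, ih]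

lemma pr2_congr {Φ Ψ : ℝ → ℝ → ℝ → ℝ → ℝ} {u v : Fin q → ℝ}
    (h : ∀ x y x' y', x ≠ y → x' ≠ y' → Φ (u x) (u y) (v x') (v y') = Ψ (u x) (u y) (v x') (v y')) :
    pr2 Φ u v = pr2 Ψ u v := by
  rw [pr2_eq_pr_pr, pr2_eq_pr_pr]
  exact pr_congr fun x y hxy => pr_congr fun x' y' hxy' => h x y x' y' hxy hxy'

lemma pr2_swap_right (Ψ : ℝ → ℝ → ℝ → ℝ → ℝ) (u v : Fin q → ℝ) :
    pr2 (fun a b c d => Ψ a b d c) u v = pr2 Ψ u v := by
  rw [pr2_eq_pr_pr, pr2_eq_pr_pr]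
  exact pr_congr fun x y _ => pr_swap (fun c d => Ψ (u x) (u y) c d) v

lemma pr2_le (hq : 2 ≤ q) {Φ Ψ : ℝ → ℝ → ℝ → ℝ → ℝ} {u v : Fin q → ℝ}
    (h : ∀ x y x' y', x ≠ y → x' ≠ y' → Φ (u x) (u y) (v x') (v y') ≤ Ψ (u x) (u y) (v x') (v y')) :
    pr2 Φ u v ≤ pr2 Ψ u v := by
  rw [pr2_eq_pr_pr, pr2_eq_pr_pr]
  exact pr_le hq fun x y hxy => pr_le hq fun x' y' hxy' => h x y x' y' hxy hxy'

lemma pr2_nonneg (hq : 2 ≤ q) {Ψ : ℝ → ℝ → ℝ → ℝ → ℝ} {u v : Fin q → ℝ}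
    (h : ∀ x y x' y', x ≠ y → x' ≠ y' → 0 ≤ Ψ (u x) (u y) (v x') (v y')) : 0 ≤ pr2 Ψ u v := by
  rw [pr2_eq_pr_pr]
  exact pr_nonneg hq fun x y hxy => pr_nonneg hq fun x' y' hxy' => h x y x' y' hxy hxy'

lemma hom_pr {Φ : ℝ → ℝ → ℝ}
    (h : ∀ a x y : ℝ, 0 ≤ a → 0 ≤ x → 0 ≤ y → Φ (a * x) (a * y) = a * Φ x y) :
    Hom (pr (q := q) Φ) := by
  intro a v ha hv
  rw [← pr_const_mul]
  have e : pr Φ (fun i => a * v i) = pr (fun x y => Φ (a * x) (a * y)) v := rfl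
  rw [e]
  exact pr_congr fun x y _ => h a _ _ ha (hv x) (hv y)

/-! #### orbit averages are monotone and linear -/

lemma orb_le {φ ψ : (Fin q → ℝ) → ℝ} (h : ∀ v : Fin q → ℝ, (∀ i, 0 ≤ v i) → φ v ≤ ψ v)
    {u v : Fin q → ℝ} (hu : ∀ i, 0 ≤ u i) (hv : ∀ i, 0 ≤ v i) : orb φ u v ≤ orb ψ u v := by
  unfold orb
  refine div_le_div_of_nonneg_right ?_ (Nat.cast_nonneg _)
  exact Finset.sum_le_sum fun σ _ => h _ fun i => mul_nonneg (hu i) (hv _)

lemma orb_congr {φ ψ : (Fin q → ℝ) → ℝ} (h : ∀ v : Fin q → ℝ, (∀ i, 0 ≤ v i) → φ v = ψ v)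
    {u v : Fin q → ℝ} (hu : ∀ i, 0 ≤ u i) (hv : ∀ i, 0 ≤ v i) : orb φ u v = orb ψ u v :=
  le_antisymm (orb_le (fun v hv => (h v hv).le) hu hv) (orb_le (fun v hv => (h v hv).ge) hu hv)

lemma orb_add (φ ψ : (Fin q → ℝ) → ℝ) (u v : Fin q → ℝ) :
    orb (fun w => φ w + ψ w) u v = orb φ u v + orb ψ u v := by
  unfold orb
  rw [Finset.sum_add_distrib, add_div]

lemma orb_sub (φ ψ : (Fin q → ℝ) → ℝ) (u v : Fin q → ℝ) :
    orb (fun w => φ w - ψ w) u v = orb φ u v - orb ψ u v := by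
  unfold orb
  rw [Finset.sum_sub_distrib, sub_div]

lemma orb_const_mul (c : ℝ) (φ : (Fin q → ℝ) → ℝ) (u v : Fin q → ℝ) :
    orb (fun w => c * φ w) u v = c * orb φ u v := by
  unfold orb
  rw [← Finset.mul_sum, mul_div_assoc]

lemma orb_sum {κ : Type*} (s : Finset κ) (φ : κ → (Fin q → ℝ) → ℝ) (u v : Fin q → ℝ) :
    orb (fun w => ∑ k ∈ s, φ k w) u v = ∑ k ∈ s, orb (φ k) u v := by
  unfold orb
  rw [Finset.sum_comm, Finset.sum_div]

/-! #### symmetric monomial means -/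

/-- symmetric monomial mean -/
noncomputable def msym (α : Fin q → ℕ) (v : Fin q → ℝ) : ℝ :=
  (∑ τ : Equiv.Perm (Fin q), ∏ i, v (τ i) ^ α i) / Nat.factorial q

/-- symmetric monomial means are exactly multiplicative under the orbit average -/
lemma orb_msym (α : Fin q → ℕ) (u v : Fin q → ℝ) :
    orb (msym α) u v = msym α u * msym α v := by
  unfold orb msym
  rw [← Finset.sum_div, div_div, div_mul_div_comm, Finset.sum_mul_sum]
  congr 1
  rw [Finset.sum_comm]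
  refine Finset.sum_congr rfl fun τ _ => ?_
  have := Equiv.sum_comp (Equiv.mulRight τ) (fun σ : Equiv.Perm (Fin q) =>
    (∏ i, u (τ i) ^ α i) * ∏ i, v (σ i) ^ α i)
  rw [← this]
  refine Finset.sum_congr rfl fun σ _ => ?_
  simp only [Equiv.coe_mulRight, Equiv.Perm.mul_apply, mul_pow, Finset.prod_mul_distrib]


/-! #### explicit forms for `q = 4` -/

lemma sum_perm4 (g : Fin 4 → Fin 4 → Fin 4 → Fin 4 → ℝ) :
    ∑ τ : Equiv.Perm (Fin 4), g (τ 0) (τ 1) (τ 2) (τ 3) =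
      g 0 1 2 3 + g 0 1 3 2 + g 0 2 1 3 + g 0 2 3 1 + g 0 3 1 2 + g 0 3 2 1 +
      g 1 0 2 3 + g 1 0 3 2 + g 1 2 0 3 + g 1 2 3 0 + g 1 3 0 2 + g 1 3 2 0 +
      g 2 0 1 3 + g 2 0 3 1 + g 2 1 0 3 + g 2 1 3 0 + g 2 3 0 1 + g 2 3 1 0 +
      g 3 0 1 2 + g 3 0 2 1 + g 3 1 0 2 + g 3 1 2 0 + g 3 2 0 1 + g 3 2 1 0 := by
  have hc : ∀ a b c d : Fin 4, (Finset.univ.filter fun τ : Equiv.Perm (Fin 4) =>
      τ 0 = a ∧ τ 1 = b ∧ τ 2 = c ∧ τ 3 = d).card =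
      if a ≠ b ∧ a ≠ c ∧ a ≠ d ∧ b ≠ c ∧ b ≠ d ∧ c ≠ d then 1 else 0 := by
    decide +kernel
  have h1 : ∀ τ : Equiv.Perm (Fin 4), g (τ 0) (τ 1) (τ 2) (τ 3) =
      ∑ a, ∑ b, ∑ c, ∑ d, if τ 0 = a ∧ τ 1 = b ∧ τ 2 = c ∧ τ 3 = d then g a b c d else 0 := by
    intro τ
    rw [Finset.sum_eq_single (τ 0), Finset.sum_eq_single (τ 1), Finset.sum_eq_single (τ 2),
      Finset.sum_eq_single (τ 3)]
    · simp
    all_goals first
      | (intro b _ hb; simp [Ne.symm hb])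
      | simp
  simp only [h1]
  rw [Finset.sum_comm]
  have h2 : ∀ a : Fin 4, (∑ τ : Equiv.Perm (Fin 4), ∑ b, ∑ c, ∑ d,
      if τ 0 = a ∧ τ 1 = b ∧ τ 2 = c ∧ τ 3 = d then g a b c d else 0) =
      ∑ b, ∑ c, ∑ d, if a ≠ b ∧ a ≠ c ∧ a ≠ d ∧ b ≠ c ∧ b ≠ d ∧ c ≠ d then g a b c d else 0 := by
    intro a
    rw [Finset.sum_comm]
    refine Finset.sum_congr rfl fun b _ => ?_
    rw [Finset.sum_comm]
    refine Finset.sum_congr rfl fun c _ => ?_
    rw [Finset.sum_comm]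
    refine Finset.sum_congr rfl fun d _ => ?_
    rw [← Finset.sum_filter, Finset.sum_const, hc]
    split_ifs <;> simp
  rw [Finset.sum_congr rfl fun a _ => h2 a]
  simp only [Fin.sum_univ_four]
  simp (decide := true) only [if_true, if_false, add_zero, zero_add]
  ring

lemma pr_four (Φ : ℝ → ℝ → ℝ) (v : Fin 4 → ℝ) :
    pr Φ v = (Φ (v 0) (v 1) + Φ (v 0) (v 2) + Φ (v 0) (v 3) + Φ (v 1) (v 0) + Φ (v 1) (v 2) +
      Φ (v 1) (v 3) + Φ (v 2) (v 0) + Φ (v 2) (v 1) + Φ (v 2) (v 3) + Φ (v 3) (v 0) +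
      Φ (v 3) (v 1) + Φ (v 3) (v 2)) / 12 := by
  unfold pr
  simp only [Fin.sum_univ_four]
  simp (decide := true) only [if_true, if_false, add_zero, zero_add]
  norm_num
  ring

lemma msym_four (a b c d : ℕ) (v : Fin 4 → ℝ) :
    msym ![a, b, c, d] v =
      (∑ τ : Equiv.Perm (Fin 4), v (τ 0) ^ a * v (τ 1) ^ b * v (τ 2) ^ c * v (τ 3) ^ d) / 24 := by
  unfold msym
  simp only [Fin.prod_univ_four, Matrix.cons_val_zero, Matrix.cons_val_one, Matrix.cons_val]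
  norm_num [Nat.factorial]

lemma msym_four' (a b c d : ℕ) (v : Fin 4 → ℝ) :
    msym ![a, b, c, d] v =
      (
      v 0 ^ a * v 1 ^ b * v 2 ^ c * v 3 ^ d +
      v 0 ^ a * v 1 ^ b * v 3 ^ c * v 2 ^ d +
      v 0 ^ a * v 2 ^ b * v 1 ^ c * v 3 ^ d +
      v 0 ^ a * v 2 ^ b * v 3 ^ c * v 1 ^ d +
      v 0 ^ a * v 3 ^ b * v 1 ^ c * v 2 ^ d +
      v 0 ^ a * v 3 ^ b * v 2 ^ c * v 1 ^ d +
      v 1 ^ a * v 0 ^ b * v 2 ^ c * v 3 ^ d +
      v 1 ^ a * v 0 ^ b * v 3 ^ c * v 2 ^ d +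
      v 1 ^ a * v 2 ^ b * v 0 ^ c * v 3 ^ d +
      v 1 ^ a * v 2 ^ b * v 3 ^ c * v 0 ^ d +
      v 1 ^ a * v 3 ^ b * v 0 ^ c * v 2 ^ d +
      v 1 ^ a * v 3 ^ b * v 2 ^ c * v 0 ^ d +
      v 2 ^ a * v 0 ^ b * v 1 ^ c * v 3 ^ d +
      v 2 ^ a * v 0 ^ b * v 3 ^ c * v 1 ^ d +
      v 2 ^ a * v 1 ^ b * v 0 ^ c * v 3 ^ d +
      v 2 ^ a * v 1 ^ b * v 3 ^ c * v 0 ^ d +
      v 2 ^ a * v 3 ^ b * v 0 ^ c * v 1 ^ d +
      v 2 ^ a * v 3 ^ b * v 1 ^ c * v 0 ^ d +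
      v 3 ^ a * v 0 ^ b * v 1 ^ c * v 2 ^ d +
      v 3 ^ a * v 0 ^ b * v 2 ^ c * v 1 ^ d +
      v 3 ^ a * v 1 ^ b * v 0 ^ c * v 2 ^ d +
      v 3 ^ a * v 1 ^ b * v 2 ^ c * v 0 ^ d +
      v 3 ^ a * v 2 ^ b * v 0 ^ c * v 1 ^ d +
      v 3 ^ a * v 2 ^ b * v 1 ^ c * v 0 ^ d) / 24 := by
  rw [msym_four, sum_perm4 (fun x y z w => v x ^ a * v y ^ b * v z ^ c * v w ^ d)]

lemma avg_four (v : Fin 4 → ℝ) : avg v = (v 0 + v 1 + v 2 + v 3) / 4 := by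
  unfold avg
  rw [Fin.sum_univ_four]
  norm_num

end Crest.Agent.R163
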