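import Crest.Agent.R163.Class

/-!
Row 163: potentials built from law-level multiplicative real functionals.
-/

set_option autoImplicit false

universe u

namespace Crest.Agent.R163

open Crest.ProbabilityR.Broadcast

variable {q : ℕ}

/-- a real functional that is exactly multiplicative under merging of (symmetric) channels -/
structure LMul (h : (Fin q → ℝ) → ℝ) : Prop where
  bdd : Bdd h
  hom : Hom h
  one : h (fun _ => 1) = 1
  mul : ∀ {Ω₁ Ω₂ : Type u} (L₁ : Ω₁ → Fin q → ℝ) (L₂ : Ω₂ → Fin q → ℝ),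
    IsChan L₁ → IsChan L₂ → J h (mrg L₁ L₂) = J h L₁ * J h L₂

lemma MulFun.lmul [NeZero q] {h : (Fin q → ℝ) → ℝ} (hh : MulFun h) : LMul.{u} h where
  bdd := by
    obtain ⟨K, hK, hb⟩ := hh.bdd
    exact ⟨K, hK, fun v hv => by simpa [Real.norm_eq_abs] using hb v hv⟩
  hom := fun c v hc hv => by simpa using hh.hom c v hc hv
  one := hh.map_one
  mul L₁ L₂ h₁ h₂ := JK_mrg h₁ h₂ hh

lemma lmul_mon [NeZero q] {a : Fin q → ℝ} (ha : ∀ i, 0 ≤ a i) (hs : ∑ i, a i = 1) :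
    LMul.{u} (mon a) := (mon_mulFun ha hs).lmul

/-- the real part of a complex monomial -/
noncomputable def rmon (a : Fin q → ℂ) (v : Fin q → ℝ) : ℝ := (cmon a v).re

lemma cmon_perm (a : Fin q → ℂ) (σ : Equiv.Perm (Fin q)) (v : Fin q → ℝ) :
    cmon a (fun i => v (σ i)) = cmon (fun i => a (σ.symm i)) v := by
  unfold cmon
  rw [← Equiv.prod_comp σ (fun i => (v i : ℂ) ^ a (σ.symm i))]
  simp

lemma conj_cmon (a : Fin q → ℂ) {v : Fin q → ℝ} (hv : ∀ i, 0 ≤ v i) :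
    (starRingEnd ℂ) (cmon a v) = cmon (fun i => (starRingEnd ℂ) (a i)) v := by
  unfold cmon
  rw [map_prod]
  refine Finset.prod_congr rfl fun i _ => ?_
  have h1 : (v i : ℂ).arg ≠ Real.pi := by
    rw [Complex.arg_ofReal_of_nonneg (hv i)]
    exact Real.pi_pos.ne
  have h2 := Complex.conj_cpow (v i : ℂ) ((starRingEnd ℂ) (a i)) h1
  rw [Complex.conj_conj, Complex.conj_ofReal] at h2
  rw [h2]

lemma JK_cmon_conj [NeZero q] {a : Fin q → ℂ} {σ : Equiv.Perm (Fin q)}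
    (hσ : ∀ i, a (σ i) = (starRingEnd ℂ) (a i)) {Ω : Type*} {L : Ω → Fin q → ℝ}
    (hL : IsChan L) : (starRingEnd ℂ) (JK (cmon a) L) = JK (cmon a) L := by
  have h1 : (starRingEnd ℂ) (JK (cmon a) L) = JK (fun v => (starRingEnd ℂ) (cmon a v)) L := by
    unfold JK
    exact Complex.conj_tsum _
  rw [h1, ← hL.JK_perm (cmon a) σ.symm]
  unfold JK
  refine tsum_congr fun o => ?_
  change (starRingEnd ℂ) (cmon a (L o)) = cmon a (fun i => L o (σ.symm i))
  rw [conj_cmon a (hL.nonneg o), cmon_perm]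
  congr 1
  funext i
  simp [hσ]

lemma lmul_rmon [NeZero q] {a : Fin q → ℂ} (ha : ∀ i, 0 ≤ (a i).re) (hs : ∑ i, a i = 1)
    {σ : Equiv.Perm (Fin q)} (hσ : ∀ i, a (σ i) = (starRingEnd ℂ) (a i)) :
    LMul.{u} (rmon a) := by
  have hm := cmon_mulFun ha hs
  have key : ∀ {Ω : Type u} {L : Ω → Fin q → ℝ}, IsChan L →
      ((J (rmon a) L : ℝ) : ℂ) = JK (cmon a) L := by
    intro Ω L hL
    have h1 : Summable (fun o => cmon a (L o)) := (hL.summableK hm.bdd).of_norm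
    have h2 : J (rmon a) L = (JK (cmon a) L).re := by
      unfold J JK rmon
      exact (Complex.re_tsum h1).symm
    rw [h2]
    exact Complex.conj_eq_iff_re.1 (JK_cmon_conj hσ hL)
  refine ⟨?_, ?_, ?_, ?_⟩
  · obtain ⟨K, hK, hb⟩ := hm.bdd
    exact ⟨K, hK, fun v hv => (Complex.abs_re_le_norm _).trans (hb v hv)⟩
  · intro c v hc hv
    unfold rmon
    rw [hm.hom c v hc hv]
    simp
  · simp [rmon, hm.map_one]
  · intro Ω₁ Ω₂ L₁ L₂ h₁ h₂
    have := JK_mrg h₁ h₂ hm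
    rw [← key h₁, ← key h₂, ← key (h₁.mrg h₂)] at this
    exact_mod_cast this

section

variable {h : (Fin q → ℝ) → ℝ}

lemma LMul.J_pw (hh : LMul.{u} h) [NeZero q] {Ω : Type u} {L : Ω → Fin q → ℝ} (hL : IsChan L)
    (n : ℕ) : J h (pw L n) = J h L ^ n := by
  induction n with
  | zero => rw [J_pw_zero, hh.one, pow_zero]
  | succ n ih => rw [J_pw_succ, hh.mul L _ hL (hL.pw n), ih, pow_succ']

lemma LMul.J_pois (hh : LMul.{u} h) [NeZero q] {Ω : Type u} {L : Ω → Fin q → ℝ} (hL : IsChan L)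
    {d : ℝ} (hd : 0 ≤ d) : J h (pois d L) = Real.exp (-d * (1 - J h L)) := by
  have h1 := R163.J_pois hd hL hh.bdd hh.hom
  refine h1.unique ?_
  have h2 := pwt_hasSum_pow d (J h L)
  exact hasSum_cast h2 fun n => by rw [hh.J_pw hL n]

lemma LMul.J_reg_succ (hh : LMul.{0} h) [NeZero q] (b : ℕ) {lam : ℝ} (hl : Adm q lam) (ℓ : ℕ) :
    J h (reg q b lam (ℓ + 1)) = J h (fun o => W lam (reg q b lam ℓ o)) ^ b := by
  rw [R163.J_reg_succ, hh.J_pw ((reg_isChan b hl ℓ).edge hl)]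

lemma LMul.J_gw_succ (hh : LMul.{0} h) [NeZero q] {lam d : ℝ} (hl : Adm q lam) (hd : 0 ≤ d)
    (ℓ : ℕ) : J h (gw q lam d (ℓ + 1)) =
      Real.exp (-d * (1 - J h (fun o => W lam (gw q lam d ℓ o)))) := by
  rw [gw_succ, hh.J_pois ((gw_isChan hl hd ℓ).edge hl) hd]

end

/-! ### potentials -/

lemma tendsto_zero_of_potential {x Φ : ℕ → ℝ} {τ m : ℝ} {p : ℕ} (hp : p ≠ 0) (hτ : 0 < τ)
    (h0 : ∀ n, 0 ≤ x n) (hb : ∀ n, m ≤ Φ n) (h : ∀ n, τ * x n ^ p ≤ Φ n - Φ (n + 1)) :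
    Filter.Tendsto x Filter.atTop (nhds 0) := by
  have h1 : Summable (fun n => τ * x n ^ p) := by
    refine summable_of_sum_range_le (c := Φ 0 - m) (fun n => by have := h0 n; positivity)
      fun n => ?_
    have : ∑ i ∈ Finset.range n, τ * x i ^ p ≤ Φ 0 - Φ n := by
      induction n with
      | zero => simp
      | succ n ih => rw [Finset.sum_range_succ]; have := h n; linarith
    have := hb n
    linarith
  have h2 := h1.tendsto_atTop_zero
  rw [Metric.tendsto_atTop] at h2 ⊢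
  intro ε hε
  obtain ⟨N, hN⟩ := h2 (τ * ε ^ p) (by positivity)
  refine ⟨N, fun n hn => ?_⟩
  have h3 := hN n hn
  rw [Real.dist_eq, sub_zero, abs_of_nonneg (by have := h0 n; positivity)] at h3
  have h4 : x n ^ p < ε ^ p := lt_of_mul_lt_mul_left h3 hτ.le
  rw [Real.dist_eq, sub_zero, abs_of_nonneg (h0 n)]
  exact lt_of_pow_lt_pow_left₀ p hε.le h4

/-- regular tree from a potential `Φ` (any sequence, typically `Φ ℓ = G (J h_a (reg ℓ))_a`) -/
theorem regular_of_potential [NeZero q] {b : ℕ} {lam : ℝ} (hl : Adm q lam) {Φ : ℕ → ℝ}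
    {τ m : ℝ} {p : ℕ} (hp : p ≠ 0) (hτ : 0 < τ) (hb : ∀ n, m ≤ Φ n)
    (h : ∀ n, τ * J chi (reg q b lam n) ^ p ≤ Φ n - Φ (n + 1)) :
    Filter.Tendsto (advantage q b lam) Filter.atTop (nhds 0) := by
  have hfun : advantage q b lam = fun ℓ => J tv (reg q b lam ℓ) := by
    funext ℓ; exact advantage_eq q b lam ℓ
  rw [hfun]
  refine tv_tendsto _ (fun ℓ => reg_isChan b hl ℓ) ?_
  exact tendsto_zero_of_potential hp hτ (fun n => (reg_isChan b hl n).X_nonneg) hb h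

/-- Poisson tree from a potential -/
theorem poisson_of_potential [NeZero q] {lam d : ℝ} (hl : Adm q lam) (hd : 0 ≤ d) {Φ : ℕ → ℝ}
    {τ m : ℝ} {p : ℕ} (hp : p ≠ 0) (hτ : 0 < τ) (hb : ∀ n, m ≤ Φ n)
    (h : ∀ n, τ * J chi (gw q lam d n) ^ p ≤ Φ n - Φ (n + 1)) :
    Filter.Tendsto (gwAdvantage q lam d) Filter.atTop (nhds 0) := by
  have hfun : gwAdvantage q lam d = fun ℓ => J tv (gw q lam d ℓ) := by
    funext ℓ; exact gwAdvantage_eq q lam d ℓ
  rw [hfun]
  refine tv_tendsto _ (fun ℓ => gw_isChan hl hd ℓ) ?_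
  exact tendsto_zero_of_potential hp hτ (fun n => (gw_isChan hl hd n).X_nonneg) hb h

/-! ### subcritical edges: monotone comparison is not needed, `X` contracts -/

/-- composition of edge operators -/
lemma W_W [NeZero q] (a b : ℝ) (v : Fin q → ℝ) : W a (W b v) = W (a * b) v := by
  funext i
  have : avg (W b v) = avg v := avg_W b v
  simp only [W] at this ⊢
  rw [this]
  ring

end Crest.Agent.R163
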