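import Crest.Agent.R163.SKLC

/-!
Row 163, `q = 3`: the symmetrised monomials
`C(x,t) = (1/3) ∑_k f_k^(1-2x) (f_i f_j)^x cos (t log (f_i / f_j))`.
-/

set_option autoImplicit false

universe u

namespace Crest.Agent.R163

/-- exponents `(1 - 2x, x + it, x - it)` -/
noncomputable def exc (x t : ℝ) : Fin 3 → ℂ :=
  ![((1 - 2 * x : ℝ) : ℂ), (x : ℂ) + t * Complex.I, (x : ℂ) - t * Complex.I]

lemma exc_swap (x t : ℝ) (i : Fin 3) :
    exc x t (Equiv.swap (1 : Fin 3) 2 i) = (starRingEnd ℂ) (exc x t i) := by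
  fin_cases i
  · have : Equiv.swap (1 : Fin 3) 2 0 = 0 := by decide
    simp only [Fin.zero_eta, this, exc, Matrix.cons_val_zero, Complex.conj_ofReal]
  · have : Equiv.swap (1 : Fin 3) 2 1 = 2 := by decide
    simp [exc, this, sub_eq_add_neg]
  · have : Equiv.swap (1 : Fin 3) 2 2 = 1 := by decide
    simp [exc, this]

lemma exc_re (x t : ℝ) : ∀ i, (exc x t i).re = ![1 - 2 * x, x, x] i := by
  intro i
  fin_cases i <;> simp [exc]

lemma lmul_rmon_exc {x : ℝ} (h0 : 0 ≤ x) (h1 : x ≤ 1 / 2) (t : ℝ) :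
    LMul.{u} (rmon (exc x t)) := by
  refine lmul_rmon (fun i => ?_) ?_ (exc_swap x t)
  · rw [exc_re]
    fin_cases i
    · change 0 ≤ 1 - 2 * x
      linarith
    · exact h0
    · exact h0
  · rw [Fin.sum_univ_three]
    simp only [exc, Matrix.cons_val_zero, Matrix.cons_val_one, Matrix.cons_val]
    push_cast
    ring

lemma continuous_rmon_exc {x : ℝ} (h0 : 0 < x) (h1 : x ≤ 1 / 2) (t : ℝ) :
    Continuous (rmon (exc x t)) := by
  refine continuous_rmon fun i => ?_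
  fin_cases i
  · rcases h1.eq_or_lt with h | h
    · right
      simp [exc, h]
    · left
      have := exc_re x t 0
      simp only [Fin.zero_eta]
      rw [this]
      change 0 < 1 - 2 * x
      linarith
  · left
    have := exc_re x t 1
    simp only [Fin.mk_one]
    rw [this]
    exact h0
  · left
    have := exc_re x t 2
    simp only [Fin.reduceFinMk]
    rw [this]
    exact h0

/-- the symmetrised functional -/
noncomputable def Cxt (x t : ℝ) (v : Fin 3 → ℝ) : ℝ :=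
  (∑ k : Fin 3, rmon (exc x t) (fun i => v (rot3 k i))) / (3 : ℕ)

lemma lmul_Cxt {x : ℝ} (h0 : 0 ≤ x) (h1 : x ≤ 1 / 2) (t : ℝ) : LMul.{u} (Cxt x t) :=
  (lmul_rmon_exc h0 h1 t).sym rot3

lemma continuous_Cxt {x : ℝ} (h0 : 0 < x) (h1 : x ≤ 1 / 2) (t : ℝ) : Continuous (Cxt x t) := by
  unfold Cxt
  refine Continuous.div_const (continuous_finsetSum _ fun k _ => ?_) _
  exact (continuous_rmon_exc h0 h1 t).comp (continuous_pi fun i => continuous_apply _)

/-- `x ^ (a + i t)` for real `x ≥ 0` -/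
lemma cpow_add_mul_I {y : ℝ} (hy : 0 ≤ y) {a : ℝ} (ha : 0 < a) (t : ℝ) :
    (y : ℂ) ^ ((a : ℂ) + t * Complex.I) =
      ((y ^ a : ℝ) : ℂ) * Complex.exp (((t * Real.log y : ℝ) : ℂ) * Complex.I) := by
  rcases hy.eq_or_lt with h | h
  · rw [← h, Complex.ofReal_zero, Complex.zero_cpow, Real.zero_rpow ha.ne', Complex.ofReal_zero,
      zero_mul]
    intro hc
    have := congrArg Complex.re hc
    simp at this
    linarith
  · have hne : (y : ℂ) ≠ 0 := by exact_mod_cast h.ne'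
    rw [Complex.cpow_add _ _ hne, ← Complex.ofReal_cpow hy, Complex.cpow_def_of_ne_zero hne,
      ← Complex.ofReal_log hy]
    congr 2
    push_cast
    ring

/-- explicit form of the monomial on the closed orthant -/
lemma rmon_exc {x : ℝ} (h0 : 0 < x) (t : ℝ) {v : Fin 3 → ℝ} (hv : ∀ i, 0 ≤ v i) :
    rmon (exc x t) v = v 0 ^ (1 - 2 * x) * (v 1 ^ x * v 2 ^ x) *
      Real.cos (t * (Real.log (v 1) - Real.log (v 2))) := by
  unfold rmon cmon
  rw [Fin.prod_univ_three]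
  simp only [exc, Matrix.cons_val_zero, Matrix.cons_val_one, Matrix.cons_val]
  have e2 : (x : ℂ) - t * Complex.I = (x : ℂ) + ((-t : ℝ) : ℂ) * Complex.I := by
    push_cast; ring
  rw [e2, cpow_add_mul_I (hv 1) h0, cpow_add_mul_I (hv 2) h0, ← Complex.ofReal_cpow (hv 0)]
  have e3 : ((v 0 ^ (1 - 2 * x) : ℝ) : ℂ) *
      (((v 1 ^ x : ℝ) : ℂ) * Complex.exp (((t * Real.log (v 1) : ℝ) : ℂ) * Complex.I)) *
      (((v 2 ^ x : ℝ) : ℂ) * Complex.exp (((-t * Real.log (v 2) : ℝ) : ℂ) * Complex.I)) =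
      ((v 0 ^ (1 - 2 * x) * (v 1 ^ x * v 2 ^ x) : ℝ) : ℂ) *
        Complex.exp (((t * (Real.log (v 1) - Real.log (v 2)) : ℝ) : ℂ) * Complex.I) := by
    have : Complex.exp (((t * (Real.log (v 1) - Real.log (v 2)) : ℝ) : ℂ) * Complex.I) =
        Complex.exp (((t * Real.log (v 1) : ℝ) : ℂ) * Complex.I) *
          Complex.exp (((-t * Real.log (v 2) : ℝ) : ℂ) * Complex.I) := by
      rw [← Complex.exp_add]
      congr 1
      push_cast
      ring
    rw [this]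
    push_cast
    ring
  rw [e3, Complex.re_ofReal_mul, Complex.exp_ofReal_mul_I_re]

/-- one term of `C(x,t)` -/
noncomputable def ctm (x t a b c : ℝ) : ℝ :=
  a ^ (1 - 2 * x) * (b ^ x * c ^ x) * Real.cos (t * (Real.log b - Real.log c))

lemma Cxt_eq {x : ℝ} (h0 : 0 < x) (t : ℝ) {v : Fin 3 → ℝ} (hv : ∀ i, 0 ≤ v i) :
    Cxt x t v = (ctm x t (v 0) (v 1) (v 2) + ctm x t (v 1) (v 2) (v 0) +
      ctm x t (v 2) (v 0) (v 1)) / 3 := by
  unfold Cxt
  rw [Fin.sum_univ_three]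
  rw [rmon_exc h0 t fun i => hv _, rmon_exc h0 t fun i => hv _, rmon_exc h0 t fun i => hv _]
  have e00 : rot3 0 0 = 0 := by decide
  have e01 : rot3 0 1 = 1 := by decide
  have e02 : rot3 0 2 = 2 := by decide
  have e10 : rot3 1 0 = 1 := by decide
  have e11 : rot3 1 1 = 2 := by decide
  have e12 : rot3 1 2 = 0 := by decide
  have e20 : rot3 2 0 = 2 := by decide
  have e21 : rot3 2 1 = 0 := by decide
  have e22 : rot3 2 2 = 1 := by decide
  rw [e00, e01, e02, e10, e11, e12, e20, e21, e22]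
  unfold ctm
  norm_num

lemma continuousOn_Cxt {x : ℝ} (h0 : 0 < x) (h1 : x ≤ 1 / 2) (t : ℝ) :
    ContinuousOn (Cxt x t) {v | ∀ i, 0 ≤ v i} := (continuous_Cxt h0 h1 t).continuousOn

lemma Cxt_nonneg {x : ℝ} (h0 : 0 < x) {v : Fin 3 → ℝ} (hv : ∀ i, 0 ≤ v i) : 0 ≤ Cxt x 0 v := by
  rw [Cxt_eq h0 0 hv]
  have h : ∀ a b c : ℝ, 0 ≤ a → 0 ≤ b → 0 ≤ c → 0 ≤ ctm x 0 a b c := fun a b c ha hb hc => by
    unfold ctm
    rw [zero_mul, Real.cos_zero, mul_one]
    positivity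
  have h1 := h _ _ _ (hv 0) (hv 1) (hv 2)
  have h2 := h _ _ _ (hv 1) (hv 2) (hv 0)
  have h3 := h _ _ _ (hv 2) (hv 0) (hv 1)
  linarith

lemma abs_ctm_le {x : ℝ} (h0 : 0 < x) (h1 : x ≤ 1 / 2) (t : ℝ) {a b c : ℝ} (ha : 0 ≤ a)
    (hb : 0 ≤ b) (hc : 0 ≤ c) : |ctm x t a b c| ≤ (1 - 2 * x) * a + x * b + x * c := by
  unfold ctm
  rw [abs_mul]
  have h2 : 0 ≤ a ^ (1 - 2 * x) * (b ^ x * c ^ x) := by positivity
  rw [abs_of_nonneg h2]
  have h3 := Real.geom_mean_le_arith_mean3_weighted (w₁ := 1 - 2 * x) (w₂ := x) (w₃ := x)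
    (by linarith) h0.le h0.le ha hb hc (by ring)
  have h4 := Real.abs_cos_le_one (t * (Real.log b - Real.log c))
  calc a ^ (1 - 2 * x) * (b ^ x * c ^ x) * |Real.cos (t * (Real.log b - Real.log c))|
      ≤ a ^ (1 - 2 * x) * (b ^ x * c ^ x) := mul_le_of_le_one_right h2 h4
    _ ≤ _ := by rw [← mul_assoc]; exact h3

/-- the functionals are bounded by the mean -/
lemma abs_Cxt_le {x : ℝ} (h0 : 0 < x) (h1 : x ≤ 1 / 2) (t : ℝ) {v : Fin 3 → ℝ}
    (hv : ∀ i, 0 ≤ v i) : |Cxt x t v| ≤ avg v := by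
  have e : avg v = (v 0 + v 1 + v 2) / 3 := by
    unfold avg
    rw [Fin.sum_univ_three]
    norm_num
  rw [Cxt_eq h0 t hv, e, abs_div, abs_of_pos (by norm_num : (0 : ℝ) < 3)]
  refine div_le_div_of_nonneg_right ?_ (by norm_num)
  have h2 := abs_ctm_le h0 h1 t (hv 0) (hv 1) (hv 2)
  have h3 := abs_ctm_le h0 h1 t (hv 1) (hv 2) (hv 0)
  have h4 := abs_ctm_le h0 h1 t (hv 2) (hv 0) (hv 1)
  refine ((abs_add_le _ _).trans (add_le_add_left (abs_add_le _ _) _)).trans ?_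
  linarith

lemma Cxt_le {x : ℝ} (h0 : 0 < x) (h1 : x ≤ 1 / 2) (t : ℝ) {v : Fin 3 → ℝ}
    (hv : ∀ i, 0 ≤ v i) : Cxt x t v ≤ avg v := (le_abs_self _).trans (abs_Cxt_le h0 h1 t hv)

end Crest.Agent.R163
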