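import Crest.Agent.R163.Mono

/-!
Row 163, density evolution (`q = 3`, `b = 4`, `lam = -1/2`), abstract part: the class `SG` of
homogeneous superadditive functionals vanishing at the vertices, lower bounds for them, and the
behaviour under the edge operator and merging.
-/

set_option autoImplicit false

namespace Crest.Agent.R163.DE

open Crest.Agent.R163

/-- test functionals: homogeneous, superadditive, nonnegative, zero at the vertices -/
structure SG (G : (Fin 3 → ℝ) → ℝ) : Prop where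
  bdd : Bdd G
  hom : Hom G
  nn : ∀ v : Fin 3 → ℝ, (∀ i, 0 ≤ v i) → 0 ≤ G v
  sup : ∀ u v : Fin 3 → ℝ, (∀ i, 0 ≤ u i) → (∀ i, 0 ≤ v i) → G u + G v ≤ G (fun i => u i + v i)
  vert : ∀ i, G (Pi.single i 1) = 0

lemma nn3 {x y z : ℝ} (hx : 0 ≤ x) (hy : 0 ≤ y) (hz : 0 ≤ z) : ∀ i, 0 ≤ ![x, y, z] i := by
  intro i; fin_cases i <;> simpa

lemma vec_eta (v : Fin 3 → ℝ) : v = ![v 0, v 1, v 2] := by
  funext i; fin_cases i <;> rfl

lemma mul_vec (x y z x' y' z' : ℝ) :
    (fun i => ![x, y, z] i * ![x', y', z'] i) = ![x * x', y * y', z * z'] := by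
  funext i; fin_cases i <;> rfl

lemma add_vec (x y z x' y' z' : ℝ) :
    (fun i => ![x, y, z] i + ![x', y', z'] i) = ![x + x', y + y', z + z'] := by
  funext i; fin_cases i <;> rfl

lemma smul_vec (c x y z : ℝ) : (fun i => c * ![x, y, z] i) = ![c * x, c * y, c * z] := by
  funext i; fin_cases i <;> rfl

/-- symmetrised functional (sum over the six permutations) -/
def gs (G : (Fin 3 → ℝ) → ℝ) (x y z : ℝ) : ℝ :=
  G ![x, y, z] + G ![y, x, z] + G ![x, z, y] + G ![z, x, y] + G ![y, z, x] + G ![z, y, x]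

lemma gs_swap01 (G : (Fin 3 → ℝ) → ℝ) (x y z : ℝ) : gs G y x z = gs G x y z := by
  unfold gs; ring

lemma gs_swap12 (G : (Fin 3 → ℝ) → ℝ) (x y z : ℝ) : gs G x z y = gs G x y z := by
  unfold gs; ring

lemma gs_swap02 (G : (Fin 3 → ℝ) → ℝ) (x y z : ℝ) : gs G z y x = gs G x y z := by
  unfold gs; ring

namespace SG

variable {G : (Fin 3 → ℝ) → ℝ}

lemma mono (h : SG G) {u v : Fin 3 → ℝ} (hu : ∀ i, 0 ≤ u i) (huv : ∀ i, u i ≤ v i) :
    G u ≤ G v := by
  have h1 := h.sup u (fun i => v i - u i) hu (fun i => sub_nonneg.2 (huv i))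
  have h2 := h.nn (fun i => v i - u i) (fun i => sub_nonneg.2 (huv i))
  have e : (fun i => u i + (v i - u i)) = v := by funext i; ring
  rw [e] at h1
  linarith

lemma hom3 (h : SG G) {c x y z : ℝ} (hc : 0 ≤ c) (hx : 0 ≤ x) (hy : 0 ≤ y) (hz : 0 ≤ z) :
    G ![c * x, c * y, c * z] = c * G ![x, y, z] := by
  rw [← smul_vec]
  exact h.hom c _ hc (nn3 hx hy hz)

lemma gs_nonneg (h : SG G) {x y z : ℝ} (hx : 0 ≤ x) (hy : 0 ≤ y) (hz : 0 ≤ z) :
    0 ≤ gs G x y z := by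
  have h1 := h.nn _ (nn3 hx hy hz)
  have h2 := h.nn _ (nn3 hy hx hz)
  have h3 := h.nn _ (nn3 hx hz hy)
  have h4 := h.nn _ (nn3 hz hx hy)
  have h5 := h.nn _ (nn3 hy hz hx)
  have h6 := h.nn _ (nn3 hz hy hx)
  unfold gs
  linarith

lemma gs_hom (h : SG G) {c x y z : ℝ} (hc : 0 ≤ c) (hx : 0 ≤ x) (hy : 0 ≤ y) (hz : 0 ≤ z) :
    gs G (c * x) (c * y) (c * z) = c * gs G x y z := by
  unfold gs
  rw [h.hom3 hc hx hy hz, h.hom3 hc hy hx hz, h.hom3 hc hx hz hy, h.hom3 hc hz hx hy,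
    h.hom3 hc hy hz hx, h.hom3 hc hz hy hx]
  ring

lemma mono3 (h : SG G) {x y z x' y' z' : ℝ} (hx : 0 ≤ x) (hy : 0 ≤ y) (hz : 0 ≤ z)
    (hx' : x ≤ x') (hy' : y ≤ y') (hz' : z ≤ z') : G ![x, y, z] ≤ G ![x', y', z'] := by
  refine h.mono (nn3 hx hy hz) ?_
  intro i; fin_cases i <;> simpa

lemma gs_mono (h : SG G) {x y z x' y' z' : ℝ} (hx : 0 ≤ x) (hy : 0 ≤ y) (hz : 0 ≤ z)
    (hx' : x ≤ x') (hy' : y ≤ y') (hz' : z ≤ z') : gs G x y z ≤ gs G x' y' z' := by
  have h1 := h.mono3 hx hy hz hx' hy' hz'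
  have h2 := h.mono3 hy hx hz hy' hx' hz'
  have h3 := h.mono3 hx hz hy hx' hz' hy'
  have h4 := h.mono3 hz hx hy hz' hx' hy'
  have h5 := h.mono3 hy hz hx hy' hz' hx'
  have h6 := h.mono3 hz hy hx hz' hy' hx'
  unfold gs
  linarith

lemma sup3 (h : SG G) {x y z x' y' z' : ℝ} (hx : 0 ≤ x) (hy : 0 ≤ y) (hz : 0 ≤ z)
    (hx' : 0 ≤ x') (hy' : 0 ≤ y') (hz' : 0 ≤ z') :
    G ![x, y, z] + G ![x', y', z'] ≤ G ![x + x', y + y', z + z'] := by
  rw [← add_vec]
  exact h.sup _ _ (nn3 hx hy hz) (nn3 hx' hy' hz')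

lemma gs_sup (h : SG G) {x y z x' y' z' : ℝ} (hx : 0 ≤ x) (hy : 0 ≤ y) (hz : 0 ≤ z)
    (hx' : 0 ≤ x') (hy' : 0 ≤ y') (hz' : 0 ≤ z') :
    gs G x y z + gs G x' y' z' ≤ gs G (x + x') (y + y') (z + z') := by
  have h1 := h.sup3 hx hy hz hx' hy' hz'
  have h2 := h.sup3 hy hx hz hy' hx' hz'
  have h3 := h.sup3 hx hz hy hx' hz' hy'
  have h4 := h.sup3 hz hx hy hz' hx' hy'
  have h5 := h.sup3 hy hz hx hy' hz' hx'
  have h6 := h.sup3 hz hy hx hz' hy' hx'
  unfold gs
  linarith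

lemma smul (h : SG G) {c : ℝ} (hc : 0 ≤ c) : SG (fun v => c * G v) where
  bdd := h.bdd.const_mul c
  hom a v ha hv := by
    change c * G (fun i => a * v i) = a * (c * G v)
    rw [h.hom a v ha hv]; ring
  nn v hv := mul_nonneg hc (h.nn v hv)
  sup u v hu hv := by
    have := mul_le_mul_of_nonneg_left (h.sup u v hu hv) hc
    linarith
  vert i := by rw [h.vert i, mul_zero]

lemma add {G' : (Fin 3 → ℝ) → ℝ} (h : SG G) (h' : SG G') : SG (fun v => G v + G' v) where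
  bdd := h.bdd.add h'.bdd
  hom a v ha hv := by
    change G (fun i => a * v i) + G' (fun i => a * v i) = a * (G v + G' v)
    rw [h.hom a v ha hv, h'.hom a v ha hv]; ring
  nn v hv := add_nonneg (h.nn v hv) (h'.nn v hv)
  sup u v hu hv := by
    have h1 := h.sup u v hu hv
    have h2 := h'.sup u v hu hv
    linarith
  vert i := by rw [h.vert i, h'.vert i, add_zero]

lemma zero : SG (fun _ => 0) where
  bdd := ⟨0, le_rfl, fun v _ => by simp⟩
  hom _ _ _ _ := by simp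
  nn _ _ := le_rfl
  sup _ _ _ _ := by simp
  vert _ := rfl

lemma finset_sum {ι : Type*} (s : Finset ι) {F : ι → (Fin 3 → ℝ) → ℝ} (h : ∀ i ∈ s, SG (F i)) :
    SG (fun v => ∑ i ∈ s, F i v) := by
  classical
  induction s using Finset.induction_on with
  | empty => simpa using zero
  | insert a s ha ih =>
    simp only [Finset.sum_insert ha]
    exact (h a (Finset.mem_insert_self a s)).add
      (ih fun i hi => h i (Finset.mem_insert_of_mem hi))

/-- multiplication by a fixed nonnegative vector -/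
lemma mulc (h : SG G) {c : Fin 3 → ℝ} (hc : ∀ i, 0 ≤ c i) : SG (fun u => G (fun i => u i * c i)) where
  bdd := by
    obtain ⟨K, hK, hb⟩ := h.bdd
    set C := c 0 + c 1 + c 2 with hC
    have hle : ∀ i, c i ≤ C := by
      intro i
      have h0 := hc 0
      have h1 := hc 1
      have h2 := hc 2
      fin_cases i <;> simp only [hC] <;> simp <;> linarith
    have hC0 : 0 ≤ C := (hc 0).trans (hle 0)
    refine ⟨K * C, mul_nonneg hK hC0, fun v hv => ?_⟩
    refine (hb _ fun i => mul_nonneg (hv i) (hc i)).trans ?_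
    rw [mul_assoc]
    refine mul_le_mul_of_nonneg_left ?_ hK
    unfold avg
    rw [← mul_div_assoc]
    refine div_le_div_of_nonneg_right ?_ (by positivity)
    rw [Finset.mul_sum]
    refine Finset.sum_le_sum fun i _ => ?_
    rw [mul_comm]
    exact mul_le_mul_of_nonneg_right (hle i) (hv i)
  hom a v ha hv := by
    have e : (fun i => a * v i * c i) = fun i => a * (v i * c i) := by funext i; ring
    change G (fun i => a * v i * c i) = _
    rw [e]
    exact h.hom a _ ha fun i => mul_nonneg (hv i) (hc i)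
  nn v hv := h.nn _ fun i => mul_nonneg (hv i) (hc i)
  sup u v hu hv := by
    have h1 := h.sup (fun i => u i * c i) (fun i => v i * c i)
      (fun i => mul_nonneg (hu i) (hc i)) (fun i => mul_nonneg (hv i) (hc i))
    have e : (fun i => (u i + v i) * c i) = fun i => u i * c i + v i * c i := by funext i; ring
    change _ ≤ G (fun i => (u i + v i) * c i)
    rw [e]
    exact h1
  vert i := by
    have e : (fun j => (Pi.single i (1 : ℝ) : Fin 3 → ℝ) j * c j) =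
        fun j => c i * (Pi.single i (1 : ℝ) : Fin 3 → ℝ) j := by
      funext j
      by_cases hj : j = i
      · subst hj; simp
      · simp [hj]
    change G (fun j => (Pi.single i (1 : ℝ) : Fin 3 → ℝ) j * c j) = 0
    rw [e, h.hom (c i) _ (hc i) (fun j => by by_cases hj : j = i <;> simp [hj]),
      h.vert i, mul_zero]

lemma mulc' (h : SG G) {c : Fin 3 → ℝ} (hc : ∀ i, 0 ≤ c i) :
    SG (fun u => G (fun i => c i * u i)) := by
  have := h.mulc hc
  refine (congrArg SG (funext fun u => congrArg G (funext fun i => mul_comm _ _))).mp this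

end SG

/-! ### lattice functionals -/

/-- lattice ratio -/
noncomputable def rho : ℝ := 5 / 4

lemma rho_pos : 0 < rho := by unfold rho; norm_num

lemma rho_pow_pos (n : ℕ) : 0 < rho ^ n := pow_pos rho_pos n

lemma one_le_rho_pow (n : ℕ) : 1 ≤ rho ^ n := one_le_pow₀ (by unfold rho; norm_num)

/-- value of a lattice state on a functional -/
noncomputable def Uf (y : ℕ → ℕ → ℕ) (e : ℕ → ℕ) (G : (Fin 3 → ℝ) → ℝ) : ℝ :=
  ∑ k ∈ Finset.range 21, ∑ j ∈ Finset.range (21 - k),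
      (y k j : ℝ) * gs G (rho ^ (k + j)) (rho ^ j) 1 +
    ∑ k ∈ Finset.range 21, (e k : ℝ) * gs G (rho ^ k) 1 0

/-- the lattice state `(y, e)` (scaled by `2 ^ 36`) is a lower bound of the channel -/
def LB {Ω : Type*} (L : Ω → Fin 3 → ℝ) (y : ℕ → ℕ → ℕ) (e : ℕ → ℕ) : Prop :=
  ∀ G : (Fin 3 → ℝ) → ℝ, SG G → Uf y e G ≤ 2 ^ 36 * J G L

section merge

variable {Ω₁ Ω₂ : Type*} {L₁ : Ω₁ → Fin 3 → ℝ} {L₂ : Ω₂ → Fin 3 → ℝ}

lemma SG.gs_mul {G : (Fin 3 → ℝ) → ℝ} (h : SG G) {x y z : ℝ} (hx : 0 ≤ x) (hy : 0 ≤ y)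
    (hz : 0 ≤ z) : SG (fun u => gs (fun v => G (fun i => u i * v i)) x y z) := by
  unfold gs
  exact (((((h.mulc (nn3 hx hy hz)).add (h.mulc (nn3 hy hx hz))).add
    (h.mulc (nn3 hx hz hy))).add (h.mulc (nn3 hz hx hy))).add (h.mulc (nn3 hy hz hx))).add
    (h.mulc (nn3 hz hy hx))

lemma SG.Uf_mul {G : (Fin 3 → ℝ) → ℝ} (h : SG G) (y : ℕ → ℕ → ℕ) (e : ℕ → ℕ) :
    SG (fun u => Uf y e (fun v => G (fun i => u i * v i))) := by
  unfold Uf
  refine SG.add (SG.finset_sum _ fun k _ => SG.finset_sum _ fun j _ =>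
    SG.smul (h.gs_mul (rho_pow_pos _).le (rho_pow_pos _).le zero_le_one) (Nat.cast_nonneg _))
    (SG.finset_sum _ fun k _ =>
    SG.smul (h.gs_mul (rho_pow_pos _).le zero_le_one le_rfl) (Nat.cast_nonneg _))

theorem LB.mrg {y₁ y₂ : ℕ → ℕ → ℕ} {e₁ e₂ : ℕ → ℕ} (hL₁ : IsChan L₁) (hL₂ : IsChan L₂)
    (h₁ : LB L₁ y₁ e₁) (h₂ : LB L₂ y₂ e₂) {G : (Fin 3 → ℝ) → ℝ} (hG : SG G) :
    Uf y₁ e₁ (fun u => Uf y₂ e₂ (fun v => G (fun i => u i * v i))) ≤
      2 ^ 72 * J G (mrg L₁ L₂) := by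
  have hG2 := hG.Uf_mul y₂ e₂
  refine (h₁ _ hG2).trans ?_
  have e : (2 : ℝ) ^ 72 * J G (R163.mrg L₁ L₂) = 2 ^ 36 * (2 ^ 36 * J G (R163.mrg L₁ L₂)) := by
    ring
  rw [e]
  refine mul_le_mul_of_nonneg_left ?_ (by positivity)
  rw [J_mrg_iter hL₁ hL₂ hG.bdd, ← J_const_mul]
  refine Summable.tsum_le_tsum (fun o => ?_) (hL₁.summable hG2.bdd) ?_
  · exact h₂ _ (hG.mulc' (hL₁.nonneg o))
  · -- summability of the inner functional
    have hs := ((hL₁.mrg hL₂).summable hG.bdd)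
    have h3 := hs.prod
    exact h3.mul_left _

end merge

section edge

variable {Ω : Type*} {L : Ω → Fin 3 → ℝ}

/-- the edge operator at `lam = -1/2` -/
lemma W_half (x y z : ℝ) :
    W (-(1 / 2) : ℝ) ![x, y, z] = ![(y + z) / 2, (x + z) / 2, (x + y) / 2] := by
  have ha : avg ![x, y, z] = (x + y + z) / 3 := by
    unfold avg; simp [Fin.sum_univ_three]
  funext i
  unfold W
  rw [ha]
  fin_cases i <;> simp <;> ring

lemma adm_half : Adm 3 (-(1 / 2) : ℝ) := adm_three le_rfl (by norm_num)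

/-- the corrected pull-back of a test functional along the edge operator -/
lemma SG.edge {G : (Fin 3 → ℝ) → ℝ} (h : SG G) :
    SG (fun v => G (W (-(1 / 2) : ℝ) v) - (v 0 * G ![0, 1 / 2, 1 / 2] + v 1 * G ![1 / 2, 0, 1 / 2]
      + v 2 * G ![1 / 2, 1 / 2, 0])) where
  bdd := by
    have h1 : Bdd (fun v => G (W (-(1 / 2) : ℝ) v)) := by
      obtain ⟨K, hK, hb⟩ := h.bdd
      refine ⟨K, hK, fun v hv => ?_⟩
      have := hb (W (-(1 / 2) : ℝ) v) (W_nonneg adm_half hv)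
      rwa [avg_W] at this
    refine h1.sub ?_
    have hco : ∀ i : Fin 3, Bdd (fun v : Fin 3 → ℝ => v i) := by
      intro i
      refine ⟨3, by norm_num, fun v hv => ?_⟩
      rw [abs_of_nonneg (hv i)]
      have := le_avg hv i
      rw [div_le_iff₀ (by norm_num)] at this
      push_cast at this
      linarith
    refine (((hco 0).const_mul (G ![0, 1 / 2, 1 / 2])).add
      ((hco 1).const_mul (G ![1 / 2, 0, 1 / 2]))).add
      ((hco 2).const_mul (G ![1 / 2, 1 / 2, 0])) |>.congr fun v _ => ?_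
    ring
  hom c v hc hv := by
    have e : W (-(1 / 2) : ℝ) (fun i => c * v i) = fun i => c * W (-(1 / 2) : ℝ) v i := by
      funext i
      have : avg (fun i => c * v i) = c * avg v := by
        unfold avg; rw [← Finset.mul_sum, mul_div_assoc]
      unfold W
      rw [this]; ring
    change G (W (-(1 / 2) : ℝ) (fun i => c * v i)) - _ = _
    rw [e, h.hom c _ hc (W_nonneg adm_half hv)]
    ring
  nn v hv := by
    have h0 := hv 0
    have h1 := hv 1
    have h2 := hv 2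
    have e : W (-(1 / 2) : ℝ) v =
        ![v 0 * 0 + v 1 * (1 / 2) + v 2 * (1 / 2), v 0 * (1 / 2) + v 1 * 0 + v 2 * (1 / 2),
          v 0 * (1 / 2) + v 1 * (1 / 2) + v 2 * 0] := by
      conv_lhs => rw [vec_eta v]
      rw [W_half]
      congr 1
      · ring
      · congr 1
        · ring
        · congr 1
          ring
    have s1 := h.sup3 (x := v 0 * 0) (y := v 0 * (1 / 2)) (z := v 0 * (1 / 2))
      (x' := v 1 * (1 / 2)) (y' := v 1 * 0) (z' := v 1 * (1 / 2)) (by positivity) (by positivity)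
      (by positivity) (by positivity) (by positivity) (by positivity)
    have s2 := h.sup3 (x := v 0 * 0 + v 1 * (1 / 2)) (y := v 0 * (1 / 2) + v 1 * 0)
      (z := v 0 * (1 / 2) + v 1 * (1 / 2))
      (x' := v 2 * (1 / 2)) (y' := v 2 * (1 / 2)) (z' := v 2 * 0) (by positivity) (by positivity)
      (by positivity) (by positivity) (by positivity) (by positivity)
    rw [← e] at s2
    rw [h.hom3 h0 le_rfl (by norm_num) (by norm_num), h.hom3 h1 (by norm_num) le_rfl (by norm_num)]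
      at s1
    rw [h.hom3 h2 (by norm_num) (by norm_num) le_rfl] at s2
    change 0 ≤ G (W (-(1 / 2) : ℝ) v) - _
    linarith
  sup u v hu hv := by
    have e : W (-(1 / 2) : ℝ) (fun i => u i + v i) =
        fun i => W (-(1 / 2) : ℝ) u i + W (-(1 / 2) : ℝ) v i := by
      funext i
      have : avg (fun i => u i + v i) = avg u + avg v := by
        unfold avg; rw [Finset.sum_add_distrib, add_div]
      unfold W
      rw [this]; ring
    have h1 := h.sup _ _ (W_nonneg adm_half hu) (W_nonneg adm_half hv)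
    rw [← e] at h1
    change _ ≤ G (W (-(1 / 2) : ℝ) (fun i => u i + v i)) - _
    linarith
  vert i := by
    have key : ∀ (v : Fin 3 → ℝ) (a b c : ℝ), v = ![a, b, c] →
        G ![(b + c) / 2, (a + c) / 2, (a + b) / 2] = a * G ![0, 1 / 2, 1 / 2] +
          b * G ![1 / 2, 0, 1 / 2] + c * G ![1 / 2, 1 / 2, 0] →
        G (W (-(1 / 2) : ℝ) v) - (v 0 * G ![0, 1 / 2, 1 / 2] + v 1 * G ![1 / 2, 0, 1 / 2]
          + v 2 * G ![1 / 2, 1 / 2, 0]) = 0 := by
      rintro _ a b c rfl hh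
      rw [W_half, hh]
      simp
    fin_cases i
    · exact key _ 1 0 0 (by funext j; fin_cases j <;> simp) (by norm_num)
    · exact key _ 0 1 0 (by funext j; fin_cases j <;> simp) (by norm_num)
    · exact key _ 0 0 1 (by funext j; fin_cases j <;> simp) (by norm_num)

/-- the functional `J` of the pull-back -/
lemma J_edge_eq {G : (Fin 3 → ℝ) → ℝ} (h : SG G) (hL : IsChan L) :
    J G (fun o => W (-(1 / 2) : ℝ) (L o)) =
      J (fun v => G (W (-(1 / 2) : ℝ) v) - (v 0 * G ![0, 1 / 2, 1 / 2] +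
        v 1 * G ![1 / 2, 0, 1 / 2] + v 2 * G ![1 / 2, 1 / 2, 0])) L +
      (G ![0, 1 / 2, 1 / 2] + G ![1 / 2, 0, 1 / 2] + G ![1 / 2, 1 / 2, 0]) := by
  have hs := hL.summable h.edge.bdd
  have h1 : HasSum (fun o => L o 0 * G ![0, 1 / 2, 1 / 2] + L o 1 * G ![1 / 2, 0, 1 / 2] +
      L o 2 * G ![1 / 2, 1 / 2, 0])
      (G ![0, 1 / 2, 1 / 2] + G ![1 / 2, 0, 1 / 2] + G ![1 / 2, 1 / 2, 0]) := by
    have := (((hL.hasSum 0).mul_right (G ![0, 1 / 2, 1 / 2])).add
      ((hL.hasSum 1).mul_right (G ![1 / 2, 0, 1 / 2]))).add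
      ((hL.hasSum 2).mul_right (G ![1 / 2, 1 / 2, 0]))
    simpa using this
  have h2 := hs.hasSum.add h1
  unfold J
  rw [← h2.tsum_eq]
  exact tsum_congr fun o => by ring

/-- column mass of a lattice state -/
noncomputable def col (y : ℕ → ℕ → ℕ) (e : ℕ → ℕ) : ℝ :=
  ∑ k ∈ Finset.range 21, ∑ j ∈ Finset.range (21 - k),
      (y k j : ℝ) * (rho ^ (k + j) + rho ^ j + 1) +
    ∑ k ∈ Finset.range 21, (e k : ℝ) * (rho ^ k + 1)

lemma gs_edge (G : (Fin 3 → ℝ) → ℝ) (x y z : ℝ) :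
    gs (fun v => G (W (-(1 / 2) : ℝ) v) - (v 0 * G ![0, 1 / 2, 1 / 2] +
        v 1 * G ![1 / 2, 0, 1 / 2] + v 2 * G ![1 / 2, 1 / 2, 0])) x y z =
      gs G ((x + y) / 2) ((x + z) / 2) ((y + z) / 2) - (x + y + z) *
        (2 * (G ![0, 1 / 2, 1 / 2] + G ![1 / 2, 0, 1 / 2] + G ![1 / 2, 1 / 2, 0])) := by
  unfold gs
  simp only [W_half]
  simp only [Matrix.cons_val_zero, Matrix.cons_val_one, Matrix.cons_val]
  rw [add_comm y x, add_comm z x, add_comm z y]
  ring

theorem LB.edge {y : ℕ → ℕ → ℕ} {e : ℕ → ℕ} (hL : IsChan L) (hlb : LB L y e)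
    {G : (Fin 3 → ℝ) → ℝ} (hG : SG G) :
    ∑ k ∈ Finset.range 21, ∑ j ∈ Finset.range (21 - k),
      (y k j : ℝ) * gs G ((rho ^ (k + j) + rho ^ j) / 2) ((rho ^ (k + j) + 1) / 2)
        ((rho ^ j + 1) / 2) +
    ∑ k ∈ Finset.range 21, (e k : ℝ) * gs G ((rho ^ k + 1) / 2) (rho ^ k / 2) (1 / 2) +
    (2 ^ 36 - 2 * col y e) / 4 * gs G 1 1 0 ≤
      2 ^ 36 * J G (fun o => W (-(1 / 2) : ℝ) (L o)) := by
  have h1 := hlb _ hG.edge
  rw [J_edge_eq hG hL]
  set g := G ![0, 1 / 2, 1 / 2] + G ![1 / 2, 0, 1 / 2] + G ![1 / 2, 1 / 2, 0] with hg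
  have hg4 : gs G 1 1 0 = 4 * g := by
    have a1 : G ![0, 1 / 2, 1 / 2] = 1 / 2 * G ![0, 1, 1] := by
      rw [← hG.hom3 (by norm_num) le_rfl zero_le_one zero_le_one]; norm_num
    have a2 : G ![1 / 2, 0, 1 / 2] = 1 / 2 * G ![1, 0, 1] := by
      rw [← hG.hom3 (by norm_num) zero_le_one le_rfl zero_le_one]; norm_num
    have a3 : G ![1 / 2, 1 / 2, 0] = 1 / 2 * G ![1, 1, 0] := by
      rw [← hG.hom3 (by norm_num) zero_le_one zero_le_one le_rfl]; norm_num
    rw [hg, a1, a2, a3]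
    unfold gs
    ring
  have h2 : Uf y e (fun v => G (W (-(1 / 2) : ℝ) v) - (v 0 * G ![0, 1 / 2, 1 / 2] +
        v 1 * G ![1 / 2, 0, 1 / 2] + v 2 * G ![1 / 2, 1 / 2, 0])) =
      ∑ k ∈ Finset.range 21, ∑ j ∈ Finset.range (21 - k),
      (y k j : ℝ) * gs G ((rho ^ (k + j) + rho ^ j) / 2) ((rho ^ (k + j) + 1) / 2)
        ((rho ^ j + 1) / 2) +
      ∑ k ∈ Finset.range 21, (e k : ℝ) * gs G ((rho ^ k + 1) / 2) (rho ^ k / 2) (1 / 2) -
      col y e * (2 * g) := by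
    unfold Uf col
    simp only [gs_edge, ← hg]
    rw [add_mul, Finset.sum_mul, Finset.sum_mul, add_sub_add_comm, ← Finset.sum_sub_distrib,
      ← Finset.sum_sub_distrib]
    congr 1
    · refine Finset.sum_congr rfl fun k _ => ?_
      rw [Finset.sum_mul, ← Finset.sum_sub_distrib]
      refine Finset.sum_congr rfl fun j _ => ?_
      ring
    · refine Finset.sum_congr rfl fun k _ => ?_
      rw [add_zero, add_zero]
      ring
  rw [h2] at h1
  rw [hg4]
  linarith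

end edge

end Crest.Agent.R163.DE
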