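import Mathlib

/-!
Row 163, density evolution: kernel friendly arithmetic on packed states and the lemmas on digits.
-/

set_option autoImplicit false

namespace Crest.Agent.R163.DE

/-- kernel friendly sum -/
def ksum (n : Nat) (f : Nat → Nat) : Nat :=
  Nat.rec (motive := fun _ => Nat) 0 (fun i acc => Nat.add acc (f i)) n

/-- kernel friendly bounded quantifier -/
def kall (n : Nat) (f : Nat → Bool) : Bool :=
  Nat.rec (motive := fun _ => Bool) true (fun i acc => and (f i) acc) n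

lemma ksum_eq (n : ℕ) (f : ℕ → ℕ) : ksum n f = ∑ i ∈ Finset.range n, f i := by
  induction n with
  | zero => rfl
  | succ n ih =>
    rw [Finset.sum_range_succ, ← ih]
    rfl

lemma kall_iff (n : ℕ) (f : ℕ → Bool) : kall n f = true ↔ ∀ i < n, f i = true := by
  induction n with
  | zero => simp [kall]
  | succ n ih =>
    have h : kall (n + 1) f = (f n && kall n f) := rfl
    rw [h, Bool.and_eq_true, ih]
    constructor
    · rintro ⟨h1, h2⟩ i hi
      rcases Nat.lt_succ_iff_lt_or_eq.1 hi with hi | hi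
      · exact h2 i hi
      · rw [hi]; exact h1
    · intro h
      exact ⟨h n (Nat.lt_succ_self n), fun i hi => h i (Nat.lt_succ_of_lt hi)⟩

/-- digit of a packed state -/
def dig (S t : Nat) : Nat := Nat.land (Nat.shiftRight S (Nat.mul 40 t)) 1099511627775

def idx (i j : Nat) : Nat := Nat.add i (Nat.mul 21 j)

/-- `6 * 2 ^ 36` -/
def c0 : Nat := 412316860416

/-- multiplicities -/
def mlt (k q : Nat) : Nat :=
  Nat.rec (motive := fun _ => Nat) (Nat.rec (motive := fun _ => Nat) 1 (fun _ _ => 3) q)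
    (fun _ _ => Nat.rec (motive := fun _ => Nat) 3 (fun _ _ => 6) q) k

/-- `w` at position `(a, b)` -/
def sh (w a b : Nat) : Nat := Nat.shiftLeft w (Nat.mul 120 (Nat.add a (Nat.mul 81 b)))

def term (w wj wi i j k : Nat) : Nat :=
  Nat.add (Nat.add
    (Nat.add (sh w (Nat.add i 20) (Nat.add j 20)) (sh w (Nat.add j 20) (Nat.add i 20)))
    (Nat.add (sh wj (Nat.add k 20) (Nat.sub 20 j)) (sh wj (Nat.sub 20 j) (Nat.add k 20))))
    (Nat.add (sh wi (Nat.sub 20 k) (Nat.sub 20 i)) (sh wi (Nat.sub 20 i) (Nat.sub 20 k)))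

/-- `w * (5/4)^i` rounded down -/
def sc (w i : Nat) : Nat := Nat.shiftRight (Nat.mul w (Nat.pow 5 i)) (Nat.mul 2 i)

def NA (S : Nat) : Nat :=
  ksum 21 fun k => ksum (Nat.sub 21 k) fun j =>
    term (dig S (idx (Nat.add k j) j)) (sc (dig S (idx (Nat.add k j) j)) j)
      (sc (dig S (idx (Nat.add k j) j)) (Nat.add k j)) (Nat.add k j) j k

/-- `w` at position `a` -/
def sh1 (w a : Nat) : Nat := Nat.shiftLeft w (Nat.mul 120 a)

def termB (w wj wi i j k : Nat) : Nat :=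
  Nat.add (Nat.add
    (Nat.add (sh1 w (Nat.add j 20)) (sh1 w (Nat.add i 20)))
    (Nat.add (sh1 wj (Nat.sub 20 j)) (sh1 wj (Nat.add k 20))))
    (Nat.add (sh1 wi (Nat.sub 20 i)) (sh1 wi (Nat.sub 20 k)))

def NB (S : Nat) : Nat :=
  ksum 21 fun k => ksum (Nat.sub 21 k) fun j =>
    termB (dig S (idx (Nat.add k j) j)) (sc (dig S (idx (Nat.add k j) j)) j)
      (sc (dig S (idx (Nat.add k j) j)) (Nat.add k j)) (Nat.add k j) j k

def NE (S : Nat) : Nat :=
  ksum 21 fun k => Nat.add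
    (sh1 (dig S (Nat.add 441 k)) (Nat.add k 20))
    (sh1 (sc (dig S (Nat.add 441 k)) k) (Nat.sub 20 k))

/-- coefficient of the square -/
def cf (N p q : Nat) : Nat :=
  Nat.land (Nat.shiftRight N (Nat.mul 120 (Nat.add (Nat.add p 40) (Nat.mul 81 (Nat.add q 40)))))
    1329227995784915872903807060280344575

def cfe (N m : Nat) : Nat :=
  Nat.land (Nat.shiftRight N (Nat.mul 120 (Nat.add m 40))) 1329227995784915872903807060280344575

/-- multiplicity times coefficient at `(k + j, j)` -/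
def mC (N k j : Nat) : Nat := Nat.mul (mlt k j) (cf N (Nat.add k j) j)

/-- far excess: `c * ((5/4)^q - (5/4)^m)` rounded down, `m ≤ q` -/
def exc (c q m : Nat) : Nat :=
  Nat.shiftRight (Nat.mul c (Nat.sub (Nat.pow 5 q) (Nat.mul (Nat.pow 5 m) (Nat.pow 4 (Nat.sub q m)))))
    (Nat.mul 2 q)

def FI (N k : Nat) : Nat := ksum 20 fun q => mC N k (Nat.add (Nat.sub 21 k) q)

def FE (N k : Nat) : Nat := ksum 20 fun q =>
  exc (mC N k (Nat.add (Nat.sub 21 k) q)) (Nat.add (Nat.sub 21 k) q) (Nat.sub 20 k)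

def GI (N : Nat) : Nat := ksum 20 fun k => ksum (Nat.sub 20 k) fun q => mC N (Nat.add 21 k) q

def GE (N : Nat) : Nat := ksum 20 fun k => ksum (Nat.sub 20 k) fun q =>
  exc (mC N (Nat.add 21 k) q) q 0

/-- edge multiplicity -/
def mlte (k : Nat) : Nat := Nat.rec (motive := fun _ => Nat) 3 (fun _ _ => 6) k

/-- check of a squaring step -/
def chkSq2 (NC NE2 S' : Nat) : Bool :=
  and (kall 20 fun k => and
      (kall (Nat.sub 20 k) fun j =>
        Nat.ble (Nat.mul c0 (dig S' (idx (Nat.add k j) j))) (mC NC k j))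
      (and (Nat.ble (Nat.mul c0 (dig S' (idx 20 (Nat.sub 20 k))))
              (Nat.add (mC NC k (Nat.sub 20 k)) (FI NC k)))
        (Nat.ble (Nat.mul c0 (dig S' (Nat.add 441 k)))
          (Nat.add (FE NC k) (Nat.mul (mlte k) (cfe NE2 k))))))
    (and (Nat.ble (Nat.mul c0 (dig S' 20)) (Nat.add (mC NC 20 0) (Nat.add (FI NC 20) (GI NC))))
      (Nat.ble (Nat.mul c0 (dig S' 461)) (Nat.add (Nat.add (FE NC 20) (GE NC))
          (Nat.mul 6 (ksum 21 fun m => cfe NE2 (Nat.add 20 m))))))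

def sqr (n : Nat) : Nat := Nat.mul n n

def chkSq (S S' : Nat) : Bool :=
  chkSq2 (sqr (NA S)) (Nat.mul (Nat.add (Nat.mul 2 (NB S)) (NE S)) (NE S)) S'

/-- table entry -/
def tb (T s c : Nat) : Nat :=
  Nat.land (Nat.shiftRight T (Nat.mul 48 (Nat.add (Nat.mul 6 s) c))) 281474976710655

def wterm (T w s : Nat) : Nat :=
  Nat.add (Nat.add
    (Nat.shiftLeft (Nat.mul w (tb T s 1)) (Nat.mul 104 (tb T s 0)))
    (Nat.shiftLeft (Nat.mul w (tb T s 3)) (Nat.mul 104 (tb T s 2))))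
    (Nat.shiftLeft (Nat.mul w (tb T s 5)) (Nat.mul 104 (tb T s 4)))

def NW (T S : Nat) : Nat :=
  Nat.add (ksum 21 fun k => ksum (Nat.sub 21 k) fun j =>
    wterm T (dig S (idx (Nat.add k j) j)) (idx (Nat.add k j) j))
   (ksum 21 fun k => wterm T (dig S (Nat.add 441 k)) (Nat.add 441 k))

/-- `4 ^ 20 * (5/4)^i` -/
def r20 (i : Nat) : Nat := Nat.mul (Nat.pow 5 i) (Nat.pow 4 (Nat.sub 20 i))

/-- column sum times `4 ^ 20` -/
def colnum (S : Nat) : Nat :=
  Nat.add (ksum 21 fun k => ksum (Nat.sub 21 k) fun j =>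
    Nat.mul (dig S (idx (Nat.add k j) j))
      (Nat.add (Nat.add (r20 (Nat.add k j)) (r20 j)) 1099511627776))
   (ksum 21 fun k => Nat.mul (dig S (Nat.add 441 k)) (Nat.add (r20 k) 1099511627776))

/-- digit of `NW` -/
def dw (N t : Nat) : Nat :=
  Nat.land (Nat.shiftRight N (Nat.mul 104 t)) 20282409603651670423947251286015

/-- check of an edge step -/
def chkW (T S S' : Nat) : Bool :=
  and (Nat.ble (Nat.mul 2 (colnum S)) 75557863725914323419136)
   (and (kall 21 fun k => kall (Nat.sub 21 k) fun j =>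
      Nat.ble (Nat.mul 68719476736 (dig S' (idx (Nat.add k j) j)))
        (dw (NW T S) (idx (Nat.add k j) j)))
    (and (Nat.ble (Nat.mul 4398046511104 (dig S' 441))
       (Nat.add (Nat.sub 75557863725914323419136 (Nat.mul 2 (colnum S)))
         (Nat.mul 2199023255552 (dig S 461))))
     (kall 20 fun k => Nat.beq (dig S' (Nat.add 442 k)) 0)))

/-- check of the table: interior sources -/
def chkT (T : Nat) : Bool :=
  and (kall 21 fun k => kall (Nat.sub 21 k) fun j =>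
    let s := idx (Nat.add k j) j
    and (and (Nat.ble (Nat.succ (tb T s 0)) 441)
        (and (Nat.ble (Nat.succ (tb T s 2)) 441) (Nat.ble (Nat.succ (tb T s 4)) 441)))
     (and (Nat.ble (Nat.mul 2 (Nat.add (Nat.add
          (Nat.mul (tb T s 1) (r20 (Nat.mod (tb T s 0) 21)))
          (Nat.mul (tb T s 3) (r20 (Nat.mod (tb T s 2) 21))))
          (Nat.mul (tb T s 5) (r20 (Nat.mod (tb T s 4) 21)))))
          (Nat.mul 68719476736 (Nat.add (r20 (Nat.add k j)) (r20 j))))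
      (and (Nat.ble (Nat.mul 2 (Nat.add (Nat.add
          (Nat.mul (tb T s 1) (r20 (Nat.div (tb T s 0) 21)))
          (Nat.mul (tb T s 3) (r20 (Nat.div (tb T s 2) 21))))
          (Nat.mul (tb T s 5) (r20 (Nat.div (tb T s 4) 21)))))
          (Nat.mul 68719476736 (Nat.add (r20 (Nat.add k j)) 1099511627776)))
       (Nat.ble (Nat.mul 1099511627776 (Nat.mul 2 (Nat.add (Nat.add (tb T s 1) (tb T s 3)) (tb T s 5))))
          (Nat.mul 68719476736 (Nat.add (r20 j) 1099511627776))))))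
  (kall 21 fun k =>
    let s := Nat.add 441 k
    let x := Nat.div k 20
    and (and (Nat.ble (Nat.succ (tb T s 0)) 441)
        (and (Nat.ble (Nat.succ (tb T s 2)) 441) (Nat.ble (Nat.succ (tb T s 4)) 441)))
     (and (Nat.ble (Nat.mul 2 (Nat.add (Nat.add (Nat.add
          (Nat.mul (tb T s 1) (r20 (Nat.mod (tb T s 0) 21)))
          (Nat.mul (tb T s 3) (r20 (Nat.mod (tb T s 2) 21))))
          (Nat.mul (tb T s 5) (r20 (Nat.mod (tb T s 4) 21))))
          (Nat.mul x 37778931862957161709568)))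
          (Nat.mul 68719476736 (Nat.add (r20 k) 1099511627776)))
      (and (Nat.ble (Nat.mul 2 (Nat.add (Nat.add (Nat.add
          (Nat.mul (tb T s 1) (r20 (Nat.div (tb T s 0) 21)))
          (Nat.mul (tb T s 3) (r20 (Nat.div (tb T s 2) 21))))
          (Nat.mul (tb T s 5) (r20 (Nat.div (tb T s 4) 21))))
          (Nat.mul x 37778931862957161709568)))
          (Nat.mul 68719476736 (r20 k)))
       (Nat.ble (Nat.mul 2 (Nat.add (Nat.add (tb T s 1) (tb T s 3)) (tb T s 5)))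
          68719476736))))

/-! ### elementary facts -/

lemma and_mask (n w : ℕ) : Nat.land n (2 ^ w - 1) = n % 2 ^ w := Nat.and_two_pow_sub_one_eq_mod n w

lemma dig_eq (S t : ℕ) : dig S t = S / 2 ^ (40 * t) % 2 ^ 40 := by
  have h := and_mask (Nat.shiftRight S (Nat.mul 40 t)) 40
  have h2 : Nat.shiftRight S (Nat.mul 40 t) = S / 2 ^ (40 * t) := Nat.shiftRight_eq_div_pow _ _
  rw [← h2, ← h]
  rfl

lemma dig_lt (S t : ℕ) : dig S t < 2 ^ 40 := by
  rw [dig_eq]; exact Nat.mod_lt _ (by norm_num)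

lemma dig_zero (t : ℕ) : dig 0 t = 0 := by
  rw [dig_eq]; simp

lemma tb_lt (T s c : ℕ) : tb T s c < 2 ^ 48 := by
  have h := and_mask (Nat.shiftRight T (Nat.mul 48 (Nat.add (Nat.mul 6 s) c))) 48
  have h2 : tb T s c = Nat.land (Nat.shiftRight T (Nat.mul 48 (Nat.add (Nat.mul 6 s) c)))
    (2 ^ 48 - 1) := rfl
  rw [h2, h]
  exact Nat.mod_lt _ (by norm_num)

lemma sh_eq (w a b : ℕ) : sh w a b = w * (2 ^ 120) ^ (a + 81 * b) := by
  unfold sh
  have : Nat.shiftLeft w (Nat.mul 120 (Nat.add a (Nat.mul 81 b))) =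
    w * 2 ^ (120 * (a + 81 * b)) := Nat.shiftLeft_eq _ _
  rw [this, pow_mul]

lemma sh1_eq (w a : ℕ) : sh1 w a = w * (2 ^ 120) ^ a := by
  unfold sh1
  have : Nat.shiftLeft w (Nat.mul 120 a) = w * 2 ^ (120 * a) := Nat.shiftLeft_eq _ _
  rw [this, pow_mul]

lemma sc_eq (w i : ℕ) : sc w i = w * 5 ^ i / 4 ^ i := by
  unfold sc
  have : Nat.shiftRight (Nat.mul w (Nat.pow 5 i)) (Nat.mul 2 i) = w * 5 ^ i / 2 ^ (2 * i) :=
    Nat.shiftRight_eq_div_pow _ _
  rw [this, pow_mul]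
  norm_num

lemma sc_lt {w i : ℕ} (hw : w < 2 ^ 40) (hi : i ≤ 20) : sc w i < 2 ^ 47 := by
  rw [sc_eq, Nat.div_lt_iff_lt_mul (by positivity)]
  have h : 5 ^ i ≤ 2 ^ 7 * 4 ^ i := by
    interval_cases i <;> norm_num
  calc w * 5 ^ i ≤ w * (2 ^ 7 * 4 ^ i) := Nat.mul_le_mul_left _ h
    _ < 2 ^ 40 * (2 ^ 7 * 4 ^ i) := Nat.mul_lt_mul_of_pos_right hw (by positivity)
    _ = 2 ^ 47 * 4 ^ i := by ring

lemma cf_eq (N p q : ℕ) : cf N p q = N / (2 ^ 120) ^ ((p + 40) + 81 * (q + 40)) % 2 ^ 120 := by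
  have h := and_mask (Nat.shiftRight N (Nat.mul 120 (Nat.add (Nat.add p 40)
    (Nat.mul 81 (Nat.add q 40))))) 120
  have h2 : Nat.shiftRight N (Nat.mul 120 (Nat.add (Nat.add p 40) (Nat.mul 81 (Nat.add q 40)))) =
    N / 2 ^ (120 * ((p + 40) + 81 * (q + 40))) := Nat.shiftRight_eq_div_pow _ _
  rw [← pow_mul, ← h2, ← h]
  rfl

lemma cfe_eq (N m : ℕ) : cfe N m = N / (2 ^ 120) ^ (m + 40) % 2 ^ 120 := by
  have h := and_mask (Nat.shiftRight N (Nat.mul 120 (Nat.add m 40))) 120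
  have h2 : Nat.shiftRight N (Nat.mul 120 (Nat.add m 40)) =
    N / 2 ^ (120 * (m + 40)) := Nat.shiftRight_eq_div_pow _ _
  rw [← pow_mul, ← h2, ← h]
  rfl

lemma dw_eq (N t : ℕ) : dw N t = N / (2 ^ 104) ^ t % 2 ^ 104 := by
  have h := and_mask (Nat.shiftRight N (Nat.mul 104 t)) 104
  have h2 : Nat.shiftRight N (Nat.mul 104 t) = N / 2 ^ (104 * t) := Nat.shiftRight_eq_div_pow _ _
  rw [← pow_mul, ← h2, ← h]
  rfl

/-! ### digits of families -/

theorem digit_sum {ι : Type*} (s : Finset ι) (c t : ι → ℕ) (X : ℕ) (hc : ∑ i ∈ s, c i < X)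
    (p : ℕ) : (∑ i ∈ s, c i * X ^ t i) / X ^ p % X = ∑ i ∈ s with t i = p, c i := by
  have hX : 0 < X := by omega
  set A := ∑ i ∈ s with t i < p, c i * X ^ t i with hA
  set D := ∑ i ∈ s with t i = p, c i with hD
  have h1 : ∑ i ∈ s, c i * X ^ t i = A + ((∑ i ∈ s with t i = p, c i * X ^ t i) +
      ∑ i ∈ s with p < t i, c i * X ^ t i) := by
    rw [hA, Finset.sum_filter, Finset.sum_filter, Finset.sum_filter, ← Finset.sum_add_distrib,
      ← Finset.sum_add_distrib]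
    refine Finset.sum_congr rfl fun i _ => ?_
    rcases lt_trichotomy (t i) p with h | h | h
    · rw [if_pos h, if_neg (by omega), if_neg (by omega)]; omega
    · rw [if_neg (by omega), if_pos h, if_neg (by omega)]; omega
    · rw [if_neg (by omega), if_neg (by omega), if_pos h]; omega
  have h2 : ∑ i ∈ s with t i = p, c i * X ^ t i = D * X ^ p := by
    rw [hD, Finset.sum_mul]
    refine Finset.sum_congr rfl fun i hi => ?_
    rw [(Finset.mem_filter.1 hi).2]
  have h3 : ∃ Q, ∑ i ∈ s with p < t i, c i * X ^ t i = Q * X * X ^ p := by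
    refine ⟨∑ i ∈ s with p < t i, c i * X ^ (t i - (p + 1)), ?_⟩
    rw [Finset.sum_mul, Finset.sum_mul]
    refine Finset.sum_congr rfl fun i hi => ?_
    have := (Finset.mem_filter.1 hi).2
    obtain ⟨d, hd⟩ := Nat.exists_eq_add_of_lt this
    rw [hd]
    have e : p + d + 1 - (p + 1) = d := by omega
    rw [e, mul_assoc, mul_assoc]
    congr 1
    rw [← pow_succ', ← pow_add]
    congr 1
    omega
  obtain ⟨Q, hQ⟩ := h3
  have h4 : A < X ^ p := by
    have h5 : A * X ≤ (∑ i ∈ s with t i < p, c i) * X ^ p := by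
      rw [hA, Finset.sum_mul, Finset.sum_mul]
      refine Finset.sum_le_sum fun i hi => ?_
      have := (Finset.mem_filter.1 hi).2
      rw [mul_assoc]
      refine Nat.mul_le_mul_left _ ?_
      rw [← pow_succ]
      exact Nat.pow_le_pow_right hX this
    have h6 : ∑ i ∈ s with t i < p, c i ≤ ∑ i ∈ s, c i :=
      Finset.sum_le_sum_of_subset (Finset.filter_subset _ _)
    have h7 : A * X < X ^ p * X := by
      calc A * X ≤ (∑ i ∈ s with t i < p, c i) * X ^ p := h5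
        _ ≤ (∑ i ∈ s, c i) * X ^ p := Nat.mul_le_mul_right _ h6
        _ < X * X ^ p := Nat.mul_lt_mul_of_pos_right hc (Nat.pow_pos hX)
        _ = X ^ p * X := by ring
    exact Nat.lt_of_mul_lt_mul_right h7
  have h8 : D < X := lt_of_le_of_lt
    (Finset.sum_le_sum_of_subset (Finset.filter_subset _ _)) hc
  rw [h1, h2, hQ]
  have h9 : A + (D * X ^ p + Q * X * X ^ p) = A + (D + Q * X) * X ^ p := by ring
  rw [h9, Nat.add_mul_div_right _ _ (Nat.pow_pos hX), Nat.div_eq_of_lt h4, zero_add,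
    Nat.add_mul_mod_self_right, Nat.mod_eq_of_lt h8]

/-- grouping a family by fibres, keeping only some of them -/
lemma fiber_le {ι κ τ : Type*} [DecidableEq κ] (s : Finset ι) (T : Finset τ) (φ : τ → κ)
    (hφ : Set.InjOn φ T) (g : ι → κ) (w : ι → ℕ) (H : κ → ℝ) (hH : ∀ i ∈ s, 0 ≤ H (g i)) :
    ∑ z ∈ T, ((∑ i ∈ s with g i = φ z, w i : ℕ) : ℝ) * H (φ z) ≤
      ∑ i ∈ s, (w i : ℝ) * H (g i) := by
  have h1 : ∀ z, ((∑ i ∈ s with g i = φ z, w i : ℕ) : ℝ) * H (φ z) =
      ∑ i ∈ s with g i = φ z, (w i : ℝ) * H (g i) := by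
    intro z
    rw [Nat.cast_sum, Finset.sum_mul]
    refine Finset.sum_congr rfl fun i hi => ?_
    rw [(Finset.mem_filter.1 hi).2]
  simp only [h1]
  rw [← Finset.sum_image (f := fun y => ∑ i ∈ s with g i = y, (w i : ℝ) * H (g i)) hφ]
  refine Finset.sum_fiberwise_le_sum_of_sum_fiber_nonneg fun y _ => ?_
  exact Finset.sum_nonneg fun i hi =>
    mul_nonneg (Nat.cast_nonneg _) (hH i (Finset.mem_filter.1 hi).1)

end Crest.Agent.R163.DE
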