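import Crest.Agent.R163.DE1
import Crest.Agent.R163.DE2

/-!
Row 163, density evolution: soundness of the check of an edge step.
-/

set_option autoImplicit false

namespace Crest.Agent.R163.DE

open Crest.Agent.R163

/-- interior digits -/
def Y (S : ℕ) (k j : ℕ) : ℕ := dig S (idx (k + j) j)

/-- edge digits -/
def E (S : ℕ) (k : ℕ) : ℕ := dig S (441 + k)

/-- index set of the sector -/
@[irreducible] def sec (n : ℕ) : Finset (Σ _ : ℕ, ℕ) := (Finset.range n).sigma fun k => Finset.range (n - k)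

lemma mem_sec {n : ℕ} {x : Σ _ : ℕ, ℕ} : x ∈ sec n ↔ x.1 + x.2 < n := by
  unfold sec
  simp only [Finset.mem_sigma, Finset.mem_range]
  omega

lemma sum_sec {M : Type*} [AddCommMonoid M] (n : ℕ) (f : ℕ → ℕ → M) :
    ∑ k ∈ Finset.range n, ∑ j ∈ Finset.range (n - k), f k j = ∑ x ∈ sec n, f x.1 x.2 := by
  unfold sec
  rw [Finset.sum_sigma']

lemma r20_cast {i : ℕ} (hi : i ≤ 20) : (r20 i : ℝ) = 4 ^ 20 * rho ^ i := by
  have h : r20 i = 5 ^ i * 4 ^ (20 - i) := rfl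
  rw [h]
  push_cast
  unfold rho
  rw [div_pow, pow_sub₀ _ (by norm_num) hi]
  field_simp

/-- a combination of three lattice vectors below a vector -/
lemma SG.comb3 {G : (Fin 3 → ℝ) → ℝ} (h : SG G) {a₁ a₂ a₃ x₁ x₂ x₃ y₁ y₂ y₃ X Y Z K : ℝ}
    (ha₁ : 0 ≤ a₁) (ha₂ : 0 ≤ a₂) (ha₃ : 0 ≤ a₃) (hx₁ : 0 ≤ x₁) (hx₂ : 0 ≤ x₂) (hx₃ : 0 ≤ x₃)
    (hy₁ : 0 ≤ y₁) (hy₂ : 0 ≤ y₂) (hy₃ : 0 ≤ y₃) (hX0 : 0 ≤ X) (hY0 : 0 ≤ Y) (hZ0 : 0 ≤ Z)
    (hK : 0 ≤ K)
    (hX : a₁ * x₁ + a₂ * x₂ + a₃ * x₃ ≤ K * X) (hY : a₁ * y₁ + a₂ * y₂ + a₃ * y₃ ≤ K * Y)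
    (hZ : a₁ + a₂ + a₃ ≤ K * Z) :
    a₁ * gs G x₁ y₁ 1 + a₂ * gs G x₂ y₂ 1 + a₃ * gs G x₃ y₃ 1 ≤ K * gs G X Y Z := by
  rw [← h.gs_hom ha₁ hx₁ hy₁ zero_le_one, ← h.gs_hom ha₂ hx₂ hy₂ zero_le_one,
    ← h.gs_hom ha₃ hx₃ hy₃ zero_le_one, ← h.gs_hom hK hX0 hY0 hZ0]
  have s1 := h.gs_sup (mul_nonneg ha₁ hx₁) (mul_nonneg ha₁ hy₁) (mul_nonneg ha₁ zero_le_one)
    (mul_nonneg ha₂ hx₂) (mul_nonneg ha₂ hy₂) (mul_nonneg ha₂ zero_le_one)
  have s2 := h.gs_sup (add_nonneg (mul_nonneg ha₁ hx₁) (mul_nonneg ha₂ hx₂))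
    (add_nonneg (mul_nonneg ha₁ hy₁) (mul_nonneg ha₂ hy₂))
    (add_nonneg (mul_nonneg ha₁ zero_le_one) (mul_nonneg ha₂ zero_le_one))
    (mul_nonneg ha₃ hx₃) (mul_nonneg ha₃ hy₃) (mul_nonneg ha₃ zero_le_one)
  have s3 := h.gs_mono (x := a₁ * x₁ + a₂ * x₂ + a₃ * x₃) (y := a₁ * y₁ + a₂ * y₂ + a₃ * y₃)
    (z := a₁ * 1 + a₂ * 1 + a₃ * 1) (z' := K * Z) (by positivity) (by positivity) (by positivity)
    hX hY (by linarith)
  linarith

/-- source identifiers -/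
def sid : (Σ _ : ℕ, ℕ) ⊕ ℕ → ℕ := Sum.elim (fun x => idx (x.1 + x.2) x.2) (fun k => 441 + k)

@[irreducible] def Src : Finset ((Σ _ : ℕ, ℕ) ⊕ ℕ) := (sec 21).disjSum (Finset.range 21)

lemma card_sec : (sec 21).card = 231 := by decide +kernel

lemma card_Src : Src.card = 252 := by
  unfold Src
  rw [Finset.card_disjSum, card_sec, Finset.card_range]

lemma wterm_eq (T w s : ℕ) : wterm T w s =
    ∑ c : Fin 3, w * tb T s (2 * c + 1) * (2 ^ 104) ^ tb T s (2 * c) := by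
  have h : ∀ a b : ℕ, Nat.shiftLeft a (Nat.mul 104 b) = a * (2 ^ 104) ^ b := by
    intro a b
    have : Nat.shiftLeft a (Nat.mul 104 b) = a * 2 ^ (104 * b) := Nat.shiftLeft_eq _ _
    rw [this, pow_mul]
  unfold wterm
  rw [h, h, h, Fin.sum_univ_three]
  rfl

lemma NW_eq (T S : ℕ) : NW T S = ∑ x ∈ Src ×ˢ (Finset.univ : Finset (Fin 3)),
    (dig S (sid x.1) * tb T (sid x.1) (2 * x.2 + 1)) *
      (2 ^ 104) ^ tb T (sid x.1) (2 * x.2) := by
  rw [Finset.sum_product]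
  unfold Src
  rw [Finset.sum_disjSum]
  unfold NW
  simp only [ksum_eq, wterm_eq]
  rw [← sum_sec 21 (fun k j => ∑ c : Fin 3, dig S (sid (Sum.inl ⟨k, j⟩)) *
    tb T (sid (Sum.inl ⟨k, j⟩)) (2 * c + 1) * (2 ^ 104) ^ tb T (sid (Sum.inl ⟨k, j⟩)) (2 * c))]
  rfl

lemma NW_digit (T S t : ℕ) : dw (NW T S) t =
    ∑ x ∈ Src ×ˢ (Finset.univ : Finset (Fin 3)) with tb T (sid x.1) (2 * x.2) = t,
      (dig S (sid x.1) * tb T (sid x.1) (2 * x.2 + 1)) := by
  rw [dw_eq, NW_eq]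
  refine digit_sum _ _ _ _ ?_ t
  have h1 : ∀ x ∈ Src ×ˢ (Finset.univ : Finset (Fin 3)),
      dig S (sid x.1) * tb T (sid x.1) (2 * x.2 + 1) ≤ 2 ^ 40 * 2 ^ 48 := by
    intro x _
    exact Nat.mul_le_mul (dig_lt _ _).le (tb_lt _ _ _).le
  have h2 := Finset.sum_le_card_nsmul _ _ _ h1
  rw [Finset.card_product, card_Src, Finset.card_univ, Fintype.card_fin] at h2
  refine lt_of_le_of_lt h2 ?_
  norm_num

/-- the facts contained in the table check -/
structure TabOK (T : ℕ) : Prop where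
  int : ∀ k j, k + j < 21 → ∀ G, SG G →
    ∑ c : Fin 3, (tb T (idx (k + j) j) (2 * c + 1) : ℝ) *
      gs G (rho ^ (tb T (idx (k + j) j) (2 * c) % 21)) (rho ^ (tb T (idx (k + j) j) (2 * c) / 21)) 1 ≤
      2 ^ 36 * gs G ((rho ^ (k + j) + rho ^ j) / 2) ((rho ^ (k + j) + 1) / 2) ((rho ^ j + 1) / 2)
  edge : ∀ k, k < 21 → ∀ G, SG G →
    ∑ c : Fin 3, (tb T (441 + k) (2 * c + 1) : ℝ) *
      gs G (rho ^ (tb T (441 + k) (2 * c) % 21)) (rho ^ (tb T (441 + k) (2 * c) / 21)) 1 +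
      ((k / 20 : ℕ) : ℝ) * 2 ^ 35 * gs G 1 1 0 ≤
      2 ^ 36 * gs G ((rho ^ k + 1) / 2) (rho ^ k / 2) (1 / 2)

lemma div21 {t : ℕ} (h : Nat.succ t ≤ 441) : t / 21 ≤ 20 := by omega

lemma mod21 (t : ℕ) : t % 21 ≤ 20 := by omega

theorem tabOK_of_chkT {T : ℕ} (h : chkT T = true) : TabOK T := by
  unfold chkT at h
  rw [Bool.and_eq_true, kall_iff, kall_iff] at h
  obtain ⟨h1, h2⟩ := h
  have hrp : ∀ n, 0 ≤ rho ^ n := fun n => (rho_pow_pos n).le
  refine ⟨fun k j hkj G hG => ?_, fun k hk G hG => ?_⟩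
  · have h3 := h1 k (by omega)
    rw [kall_iff] at h3
    have h4 := h3 j (by change j < 21 - k; omega)
    simp only [Bool.and_eq_true, Nat.ble_eq] at h4
    change ((Nat.succ (tb T (idx (k + j) j) 0) ≤ 441 ∧ (Nat.succ (tb T (idx (k + j) j) 2) ≤ 441 ∧
      Nat.succ (tb T (idx (k + j) j) 4) ≤ 441)) ∧
      (2 * (tb T (idx (k + j) j) 1 * r20 (tb T (idx (k + j) j) 0 % 21) +
          tb T (idx (k + j) j) 3 * r20 (tb T (idx (k + j) j) 2 % 21) +
          tb T (idx (k + j) j) 5 * r20 (tb T (idx (k + j) j) 4 % 21)) ≤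
        68719476736 * (r20 (k + j) + r20 j)) ∧
      (2 * (tb T (idx (k + j) j) 1 * r20 (tb T (idx (k + j) j) 0 / 21) +
          tb T (idx (k + j) j) 3 * r20 (tb T (idx (k + j) j) 2 / 21) +
          tb T (idx (k + j) j) 5 * r20 (tb T (idx (k + j) j) 4 / 21)) ≤
        68719476736 * (r20 (k + j) + 1099511627776)) ∧
      (1099511627776 * (2 * (tb T (idx (k + j) j) 1 + tb T (idx (k + j) j) 3 +
        tb T (idx (k + j) j) 5)) ≤ 68719476736 * (r20 j + 1099511627776))) at h4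
    obtain ⟨⟨d0, d1, d2⟩, hx, hy, hz⟩ := h4
    set t0 := tb T (idx (k + j) j) 0
    set a0 := tb T (idx (k + j) j) 1
    set t1 := tb T (idx (k + j) j) 2
    set a1 := tb T (idx (k + j) j) 3
    set t2 := tb T (idx (k + j) j) 4
    set a2 := tb T (idx (k + j) j) 5
    have hx' : (2 : ℝ) * (a0 * r20 (t0 % 21) + a1 * r20 (t1 % 21) + a2 * r20 (t2 % 21)) ≤
        68719476736 * (r20 (k + j) + r20 j) := by exact_mod_cast hx
    have hy' : (2 : ℝ) * (a0 * r20 (t0 / 21) + a1 * r20 (t1 / 21) + a2 * r20 (t2 / 21)) ≤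
        68719476736 * (r20 (k + j) + 1099511627776) := by exact_mod_cast hy
    have hz' : (1099511627776 : ℝ) * (2 * (a0 + a1 + a2)) ≤
        68719476736 * (r20 j + 1099511627776) := by exact_mod_cast hz
    rw [r20_cast (mod21 _), r20_cast (mod21 _), r20_cast (mod21 _), r20_cast (by omega),
      r20_cast (by omega)] at hx'
    rw [r20_cast (div21 d0), r20_cast (div21 d1), r20_cast (div21 d2), r20_cast (by omega)] at hy'
    rw [r20_cast (by omega)] at hz'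
    rw [Fin.sum_univ_three]
    refine hG.comb3 (Nat.cast_nonneg _) (Nat.cast_nonneg _) (Nat.cast_nonneg _) (hrp _) (hrp _)
      (hrp _) (hrp _) (hrp _) (hrp _) ?_ ?_ ?_ (by positivity) ?_ ?_ ?_
    · have := hrp (k + j); have := hrp j; positivity
    · have := hrp (k + j); positivity
    · have := hrp j; positivity
    · change (a0 : ℝ) * rho ^ (t0 % 21) + a1 * rho ^ (t1 % 21) + a2 * rho ^ (t2 % 21) ≤ _
      norm_num at hx' ⊢
      linarith
    · change (a0 : ℝ) * rho ^ (t0 / 21) + a1 * rho ^ (t1 / 21) + a2 * rho ^ (t2 / 21) ≤ _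
      norm_num at hy' ⊢
      linarith
    · change (a0 : ℝ) + a1 + a2 ≤ _
      norm_num at hz' ⊢
      linarith
  · have h4 := h2 k hk
    simp only [Bool.and_eq_true, Nat.ble_eq] at h4
    change ((Nat.succ (tb T (441 + k) 0) ≤ 441 ∧ (Nat.succ (tb T (441 + k) 2) ≤ 441 ∧
      Nat.succ (tb T (441 + k) 4) ≤ 441)) ∧
      (2 * (tb T (441 + k) 1 * r20 (tb T (441 + k) 0 % 21) +
          tb T (441 + k) 3 * r20 (tb T (441 + k) 2 % 21) +
          tb T (441 + k) 5 * r20 (tb T (441 + k) 4 % 21) + k / 20 * 37778931862957161709568) ≤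
        68719476736 * (r20 k + 1099511627776)) ∧
      (2 * (tb T (441 + k) 1 * r20 (tb T (441 + k) 0 / 21) +
          tb T (441 + k) 3 * r20 (tb T (441 + k) 2 / 21) +
          tb T (441 + k) 5 * r20 (tb T (441 + k) 4 / 21) + k / 20 * 37778931862957161709568) ≤
        68719476736 * r20 k) ∧
      (2 * (tb T (441 + k) 1 + tb T (441 + k) 3 + tb T (441 + k) 5) ≤ 68719476736)) at h4
    obtain ⟨⟨d0, d1, d2⟩, hx, hy, hz⟩ := h4
    set t0 := tb T (441 + k) 0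
    set a0 := tb T (441 + k) 1
    set t1 := tb T (441 + k) 2
    set a1 := tb T (441 + k) 3
    set t2 := tb T (441 + k) 4
    set a2 := tb T (441 + k) 5
    set κ := k / 20
    have hx' : (2 : ℝ) * (a0 * r20 (t0 % 21) + a1 * r20 (t1 % 21) + a2 * r20 (t2 % 21) +
        κ * 37778931862957161709568) ≤ 68719476736 * (r20 k + 1099511627776) := by
      exact_mod_cast hx
    have hy' : (2 : ℝ) * (a0 * r20 (t0 / 21) + a1 * r20 (t1 / 21) + a2 * r20 (t2 / 21) +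
        κ * 37778931862957161709568) ≤ 68719476736 * r20 k := by exact_mod_cast hy
    have hz' : (2 : ℝ) * (a0 + a1 + a2) ≤ 68719476736 := by exact_mod_cast hz
    rw [r20_cast (mod21 _), r20_cast (mod21 _), r20_cast (mod21 _), r20_cast (by omega)] at hx'
    rw [r20_cast (div21 d0), r20_cast (div21 d1), r20_cast (div21 d2), r20_cast (by omega)] at hy'
    have hκ : (0 : ℝ) ≤ κ := Nat.cast_nonneg _
    have hG0 : (0 : ℝ) ≤ κ * 2 ^ 35 := by positivity
    have e1 : (κ : ℝ) * 2 ^ 35 * gs G 1 1 0 = gs G (κ * 2 ^ 35) (κ * 2 ^ 35) 0 := by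
      rw [← hG.gs_hom hG0 zero_le_one zero_le_one le_rfl]
      simp
    have e2 : (2 : ℝ) ^ 36 * gs G ((rho ^ k + 1) / 2) (rho ^ k / 2) (1 / 2) =
        gs G (2 ^ 36 * ((rho ^ k + 1) / 2)) (2 ^ 36 * (rho ^ k / 2)) (2 ^ 36 * (1 / 2)) := by
      rw [hG.gs_hom (by positivity) (by have := hrp k; positivity) (by have := hrp k; positivity)
        (by norm_num)]
    rw [Fin.sum_univ_three, e1, e2]
    have hA : (0 : ℝ) ≤ a0 * rho ^ (t0 % 21) + a1 * rho ^ (t1 % 21) + a2 * rho ^ (t2 % 21) := by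
      exact add_nonneg (add_nonneg (mul_nonneg (Nat.cast_nonneg _) (hrp _))
        (mul_nonneg (Nat.cast_nonneg _) (hrp _))) (mul_nonneg (Nat.cast_nonneg _) (hrp _))
    have hB : (0 : ℝ) ≤ a0 * rho ^ (t0 / 21) + a1 * rho ^ (t1 / 21) + a2 * rho ^ (t2 / 21) := by
      exact add_nonneg (add_nonneg (mul_nonneg (Nat.cast_nonneg _) (hrp _))
        (mul_nonneg (Nat.cast_nonneg _) (hrp _))) (mul_nonneg (Nat.cast_nonneg _) (hrp _))
    have s1 := hG.comb3 (a₁ := a0) (a₂ := a1) (a₃ := a2) (x₁ := rho ^ (t0 % 21))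
      (x₂ := rho ^ (t1 % 21)) (x₃ := rho ^ (t2 % 21)) (y₁ := rho ^ (t0 / 21))
      (y₂ := rho ^ (t1 / 21)) (y₃ := rho ^ (t2 / 21))
      (Nat.cast_nonneg _) (Nat.cast_nonneg _) (Nat.cast_nonneg _) (hrp _) (hrp _)
      (hrp _) (hrp _) (hrp _) (hrp _) hA hB (Z := a0 + a1 + a2) (by positivity) zero_le_one
      (by rw [one_mul]) (by rw [one_mul]) (by rw [one_mul])
    rw [one_mul] at s1
    have s2 := hG.gs_sup hA hB (z := a0 + a1 + a2) (by positivity) hG0 hG0 le_rfl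
    have s3 := hG.gs_mono (x := a0 * rho ^ (t0 % 21) + a1 * rho ^ (t1 % 21) +
        a2 * rho ^ (t2 % 21) + κ * 2 ^ 35) (y := a0 * rho ^ (t0 / 21) + a1 * rho ^ (t1 / 21) +
        a2 * rho ^ (t2 / 21) + κ * 2 ^ 35) (z := a0 + a1 + a2 + 0)
      (x' := 2 ^ 36 * ((rho ^ k + 1) / 2)) (y' := 2 ^ 36 * (rho ^ k / 2)) (z' := 2 ^ 36 * (1 / 2))
      (by linarith) (by linarith) (by positivity)
      (by norm_num at hx' ⊢; linarith) (by norm_num at hy' ⊢; linarith)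
      (by norm_num at hz' ⊢; linarith)
    change (a0 : ℝ) * gs G (rho ^ (t0 % 21)) (rho ^ (t0 / 21)) 1 +
      a1 * gs G (rho ^ (t1 % 21)) (rho ^ (t1 / 21)) 1 +
      a2 * gs G (rho ^ (t2 % 21)) (rho ^ (t2 / 21)) 1 + gs G (κ * 2 ^ 35) (κ * 2 ^ 35) 0 ≤ _
    linarith

lemma colnum_cast (S : ℕ) : (colnum S : ℝ) = 4 ^ 20 * col (Y S) (E S) := by
  unfold colnum col
  simp only [ksum_eq]
  have e : ∀ a b : ℕ, Nat.add a b = a + b := fun _ _ => rfl
  rw [e]
  push_cast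
  rw [mul_add, Finset.mul_sum, Finset.mul_sum]
  congr 1
  · refine Finset.sum_congr rfl fun k hk => ?_
    rw [Finset.mul_sum]
    refine Finset.sum_congr rfl fun j hj => ?_
    have hk' := Finset.mem_range.1 hk
    have hj' : j < 21 - k := Finset.mem_range.1 hj
    change ((dig S (idx (k + j) j) * (r20 (k + j) + r20 j + 1099511627776) : ℕ) : ℝ) = _
    push_cast
    rw [r20_cast (by omega), r20_cast (by omega)]
    unfold Y
    ring
  · refine Finset.sum_congr rfl fun k hk => ?_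
    have hk' := Finset.mem_range.1 hk
    change ((dig S (441 + k) * (r20 k + 1099511627776) : ℕ) : ℝ) = _
    push_cast
    rw [r20_cast (by omega)]
    unfold E
    ring

theorem chkW_sound {Ω : Type*} {L : Ω → Fin 3 → ℝ} (hL : IsChan L) {T S S' : ℕ}
    (hT : TabOK T) (h : chkW T S S' = true) (hlb : LB L (Y S) (E S)) :
    LB (fun o => W (-(1 / 2) : ℝ) (L o)) (Y S') (E S') := by
  intro G hG
  unfold chkW at h
  rw [Bool.and_eq_true, Bool.and_eq_true, Bool.and_eq_true, kall_iff, kall_iff] at h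
  obtain ⟨c1, c2, c3, c4⟩ := h
  have hrp : ∀ n, 0 ≤ rho ^ n := fun n => (rho_pow_pos n).le
  -- column sum
  have c1' : 2 * colnum S ≤ 75557863725914323419136 := Nat.le_of_ble_eq_true c1
  -- interior digits
  have c2' : ∀ k j, k + j < 21 → 68719476736 * Y S' k j ≤ dw (NW T S) (idx (k + j) j) := by
    intro k j hkj
    have h3 := c2 k (by omega)
    rw [kall_iff] at h3
    exact Nat.le_of_ble_eq_true (h3 j (by change j < 21 - k; omega))
  have c3' : 4398046511104 * E S' 0 ≤ (75557863725914323419136 - 2 * colnum S) +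
      2199023255552 * E S 20 := Nat.le_of_ble_eq_true c3
  have c4' : ∀ k, k < 20 → E S' (k + 1) = 0 := by
    intro k hk
    have := Nat.eq_of_beq_eq_true (c4 k hk)
    unfold E
    rw [show 441 + (k + 1) = 442 + k by ring]
    exact this
  have h1 := hlb.edge hL hG
  refine le_trans ?_ h1
  -- the new state
  have hg0 : 0 ≤ gs G 1 1 0 := hG.gs_nonneg zero_le_one zero_le_one le_rfl
  have hE : ∑ k ∈ Finset.range 21, (E S' k : ℝ) * gs G (rho ^ k) 1 0 =
      (E S' 0 : ℝ) * gs G 1 1 0 := by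
    rw [Finset.sum_range_succ']
    have : ∑ k ∈ Finset.range 20, (E S' (k + 1) : ℝ) * gs G (rho ^ (k + 1)) 1 0 = 0 := by
      refine Finset.sum_eq_zero fun k hk => ?_
      rw [c4' k (Finset.mem_range.1 hk)]
      simp
    rw [this]
    simp
  have hE0 : (E S' 0 : ℝ) ≤ (2 ^ 36 - 2 * col (Y S) (E S)) / 4 + E S 20 / 2 := by
    have h2 : (4398046511104 : ℝ) * E S' 0 ≤ (75557863725914323419136 - 2 * colnum S) +
      2199023255552 * E S 20 := by
      have : ((4398046511104 * E S' 0 : ℕ) : ℝ) ≤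
        ((75557863725914323419136 - 2 * colnum S) + 2199023255552 * E S 20 : ℕ) := by
        exact_mod_cast c3'
      rw [Nat.cast_add, Nat.cast_sub c1'] at this
      push_cast at this
      linarith
    rw [colnum_cast] at h2
    norm_num at h2 ⊢
    linarith
  -- interior part
  set H : ℕ → ℝ := fun t => gs G (rho ^ (t % 21)) (rho ^ (t / 21)) 1 with hH
  have hH0 : ∀ t, 0 ≤ H t := fun t => hG.gs_nonneg (hrp _) (hrp _) zero_le_one
  have hφ : Set.InjOn (fun x : Σ _ : ℕ, ℕ => idx (x.1 + x.2) x.2) (sec 21) := by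
    rintro ⟨k, j⟩ hx ⟨k', j'⟩ hx' heq
    have h3 := mem_sec.1 (Finset.mem_coe.1 hx)
    have h4 := mem_sec.1 (Finset.mem_coe.1 hx')
    simp only at h3 h4
    change (k + j) + 21 * j = (k' + j') + 21 * j' at heq
    have : j = j' := by omega
    have : k = k' := by omega
    subst_vars
    rfl
  have h5 := fiber_le (Src ×ˢ (Finset.univ : Finset (Fin 3))) (sec 21)
    (fun x : Σ _ : ℕ, ℕ => idx (x.1 + x.2) x.2) hφ
    (fun x => tb T (sid x.1) (2 * x.2))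
    (fun x => dig S (sid x.1) * tb T (sid x.1) (2 * x.2 + 1)) H (fun _ _ => hH0 _)
  simp only [← NW_digit] at h5
  have hHφ : ∀ k j, k + j < 21 → H (idx (k + j) j) = gs G (rho ^ (k + j)) (rho ^ j) 1 := by
    intro k j hkj
    have e1 : idx (k + j) j % 21 = k + j := by
      change (k + j + 21 * j) % 21 = k + j
      omega
    have e2 : idx (k + j) j / 21 = j := by
      change (k + j + 21 * j) / 21 = j
      omega
    simp only [hH, e1, e2]
  have h6 : (2 : ℝ) ^ 36 * ∑ k ∈ Finset.range 21, ∑ j ∈ Finset.range (21 - k),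
      (Y S' k j : ℝ) * gs G (rho ^ (k + j)) (rho ^ j) 1 ≤
      ∑ x ∈ sec 21, (dw (NW T S) (idx (x.1 + x.2) x.2) : ℝ) * H (idx (x.1 + x.2) x.2) := by
    rw [sum_sec 21 (fun k j => (Y S' k j : ℝ) * gs G (rho ^ (k + j)) (rho ^ j) 1), Finset.mul_sum]
    refine Finset.sum_le_sum fun x hx => ?_
    have hx' := mem_sec.1 hx
    rw [hHφ _ _ hx', ← mul_assoc]
    refine mul_le_mul_of_nonneg_right ?_ (hG.gs_nonneg (hrp _) (hrp _) zero_le_one)
    have := c2' x.1 x.2 hx'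
    have h7 : ((68719476736 * Y S' x.1 x.2 : ℕ) : ℝ) ≤ dw (NW T S) (idx (x.1 + x.2) x.2) := by
      exact_mod_cast this
    push_cast at h7
    norm_num at h7 ⊢
    linarith
  have h7 : ∑ x ∈ Src ×ˢ (Finset.univ : Finset (Fin 3)),
      ((dig S (sid x.1) * tb T (sid x.1) (2 * x.2 + 1) : ℕ) : ℝ) * H (tb T (sid x.1) (2 * x.2)) ≤
      2 ^ 36 * (∑ k ∈ Finset.range 21, ∑ j ∈ Finset.range (21 - k),
        (Y S k j : ℝ) * gs G ((rho ^ (k + j) + rho ^ j) / 2) ((rho ^ (k + j) + 1) / 2)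
          ((rho ^ j + 1) / 2)) +
      (2 ^ 36 * (∑ k ∈ Finset.range 21, (E S k : ℝ) *
        gs G ((rho ^ k + 1) / 2) (rho ^ k / 2) (1 / 2)) - 2 ^ 35 * E S 20 * gs G 1 1 0) := by
    rw [Finset.sum_product]
    unfold Src
    rw [Finset.sum_disjSum]
    refine add_le_add ?_ ?_
    · rw [sum_sec 21 (fun k j => (Y S k j : ℝ) * gs G ((rho ^ (k + j) + rho ^ j) / 2)
        ((rho ^ (k + j) + 1) / 2) ((rho ^ j + 1) / 2)), Finset.mul_sum]
      refine Finset.sum_le_sum fun x hx => ?_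
      have hx' := mem_sec.1 hx
      have h8 := mul_le_mul_of_nonneg_left (hT.int x.1 x.2 hx' G hG)
        (Nat.cast_nonneg (α := ℝ) (Y S x.1 x.2))
      rw [Finset.mul_sum] at h8
      calc _ = ∑ c : Fin 3, (Y S x.1 x.2 : ℝ) * ((tb T (idx (x.1 + x.2) x.2) (2 * c + 1) : ℝ) *
            gs G (rho ^ (tb T (idx (x.1 + x.2) x.2) (2 * c) % 21))
              (rho ^ (tb T (idx (x.1 + x.2) x.2) (2 * c) / 21)) 1) := by
            refine Finset.sum_congr rfl fun c _ => ?_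
            rw [Nat.cast_mul, mul_assoc]
            rfl
        _ ≤ _ := h8
        _ = _ := by ring
    · have h9 : ∀ k ∈ Finset.range 21, ∑ c : Fin 3,
          ((dig S (sid (Sum.inr k)) * tb T (sid (Sum.inr k)) (2 * c + 1) : ℕ) : ℝ) *
            H (tb T (sid (Sum.inr k)) (2 * c)) ≤
          2 ^ 36 * ((E S k : ℝ) * gs G ((rho ^ k + 1) / 2) (rho ^ k / 2) (1 / 2)) -
            (E S k : ℝ) * ((k / 20 : ℕ) * 2 ^ 35 * gs G 1 1 0) := by
        intro k hk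
        have h8 := mul_le_mul_of_nonneg_left (hT.edge k (Finset.mem_range.1 hk) G hG)
          (Nat.cast_nonneg (α := ℝ) (E S k))
        rw [mul_add, Finset.mul_sum] at h8
        have h10 : ∑ c : Fin 3,
          ((dig S (sid (Sum.inr k)) * tb T (sid (Sum.inr k)) (2 * c + 1) : ℕ) : ℝ) *
            H (tb T (sid (Sum.inr k)) (2 * c)) =
            ∑ c : Fin 3, (E S k : ℝ) * ((tb T (441 + k) (2 * c + 1) : ℝ) *
            gs G (rho ^ (tb T (441 + k) (2 * c) % 21)) (rho ^ (tb T (441 + k) (2 * c) / 21)) 1) := by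
          refine Finset.sum_congr rfl fun c _ => ?_
          rw [Nat.cast_mul, mul_assoc]
          rfl
        rw [h10]
        linarith
      refine (Finset.sum_le_sum h9).trans ?_
      rw [Finset.sum_sub_distrib, ← Finset.mul_sum]
      have h11 : ∑ k ∈ Finset.range 21, (E S k : ℝ) * ((k / 20 : ℕ) * 2 ^ 35 * gs G 1 1 0) =
          2 ^ 35 * E S 20 * gs G 1 1 0 := by
        rw [Finset.sum_range_succ]
        have : ∑ k ∈ Finset.range 20, (E S k : ℝ) * ((k / 20 : ℕ) * 2 ^ 35 * gs G 1 1 0) = 0 := by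
          refine Finset.sum_eq_zero fun k hk => ?_
          rw [Nat.div_eq_of_lt (Finset.mem_range.1 hk)]
          simp
        rw [this]
        norm_num
        ring
      rw [h11]
  have h8 : (2 : ℝ) ^ 36 * ∑ k ∈ Finset.range 21, ∑ j ∈ Finset.range (21 - k),
      (Y S' k j : ℝ) * gs G (rho ^ (k + j)) (rho ^ j) 1 ≤
      2 ^ 36 * (∑ k ∈ Finset.range 21, ∑ j ∈ Finset.range (21 - k),
        (Y S k j : ℝ) * gs G ((rho ^ (k + j) + rho ^ j) / 2) ((rho ^ (k + j) + 1) / 2)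
          ((rho ^ j + 1) / 2)) +
      (2 ^ 36 * (∑ k ∈ Finset.range 21, (E S k : ℝ) *
        gs G ((rho ^ k + 1) / 2) (rho ^ k / 2) (1 / 2)) - 2 ^ 35 * E S 20 * gs G 1 1 0) :=
    h6.trans (h5.trans h7)
  unfold Uf
  rw [hE]
  have h9 := mul_le_mul_of_nonneg_right hE0 hg0
  set P := ∑ k ∈ Finset.range 21, ∑ j ∈ Finset.range (21 - k),
      (Y S' k j : ℝ) * gs G (rho ^ (k + j)) (rho ^ j) 1
  set Q := ∑ k ∈ Finset.range 21, ∑ j ∈ Finset.range (21 - k),
        (Y S k j : ℝ) * gs G ((rho ^ (k + j) + rho ^ j) / 2) ((rho ^ (k + j) + 1) / 2)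
          ((rho ^ j + 1) / 2)
  set R := ∑ k ∈ Finset.range 21, (E S k : ℝ) *
        gs G ((rho ^ k + 1) / 2) (rho ^ k / 2) (1 / 2)
  norm_num at h8 h9 ⊢
  linarith

end Crest.Agent.R163.DE
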