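import Crest.Agent.R163.DE3

/-!
Row 163, density evolution: soundness of the check of a squaring step, algebraic part.
-/

set_option autoImplicit false

namespace Crest.Agent.R163.DE

open Crest.Agent.R163

/-! ### folding by symmetry -/

/-- weight of a vector in the closed sector `x ≥ y ≥ z` -/
noncomputable def u3 (x y z : ℝ) : ℝ :=
  if z ≤ y ∧ y ≤ x then
    (if x = y then (if y = z then 1 / 6 else 1 / 2) else (if y = z then 1 / 2 else 1))
  else 0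

lemma u3_nonneg (x y z : ℝ) : 0 ≤ u3 x y z := by
  unfold u3; split_ifs <;> norm_num

lemma u3_smul {c : ℝ} (hc : 0 < c) (x y z : ℝ) : u3 (c * x) (c * y) (c * z) = u3 x y z := by
  unfold u3
  simp only [mul_le_mul_iff_right₀ hc, mul_right_inj' hc.ne']

lemma u3_sum (x y z : ℝ) :
    u3 x y z + u3 y x z + u3 x z y + u3 z x y + u3 y z x + u3 z y x = 1 := by
  rcases lt_trichotomy x y with h1 | h1 | h1 <;> rcases lt_trichotomy y z with h2 | h2 | h2 <;>
    rcases lt_trichotomy x z with h3 | h3 | h3 <;>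
    first
    | (exfalso; linarith)
    | (unfold u3
       simp only [h1.le, h2.le, h3.le, h1.ne, h2.ne, h3.ne, h1.ne', h2.ne', h3.ne', not_le.2 h1,
         not_le.2 h2, not_le.2 h3, and_self, and_true, and_false, if_true, if_false]
       norm_num)
    | (subst h1
       unfold u3
       first
       | (simp only [h2.le, h2.ne, h2.ne', not_le.2 h2, le_refl, and_self, and_true, and_false,
            if_true, if_false]; norm_num)
       | (subst h2; norm_num))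
    | (subst h2
       unfold u3
       simp only [h1.le, h1.ne, h1.ne', not_le.2 h1, le_refl, and_self, and_true, and_false,
            if_true, if_false]; norm_num)
    | (subst h3
       unfold u3
       simp only [h1.le, h1.ne, h1.ne', not_le.2 h1, le_refl, and_self, and_true, and_false,
            if_true, if_false]; norm_num)

/-- folded functional -/
noncomputable def hh (G : (Fin 3 → ℝ) → ℝ) (v : Fin 3 → ℝ) : ℝ :=
  u3 (v 0) (v 1) (v 2) * gs G (v 0) (v 1) (v 2)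

/-- folded functional, first coordinate smallest -/
noncomputable def hh' (G : (Fin 3 → ℝ) → ℝ) (v : Fin 3 → ℝ) : ℝ :=
  u3 (v 1) (v 2) (v 0) * gs G (v 0) (v 1) (v 2)

lemma gs_hh (G : (Fin 3 → ℝ) → ℝ) (x y z : ℝ) : gs (hh G) x y z = gs G x y z := by
  have e : ∀ a b c : ℝ, hh G ![a, b, c] = u3 a b c * gs G a b c := fun _ _ _ => rfl
  have s1 := gs_swap01 G x y z
  have s2 := gs_swap12 G x y z
  have s3 : gs G z x y = gs G x y z := by rw [gs_swap01 G x z y, s2]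
  have s4 : gs G y z x = gs G x y z := by rw [gs_swap12 G y x z, s1]
  have s5 := gs_swap02 G x y z
  conv_lhs => unfold gs
  rw [e, e, e, e, e, e, s1, s2, s3, s4, s5]
  have := u3_sum x y z
  linear_combination (gs G x y z) * this

lemma gs_hh' (G : (Fin 3 → ℝ) → ℝ) (x y z : ℝ) : gs (hh' G) x y z = gs G x y z := by
  have e : ∀ a b c : ℝ, hh' G ![a, b, c] = u3 b c a * gs G a b c := fun _ _ _ => rfl
  have s1 := gs_swap01 G x y z
  have s2 := gs_swap12 G x y z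
  have s3 : gs G z x y = gs G x y z := by rw [gs_swap01 G x z y, s2]
  have s4 : gs G y z x = gs G x y z := by rw [gs_swap12 G y x z, s1]
  have s5 := gs_swap02 G x y z
  conv_lhs => unfold gs
  rw [e, e, e, e, e, e, s1, s2, s3, s4, s5]
  have := u3_sum x y z
  linear_combination (gs G x y z) * this

/-- double symmetrisation of a product -/
noncomputable def PP (G : (Fin 3 → ℝ) → ℝ) (x y z x' y' z' : ℝ) : ℝ :=
  gs (fun u => gs (fun v => G (fun i => u i * v i)) x' y' z') x y z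

lemma PP_eq (G : (Fin 3 → ℝ) → ℝ) (x y z x' y' z' : ℝ) :
    PP G x y z x' y' z' =
      gs G (x * x') (y * y') (z * z') + gs G (x * y') (y * x') (z * z') +
      gs G (x * x') (y * z') (z * y') + gs G (x * z') (y * x') (z * y') +
      gs G (x * y') (y * z') (z * x') + gs G (x * z') (y * y') (z * x') := by
  unfold PP gs
  simp only [mul_vec]
  ring

lemma PP_comm (G : (Fin 3 → ℝ) → ℝ) (x y z x' y' z' : ℝ) :
    PP G x y z x' y' z' = PP G x' y' z' x y z := by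
  rw [PP_eq, PP_eq]
  unfold gs
  rw [mul_comm x' x, mul_comm y' y, mul_comm z' z, mul_comm x' y, mul_comm y' x, mul_comm x' z,
    mul_comm y' z, mul_comm z' x, mul_comm z' y]
  ring

lemma PP_hh (G : (Fin 3 → ℝ) → ℝ) (x y z x' y' z' : ℝ) :
    PP G x y z x' y' z' = PP (hh G) x y z x' y' z' := by
  rw [PP_eq, PP_eq]
  simp only [gs_hh]

lemma PP_hh' (G : (Fin 3 → ℝ) → ℝ) (x y z x' y' z' : ℝ) :
    PP G x y z x' y' z' = PP (hh' G) x y z x' y' z' := by
  rw [PP_eq, PP_eq]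
  simp only [gs_hh']

/-! ### images -/

/-- the six permuted vectors -/
def img (x y z : ℝ) : Fin 6 → Fin 3 → ℝ :=
  ![![x, y, z], ![y, x, z], ![x, z, y], ![z, x, y], ![y, z, x], ![z, y, x]]

lemma gs_eq_sum (G : (Fin 3 → ℝ) → ℝ) (x y z : ℝ) : gs G x y z = ∑ g, G (img x y z g) := by
  rw [Fin.sum_univ_six]
  rfl

/-- positions and weights of the six images of the sector element `(k, j)` -/
def p1 (x : Σ _ : ℕ, ℕ) : Fin 6 → ℕ :=
  ![x.1 + x.2 + 20, x.2 + 20, x.1 + 20, 20 - x.2, 20 - x.1, 20 - (x.1 + x.2)]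

def p2 (x : Σ _ : ℕ, ℕ) : Fin 6 → ℕ :=
  ![x.2 + 20, x.1 + x.2 + 20, 20 - x.2, x.1 + 20, 20 - (x.1 + x.2), 20 - x.1]

def tA (x : Σ _ : ℕ, ℕ) : Fin 6 → ℕ := ![0, 0, x.2, x.2, x.1 + x.2, x.1 + x.2]

def wA (S : ℕ) (x : Σ _ : ℕ, ℕ) : Fin 6 → ℕ :=
  ![dig S (idx (x.1 + x.2) x.2), dig S (idx (x.1 + x.2) x.2),
    sc (dig S (idx (x.1 + x.2) x.2)) x.2, sc (dig S (idx (x.1 + x.2) x.2)) x.2,
    sc (dig S (idx (x.1 + x.2) x.2)) (x.1 + x.2), sc (dig S (idx (x.1 + x.2) x.2)) (x.1 + x.2)]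

lemma pw_id {a b c : ℕ} (h : a + b = c + 20) : rho ^ a * (rho ^ b / rho ^ 20) = rho ^ c := by
  have h20 : rho ^ 20 ≠ 0 := (rho_pow_pos 20).ne'
  rw [← mul_div_assoc, ← pow_add, h, pow_add, mul_div_assoc, div_self h20, mul_one]

lemma img_eq {x : Σ _ : ℕ, ℕ} (hx : x ∈ sec 21) (g : Fin 6) :
    img (rho ^ (x.1 + x.2)) (rho ^ x.2) 1 g =
      ![rho ^ tA x g * (rho ^ p1 x g / rho ^ 20), rho ^ tA x g * (rho ^ p2 x g / rho ^ 20),
        rho ^ tA x g] := by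
  have h := mem_sec.1 hx
  obtain ⟨k, j⟩ := x
  simp only at h
  have h1 : (1 : ℝ) = rho ^ 0 := (pow_zero _).symm
  fin_cases g
  · change ![rho ^ (k + j), rho ^ j, 1] = ![rho ^ 0 * (rho ^ (k + j + 20) / rho ^ 20),
      rho ^ 0 * (rho ^ (j + 20) / rho ^ 20), rho ^ 0]
    rw [pw_id (c := k + j) (by omega), pw_id (c := j) (by omega), pow_zero]
  · change ![rho ^ j, rho ^ (k + j), 1] = ![rho ^ 0 * (rho ^ (j + 20) / rho ^ 20),
      rho ^ 0 * (rho ^ (k + j + 20) / rho ^ 20), rho ^ 0]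
    rw [pw_id (c := j) (by omega), pw_id (c := k + j) (by omega), pow_zero]
  · change ![rho ^ (k + j), 1, rho ^ j] = ![rho ^ j * (rho ^ (k + 20) / rho ^ 20),
      rho ^ j * (rho ^ (20 - j) / rho ^ 20), rho ^ j]
    rw [pw_id (c := k + j) (by omega), pw_id (c := 0) (by omega), pow_zero]
  · change ![1, rho ^ (k + j), rho ^ j] = ![rho ^ j * (rho ^ (20 - j) / rho ^ 20),
      rho ^ j * (rho ^ (k + 20) / rho ^ 20), rho ^ j]
    rw [pw_id (c := 0) (by omega), pw_id (c := k + j) (by omega), pow_zero]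
  · change ![rho ^ j, 1, rho ^ (k + j)] = ![rho ^ (k + j) * (rho ^ (20 - k) / rho ^ 20),
      rho ^ (k + j) * (rho ^ (20 - (k + j)) / rho ^ 20), rho ^ (k + j)]
    rw [pw_id (c := j) (by omega), pw_id (c := 0) (by omega), pow_zero]
  · change ![1, rho ^ j, rho ^ (k + j)] = ![rho ^ (k + j) * (rho ^ (20 - (k + j)) / rho ^ 20),
      rho ^ (k + j) * (rho ^ (20 - k) / rho ^ 20), rho ^ (k + j)]
    rw [pw_id (c := 0) (by omega), pw_id (c := j) (by omega), pow_zero]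

lemma sc_cast_le (w i : ℕ) : (sc w i : ℝ) ≤ w * rho ^ i := by
  rw [sc_eq]
  refine Nat.cast_div_le.trans ?_
  push_cast
  unfold rho
  rw [div_pow, mul_div_assoc]

lemma wA_le (S : ℕ) (x : Σ _ : ℕ, ℕ) (g : Fin 6) :
    (wA S x g : ℝ) ≤ Y S x.1 x.2 * rho ^ tA x g := by
  have h0 : (dig S (idx (x.1 + x.2) x.2) : ℝ) ≤ Y S x.1 x.2 * rho ^ 0 := by
    rw [pow_zero, mul_one]; exact le_rfl
  have h1 := sc_cast_le (dig S (idx (x.1 + x.2) x.2)) x.2
  have h2 := sc_cast_le (dig S (idx (x.1 + x.2) x.2)) (x.1 + x.2)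
  fin_cases g
  · exact h0
  · exact h0
  · exact h1
  · exact h1
  · exact h2
  · exact h2

lemma wA_lt (S : ℕ) {x : Σ _ : ℕ, ℕ} (hx : x ∈ sec 21) (g : Fin 6) : wA S x g < 2 ^ 47 := by
  have h := mem_sec.1 hx
  have h0 : dig S (idx (x.1 + x.2) x.2) < 2 ^ 47 := (dig_lt _ _).trans (by norm_num)
  have h1 := sc_lt (dig_lt S (idx (x.1 + x.2) x.2)) (i := x.2) (by omega)
  have h2 := sc_lt (dig_lt S (idx (x.1 + x.2) x.2)) (i := x.1 + x.2) (by omega)
  fin_cases g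
  · exact h0
  · exact h0
  · exact h1
  · exact h1
  · exact h2
  · exact h2

lemma p1_le {x : Σ _ : ℕ, ℕ} (hx : x ∈ sec 21) (g : Fin 6) : p1 x g ≤ 40 := by
  have h := mem_sec.1 hx
  obtain ⟨k, j⟩ := x
  simp only at h
  fin_cases g
  · change k + j + 20 ≤ 40; omega
  · change j + 20 ≤ 40; omega
  · change k + 20 ≤ 40; omega
  · change 20 - j ≤ 40; omega
  · change 20 - k ≤ 40; omega
  · change 20 - (k + j) ≤ 40; omega

/-- index set of the images -/
@[irreducible] def FA : Finset ((Σ _ : ℕ, ℕ) × Fin 6) := sec 21 ×ˢ Finset.univ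

lemma card_FA : FA.card = 1386 := by
  unfold FA
  rw [Finset.card_product, card_sec, Finset.card_univ, Fintype.card_fin]

lemma term_eq (w wj wi i j k : ℕ) : term w wj wi i j k =
    (((w * (2 ^ 120) ^ (i + 20 + 81 * (j + 20)) + w * (2 ^ 120) ^ (j + 20 + 81 * (i + 20))) +
    (wj * (2 ^ 120) ^ (k + 20 + 81 * (20 - j)) + wj * (2 ^ 120) ^ (20 - j + 81 * (k + 20)))) +
    (wi * (2 ^ 120) ^ (20 - k + 81 * (20 - i)) + wi * (2 ^ 120) ^ (20 - i + 81 * (20 - k)))) := by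
  unfold term
  simp only [sh_eq]
  rfl

lemma termB_eq (w wj wi i j k : ℕ) : termB w wj wi i j k =
    (((w * (2 ^ 120) ^ (j + 20) + w * (2 ^ 120) ^ (i + 20)) +
    (wj * (2 ^ 120) ^ (20 - j) + wj * (2 ^ 120) ^ (k + 20))) +
    (wi * (2 ^ 120) ^ (20 - i) + wi * (2 ^ 120) ^ (20 - k))) := by
  unfold termB
  simp only [sh1_eq]
  rfl

lemma NA_eq (S : ℕ) : NA S = ∑ a ∈ FA, wA S a.1 a.2 * (2 ^ 120) ^ (p1 a.1 a.2 + 81 * p2 a.1 a.2) := by
  unfold FA
  rw [Finset.sum_product]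
  unfold NA
  simp only [ksum_eq]
  change ∑ k ∈ Finset.range 21, ∑ j ∈ Finset.range (21 - k), _ = _
  rw [sum_sec 21]
  refine Finset.sum_congr rfl fun x _ => ?_
  rw [Fin.sum_univ_six, term_eq]
  rw [add_assoc (wA S x 0 * _ + wA S x 1 * _ + wA S x 2 * _ + wA S x 3 * _),
    add_assoc (wA S x 0 * _ + wA S x 1 * _)]
  rfl

lemma NB_eq (S : ℕ) : NB S = ∑ a ∈ FA, wA S a.1 a.2 * (2 ^ 120) ^ (p2 a.1 a.2) := by
  unfold FA
  rw [Finset.sum_product]
  unfold NB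
  simp only [ksum_eq]
  change ∑ k ∈ Finset.range 21, ∑ j ∈ Finset.range (21 - k), _ = _
  rw [sum_sec 21]
  refine Finset.sum_congr rfl fun x _ => ?_
  rw [Fin.sum_univ_six, termB_eq]
  rw [add_assoc (wA S x 0 * _ + wA S x 1 * _ + wA S x 2 * _ + wA S x 3 * _),
    add_assoc (wA S x 0 * _ + wA S x 1 * _)]
  rfl

/-- edge images -/
def pE (k : ℕ) : Fin 2 → ℕ := ![k + 20, 20 - k]

def tE (k : ℕ) : Fin 2 → ℕ := ![0, k]

def wE (S k : ℕ) : Fin 2 → ℕ := ![dig S (441 + k), sc (dig S (441 + k)) k]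

@[irreducible] def FEd : Finset (ℕ × Fin 2) := Finset.range 21 ×ˢ Finset.univ

lemma card_FEd : FEd.card = 42 := by
  unfold FEd
  rw [Finset.card_product, Finset.card_range, Finset.card_univ, Fintype.card_fin]

lemma NE_eq (S : ℕ) : NE S = ∑ a ∈ FEd, wE S a.1 a.2 * (2 ^ 120) ^ (pE a.1 a.2) := by
  unfold FEd
  rw [Finset.sum_product]
  unfold NE
  simp only [ksum_eq]
  refine Finset.sum_congr rfl fun x _ => ?_
  rw [Fin.sum_univ_two]
  simp only [sh1_eq]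
  rfl

lemma wE_le (S k : ℕ) (g : Fin 2) : (wE S k g : ℝ) ≤ E S k * rho ^ tE k g := by
  have h0 : (dig S (441 + k) : ℝ) ≤ E S k * rho ^ 0 := by
    rw [pow_zero, mul_one]; exact le_rfl
  have h1 := sc_cast_le (dig S (441 + k)) k
  fin_cases g
  · exact h0
  · exact h1

lemma wE_lt (S : ℕ) {k : ℕ} (hk : k < 21) (g : Fin 2) : wE S k g < 2 ^ 47 := by
  have h0 : dig S (441 + k) < 2 ^ 47 := (dig_lt _ _).trans (by norm_num)
  have h1 := sc_lt (dig_lt S (441 + k)) (i := k) (by omega)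
  fin_cases g
  · exact h0
  · exact h1

/-! ### homogeneity of the folded functionals -/

variable {G : (Fin 3 → ℝ) → ℝ}

lemma SG.hh_nonneg (h : SG G) {x y z : ℝ} (hx : 0 ≤ x) (hy : 0 ≤ y) (hz : 0 ≤ z) :
    0 ≤ hh G ![x, y, z] := mul_nonneg (u3_nonneg _ _ _) (h.gs_nonneg hx hy hz)

lemma SG.hh'_nonneg (h : SG G) {x y z : ℝ} (hx : 0 ≤ x) (hy : 0 ≤ y) (hz : 0 ≤ z) :
    0 ≤ hh' G ![x, y, z] := mul_nonneg (u3_nonneg _ _ _) (h.gs_nonneg hx hy hz)

lemma SG.hh_hom (h : SG G) {c x y z : ℝ} (hc : 0 < c) (hx : 0 ≤ x) (hy : 0 ≤ y) (hz : 0 ≤ z) :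
    hh G ![c * x, c * y, c * z] = c * hh G ![x, y, z] := by
  change u3 (c * x) (c * y) (c * z) * gs G (c * x) (c * y) (c * z) =
    c * (u3 x y z * gs G x y z)
  rw [u3_smul hc, h.gs_hom hc.le hx hy hz]
  ring

lemma SG.hh'_hom (h : SG G) {c x y z : ℝ} (hc : 0 < c) (hx : 0 ≤ x) (hy : 0 ≤ y) (hz : 0 ≤ z) :
    hh' G ![c * x, c * y, c * z] = c * hh' G ![x, y, z] := by
  change u3 (c * y) (c * z) (c * x) * gs G (c * x) (c * y) (c * z) =
    c * (u3 y z x * gs G x y z)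
  rw [u3_smul hc, h.gs_hom hc.le hx hy hz]
  ring

/-- folded functional at a position -/
noncomputable def Hh (G : (Fin 3 → ℝ) → ℝ) (p : ℕ × ℕ) : ℝ :=
  hh G ![rho ^ p.1 / rho ^ 40, rho ^ p.2 / rho ^ 40, 1]

noncomputable def He (G : (Fin 3 → ℝ) → ℝ) (m : ℕ) : ℝ := hh' G ![0, rho ^ m / rho ^ 40, 1]

lemma div_pow_nonneg (m n : ℕ) : 0 ≤ rho ^ m / rho ^ n :=
  div_nonneg (rho_pow_pos _).le (rho_pow_pos _).le

lemma SG.Hh_nonneg (h : SG G) (p : ℕ × ℕ) : 0 ≤ Hh G p :=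
  h.hh_nonneg (div_pow_nonneg _ _) (div_pow_nonneg _ _) zero_le_one

lemma SG.He_nonneg (h : SG G) (m : ℕ) : 0 ≤ He G m :=
  h.hh'_nonneg le_rfl (div_pow_nonneg _ _) zero_le_one

lemma pos_mul (a b c d : ℕ) : rho ^ a * (rho ^ b / rho ^ 20) * (rho ^ c * (rho ^ d / rho ^ 20)) =
    rho ^ a * rho ^ c * (rho ^ (b + d) / rho ^ 40) := by
  rw [pow_add, show (40 : ℕ) = 20 + 20 by norm_num, pow_add]
  have h20 : rho ^ 20 ≠ 0 := (rho_pow_pos 20).ne'
  field_simp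

lemma SG.hh_img (h : SG G) {x x' : Σ _ : ℕ, ℕ} (hx : x ∈ sec 21) (hx' : x' ∈ sec 21)
    (g g' : Fin 6) :
    hh G (fun i => img (rho ^ (x.1 + x.2)) (rho ^ x.2) 1 g i *
      img (rho ^ (x'.1 + x'.2)) (rho ^ x'.2) 1 g' i) =
      rho ^ tA x g * rho ^ tA x' g' * Hh G (p1 x g + p1 x' g', p2 x g + p2 x' g') := by
  rw [img_eq hx, img_eq hx', mul_vec, pos_mul, pos_mul]
  have hc : 0 < rho ^ tA x g * rho ^ tA x' g' := mul_pos (rho_pow_pos _) (rho_pow_pos _)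
  have := h.hh_hom (x := rho ^ (p1 x g + p1 x' g') / rho ^ 40)
    (y := rho ^ (p2 x g + p2 x' g') / rho ^ 40) (z := 1) hc (div_pow_nonneg _ _)
    (div_pow_nonneg _ _) zero_le_one
  rw [mul_one] at this
  exact this

end Crest.Agent.R163.DE
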