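import Crest.Agent.R163.DE4

/-!
Row 163, density evolution: soundness of the check of a squaring step, analytic part.
-/

set_option autoImplicit false

namespace Crest.Agent.R163.DE

open Crest.Agent.R163

variable {G : (Fin 3 → ℝ) → ℝ}

lemma sum_mul_sum_pow {ι κ : Type*} (s : Finset ι) (t : Finset κ) (w : ι → ℕ) (w' : κ → ℕ)
    (p : ι → ℕ) (p' : κ → ℕ) (X : ℕ) :
    (∑ a ∈ s, w a * X ^ p a) * (∑ b ∈ t, w' b * X ^ p' b) =
      ∑ x ∈ s ×ˢ t, (w x.1 * w' x.2) * X ^ (p x.1 + p' x.2) := by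
  rw [Finset.sum_mul_sum, Finset.sum_product]
  refine Finset.sum_congr rfl fun a _ => Finset.sum_congr rfl fun b _ => ?_
  rw [pow_add]; ring

lemma sum_prod_mul {ι κ : Type*} (s : Finset ι) (t : Finset κ) (w : ι → ℕ) (w' : κ → ℕ) :
    ∑ x ∈ s ×ˢ t, w x.1 * w' x.2 = (∑ a ∈ s, w a) * (∑ b ∈ t, w' b) := by
  rw [Finset.sum_mul_sum, Finset.sum_product]

lemma mem_FA {a : (Σ _ : ℕ, ℕ) × Fin 6} (h : a ∈ FA) : a.1 ∈ sec 21 := by
  rw [FA, Finset.mem_product] at h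
  exact h.1

lemma mem_FEd {a : ℕ × Fin 2} (h : a ∈ FEd) : a.1 < 21 := by
  rw [FEd, Finset.mem_product] at h
  exact Finset.mem_range.1 h.1

lemma sum_wA_le (S : ℕ) : ∑ a ∈ FA, wA S a.1 a.2 ≤ 1386 * 2 ^ 47 := by
  have h1 : ∀ a ∈ FA, wA S a.1 a.2 ≤ 2 ^ 47 := by
    intro a ha
    exact (wA_lt S (mem_FA ha) a.2).le
  refine (Finset.sum_le_card_nsmul _ _ _ h1).trans ?_
  rw [card_FA]
  norm_num

lemma sum_wE_le (S : ℕ) : ∑ a ∈ FEd, wE S a.1 a.2 ≤ 42 * 2 ^ 47 := by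
  have h1 : ∀ a ∈ FEd, wE S a.1 a.2 ≤ 2 ^ 47 := by
    intro a ha
    exact (wE_lt S (mem_FEd ha) a.2).le
  refine (Finset.sum_le_card_nsmul _ _ _ h1).trans ?_
  rw [card_FEd]
  norm_num

/-- digits of the interior square -/
lemma cf_digit (S S₂ p q : ℕ) (hp : p ≤ 40) :
    cf (NA S * NA S₂) p q = ∑ x ∈ FA ×ˢ FA with
      (p1 x.1.1 x.1.2 + p1 x.2.1 x.2.2, p2 x.1.1 x.1.2 + p2 x.2.1 x.2.2) = (p + 40, q + 40),
        wA S x.1.1 x.1.2 * wA S₂ x.2.1 x.2.2 := by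
  rw [cf_eq, NA_eq, NA_eq, sum_mul_sum_pow]
  rw [digit_sum (FA ×ˢ FA) (fun x => wA S x.1.1 x.1.2 * wA S₂ x.2.1 x.2.2)
    (fun x => (p1 x.1.1 x.1.2 + 81 * p2 x.1.1 x.1.2) + (p1 x.2.1 x.2.2 + 81 * p2 x.2.1 x.2.2))]
  · refine Finset.sum_congr ?_ fun _ _ => rfl
    refine Finset.filter_congr fun x hx => ?_
    have h1 := p1_le (mem_FA (Finset.mem_product.1 hx).1) x.1.2
    have h2 := p1_le (mem_FA (Finset.mem_product.1 hx).2) x.2.2
    rw [Prod.mk.injEq]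
    constructor
    · intro h
      constructor <;> omega
    · rintro ⟨h, h'⟩
      omega
  · refine lt_of_eq_of_lt (sum_prod_mul FA FA (fun a => wA S a.1 a.2)
      (fun b => wA S₂ b.1 b.2)) ?_
    refine lt_of_le_of_lt (Nat.mul_le_mul (sum_wA_le S) (sum_wA_le S₂)) ?_
    norm_num

/-- interior part of the square -/
lemma partA (hG : SG G) (S S₂ : ℕ) :
    ∑ z ∈ sec 41, (cf (NA S * NA S₂) (z.1 + z.2) z.2 : ℝ) *
        (u3 (rho ^ (z.1 + z.2)) (rho ^ z.2) 1 * gs G (rho ^ (z.1 + z.2)) (rho ^ z.2) 1) ≤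
      ∑ x ∈ sec 21, ∑ x' ∈ sec 21, (Y S x.1 x.2 : ℝ) * (Y S₂ x'.1 x'.2 *
        PP G (rho ^ (x.1 + x.2)) (rho ^ x.2) 1 (rho ^ (x'.1 + x'.2)) (rho ^ x'.2) 1) := by
  -- the families
  have hφ : Set.InjOn (fun z : Σ _ : ℕ, ℕ => (z.1 + z.2 + 40, z.2 + 40)) (sec 41) := by
    rintro ⟨k, j⟩ _ ⟨k', j'⟩ _ heq
    simp only [Prod.mk.injEq] at heq
    have : j = j' := by omega
    have : k = k' := by omega
    subst_vars
    rfl
  have h1 := fiber_le (FA ×ˢ FA) (sec 41) (fun z : Σ _ : ℕ, ℕ => (z.1 + z.2 + 40, z.2 + 40)) hφ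
    (fun x => (p1 x.1.1 x.1.2 + p1 x.2.1 x.2.2, p2 x.1.1 x.1.2 + p2 x.2.1 x.2.2))
    (fun x => wA S x.1.1 x.1.2 * wA S₂ x.2.1 x.2.2) (Hh G) (fun _ _ => hG.Hh_nonneg _)
  have h2 : ∑ z ∈ sec 41, (cf (NA S * NA S₂) (z.1 + z.2) z.2 : ℝ) *
        (u3 (rho ^ (z.1 + z.2)) (rho ^ z.2) 1 * gs G (rho ^ (z.1 + z.2)) (rho ^ z.2) 1) =
      ∑ z ∈ sec 41, ((∑ x ∈ FA ×ˢ FA with
      (p1 x.1.1 x.1.2 + p1 x.2.1 x.2.2, p2 x.1.1 x.1.2 + p2 x.2.1 x.2.2) =
        (z.1 + z.2 + 40, z.2 + 40),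
        wA S x.1.1 x.1.2 * wA S₂ x.2.1 x.2.2 : ℕ) : ℝ) * Hh G (z.1 + z.2 + 40, z.2 + 40) := by
    refine Finset.sum_congr rfl fun z hz => ?_
    have hz' := mem_sec.1 hz
    rw [cf_digit S S₂ _ _ (by omega)]
    congr 1
    unfold Hh
    have h40 : rho ^ 40 ≠ 0 := (rho_pow_pos 40).ne'
    have e1 : ∀ n : ℕ, rho ^ (n + 40) / rho ^ 40 = rho ^ n := by
      intro n; rw [pow_add, mul_div_assoc, div_self h40, mul_one]
    simp only [e1]
    rfl
  rw [h2]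
  refine h1.trans ?_
  rw [Finset.sum_product]
  unfold FA
  rw [Finset.sum_product]
  refine Finset.sum_le_sum fun x hx => ?_
  rw [Finset.sum_comm, Finset.sum_product]
  refine Finset.sum_le_sum fun x' hx' => ?_
  rw [PP_hh]
  unfold PP
  rw [gs_eq_sum, Finset.mul_sum, Finset.mul_sum]
  rw [Finset.sum_comm]
  refine Finset.sum_le_sum fun g _ => ?_
  rw [gs_eq_sum, Finset.mul_sum, Finset.mul_sum]
  refine Finset.sum_le_sum fun g' _ => ?_
  rw [hG.hh_img hx hx']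
  have a1 := wA_le S x g
  have a2 := wA_le S₂ x' g'
  have a3 := hG.Hh_nonneg (p1 x g + p1 x' g', p2 x g + p2 x' g')
  push_cast
  calc (wA S x g : ℝ) * wA S₂ x' g' * Hh G (p1 x g + p1 x' g', p2 x g + p2 x' g')
      ≤ (Y S x.1 x.2 * rho ^ tA x g) * (Y S₂ x'.1 x'.2 * rho ^ tA x' g') *
        Hh G (p1 x g + p1 x' g', p2 x g + p2 x' g') := by
        refine mul_le_mul_of_nonneg_right ?_ a3
        exact mul_le_mul a1 a2 (Nat.cast_nonneg _)
          (mul_nonneg (Nat.cast_nonneg _) (rho_pow_pos _).le)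
    _ = _ := by ring

/-! ### edges -/

/-- the family entering `2 NB + NE` -/
@[irreducible] def FC : Finset (((Σ _ : ℕ, ℕ) × Fin 6) ⊕ (ℕ × Fin 2)) := FA.disjSum FEd

def wC (S : ℕ) : ((Σ _ : ℕ, ℕ) × Fin 6) ⊕ (ℕ × Fin 2) → ℕ :=
  Sum.elim (fun a => 2 * wA S a.1 a.2) (fun b => wE S b.1 b.2)

def pC : ((Σ _ : ℕ, ℕ) × Fin 6) ⊕ (ℕ × Fin 2) → ℕ :=
  Sum.elim (fun a => p2 a.1 a.2) (fun b => pE b.1 b.2)

lemma NC_eq (S : ℕ) : 2 * NB S + NE S = ∑ c ∈ FC, wC S c * (2 ^ 120) ^ pC c := by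
  unfold FC
  rw [Finset.sum_disjSum, NB_eq, NE_eq, Finset.mul_sum]
  congr 1
  refine Finset.sum_congr rfl fun a _ => ?_
  change 2 * (wA S a.1 a.2 * (2 ^ 120) ^ p2 a.1 a.2) =
    (2 * wA S a.1 a.2) * (2 ^ 120) ^ p2 a.1 a.2
  rw [mul_assoc]

lemma cfe_digit (S m : ℕ) :
    cfe ((2 * NB S + NE S) * NE S) m = ∑ x ∈ FC ×ˢ FEd with
      pC x.1 + pE x.2.1 x.2.2 = m + 40, wC S x.1 * wE S x.2.1 x.2.2 := by
  rw [cfe_eq, NC_eq, NE_eq, sum_mul_sum_pow]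
  refine digit_sum (FC ×ˢ FEd) (fun x => wC S x.1 * wE S x.2.1 x.2.2)
    (fun x => pC x.1 + pE x.2.1 x.2.2) _ ?_ _
  refine lt_of_eq_of_lt (sum_prod_mul FC FEd (wC S) (fun b => wE S b.1 b.2)) ?_
  have h1 : ∑ c ∈ FC, wC S c ≤ 2 * (1386 * 2 ^ 47) + 42 * 2 ^ 47 := by
    unfold FC
    rw [Finset.sum_disjSum]
    refine add_le_add ?_ (sum_wE_le S)
    change ∑ a ∈ FA, 2 * wA S a.1 a.2 ≤ _
    rw [← Finset.mul_sum]
    exact Nat.mul_le_mul_left _ (sum_wA_le S)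
  refine lt_of_le_of_lt (Nat.mul_le_mul h1 (sum_wE_le S)) ?_
  norm_num

lemma u3_smul_right (a b c : ℝ) {t : ℝ} (ht : 0 < t) : u3 (t * a) (t * b) (t * c) = u3 a b c :=
  u3_smul ht a b c

/-- images of an edge vector with first coordinate zero -/
lemma edge_img {k : ℕ} (hk : k < 21) (g : Fin 2) :
    (![![0, rho ^ k, 1], ![0, 1, rho ^ k]] : Fin 2 → Fin 3 → ℝ) g =
      ![0, rho ^ tE k g * (rho ^ pE k g / rho ^ 20), rho ^ tE k g] := by
  fin_cases g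
  · change ![0, rho ^ k, 1] = ![0, rho ^ 0 * (rho ^ (k + 20) / rho ^ 20), rho ^ 0]
    rw [pw_id (c := k) (by omega), pow_zero]
  · change ![0, 1, rho ^ k] = ![0, rho ^ k * (rho ^ (20 - k) / rho ^ 20), rho ^ k]
    rw [pw_id (c := 0) (by omega), pow_zero]

/-- lower bound for the symmetrisation over an edge vector -/
lemma gs_edge_ge {F : (Fin 3 → ℝ) → ℝ} (hF : ∀ v : Fin 3 → ℝ, (∀ i, 0 ≤ v i) → 0 ≤ F v) {k : ℕ} :
    ∑ g : Fin 2, F ((![![0, rho ^ k, 1], ![0, 1, rho ^ k]] : Fin 2 → Fin 3 → ℝ) g) ≤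
      gs F (rho ^ k) 1 0 := by
  rw [Fin.sum_univ_two]
  have h := (rho_pow_pos k).le
  have h1 := hF _ (nn3 h zero_le_one le_rfl)
  have h2 := hF _ (nn3 zero_le_one h le_rfl)
  have h3 := hF _ (nn3 h le_rfl zero_le_one)
  have h5 := hF _ (nn3 zero_le_one le_rfl h)
  unfold gs
  change F ![0, rho ^ k, 1] + F ![0, 1, rho ^ k] ≤ _
  linarith

lemma hh'_nn (hG : SG G) (v : Fin 3 → ℝ) (hv : ∀ i, 0 ≤ v i) : 0 ≤ hh' G v :=
  mul_nonneg (u3_nonneg _ _ _) (hG.gs_nonneg (hv 0) (hv 1) (hv 2))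

lemma SG.hh'_pos (h : SG G) (a b c d : ℕ) (x : ℝ) :
    hh' G (fun i => ![x, rho ^ a * (rho ^ b / rho ^ 20), rho ^ a] i *
      ![0, rho ^ c * (rho ^ d / rho ^ 20), rho ^ c] i) = rho ^ a * rho ^ c * He G (b + d) := by
  rw [mul_vec, pos_mul, mul_zero]
  have hc : 0 < rho ^ a * rho ^ c := mul_pos (rho_pow_pos _) (rho_pow_pos _)
  have := h.hh'_hom (x := 0) (y := rho ^ (b + d) / rho ^ 40) (z := 1) hc le_rfl
    (div_pow_nonneg _ _) zero_le_one
  rw [mul_one, mul_zero] at this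
  exact this

/-- interior vector times edge vector -/
lemma PP_int_edge (hG : SG G) (S : ℕ) {x : Σ _ : ℕ, ℕ} (hx : x ∈ sec 21) {k : ℕ} (hk : k < 21) :
    ∑ g : Fin 6, ∑ g' : Fin 2, (wA S x g : ℝ) * (wE S k g' * He G (p2 x g + pE k g')) ≤
      (Y S x.1 x.2 : ℝ) * (E S k * PP G (rho ^ (x.1 + x.2)) (rho ^ x.2) 1 (rho ^ k) 1 0) := by
  rw [PP_hh']
  unfold PP
  rw [gs_eq_sum, Finset.mul_sum, Finset.mul_sum]
  refine Finset.sum_le_sum fun g _ => ?_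
  have hu : ∀ i, 0 ≤ img (rho ^ (x.1 + x.2)) (rho ^ x.2) 1 g i := by
    rw [img_eq hx]
    exact nn3 (mul_nonneg (rho_pow_pos _).le (div_pow_nonneg _ _))
      (mul_nonneg (rho_pow_pos _).le (div_pow_nonneg _ _)) (rho_pow_pos _).le
  have h1 := gs_edge_ge (F := fun v => hh' G (fun i => img (rho ^ (x.1 + x.2)) (rho ^ x.2) 1 g i *
    v i)) (k := k) (fun v hv => hh'_nn hG _ fun i => mul_nonneg (hu i) (hv i))
  have h2 : ∑ g' : Fin 2, (wA S x g : ℝ) * (wE S k g' * He G (p2 x g + pE k g')) ≤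
      (Y S x.1 x.2 : ℝ) * (E S k * ∑ g' : Fin 2, hh' G (fun i =>
        img (rho ^ (x.1 + x.2)) (rho ^ x.2) 1 g i *
        (![![0, rho ^ k, 1], ![0, 1, rho ^ k]] : Fin 2 → Fin 3 → ℝ) g' i)) := by
    rw [Finset.mul_sum, Finset.mul_sum]
    refine Finset.sum_le_sum fun g' _ => ?_
    rw [edge_img hk, img_eq hx, hG.hh'_pos]
    have a1 := wA_le S x g
    have a2 := wE_le S k g'
    have a3 := hG.He_nonneg (p2 x g + pE k g')
    calc (wA S x g : ℝ) * (wE S k g' * He G (p2 x g + pE k g'))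
        = ((wA S x g : ℝ) * wE S k g') * He G (p2 x g + pE k g') := by ring
      _ ≤ ((Y S x.1 x.2 * rho ^ tA x g) * (E S k * rho ^ tE k g')) *
          He G (p2 x g + pE k g') := by
          refine mul_le_mul_of_nonneg_right ?_ a3
          exact mul_le_mul a1 a2 (Nat.cast_nonneg _)
            (mul_nonneg (Nat.cast_nonneg _) (rho_pow_pos _).le)
      _ = _ := by ring
  refine h2.trans ?_
  exact mul_le_mul_of_nonneg_left (mul_le_mul_of_nonneg_left h1 (Nat.cast_nonneg _))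
    (Nat.cast_nonneg _)

/-- edge vector times edge vector -/
lemma PP_edge_edge (hG : SG G) (S : ℕ) {k l : ℕ} (hk : k < 21) (hl : l < 21) :
    ∑ g : Fin 2, ∑ g' : Fin 2, (wE S k g : ℝ) * (wE S l g' * He G (pE k g + pE l g')) ≤
      (E S k : ℝ) * (E S l * PP G (rho ^ k) 1 0 (rho ^ l) 1 0) := by
  rw [PP_hh']
  unfold PP
  have hnn : ∀ u : Fin 3 → ℝ, (∀ i, 0 ≤ u i) →
      ∀ v : Fin 3 → ℝ, (∀ i, 0 ≤ v i) → 0 ≤ hh' G (fun i => u i * v i) :=
    fun u hu v hv => hh'_nn hG _ fun i => mul_nonneg (hu i) (hv i)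
  have h0 := gs_edge_ge (F := fun u => gs (fun v => hh' G (fun i => u i * v i)) (rho ^ l) 1 0)
    (k := k) (fun u hu => by
      have h := (rho_pow_pos l).le
      have h1 := hnn u hu _ (nn3 h zero_le_one le_rfl)
      have h2 := hnn u hu _ (nn3 zero_le_one h le_rfl)
      have h3 := hnn u hu _ (nn3 h le_rfl zero_le_one)
      have h4 := hnn u hu _ (nn3 le_rfl h zero_le_one)
      have h5 := hnn u hu _ (nn3 zero_le_one le_rfl h)
      have h6 := hnn u hu _ (nn3 le_rfl zero_le_one h)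
      unfold gs
      linarith)
  refine le_trans ?_ (mul_le_mul_of_nonneg_left (mul_le_mul_of_nonneg_left h0
    (Nat.cast_nonneg _)) (Nat.cast_nonneg _))
  rw [Finset.mul_sum, Finset.mul_sum]
  refine Finset.sum_le_sum fun g _ => ?_
  have hu : ∀ i, 0 ≤ (![![0, rho ^ k, 1], ![0, 1, rho ^ k]] : Fin 2 → Fin 3 → ℝ) g i := by
    rw [edge_img hk]
    exact nn3 le_rfl (mul_nonneg (rho_pow_pos _).le (div_pow_nonneg _ _)) (rho_pow_pos _).le
  have h1 := gs_edge_ge (F := fun v => hh' G (fun i =>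
    (![![0, rho ^ k, 1], ![0, 1, rho ^ k]] : Fin 2 → Fin 3 → ℝ) g i * v i)) (k := l)
    (fun v hv => hnn _ hu v hv)
  refine le_trans ?_ (mul_le_mul_of_nonneg_left (mul_le_mul_of_nonneg_left h1
    (Nat.cast_nonneg _)) (Nat.cast_nonneg _))
  rw [Finset.mul_sum, Finset.mul_sum]
  refine Finset.sum_le_sum fun g' _ => ?_
  rw [edge_img hk, edge_img hl, hG.hh'_pos]
  have a1 := wE_le S k g
  have a2 := wE_le S l g'
  have a3 := hG.He_nonneg (pE k g + pE l g')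
  calc (wE S k g : ℝ) * (wE S l g' * He G (pE k g + pE l g'))
      = ((wE S k g : ℝ) * wE S l g') * He G (pE k g + pE l g') := by ring
    _ ≤ ((E S k * rho ^ tE k g) * (E S l * rho ^ tE l g')) * He G (pE k g + pE l g') := by
        refine mul_le_mul_of_nonneg_right ?_ a3
        exact mul_le_mul a1 a2 (Nat.cast_nonneg _)
          (mul_nonneg (Nat.cast_nonneg _) (rho_pow_pos _).le)
    _ = _ := by ring

lemma partB (hG : SG G) (S : ℕ) :
    ∑ m ∈ Finset.range 41, (cfe ((2 * NB S + NE S) * NE S) m : ℝ) *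
        (u3 (rho ^ m) 1 0 * gs G (rho ^ m) 1 0) ≤
      2 * (∑ x ∈ sec 21, ∑ k ∈ Finset.range 21, (Y S x.1 x.2 : ℝ) * (E S k *
        PP G (rho ^ (x.1 + x.2)) (rho ^ x.2) 1 (rho ^ k) 1 0)) +
      ∑ k ∈ Finset.range 21, ∑ l ∈ Finset.range 21, (E S k : ℝ) * (E S l *
        PP G (rho ^ k) 1 0 (rho ^ l) 1 0) := by
  have hφ : Set.InjOn (fun z : ℕ => z + 40) (Finset.range 41) := by
    intro a _ b _ h
    simpa using h
  have h1 := fiber_le (FC ×ˢ FEd) (Finset.range 41) (fun z : ℕ => z + 40) hφ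
    (fun x => pC x.1 + pE x.2.1 x.2.2) (fun x => wC S x.1 * wE S x.2.1 x.2.2) (He G)
    (fun _ _ => hG.He_nonneg _)
  simp only [← cfe_digit] at h1
  have h2 : ∀ m ∈ Finset.range 41, (cfe ((2 * NB S + NE S) * NE S) m : ℝ) *
        (u3 (rho ^ m) 1 0 * gs G (rho ^ m) 1 0) =
      (cfe ((2 * NB S + NE S) * NE S) m : ℝ) * He G (m + 40) := by
    intro m _
    congr 1
    have h40 : rho ^ 40 ≠ 0 := (rho_pow_pos 40).ne'
    have e1 : rho ^ (m + 40) / rho ^ 40 = rho ^ m := by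
      rw [pow_add, mul_div_assoc, div_self h40, mul_one]
    unfold He
    rw [e1]
    change _ = u3 (rho ^ m) 1 0 * gs G 0 (rho ^ m) 1
    rw [gs_swap01 G (rho ^ m) 0 1, gs_swap12 G (rho ^ m) 1 0]
  rw [Finset.sum_congr rfl h2]
  refine h1.trans ?_
  rw [Finset.sum_product]
  unfold FC
  rw [Finset.sum_disjSum]
  refine add_le_add ?_ ?_
  · unfold FA
    rw [Finset.sum_product, Finset.mul_sum]
    refine Finset.sum_le_sum fun x hx => ?_
    unfold FEd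
    rw [Finset.mul_sum]
    have h3 : ∀ g : Fin 6, ∑ b ∈ Finset.range 21 ×ˢ (Finset.univ : Finset (Fin 2)),
        ((wC S (Sum.inl (x, g)) * wE S b.1 b.2 : ℕ) : ℝ) * He G (pC (Sum.inl (x, g)) + pE b.1 b.2) =
        ∑ k ∈ Finset.range 21, 2 * ∑ g' : Fin 2,
          (wA S x g : ℝ) * (wE S k g' * He G (p2 x g + pE k g')) := by
      intro g
      rw [Finset.sum_product]
      refine Finset.sum_congr rfl fun k _ => ?_
      rw [Finset.mul_sum]
      refine Finset.sum_congr rfl fun g' _ => ?_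
      change ((2 * wA S x g * wE S k g' : ℕ) : ℝ) * He G (p2 x g + pE k g') = _
      push_cast
      ring
    rw [Finset.sum_congr rfl fun g _ => h3 g, Finset.sum_comm]
    refine Finset.sum_le_sum fun k hk => ?_
    rw [← Finset.mul_sum]
    exact mul_le_mul_of_nonneg_left (PP_int_edge hG S hx (Finset.mem_range.1 hk)) (by norm_num)
  · unfold FEd
    rw [Finset.sum_product]
    refine Finset.sum_le_sum fun k hk => ?_
    have h3 : ∀ g : Fin 2, ∑ b ∈ Finset.range 21 ×ˢ (Finset.univ : Finset (Fin 2)),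
        ((wC S (Sum.inr (k, g)) * wE S b.1 b.2 : ℕ) : ℝ) * He G (pC (Sum.inr (k, g)) + pE b.1 b.2) =
        ∑ l ∈ Finset.range 21, ∑ g' : Fin 2,
          (wE S k g : ℝ) * (wE S l g' * He G (pE k g + pE l g')) := by
      intro g
      rw [Finset.sum_product]
      refine Finset.sum_congr rfl fun l _ => ?_
      refine Finset.sum_congr rfl fun g' _ => ?_
      change ((wE S k g * wE S l g' : ℕ) : ℝ) * He G (pE k g + pE l g') = _
      push_cast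
      ring
    rw [Finset.sum_congr rfl fun g _ => h3 g, Finset.sum_comm]
    refine Finset.sum_le_sum fun l hl => ?_
    exact PP_edge_edge hG S (Finset.mem_range.1 hk) (Finset.mem_range.1 hl)

end Crest.Agent.R163.DE
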