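import Crest.Agent.R163.DE5

/-!
Row 163, density evolution: soundness of the check of a squaring step, conclusion.
-/

set_option autoImplicit false

namespace Crest.Agent.R163.DE

open Crest.Agent.R163

variable {G : (Fin 3 → ℝ) → ℝ}

/-- interior value -/
noncomputable def gI (G : (Fin 3 → ℝ) → ℝ) (a b : ℕ) : ℝ := gs G (rho ^ a) (rho ^ b) 1

/-- edge value -/
noncomputable def gE (G : (Fin 3 → ℝ) → ℝ) (k : ℕ) : ℝ := gs G (rho ^ k) 1 0

lemma SG.gI_nonneg (h : SG G) (a b : ℕ) : 0 ≤ gI G a b :=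
  h.gs_nonneg (rho_pow_pos _).le (rho_pow_pos _).le zero_le_one

lemma SG.gE_nonneg (h : SG G) (k : ℕ) : 0 ≤ gE G k :=
  h.gs_nonneg (rho_pow_pos _).le zero_le_one le_rfl

lemma SG.gE_mono (h : SG G) {k l : ℕ} (hkl : k ≤ l) : gE G k ≤ gE G l := by
  refine h.gs_mono (rho_pow_pos _).le zero_le_one le_rfl ?_ le_rfl le_rfl
  exact pow_le_pow_right₀ (by unfold rho; norm_num) hkl

lemma rho_gt : 1 < rho := by unfold rho; norm_num

/-- far vectors, ratio in range -/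
lemma SG.far1 (h : SG G) {k q : ℕ} (hk : k ≤ 20) :
    gI G 20 (20 - k) + (rho ^ (21 - k + q) - rho ^ (20 - k)) * gE G k ≤
      gI G (k + (21 - k + q)) (21 - k + q) := by
  have h1 : 0 ≤ rho ^ (21 - k + q) - rho ^ (20 - k) :=
    sub_nonneg.2 (pow_le_pow_right₀ rho_gt.le (by omega))
  have hp : ∀ n, 0 ≤ rho ^ n := fun n => (rho_pow_pos n).le
  unfold gI gE
  rw [← h.gs_hom h1 (hp k) zero_le_one le_rfl]
  have h2 := h.gs_sup (hp 20) (hp (20 - k)) zero_le_one (mul_nonneg h1 (hp k))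
    (mul_nonneg h1 zero_le_one) (mul_nonneg h1 le_rfl)
  refine h2.trans (le_of_eq ?_)
  congr 1
  · have e1 : rho ^ (k + (21 - k + q)) = rho ^ (21 - k + q) * rho ^ k := by
      rw [← pow_add]; congr 1; omega
    have e2 : rho ^ 20 = rho ^ (20 - k) * rho ^ k := by
      rw [← pow_add]; congr 1; omega
    rw [e1, e2]; ring
  · ring
  · ring

/-- far vectors, large ratio -/
lemma SG.far2 (h : SG G) (k q : ℕ) :
    gI G 20 0 + (rho ^ q - 1) * gE G 20 ≤ gI G (21 + k + q) q := by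
  have h1 : 0 ≤ rho ^ q - 1 := sub_nonneg.2 (one_le_rho_pow q)
  have hp : ∀ n, 0 ≤ rho ^ n := fun n => (rho_pow_pos n).le
  unfold gI gE
  rw [← h.gs_hom h1 (hp 20) zero_le_one le_rfl]
  have h2 := h.gs_sup (hp 20) (hp 0) zero_le_one (mul_nonneg h1 (hp 20))
    (mul_nonneg h1 zero_le_one) (mul_nonneg h1 le_rfl)
  refine h2.trans (h.gs_mono ?_ ?_ ?_ ?_ ?_ ?_)
  · exact add_nonneg (hp _) (mul_nonneg h1 (hp _))
  · exact add_nonneg (hp _) (mul_nonneg h1 zero_le_one)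
  · norm_num
  · have e1 : rho ^ 20 + (rho ^ q - 1) * rho ^ 20 = rho ^ (20 + q) := by rw [pow_add]; ring
    rw [e1]
    exact pow_le_pow_right₀ rho_gt.le (by omega)
  · rw [pow_zero]; linarith
  · norm_num

lemma exc_cast_le {c q m : ℕ} (hm : m ≤ q) : (exc c q m : ℝ) ≤ c * (rho ^ q - rho ^ m) := by
  have h1 : exc c q m = c * (5 ^ q - 5 ^ m * 4 ^ (q - m)) / 4 ^ q := by
    unfold exc
    have : Nat.shiftRight (Nat.mul c (Nat.sub (Nat.pow 5 q) (Nat.mul (Nat.pow 5 m)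
      (Nat.pow 4 (Nat.sub q m))))) (Nat.mul 2 q) =
        c * (5 ^ q - 5 ^ m * 4 ^ (q - m)) / 2 ^ (2 * q) := Nat.shiftRight_eq_div_pow _ _
    rw [this, pow_mul]
    norm_num
  rw [h1]
  refine Nat.cast_div_le.trans ?_
  have h2 : 5 ^ m * 4 ^ (q - m) ≤ 5 ^ q := by
    calc 5 ^ m * 4 ^ (q - m) ≤ 5 ^ m * 5 ^ (q - m) :=
          Nat.mul_le_mul_left _ (Nat.pow_le_pow_left (by norm_num) _)
      _ = 5 ^ q := by rw [← pow_add]; congr 1; omega
  rw [Nat.cast_mul, Nat.cast_sub h2]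
  push_cast
  rw [mul_div_assoc]
  refine le_of_eq ?_
  congr 1
  unfold rho
  rw [div_pow, div_pow, sub_div, pow_sub₀ _ (by norm_num : (4 : ℝ) ≠ 0) hm]
  congr 1
  field_simp

lemma mlt_cast (k j : ℕ) : (mlt k j : ℝ) = 6 * u3 (rho ^ (k + j)) (rho ^ j) 1 := by
  have hp : ∀ n, 0 < rho ^ n := rho_pow_pos
  have h1 : (1 : ℝ) ≤ rho ^ j := one_le_rho_pow j
  have h2 : rho ^ j ≤ rho ^ (k + j) := pow_le_pow_right₀ rho_gt.le (by omega)
  unfold u3
  rw [if_pos ⟨h1, h2⟩]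
  have h3 : rho ^ j = 1 ↔ j = 0 := by
    constructor
    · intro h
      by_contra hj
      have := one_lt_pow₀ rho_gt hj
      linarith
    · rintro rfl; exact pow_zero _
  have h4 : rho ^ (k + j) = rho ^ j ↔ k = 0 := by
    constructor
    · intro h
      by_contra hk
      have : rho ^ j < rho ^ (k + j) := pow_lt_pow_right₀ rho_gt (by omega)
      linarith
    · rintro rfl; rw [zero_add]
  rcases Nat.eq_zero_or_pos k with hk | hk
  · rw [if_pos (h4.2 hk)]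
    subst hk
    rcases Nat.eq_zero_or_pos j with hj | hj
    · rw [if_pos (h3.2 hj)]
      subst hj
      change ((1 : ℕ) : ℝ) = _
      norm_num
    · rw [if_neg (fun h => by have := h3.1 h; omega)]
      obtain ⟨j', rfl⟩ := Nat.exists_eq_succ_of_ne_zero hj.ne'
      change ((3 : ℕ) : ℝ) = _
      norm_num
  · rw [if_neg (fun h => by have := h4.1 h; omega)]
    obtain ⟨k', rfl⟩ := Nat.exists_eq_succ_of_ne_zero hk.ne'
    rcases Nat.eq_zero_or_pos j with hj | hj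
    · rw [if_pos (h3.2 hj)]
      subst hj
      change ((3 : ℕ) : ℝ) = _
      norm_num
    · rw [if_neg (fun h => by have := h3.1 h; omega)]
      obtain ⟨j', rfl⟩ := Nat.exists_eq_succ_of_ne_zero hj.ne'
      change ((6 : ℕ) : ℝ) = _
      norm_num

lemma mlte_cast (m : ℕ) : (mlte m : ℝ) = 6 * u3 (rho ^ m) 1 0 := by
  have h1 : (1 : ℝ) ≤ rho ^ m := one_le_rho_pow m
  unfold u3
  rw [if_pos ⟨zero_le_one, h1⟩]
  rcases Nat.eq_zero_or_pos m with hm | hm
  · subst hm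
    rw [pow_zero, if_pos rfl, if_neg one_ne_zero]
    change ((3 : ℕ) : ℝ) = _
    norm_num
  · have := one_lt_pow₀ rho_gt hm.ne'
    rw [if_neg (by linarith), if_neg one_ne_zero]
    obtain ⟨m', rfl⟩ := Nat.exists_eq_succ_of_ne_zero hm.ne'
    change ((6 : ℕ) : ℝ) = _
    norm_num

lemma Uf_sec (y : ℕ → ℕ → ℕ) (e : ℕ → ℕ) (F : (Fin 3 → ℝ) → ℝ) :
    Uf y e F = ∑ x ∈ sec 21, (y x.1 x.2 : ℝ) * gs F (rho ^ (x.1 + x.2)) (rho ^ x.2) 1 +
      ∑ k ∈ Finset.range 21, (e k : ℝ) * gs F (rho ^ k) 1 0 := by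
  unfold Uf
  rw [sum_sec 21 (fun k j => (y k j : ℝ) * gs F (rho ^ (k + j)) (rho ^ j) 1)]

/-- expansion of the double functional -/
lemma UU_eq (S S₂ : ℕ) :
    Uf (Y S) (E S) (fun u => Uf (Y S₂) (E S₂) (fun v => G (fun i => u i * v i))) =
      ∑ x ∈ sec 21, ∑ x' ∈ sec 21, (Y S x.1 x.2 : ℝ) * (Y S₂ x'.1 x'.2 *
        PP G (rho ^ (x.1 + x.2)) (rho ^ x.2) 1 (rho ^ (x'.1 + x'.2)) (rho ^ x'.2) 1) +
      ∑ x ∈ sec 21, ∑ k ∈ Finset.range 21, (Y S x.1 x.2 : ℝ) * (E S₂ k *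
        PP G (rho ^ (x.1 + x.2)) (rho ^ x.2) 1 (rho ^ k) 1 0) +
      (∑ k ∈ Finset.range 21, ∑ x ∈ sec 21, (E S k : ℝ) * (Y S₂ x.1 x.2 *
        PP G (rho ^ k) 1 0 (rho ^ (x.1 + x.2)) (rho ^ x.2) 1) +
      ∑ k ∈ Finset.range 21, ∑ l ∈ Finset.range 21, (E S k : ℝ) * (E S₂ l *
        PP G (rho ^ k) 1 0 (rho ^ l) 1 0)) := by
  have hlin : ∀ (x y z : ℝ), gs (fun u => Uf (Y S₂) (E S₂) (fun v => G (fun i => u i * v i))) x y z =
      ∑ x' ∈ sec 21, (Y S₂ x'.1 x'.2 : ℝ) *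
        PP G x y z (rho ^ (x'.1 + x'.2)) (rho ^ x'.2) 1 +
      ∑ k ∈ Finset.range 21, (E S₂ k : ℝ) * PP G x y z (rho ^ k) 1 0 := by
    intro x y z
    have e : ∀ u : Fin 3 → ℝ, Uf (Y S₂) (E S₂) (fun v => G (fun i => u i * v i)) =
        ∑ x' ∈ sec 21, (Y S₂ x'.1 x'.2 : ℝ) * gs (fun v => G (fun i => u i * v i))
          (rho ^ (x'.1 + x'.2)) (rho ^ x'.2) 1 +
        ∑ k ∈ Finset.range 21, (E S₂ k : ℝ) * gs (fun v => G (fun i => u i * v i)) (rho ^ k) 1 0 := by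
      intro u
      exact Uf_sec _ _ _
    rw [gs_eq_sum]
    simp only [e]
    rw [Finset.sum_add_distrib, Finset.sum_comm, Finset.sum_comm (s := Finset.univ)
      (t := Finset.range 21)]
    congr 1
    · refine Finset.sum_congr rfl fun x' _ => ?_
      unfold PP
      rw [gs_eq_sum (fun u => gs (fun v => G fun i => u i * v i) _ _ _), Finset.mul_sum]
    · refine Finset.sum_congr rfl fun x' _ => ?_
      unfold PP
      rw [gs_eq_sum (fun u => gs (fun v => G fun i => u i * v i) _ _ _), Finset.mul_sum]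
  rw [Uf_sec (Y S) (E S)]
  simp only [hlin]
  simp only [mul_add, Finset.sum_add_distrib, Finset.mul_sum]

/-- the main inequality behind a squaring check -/
lemma main_ineq (hG : SG G) (S : ℕ) :
    ∑ z ∈ sec 41, (mC (NA S * NA S) z.1 z.2 : ℝ) * gI G (z.1 + z.2) z.2 +
    ∑ m ∈ Finset.range 41, (mlte m * cfe ((2 * NB S + NE S) * NE S) m : ℝ) * gE G m ≤
      6 * Uf (Y S) (E S) (fun u => Uf (Y S) (E S) (fun v => G (fun i => u i * v i))) := by
  rw [UU_eq]
  have h1 := partA hG S S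
  have h2 := partB hG S
  have h3 : ∑ k ∈ Finset.range 21, ∑ x ∈ sec 21, (E S k : ℝ) * (Y S x.1 x.2 *
        PP G (rho ^ k) 1 0 (rho ^ (x.1 + x.2)) (rho ^ x.2) 1) =
      ∑ x ∈ sec 21, ∑ k ∈ Finset.range 21, (Y S x.1 x.2 : ℝ) * (E S k *
        PP G (rho ^ (x.1 + x.2)) (rho ^ x.2) 1 (rho ^ k) 1 0) := by
    rw [Finset.sum_comm]
    refine Finset.sum_congr rfl fun x _ => Finset.sum_congr rfl fun k _ => ?_
    rw [PP_comm]; ring
  rw [h3]
  have h4 : ∑ z ∈ sec 41, (mC (NA S * NA S) z.1 z.2 : ℝ) * gI G (z.1 + z.2) z.2 =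
      6 * ∑ z ∈ sec 41, (cf (NA S * NA S) (z.1 + z.2) z.2 : ℝ) *
        (u3 (rho ^ (z.1 + z.2)) (rho ^ z.2) 1 * gs G (rho ^ (z.1 + z.2)) (rho ^ z.2) 1) := by
    rw [Finset.mul_sum]
    refine Finset.sum_congr rfl fun z _ => ?_
    have e : mC (NA S * NA S) z.1 z.2 = mlt z.1 z.2 * cf (NA S * NA S) (z.1 + z.2) z.2 := rfl
    rw [e, Nat.cast_mul, mlt_cast]
    unfold gI
    ring
  have h5 : ∑ m ∈ Finset.range 41, (mlte m * cfe ((2 * NB S + NE S) * NE S) m : ℝ) * gE G m =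
      6 * ∑ m ∈ Finset.range 41, (cfe ((2 * NB S + NE S) * NE S) m : ℝ) *
        (u3 (rho ^ m) 1 0 * gs G (rho ^ m) 1 0) := by
    rw [Finset.mul_sum]
    refine Finset.sum_congr rfl fun m _ => ?_
    rw [mlte_cast]
    unfold gE
    ring
  rw [h4, h5]
  linarith

lemma sum_add_range (f : ℕ → ℝ) (n m : ℕ) :
    ∑ x ∈ Finset.range (n + m), f x = ∑ x ∈ Finset.range n, f x + ∑ x ∈ Finset.range m, f (n + x) := by
  rw [Finset.sum_range_add]

/-- rearrangement with far vectors split -/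
lemma split_far (hG : SG G) (N : ℕ) :
    ∑ k ∈ Finset.range 21, (∑ j ∈ Finset.range (20 - k), (mC N k j : ℝ) * gI G (k + j) j +
      ((mC N k (20 - k) : ℝ) + FI N k) * gI G 20 (20 - k) + FE N k * gE G k) +
      GI N * gI G 20 0 + GE N * gE G 20 ≤
    ∑ z ∈ sec 41, (mC N z.1 z.2 : ℝ) * gI G (z.1 + z.2) z.2 := by
  rw [← sum_sec 41 (fun k j => (mC N k j : ℝ) * gI G (k + j) j)]
  rw [show (41 : ℕ) = 21 + 20 by norm_num, sum_add_range _ 21 20, add_assoc]
  refine add_le_add (Finset.sum_le_sum fun k hk => ?_) ?_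
  · have hk' := Finset.mem_range.1 hk
    rw [show 21 + 20 - k = (20 - k + 1) + 20 by omega, sum_add_range _ (20 - k + 1) 20,
      Finset.sum_range_succ]
    have e0 : k + (20 - k) = 20 := by omega
    rw [e0, add_mul, add_assoc, add_assoc, add_assoc]
    refine add_le_add le_rfl (add_le_add le_rfl ?_)
    have e1 : (FI N k : ℝ) = ∑ q ∈ Finset.range 20, (mC N k (21 - k + q) : ℝ) := by
      unfold FI
      rw [ksum_eq]
      push_cast
      rfl
    have e2 : (FE N k : ℝ) ≤ ∑ q ∈ Finset.range 20, (mC N k (21 - k + q) : ℝ) *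
        (rho ^ (21 - k + q) - rho ^ (20 - k)) := by
      unfold FE
      rw [ksum_eq]
      push_cast
      refine Finset.sum_le_sum fun q _ => ?_
      exact exc_cast_le (c := mC N k (21 - k + q)) (q := 21 - k + q) (m := 20 - k) (by omega)
    have e3 := mul_le_mul_of_nonneg_right e2 (hG.gE_nonneg k)
    rw [e1]
    refine (add_le_add le_rfl e3).trans ?_
    rw [Finset.sum_mul, Finset.sum_mul, ← Finset.sum_add_distrib]
    refine Finset.sum_le_sum fun q _ => ?_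
    have h := mul_le_mul_of_nonneg_left (hG.far1 (k := k) (q := q) (by omega))
      (Nat.cast_nonneg (α := ℝ) (mC N k (21 - k + q)))
    have e4 : 20 - k + 1 + q = 21 - k + q := by omega
    rw [e4]
    refine le_trans (le_of_eq ?_) h
    ring
  · have e1 : (GI N : ℝ) = ∑ k ∈ Finset.range 20, ∑ q ∈ Finset.range (20 - k),
        (mC N (21 + k) q : ℝ) := by
      unfold GI
      simp only [ksum_eq]
      push_cast
      rfl
    have e2 : (GE N : ℝ) ≤ ∑ k ∈ Finset.range 20, ∑ q ∈ Finset.range (20 - k),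
        (mC N (21 + k) q : ℝ) * (rho ^ q - 1) := by
      unfold GE
      simp only [ksum_eq]
      push_cast
      refine Finset.sum_le_sum fun k _ => Finset.sum_le_sum fun q _ => ?_
      have := exc_cast_le (c := mC N (21 + k) q) (q := q) (m := 0) (Nat.zero_le _)
      rw [pow_zero] at this
      exact this
    have e3 := mul_le_mul_of_nonneg_right e2 (hG.gE_nonneg 20)
    rw [e1]
    refine (add_le_add le_rfl e3).trans ?_
    rw [Finset.sum_mul, Finset.sum_mul, ← Finset.sum_add_distrib]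
    refine Finset.sum_le_sum fun k hk => ?_
    have hk' := Finset.mem_range.1 hk
    rw [show 21 + 20 - (21 + k) = 20 - k by omega, Finset.sum_mul, Finset.sum_mul,
      ← Finset.sum_add_distrib]
    refine Finset.sum_le_sum fun q _ => ?_
    have h := mul_le_mul_of_nonneg_left (hG.far2 k q)
      (Nat.cast_nonneg (α := ℝ) (mC N (21 + k) q))
    refine le_trans (le_of_eq ?_) h
    ring

lemma split_edge (hG : SG G) (N : ℕ) :
    ∑ m ∈ Finset.range 20, (mlte m * cfe N m : ℝ) * gE G m +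
      6 * (∑ m ∈ Finset.range 21, (cfe N (20 + m) : ℝ)) * gE G 20 ≤
    ∑ m ∈ Finset.range 41, (mlte m * cfe N m : ℝ) * gE G m := by
  rw [show (41 : ℕ) = 20 + 21 by norm_num, sum_add_range _ 20 21]
  refine add_le_add le_rfl ?_
  rw [Finset.mul_sum, Finset.sum_mul]
  refine Finset.sum_le_sum fun m _ => ?_
  have e : mlte (20 + m) = 6 := by
    rw [add_comm]; rfl
  rw [e]
  refine mul_le_mul_of_nonneg_left (hG.gE_mono (by omega)) (by positivity)

theorem chkSq_sound {Ω₁ Ω₂ : Type*} {L₁ : Ω₁ → Fin 3 → ℝ} {L₂ : Ω₂ → Fin 3 → ℝ}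
    (hL₁ : IsChan L₁) (hL₂ : IsChan L₂) {S S' : ℕ} (h : chkSq S S' = true)
    (h₁ : LB L₁ (Y S) (E S)) (h₂ : LB L₂ (Y S) (E S)) :
    LB (mrg L₁ L₂) (Y S') (E S') := by
  intro G hG
  have hm := main_ineq hG S
  have hJ := h₁.mrg hL₁ hL₂ h₂ hG
  have e0 : chkSq S S' = chkSq2 (NA S * NA S) ((2 * NB S + NE S) * NE S) S' := rfl
  rw [e0] at h
  set N := NA S * NA S with hN
  set M := (2 * NB S + NE S) * NE S with hM
  clear_value N M
  have s1 := split_far hG N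
  have s2 := split_edge hG M
  unfold chkSq2 at h
  rw [Bool.and_eq_true, Bool.and_eq_true, kall_iff] at h
  obtain ⟨c1, c2, c3⟩ := h
  have c1' : ∀ k, k < 20 → (∀ j, j < 20 - k → (c0 * Y S' k j : ℕ) ≤ mC N k j) ∧
      (c0 * Y S' k (20 - k) ≤ mC N k (20 - k) + FI N k) ∧
      (c0 * E S' k ≤ FE N k + mlte k * cfe M k) := by
    intro k hk
    have h3 := c1 k hk
    rw [Bool.and_eq_true, Bool.and_eq_true, kall_iff] at h3
    obtain ⟨a1, a2, a3⟩ := h3
    refine ⟨fun j hj => Nat.le_of_ble_eq_true (a1 j hj), ?_, Nat.le_of_ble_eq_true a3⟩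
    have a2' := Nat.le_of_ble_eq_true a2
    have e : Y S' k (20 - k) = dig S' (idx 20 (Nat.sub 20 k)) := by
      unfold Y
      have : k + (20 - k) = 20 := by omega
      rw [this]
      rfl
    rw [e]
    exact a2'
  have c2' : c0 * Y S' 20 0 ≤ mC N 20 0 + (FI N 20 + GI N) := Nat.le_of_ble_eq_true c2
  have c3' : c0 * E S' 20 ≤ (FE N 20 + GE N) + 6 * ksum 21 (fun m => cfe M (20 + m)) :=
    Nat.le_of_ble_eq_true c3
  rw [ksum_eq] at c3'
  -- real versions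
  have hc0 : (c0 : ℝ) = 6 * 2 ^ 36 := by unfold c0; norm_num
  have r2 : (6 * 2 ^ 36 : ℝ) * Y S' 20 0 ≤ mC N 20 0 + (FI N 20 + GI N) := by
    rw [← hc0]; exact_mod_cast c2'
  have r3 : (6 * 2 ^ 36 : ℝ) * E S' 20 ≤ (FE N 20 + GE N) +
      6 * ∑ m ∈ Finset.range 21, (cfe M (20 + m) : ℝ) := by
    rw [← hc0]; exact_mod_cast c3'
  have r1 : ∀ k, k < 20 → (∀ j, j < 20 - k → (6 * 2 ^ 36 : ℝ) * Y S' k j ≤ mC N k j) ∧
      ((6 * 2 ^ 36 : ℝ) * Y S' k (20 - k) ≤ mC N k (20 - k) + FI N k) ∧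
      ((6 * 2 ^ 36 : ℝ) * E S' k ≤ FE N k + mlte k * cfe M k) := by
    intro k hk
    obtain ⟨a1, a2, a3⟩ := c1' k hk
    refine ⟨fun j hj => ?_, ?_, ?_⟩
    · rw [← hc0]; exact_mod_cast a1 j hj
    · rw [← hc0]; exact_mod_cast a2
    · rw [← hc0]; exact_mod_cast a3
  -- the new functional
  have hI := hG.gI_nonneg
  have hE := hG.gE_nonneg
  have hU : (6 * 2 ^ 36 : ℝ) * Uf (Y S') (E S') G ≤
      (∑ k ∈ Finset.range 21, (∑ j ∈ Finset.range (20 - k), (mC N k j : ℝ) * gI G (k + j) j +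
      ((mC N k (20 - k) : ℝ) + FI N k) * gI G 20 (20 - k) + FE N k * gE G k) +
      GI N * gI G 20 0 + GE N * gE G 20) +
      (∑ m ∈ Finset.range 20, (mlte m * cfe M m : ℝ) * gE G m +
      6 * (∑ m ∈ Finset.range 21, (cfe M (20 + m) : ℝ)) * gE G 20) := by
    unfold Uf
    rw [mul_add, Finset.mul_sum, Finset.mul_sum]
    rw [Finset.sum_range_succ, Finset.sum_range_succ (n := 20), Finset.sum_range_succ
      (f := fun k => (∑ j ∈ Finset.range (20 - k), (mC N k j : ℝ) * gI G (k + j) j +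
      ((mC N k (20 - k) : ℝ) + FI N k) * gI G 20 (20 - k) + FE N k * gE G k))]
    have t1 : ∑ k ∈ Finset.range 20, (6 * 2 ^ 36 : ℝ) * ∑ j ∈ Finset.range (21 - k),
          (Y S' k j : ℝ) * gs G (rho ^ (k + j)) (rho ^ j) 1 +
        ∑ k ∈ Finset.range 20, (6 * 2 ^ 36 : ℝ) * ((E S' k : ℝ) * gs G (rho ^ k) 1 0) ≤
        ∑ k ∈ Finset.range 20, (∑ j ∈ Finset.range (20 - k), (mC N k j : ℝ) * gI G (k + j) j +
        ((mC N k (20 - k) : ℝ) + FI N k) * gI G 20 (20 - k) + FE N k * gE G k) +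
        ∑ m ∈ Finset.range 20, (mlte m * cfe M m : ℝ) * gE G m := by
      rw [← Finset.sum_add_distrib, ← Finset.sum_add_distrib]
      refine Finset.sum_le_sum fun k hk => ?_
      have hk' := Finset.mem_range.1 hk
      obtain ⟨a1, a2, a3⟩ := r1 k hk'
      rw [show 21 - k = 20 - k + 1 by omega, Finset.sum_range_succ, mul_add, Finset.mul_sum]
      have e0 : k + (20 - k) = 20 := by omega
      rw [e0]
      have b1 : ∑ j ∈ Finset.range (20 - k), (6 * 2 ^ 36 : ℝ) *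
          ((Y S' k j : ℝ) * gs G (rho ^ (k + j)) (rho ^ j) 1) ≤
          ∑ j ∈ Finset.range (20 - k), (mC N k j : ℝ) * gI G (k + j) j := by
        refine Finset.sum_le_sum fun j hj => ?_
        rw [← mul_assoc]
        exact mul_le_mul_of_nonneg_right (a1 j (Finset.mem_range.1 hj)) (hI _ _)
      have b2 := mul_le_mul_of_nonneg_right a2 (hI 20 (20 - k))
      have b3 := mul_le_mul_of_nonneg_right a3 (hE k)
      unfold gI gE at *
      linarith
    have t2 : (6 * 2 ^ 36 : ℝ) * ∑ j ∈ Finset.range (21 - 20),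
          (Y S' 20 j : ℝ) * gs G (rho ^ (20 + j)) (rho ^ j) 1 =
        (6 * 2 ^ 36 : ℝ) * Y S' 20 0 * gI G 20 0 := by
      rw [show 21 - 20 = 1 by norm_num, Finset.sum_range_one]
      unfold gI
      rw [add_zero]
      ring
    have t3 := mul_le_mul_of_nonneg_right r2 (hI 20 0)
    have t4 := mul_le_mul_of_nonneg_right r3 (hE 20)
    rw [t2]
    rw [show 20 - 20 = 0 by norm_num, Finset.sum_range_zero]
    unfold gE at *
    linarith
  have hfin : (6 * 2 ^ 36 : ℝ) * Uf (Y S') (E S') G ≤ 6 * (2 ^ 72 * J G (mrg L₁ L₂)) := by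
    linarith
  have h6 : (6 : ℝ) * (2 ^ 72 * J G (mrg L₁ L₂)) =
      6 * 2 ^ 36 * (2 ^ 36 * J G (mrg L₁ L₂)) := by ring
  rw [h6] at hfin
  exact le_of_mul_le_mul_left hfin (by positivity)

end Crest.Agent.R163.DE
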