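import Crest.Agent.R163.DE6
import Crest.Agent.R163.Conv

/-!
Row 163, density evolution: one level of the `4`-ary tree, and the final bound on chi-square.
-/

set_option autoImplicit false

namespace Crest.Agent.R163.DE

open Crest.Agent.R163

lemma J_pw_add {q : ℕ} {Ω : Type*} (φ : (Fin q → ℝ) → ℝ) (L : Ω → Fin q → ℝ) (m n : ℕ) :
    J φ (pw L (m + n)) = J φ (mrg (pw L m) (pw L n)) := by
  rw [← J_equiv (Fin.appendEquiv m n) φ (pw L (m + n))]
  unfold J
  refine tsum_congr fun p => ?_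
  congr 1
  funext i
  simp only [pw, mrg]
  rw [Fin.prod_univ_add]
  congr 1
  · refine Finset.prod_congr rfl fun x _ => ?_
    simp [Fin.appendEquiv]
  · refine Finset.prod_congr rfl fun x _ => ?_
    simp [Fin.appendEquiv]

lemma LB.congr {Ω Ω' : Type*} {L : Ω → Fin 3 → ℝ} {L' : Ω' → Fin 3 → ℝ} {y : ℕ → ℕ → ℕ}
    {e : ℕ → ℕ} (h : LB L y e) (hJ : ∀ φ : (Fin 3 → ℝ) → ℝ, J φ L' = J φ L) : LB L' y e := by
  intro G hG
  rw [hJ]
  exact h G hG

/-- state `S` is a lower bound of the `4`-ary tree of depth `n` -/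
def Lev (n S : ℕ) : Prop := LB (reg 3 4 (-(1 / 2)) n) (Y S) (E S)

theorem lev_zero : Lev 0 0 := by
  intro G hG
  have h1 : Uf (Y 0) (E 0) G = 0 := by
    unfold Uf
    have hY : ∀ k j, Y 0 k j = 0 := fun k j => dig_zero _
    have hE : ∀ k, E 0 k = 0 := fun k => dig_zero _
    simp [hY, hE]
  rw [h1]
  have h2 : 0 ≤ J G (reg 3 4 (-(1 / 2)) 0) :=
    (reg_isChan 4 adm_half 0).J_nonneg fun v hv => hG.nn v hv
  positivity

theorem lev_succ {T n S₀ S₁ S₂ S₃ : ℕ} (hT : TabOK T) (h : Lev n S₀)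
    (h₁ : chkW T S₀ S₁ = true) (h₂ : chkSq S₁ S₂ = true) (h₃ : chkSq S₂ S₃ = true) :
    Lev (n + 1) S₃ := by
  have hc := reg_isChan (q := 3) 4 adm_half n
  have hcW := hc.edge adm_half
  have l1 := chkW_sound hc hT h₁ h
  have l2 : LB (pw (fun o => W (-(1 / 2) : ℝ) (reg 3 4 (-(1 / 2)) n o)) 1) (Y S₁) (E S₁) :=
    l1.congr fun φ => J_pw_one φ _
  have l3 : LB (pw (fun o => W (-(1 / 2) : ℝ) (reg 3 4 (-(1 / 2)) n o)) 2) (Y S₂) (E S₂) :=
    (chkSq_sound (hcW.pw 1) (hcW.pw 1) h₂ l2 l2).congr fun φ => J_pw_add φ _ 1 1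
  have l4 : LB (pw (fun o => W (-(1 / 2) : ℝ) (reg 3 4 (-(1 / 2)) n o)) 4) (Y S₃) (E S₃) :=
    (chkSq_sound (hcW.pw 2) (hcW.pw 2) h₃ l3 l3).congr fun φ => J_pw_add φ _ 2 2
  exact l4.congr fun φ => J_reg_succ φ 4 (-(1 / 2)) n

/-! ### final evaluation -/

lemma sum_single (v : Fin 3 → ℝ) :
    (fun i => ∑ k : Fin 3, v k * (Pi.single k (1 : ℝ) : Fin 3 → ℝ) i) = v := by
  funext i
  rw [Finset.sum_eq_single i]
  · simp
  · intro b _ hb
    rw [Pi.single_eq_of_ne (Ne.symm hb), mul_zero]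
  · intro h; exact absurd (Finset.mem_univ i) h

/-- test functional of a convex functional -/
theorem SG.of_CH {φ : (Fin 3 → ℝ) → ℝ} (h : CH φ) :
    SG (fun v => ∑ i, v i * φ (Pi.single i 1) - φ v) where
  bdd := by
    refine Bdd.sub ?_ h.bdd
    have := (ch_linear (q := 3) (fun i => φ (Pi.single i 1))).bdd
    refine this.congr fun v _ => Finset.sum_congr rfl fun i _ => mul_comm _ _
  hom c v hc hv := by
    change ∑ i, (c * v i) * φ (Pi.single i 1) - φ (fun i => c * v i) = _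
    rw [h.hom c v hc hv, mul_sub, Finset.mul_sum]
    congr 1
    refine Finset.sum_congr rfl fun i _ => ?_
    ring
  nn v hv := by
    have h1 := h.finset_sum Finset.univ (fun k i => v k * (Pi.single k (1 : ℝ) : Fin 3 → ℝ) i)
      (fun k i => mul_nonneg (hv k) (by by_cases hki : i = k <;> simp [hki]))
    rw [sum_single] at h1
    have h2 : ∀ k ∈ (Finset.univ : Finset (Fin 3)),
        φ (fun i => v k * (Pi.single k (1 : ℝ) : Fin 3 → ℝ) i) = v k * φ (Pi.single k 1) :=
      fun k _ => h.hom _ _ (hv k) (fun i => by by_cases hki : i = k <;> simp [hki])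
    rw [Finset.sum_congr rfl h2] at h1
    linarith
  sup u v hu hv := by
    have h1 := h.sub u v hu hv
    have h2 : ∑ i, (u i + v i) * φ (Pi.single i 1) =
        ∑ i, u i * φ (Pi.single i 1) + ∑ i, v i * φ (Pi.single i 1) := by
      rw [← Finset.sum_add_distrib]
      exact Finset.sum_congr rfl fun i _ => by ring
    change _ ≤ ∑ i, (u i + v i) * φ (Pi.single i 1) - φ (fun i => u i + v i)
    linarith
  vert i := by
    change ∑ k, (Pi.single i (1 : ℝ) : Fin 3 → ℝ) k * φ (Pi.single k 1) - φ (Pi.single i 1) = 0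
    rw [Finset.sum_eq_single i]
    · simp
    · intro b _ hb
      rw [Pi.single_eq_of_ne hb, zero_mul]
    · intro h; exact absurd (Finset.mem_univ i) h

/-- value of a convex functional from a lower state -/
theorem LB.J_le {Ω : Type*} {L : Ω → Fin 3 → ℝ} (hL : IsChan L) {y : ℕ → ℕ → ℕ} {e : ℕ → ℕ}
    (h : LB L y e) {φ : (Fin 3 → ℝ) → ℝ} (hφ : CH φ) :
    2 ^ 36 * J φ L ≤ 2 ^ 36 * ∑ i, φ (Pi.single i 1) -
      Uf y e (fun v => ∑ i, v i * φ (Pi.single i 1) - φ v) := by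
  have h1 := h _ (SG.of_CH hφ)
  have h2 : J (fun v => ∑ i, v i * φ (Pi.single i 1) - φ v) L =
      ∑ i, φ (Pi.single i 1) - J φ L := by
    have hs : HasSum (fun o => ∑ i, L o i * φ (Pi.single i 1)) (∑ i, φ (Pi.single i 1)) := by
      have := hasSum_sum (s := Finset.univ) fun (i : Fin 3) _ =>
        (hL.hasSum i).mul_right (φ (Pi.single i 1))
      simpa using this
    have := hs.sub (hL.summable hφ.bdd).hasSum
    exact this.tsum_eq
  rw [h2] at h1
  linarith

lemma chi_vec {x y z : ℝ} (h : x + y + z ≠ 0) :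
    chi ![x, y, z] = (x ^ 2 + y ^ 2 + z ^ 2) / (x + y + z) - (x + y + z) / 3 := by
  have h1 : avg ![x, y, z] = (x + y + z) / 3 := by
    unfold avg; simp [Fin.sum_univ_three]
  have h2 : avg (fun i => ![x, y, z] i ^ 2) = (x ^ 2 + y ^ 2 + z ^ 2) / 3 := by
    unfold avg; simp [Fin.sum_univ_three]
  unfold chi
  rw [h1, h2]
  field_simp

lemma chi_single (i : Fin 3) : chi (Pi.single i (1 : ℝ) : Fin 3 → ℝ) = 2 / 3 := by
  have e0 : (Pi.single (0 : Fin 3) (1 : ℝ) : Fin 3 → ℝ) = ![1, 0, 0] := by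
    funext j; fin_cases j <;> simp
  have e1 : (Pi.single (1 : Fin 3) (1 : ℝ) : Fin 3 → ℝ) = ![0, 1, 0] := by
    funext j; fin_cases j <;> simp
  have e2 : (Pi.single (2 : Fin 3) (1 : ℝ) : Fin 3 → ℝ) = ![0, 0, 1] := by
    funext j; fin_cases j <;> simp
  fin_cases i
  · change chi (Pi.single (0 : Fin 3) (1 : ℝ)) = _
    rw [e0, chi_vec (by norm_num)]; norm_num
  · change chi (Pi.single (1 : Fin 3) (1 : ℝ)) = _
    rw [e1, chi_vec (by norm_num)]; norm_num
  · change chi (Pi.single (2 : Fin 3) (1 : ℝ)) = _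
    rw [e2, chi_vec (by norm_num)]; norm_num

lemma gchi {x y z : ℝ} (h : x + y + z ≠ 0) :
    ∑ i, ![x, y, z] i * chi (Pi.single i (1 : ℝ) : Fin 3 → ℝ) - chi ![x, y, z] =
      2 * (x * y + y * z + z * x) / (x + y + z) := by
  simp only [chi_single]
  rw [chi_vec h, Fin.sum_univ_three]
  simp only [Matrix.cons_val_zero, Matrix.cons_val_one, Matrix.cons_val]
  field_simp
  ring

lemma gs_gchi {x y z : ℝ} (h : 0 < x + y + z) :
    gs (fun v => ∑ i, v i * chi (Pi.single i (1 : ℝ) : Fin 3 → ℝ) - chi v) x y z =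
      12 * (x * y + y * z + z * x) / (x + y + z) := by
  unfold gs
  simp only []
  rw [gchi (by linarith), gchi (by linarith), gchi (by linarith), gchi (by linarith),
    gchi (by linarith), gchi (by linarith)]
  have h1 : y + x + z ≠ 0 := by linarith
  have h2 : x + z + y ≠ 0 := by linarith
  have h3 : z + x + y ≠ 0 := by linarith
  have h4 : y + z + x ≠ 0 := by linarith
  have h5 : z + y + x ≠ 0 := by linarith
  have h6 : x + y + z ≠ 0 := by linarith
  have e1 : y + x + z = x + y + z := by ring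
  have e2 : x + z + y = x + y + z := by ring
  have e3 : z + x + y = x + y + z := by ring
  have e4 : y + z + x = x + y + z := by ring
  have e5 : z + y + x = x + y + z := by ring
  rw [e1, e2, e3, e4, e5]
  field_simp
  ring

/-- integer lower bound of `2 ^ 20 * 4 ^ 20 * gs` -/
def gv (x y z : Nat) : Nat :=
  Nat.div (Nat.mul 12582912 (Nat.add (Nat.add (Nat.mul x y) (Nat.mul y z)) (Nat.mul z x)))
    (Nat.mul 1099511627776 (Nat.add (Nat.add x y) z))

/-- final evaluation -/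
def fin (S : Nat) : Nat :=
  Nat.add (ksum 21 fun k => ksum (Nat.sub 21 k) fun j =>
    Nat.mul (dig S (idx (Nat.add k j) j)) (gv (r20 (Nat.add k j)) (r20 j) 1099511627776))
   (ksum 21 fun k => Nat.mul (dig S (Nat.add 441 k)) (gv (r20 k) 1099511627776 0))

lemma gv_le {a b c : ℕ} {x y z : ℝ} (hx : (a : ℝ) = 4 ^ 20 * x) (hy : (b : ℝ) = 4 ^ 20 * y)
    (hz : (c : ℝ) = 4 ^ 20 * z) (hs : 0 < x + y + z) :
    (gv a b c : ℝ) ≤ 2 ^ 20 *
      gs (fun v => ∑ i, v i * chi (Pi.single i (1 : ℝ) : Fin 3 → ℝ) - chi v) x y z := by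
  rw [gs_gchi hs]
  have h1 : gv a b c = (12582912 * (a * b + b * c + c * a)) / (1099511627776 * (a + b + c)) := rfl
  rw [h1]
  refine Nat.cast_div_le.trans ?_
  push_cast
  rw [hx, hy, hz]
  refine le_of_eq ?_
  have h2 : (4 : ℝ) ^ 20 * x + 4 ^ 20 * y + 4 ^ 20 * z = 4 ^ 20 * (x + y + z) := by ring
  rw [h2]
  field_simp
  norm_num
  ring

theorem J_chi_le {n S : ℕ} (h : Lev n S) {B : ℕ} (hB : Nat.ble B (fin S) = true) :
    J chi (reg 3 4 (-(1 / 2)) n) ≤ 2 - B / 2 ^ 56 := by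
  have hL := reg_isChan (q := 3) 4 adm_half n
  have h1 := LB.J_le hL h (ch_chi (q := 3))
  have h2 : ∑ i : Fin 3, chi (Pi.single i (1 : ℝ) : Fin 3 → ℝ) = 2 := by
    simp only [chi_single]
    rw [Fin.sum_univ_three]; norm_num
  rw [h2] at h1
  have h3 : (fin S : ℝ) ≤ 2 ^ 20 * Uf (Y S) (E S)
      (fun v => ∑ i, v i * chi (Pi.single i (1 : ℝ) : Fin 3 → ℝ) - chi v) := by
    unfold fin Uf
    simp only [ksum_eq]
    have e : ∀ a b : ℕ, Nat.add a b = a + b := fun _ _ => rfl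
    rw [e]
    push_cast
    rw [mul_add, Finset.mul_sum, Finset.mul_sum]
    refine add_le_add ?_ ?_
    · refine Finset.sum_le_sum fun k hk => ?_
      rw [Finset.mul_sum]
      refine Finset.sum_le_sum fun j hj => ?_
      have hk' := Finset.mem_range.1 hk
      have hj' : j < 21 - k := Finset.mem_range.1 hj
      change ((dig S (idx (k + j) j) * gv (r20 (k + j)) (r20 j) 1099511627776 : ℕ) : ℝ) ≤ _
      rw [Nat.cast_mul]
      have h4 := mul_le_mul_of_nonneg_left (gv_le (r20_cast (i := k + j) (by omega))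
        (r20_cast (i := j) (by omega)) (c := 1099511627776) (z := 1) (by norm_num)
        (by have := rho_pow_pos (k + j); have := rho_pow_pos j; linarith))
        (Nat.cast_nonneg (α := ℝ) (dig S (idx (k + j) j)))
      refine h4.trans (le_of_eq ?_)
      unfold Y
      ring
    · refine Finset.sum_le_sum fun k hk => ?_
      have hk' := Finset.mem_range.1 hk
      change ((dig S (441 + k) * gv (r20 k) 1099511627776 0 : ℕ) : ℝ) ≤ _
      rw [Nat.cast_mul]
      have h4 := mul_le_mul_of_nonneg_left (gv_le (r20_cast (i := k) (by omega))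
        (b := 1099511627776) (y := 1) (c := 0) (z := 0) (by norm_num) (by norm_num)
        (by have := rho_pow_pos k; linarith))
        (Nat.cast_nonneg (α := ℝ) (dig S (441 + k)))
      refine h4.trans (le_of_eq ?_)
      unfold E
      ring
  have h5 : (B : ℝ) ≤ fin S := by exact_mod_cast Nat.le_of_ble_eq_true hB
  have h6 : (2 : ℝ) - B / 2 ^ 56 = (2 ^ 56 * 2 - B) / 2 ^ 56 := by field_simp
  rw [h6, le_div_iff₀ (by positivity)]
  norm_num at h1 h3 ⊢
  linarith

end Crest.Agent.R163.DE
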