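import Crest.Agent.R163.DE7

/-!
Row 163, generic density evolution (`q = 3`, any rational `lam = -p/r`, any branching number,
general multiplicative lattices), abstract part.
-/

set_option autoImplicit false

namespace Crest.Agent.R163.DG

open Crest.Agent.R163 Crest.Agent.R163.DE

/-- index set of the sector, `k + j < n` -/
lemma mem_sec' {n : ℕ} {x : Σ _ : ℕ, ℕ} : x ∈ sec n ↔ x.1 + x.2 < n := mem_sec

/-- value of a lattice state on a functional (lattice ratio `ρ`, radius `n - 1`) -/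
noncomputable def Uf (ρ : ℝ) (n : ℕ) (y : ℕ → ℕ → ℕ) (e : ℕ → ℕ) (G : (Fin 3 → ℝ) → ℝ) : ℝ :=
  ∑ x ∈ sec n, (y x.1 x.2 : ℝ) * gs G (ρ ^ (x.1 + x.2)) (ρ ^ x.2) 1 +
    ∑ k ∈ Finset.range n, (e k : ℝ) * gs G (ρ ^ k) 1 0

/-- the lattice state `(y, e)` (scaled by `2 ^ 36`) is a lower bound of the channel -/
def LB {Ω : Type*} (L : Ω → Fin 3 → ℝ) (ρ : ℝ) (n : ℕ) (y : ℕ → ℕ → ℕ) (e : ℕ → ℕ) : Prop :=
  ∀ G : (Fin 3 → ℝ) → ℝ, SG G → Uf ρ n y e G ≤ 2 ^ 36 * J G L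

section merge

variable {Ω₁ Ω₂ : Type*} {L₁ : Ω₁ → Fin 3 → ℝ} {L₂ : Ω₂ → Fin 3 → ℝ}

lemma Uf_mul {G : (Fin 3 → ℝ) → ℝ} (h : SG G) {ρ : ℝ} (hρ : 0 < ρ) (n : ℕ) (y : ℕ → ℕ → ℕ)
    (e : ℕ → ℕ) : SG (fun u => Uf ρ n y e (fun v => G (fun i => u i * v i))) := by
  unfold Uf
  refine SG.add (SG.finset_sum _ fun x _ =>
    SG.smul (h.gs_mul (pow_pos hρ _).le (pow_pos hρ _).le zero_le_one) (Nat.cast_nonneg _))
    (SG.finset_sum _ fun k _ =>
    SG.smul (h.gs_mul (pow_pos hρ _).le zero_le_one le_rfl) (Nat.cast_nonneg _))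

theorem LB.mrg {ρ : ℝ} (hρ : 0 < ρ) {n : ℕ} {y₁ y₂ : ℕ → ℕ → ℕ} {e₁ e₂ : ℕ → ℕ}
    (hL₁ : IsChan L₁) (hL₂ : IsChan L₂)
    (h₁ : LB L₁ ρ n y₁ e₁) (h₂ : LB L₂ ρ n y₂ e₂) {G : (Fin 3 → ℝ) → ℝ} (hG : SG G) :
    Uf ρ n y₁ e₁ (fun u => Uf ρ n y₂ e₂ (fun v => G (fun i => u i * v i))) ≤
      2 ^ 72 * J G (mrg L₁ L₂) := by
  have hG2 := Uf_mul hG hρ n y₂ e₂
  refine (h₁ _ hG2).trans ?_
  have e : (2 : ℝ) ^ 72 * J G (R163.mrg L₁ L₂) = 2 ^ 36 * (2 ^ 36 * J G (R163.mrg L₁ L₂)) := by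
    ring
  rw [e]
  refine mul_le_mul_of_nonneg_left ?_ (by positivity)
  rw [J_mrg_iter hL₁ hL₂ hG.bdd, ← J_const_mul]
  refine Summable.tsum_le_tsum (fun o => ?_) (hL₁.summable hG2.bdd) ?_
  · exact h₂ _ (hG.mulc' (hL₁.nonneg o))
  · have hs := ((hL₁.mrg hL₂).summable hG.bdd)
    have h3 := hs.prod
    exact h3.mul_left _

end merge

section edge

variable {Ω : Type*} {L : Ω → Fin 3 → ℝ}

/-- coordinate of the edge operator: own coordinate `x`, the others `y, z` -/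
noncomputable def wx (lam x y z : ℝ) : ℝ := lam * x + (1 - lam) * ((x + y + z) / 3)

lemma W_vec (lam x y z : ℝ) :
    W lam ![x, y, z] = ![wx lam x y z, wx lam y x z, wx lam z x y] := by
  have ha : avg ![x, y, z] = (x + y + z) / 3 := by
    unfold avg; simp [Fin.sum_univ_three]
  funext i
  unfold W
  rw [ha]
  fin_cases i
  · rfl
  · change lam * y + (1 - lam) * ((x + y + z) / 3) = lam * y + (1 - lam) * ((y + x + z) / 3)
    ring
  · change lam * z + (1 - lam) * ((x + y + z) / 3) = lam * z + (1 - lam) * ((z + x + y) / 3)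
    ring

/-- the vertex contribution -/
noncomputable def gv3 (lam : ℝ) (G : (Fin 3 → ℝ) → ℝ) (i : Fin 3) : ℝ :=
  G (W lam (Pi.single i 1))

lemma W_lin (lam : ℝ) (u v : Fin 3 → ℝ) :
    W lam (fun i => u i + v i) = fun i => W lam u i + W lam v i := by
  funext i
  have : avg (fun i => u i + v i) = avg u + avg v := by
    unfold avg; rw [Finset.sum_add_distrib, add_div]
  unfold W
  rw [this]; ring

lemma W_smul (lam c : ℝ) (v : Fin 3 → ℝ) :
    W lam (fun i => c * v i) = fun i => c * W lam v i := by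
  funext i
  have : avg (fun i => c * v i) = c * avg v := by
    unfold avg; rw [← Finset.mul_sum, mul_div_assoc]
  unfold W
  rw [this]; ring

lemma single_nonneg (i : Fin 3) : ∀ j, 0 ≤ (Pi.single i (1 : ℝ) : Fin 3 → ℝ) j := by
  intro j
  by_cases hj : j = i
  · subst hj; simp
  · simp [hj]

/-- the corrected pull-back of a test functional along the edge operator -/
lemma SG_edge {G : (Fin 3 → ℝ) → ℝ} (h : SG G) {lam : ℝ} (hl : Adm 3 lam) :
    SG (fun v => G (W lam v) - (v 0 * gv3 lam G 0 + v 1 * gv3 lam G 1 + v 2 * gv3 lam G 2)) where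
  bdd := by
    have h1 : Bdd (fun v => G (W lam v)) := by
      obtain ⟨K, hK, hb⟩ := h.bdd
      refine ⟨K, hK, fun v hv => ?_⟩
      have := hb (W lam v) (W_nonneg hl hv)
      rwa [avg_W] at this
    refine h1.sub ?_
    have hco : ∀ i : Fin 3, Bdd (fun v : Fin 3 → ℝ => v i) := by
      intro i
      refine ⟨3, by norm_num, fun v hv => ?_⟩
      rw [abs_of_nonneg (hv i)]
      have := le_avg hv i
      rw [div_le_iff₀ (by norm_num)] at this
      push_cast at this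
      linarith
    refine (((hco 0).const_mul (gv3 lam G 0)).add
      ((hco 1).const_mul (gv3 lam G 1))).add
      ((hco 2).const_mul (gv3 lam G 2)) |>.congr fun v _ => ?_
    ring
  hom c v hc hv := by
    change G (W lam (fun i => c * v i)) - _ = _
    rw [W_smul, h.hom c _ hc (W_nonneg hl hv)]
    ring
  nn v hv := by
    have h0 := hv 0
    have h1 := hv 1
    have h2 := hv 2
    have e : v = fun i => (v 0 * (Pi.single (0 : Fin 3) (1 : ℝ) : Fin 3 → ℝ) i +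
        v 1 * (Pi.single (1 : Fin 3) (1 : ℝ) : Fin 3 → ℝ) i) +
        v 2 * (Pi.single (2 : Fin 3) (1 : ℝ) : Fin 3 → ℝ) i := by
      funext i; fin_cases i <;> simp
    have n0 := single_nonneg 0
    have n1 := single_nonneg 1
    have n2 := single_nonneg 2
    have w0 := W_nonneg hl n0
    have w1 := W_nonneg hl n1
    have w2 := W_nonneg hl n2
    have e2 : W lam v = fun i => (v 0 * W lam (Pi.single (0 : Fin 3) (1 : ℝ)) i +
        v 1 * W lam (Pi.single (1 : Fin 3) (1 : ℝ)) i) +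
        v 2 * W lam (Pi.single (2 : Fin 3) (1 : ℝ)) i := by
      conv_lhs => rw [e]
      rw [W_lin, W_lin, W_smul, W_smul, W_smul]
    have s1 := h.sup (fun i => v 0 * W lam (Pi.single (0 : Fin 3) (1 : ℝ)) i +
        v 1 * W lam (Pi.single (1 : Fin 3) (1 : ℝ)) i)
        (fun i => v 2 * W lam (Pi.single (2 : Fin 3) (1 : ℝ)) i)
        (fun i => add_nonneg (mul_nonneg h0 (w0 i)) (mul_nonneg h1 (w1 i)))
        (fun i => mul_nonneg h2 (w2 i))
    have s2 := h.sup (fun i => v 0 * W lam (Pi.single (0 : Fin 3) (1 : ℝ)) i)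
        (fun i => v 1 * W lam (Pi.single (1 : Fin 3) (1 : ℝ)) i)
        (fun i => mul_nonneg h0 (w0 i)) (fun i => mul_nonneg h1 (w1 i))
    rw [h.hom _ _ h0 w0, h.hom _ _ h1 w1] at s2
    rw [h.hom _ _ h2 w2, ← e2] at s1
    change 0 ≤ G (W lam v) - (v 0 * gv3 lam G 0 + v 1 * gv3 lam G 1 + v 2 * gv3 lam G 2)
    unfold gv3
    linarith
  sup u v hu hv := by
    have h1 := h.sup _ _ (W_nonneg hl hu) (W_nonneg hl hv)
    rw [← W_lin] at h1
    change _ ≤ G (W lam (fun i => u i + v i)) - _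
    linarith
  vert i := by
    fin_cases i
    · change G (W lam (Pi.single (0 : Fin 3) (1 : ℝ))) -
        ((Pi.single (0 : Fin 3) (1 : ℝ) : Fin 3 → ℝ) 0 * gv3 lam G 0 +
        (Pi.single (0 : Fin 3) (1 : ℝ) : Fin 3 → ℝ) 1 * gv3 lam G 1 +
        (Pi.single (0 : Fin 3) (1 : ℝ) : Fin 3 → ℝ) 2 * gv3 lam G 2) = 0
      simp [gv3]
    · change G (W lam (Pi.single (1 : Fin 3) (1 : ℝ))) -
        ((Pi.single (1 : Fin 3) (1 : ℝ) : Fin 3 → ℝ) 0 * gv3 lam G 0 +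
        (Pi.single (1 : Fin 3) (1 : ℝ) : Fin 3 → ℝ) 1 * gv3 lam G 1 +
        (Pi.single (1 : Fin 3) (1 : ℝ) : Fin 3 → ℝ) 2 * gv3 lam G 2) = 0
      simp [gv3]
    · change G (W lam (Pi.single (2 : Fin 3) (1 : ℝ))) -
        ((Pi.single (2 : Fin 3) (1 : ℝ) : Fin 3 → ℝ) 0 * gv3 lam G 0 +
        (Pi.single (2 : Fin 3) (1 : ℝ) : Fin 3 → ℝ) 1 * gv3 lam G 1 +
        (Pi.single (2 : Fin 3) (1 : ℝ) : Fin 3 → ℝ) 2 * gv3 lam G 2) = 0
      simp [gv3]

/-- the functional `J` of the pull-back -/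
lemma J_edge_eq {G : (Fin 3 → ℝ) → ℝ} (h : SG G) {lam : ℝ} (hl : Adm 3 lam) (hL : IsChan L) :
    J G (fun o => W lam (L o)) =
      J (fun v => G (W lam v) - (v 0 * gv3 lam G 0 + v 1 * gv3 lam G 1 + v 2 * gv3 lam G 2)) L +
      (gv3 lam G 0 + gv3 lam G 1 + gv3 lam G 2) := by
  have hs := hL.summable (SG_edge h hl).bdd
  have h1 : HasSum (fun o => L o 0 * gv3 lam G 0 + L o 1 * gv3 lam G 1 + L o 2 * gv3 lam G 2)
      (gv3 lam G 0 + gv3 lam G 1 + gv3 lam G 2) := by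
    have := (((hL.hasSum 0).mul_right (gv3 lam G 0)).add
      ((hL.hasSum 1).mul_right (gv3 lam G 1))).add
      ((hL.hasSum 2).mul_right (gv3 lam G 2))
    simpa using this
  have h2 := hs.hasSum.add h1
  unfold J
  rw [← h2.tsum_eq]
  exact tsum_congr fun o => by ring

/-- column mass of a lattice state -/
noncomputable def col (ρ : ℝ) (n : ℕ) (y : ℕ → ℕ → ℕ) (e : ℕ → ℕ) : ℝ :=
  ∑ x ∈ sec n, (y x.1 x.2 : ℝ) * (ρ ^ (x.1 + x.2) + ρ ^ x.2 + 1) +
    ∑ k ∈ Finset.range n, (e k : ℝ) * (ρ ^ k + 1)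

/-- symmetrised value of `G` after the edge operator, largest coordinate first -/
noncomputable def gw (lam : ℝ) (G : (Fin 3 → ℝ) → ℝ) (x y z : ℝ) : ℝ :=
  gs G (wx lam z x y) (wx lam y x z) (wx lam x y z)

lemma wx_swap (lam x y z : ℝ) : wx lam x y z = wx lam x z y := by unfold wx; ring

lemma gv3_sum (lam : ℝ) (G : (Fin 3 → ℝ) → ℝ) :
    2 * (gv3 lam G 0 + gv3 lam G 1 + gv3 lam G 2) = gw lam G 1 0 0 := by
  have e0 : (Pi.single (0 : Fin 3) (1 : ℝ) : Fin 3 → ℝ) = ![1, 0, 0] := by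
    funext j; fin_cases j <;> simp
  have e1 : (Pi.single (1 : Fin 3) (1 : ℝ) : Fin 3 → ℝ) = ![0, 1, 0] := by
    funext j; fin_cases j <;> simp
  have e2 : (Pi.single (2 : Fin 3) (1 : ℝ) : Fin 3 → ℝ) = ![0, 0, 1] := by
    funext j; fin_cases j <;> simp
  unfold gv3 gw
  rw [e0, e1, e2, W_vec, W_vec, W_vec, wx_swap lam 0 1 0]
  unfold gs
  ring

lemma gs_edge (lam : ℝ) (G : (Fin 3 → ℝ) → ℝ) (x y z : ℝ) :
    gs (fun v => G (W lam v) - (v 0 * gv3 lam G 0 + v 1 * gv3 lam G 1 + v 2 * gv3 lam G 2)) x y z =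
      gw lam G x y z - (x + y + z) * gw lam G 1 0 0 := by
  rw [← gv3_sum]
  unfold gs gw
  simp only [W_vec]
  simp only [Matrix.cons_val_zero, Matrix.cons_val_one, Matrix.cons_val]
  rw [wx_swap lam x z y, wx_swap lam y z x, wx_swap lam z y x]
  unfold gs
  ring

theorem LB.edge {ρ : ℝ} {n : ℕ} {y : ℕ → ℕ → ℕ} {e : ℕ → ℕ} (hL : IsChan L)
    (hlb : LB L ρ n y e) {lam : ℝ} (hl : Adm 3 lam) {G : (Fin 3 → ℝ) → ℝ} (hG : SG G) :
    ∑ x ∈ sec n, (y x.1 x.2 : ℝ) * gw lam G (ρ ^ (x.1 + x.2)) (ρ ^ x.2) 1 +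
    ∑ k ∈ Finset.range n, (e k : ℝ) * gw lam G (ρ ^ k) 1 0 +
    (2 ^ 36 - 2 * col ρ n y e) / 2 * gw lam G 1 0 0 ≤
      2 ^ 36 * J G (fun o => W lam (L o)) := by
  have h1 := hlb _ (SG_edge hG hl)
  rw [J_edge_eq hG hl hL]
  have hg := gv3_sum lam G
  have h2 : Uf ρ n y e (fun v => G (W lam v) - (v 0 * gv3 lam G 0 + v 1 * gv3 lam G 1 +
        v 2 * gv3 lam G 2)) =
      ∑ x ∈ sec n, (y x.1 x.2 : ℝ) * gw lam G (ρ ^ (x.1 + x.2)) (ρ ^ x.2) 1 +
      ∑ k ∈ Finset.range n, (e k : ℝ) * gw lam G (ρ ^ k) 1 0 -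
      col ρ n y e * gw lam G 1 0 0 := by
    unfold Uf col
    simp only [gs_edge]
    rw [add_mul, Finset.sum_mul, Finset.sum_mul, add_sub_add_comm, ← Finset.sum_sub_distrib,
      ← Finset.sum_sub_distrib]
    congr 1
    · refine Finset.sum_congr rfl fun k _ => ?_
      ring
    · refine Finset.sum_congr rfl fun k _ => ?_
      rw [add_zero]
      ring
  rw [h2] at h1
  linarith

end edge

end Crest.Agent.R163.DG
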