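import Crest.Agent.R163.DE2

/-!
Row 163, generic density evolution: kernel friendly arithmetic.
A lattice is given by `a s L`: ratio `a / 2 ^ s`, radius `L`.
-/

set_option autoImplicit false

namespace Crest.Agent.R163.DG

open Crest.Agent.R163.DE (ksum kall dig mlt mlte ksum_eq kall_iff dig_eq dig_lt dig_zero and_mask
  digit_sum fiber_le)

def idx (L i j : Nat) : Nat := Nat.add i (Nat.mul (Nat.succ L) j)

/-- first edge index -/
def ei (L : Nat) : Nat := Nat.mul (Nat.succ L) (Nat.succ L)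

/-- row stride of the packed square -/
def st (L : Nat) : Nat := Nat.succ (Nat.mul 4 L)

/-- `w * (a / 2 ^ s) ^ i` rounded down -/
def sc (a s w i : Nat) : Nat := Nat.shiftRight (Nat.mul w (Nat.pow a i)) (Nat.mul s i)

/-- `w` at position `p` -/
def sh1 (w p : Nat) : Nat := Nat.shiftLeft w (Nat.mul 128 p)

/-- row `L + m` of the images -/
def RU (a s L S m : Nat) : Nat :=
  Nat.add (ksum (Nat.sub (Nat.succ L) m) fun k => Nat.add
      (sh1 (dig S (idx L (Nat.add k m) m)) (Nat.add (Nat.add k m) L))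
      (sh1 (sc a s (dig S (idx L (Nat.add m k) k)) k) (Nat.sub L k)))
    (ksum (Nat.succ m) fun j => sh1 (dig S (idx L m j)) (Nat.add j L))

/-- row `L - m` of the images -/
def RD (a s L S m : Nat) : Nat :=
  Nat.add (ksum (Nat.sub (Nat.succ L) m) fun k => Nat.add
      (sh1 (sc a s (dig S (idx L (Nat.add k m) m)) m) (Nat.add k L))
      (sh1 (sc a s (dig S (idx L (Nat.add m k) k)) (Nat.add m k)) (Nat.sub L (Nat.add m k))))
    (ksum (Nat.succ m) fun j => sh1 (sc a s (dig S (idx L m j)) m) (Nat.sub L (Nat.sub m j)))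

/-- packed images of a state -/
def NA (a s L S : Nat) : Nat :=
  ksum (Nat.succ L) fun m => Nat.add
    (Nat.shiftLeft (RU a s L S m) (Nat.mul 128 (Nat.mul (st L) (Nat.add m L))))
    (Nat.shiftLeft (RD a s L S m) (Nat.mul 128 (Nat.mul (st L) (Nat.sub L m))))

def termB (L w wj wi i j k : Nat) : Nat :=
  Nat.add (Nat.add
    (Nat.add (sh1 w (Nat.add j L)) (sh1 w (Nat.add i L)))
    (Nat.add (sh1 wj (Nat.sub L j)) (sh1 wj (Nat.add k L))))
    (Nat.add (sh1 wi (Nat.sub L i)) (sh1 wi (Nat.sub L k)))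

def NB (a s L S : Nat) : Nat :=
  ksum (Nat.succ L) fun k => ksum (Nat.sub (Nat.succ L) k) fun j =>
    termB L (dig S (idx L (Nat.add k j) j)) (sc a s (dig S (idx L (Nat.add k j) j)) j)
      (sc a s (dig S (idx L (Nat.add k j) j)) (Nat.add k j)) (Nat.add k j) j k

def NE (a s L S : Nat) : Nat :=
  ksum (Nat.succ L) fun k => Nat.add
    (sh1 (dig S (Nat.add (ei L) k)) (Nat.add k L))
    (sh1 (sc a s (dig S (Nat.add (ei L) k)) k) (Nat.sub L k))

/-- row `q` of the product -/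
def rowc (L N q : Nat) : Nat :=
  Nat.land (Nat.shiftRight N (Nat.mul 128 (Nat.mul (st L) (Nat.add q (Nat.mul 2 L)))))
    (Nat.sub (Nat.pow 2 (Nat.mul 128 (st L))) 1)

/-- coefficient of the product -/
def cf0 (L N p q : Nat) : Nat :=
  Nat.land (Nat.shiftRight (rowc L N q) (Nat.mul 128 (Nat.add p (Nat.mul 2 L))))
    340282366920938463463374607431768211455

/-- coefficient of the product; the recursor forces the evaluation of `q` -/
def cf (L N p q : Nat) : Nat :=
  Nat.rec (motive := fun _ => Nat) (cf0 L N p 0) (fun m _ => cf0 L N p (Nat.succ m)) q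

def cfe (L N m : Nat) : Nat :=
  Nat.land (Nat.shiftRight N (Nat.mul 128 (Nat.add m (Nat.mul 2 L))))
    340282366920938463463374607431768211455

/-- multiplicity times coefficient at `(k + j, j)` -/
def mC (L N k j : Nat) : Nat := Nat.mul (mlt k j) (cf L N (Nat.add k j) j)

/-- far excess: `c * (ρ^q - ρ^m)` rounded down, `m ≤ q` -/
def exc (a s c q m : Nat) : Nat :=
  Nat.shiftRight (Nat.mul c (Nat.sub (Nat.pow a q)
    (Nat.mul (Nat.pow a m) (Nat.pow 2 (Nat.mul s (Nat.sub q m)))))) (Nat.mul s q)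

def FI (L N k : Nat) : Nat := ksum L fun q => mC L N k (Nat.add (Nat.sub (Nat.succ L) k) q)

def FE (a s L N k : Nat) : Nat := ksum L fun q =>
  exc a s (mC L N k (Nat.add (Nat.sub (Nat.succ L) k) q)) (Nat.add (Nat.sub (Nat.succ L) k) q)
    (Nat.sub L k)

def GI (L N : Nat) : Nat :=
  ksum L fun k => ksum (Nat.sub L k) fun q => mC L N (Nat.add (Nat.succ L) k) q

def GE (a s L N : Nat) : Nat := ksum L fun k => ksum (Nat.sub L k) fun q =>
  exc a s (mC L N (Nat.add (Nat.succ L) k) q) q 0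

/-- check of a product step -/
def chkPr2 (a s L NC NE2 S' : Nat) : Bool :=
  and (kall L fun k => and
      (kall (Nat.sub L k) fun j =>
        Nat.ble (Nat.mul 412316860416 (dig S' (idx L (Nat.add k j) j))) (mC L NC k j))
      (and (Nat.ble (Nat.mul 412316860416 (dig S' (idx L L (Nat.sub L k))))
              (Nat.add (mC L NC k (Nat.sub L k)) (FI L NC k)))
        (Nat.ble (Nat.mul 412316860416 (dig S' (Nat.add (ei L) k)))
          (Nat.add (FE a s L NC k) (Nat.mul (mlte k) (cfe L NE2 k))))))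
    (and (Nat.ble (Nat.mul 412316860416 (dig S' (idx L L 0)))
        (Nat.add (mC L NC L 0) (Nat.add (FI L NC L) (GI L NC))))
      (Nat.ble (Nat.mul 412316860416 (dig S' (Nat.add (ei L) L)))
        (Nat.add (Nat.add (FE a s L NC L) (GE a s L NC))
          (Nat.mul 6 (ksum (Nat.succ L) fun m => cfe L NE2 (Nat.add L m))))))

def chkPr (a s L S₁ S₂ S' : Nat) : Bool :=
  chkPr2 a s L (Nat.mul (NA a s L S₁) (NA a s L S₂))
    (Nat.add (Nat.add (Nat.mul (NB a s L S₁) (NE a s L S₂))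
      (Nat.mul (NE a s L S₁) (NB a s L S₂))) (Nat.mul (NE a s L S₁) (NE a s L S₂))) S'

/-! ### edge step -/

/-- table row -/
def trow (T s : Nat) : Nat :=
  Nat.land (Nat.shiftRight T (Nat.mul 384 s)) (Nat.sub (Nat.pow 2 384) 1)

/-- table entry -/
def tb (T s c : Nat) : Nat :=
  Nat.land (Nat.shiftRight (trow T s) (Nat.mul 48 c)) 281474976710655

def wterm (T w s : Nat) : Nat :=
  Nat.add (Nat.add
    (Nat.shiftLeft (Nat.mul w (tb T s 1)) (Nat.mul 112 (tb T s 0)))
    (Nat.shiftLeft (Nat.mul w (tb T s 3)) (Nat.mul 112 (tb T s 2))))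
    (Nat.shiftLeft (Nat.mul w (tb T s 5)) (Nat.mul 112 (tb T s 4)))

/-- packed images of all sources; `wV` is the weight of the vertex source -/
def NW (L T S wV : Nat) : Nat :=
  Nat.add (ksum (Nat.succ L) fun k => ksum (Nat.sub (Nat.succ L) k) fun j =>
    wterm T (dig S (idx L (Nat.add k j) j)) (idx L (Nat.add k j) j))
   (Nat.add (ksum (Nat.succ L) fun k => wterm T (dig S (Nat.add (ei L) k)) (Nat.add (ei L) k))
     (wterm T wV (Nat.add (ei L) (Nat.succ L))))

/-- total weight sent to the edge vector `(1, 1, 0)` -/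
def NG (L T S wV : Nat) : Nat :=
  Nat.add (ksum (Nat.succ L) fun k => ksum (Nat.sub (Nat.succ L) k) fun j =>
    Nat.mul (dig S (idx L (Nat.add k j) j)) (tb T (idx L (Nat.add k j) j) 6))
   (Nat.add (ksum (Nat.succ L) fun k => Nat.mul (dig S (Nat.add (ei L) k))
      (tb T (Nat.add (ei L) k) 6))
     (Nat.mul wV (tb T (Nat.add (ei L) (Nat.succ L)) 6)))

/-- `2 ^ (s L) * ρ ^ i` -/
def rr (a s L i : Nat) : Nat := Nat.mul (Nat.pow a i) (Nat.pow 2 (Nat.mul s (Nat.sub L i)))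

/-- column sum times `2 ^ (s L)` -/
def colnum (a s L S : Nat) : Nat :=
  Nat.add (ksum (Nat.succ L) fun k => ksum (Nat.sub (Nat.succ L) k) fun j =>
    Nat.mul (dig S (idx L (Nat.add k j) j))
      (Nat.add (Nat.add (rr a s L (Nat.add k j)) (rr a s L j)) (rr a s L 0)))
   (ksum (Nat.succ L) fun k => Nat.mul (dig S (Nat.add (ei L) k))
      (Nat.add (rr a s L k) (rr a s L 0)))

/-- digit of `NW` -/
def dw (N t : Nat) : Nat :=
  Nat.land (Nat.shiftRight N (Nat.mul 112 t)) 5192296858534827628530496329220095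

/-- weight of the vertex source -/
def wV (a s L S : Nat) : Nat :=
  Nat.shiftRight (Nat.sub (Nat.pow 2 (Nat.add 36 (Nat.mul s L))) (Nat.mul 2 (colnum a s L S)))
    (Nat.succ (Nat.mul s L))

/-- check of an edge step; source lattice `a s L`, target radius `L'` -/
def chkW2 (a s L L' T S S' wV : Nat) : Bool :=
  and (Nat.ble (Nat.mul 2 (colnum a s L S)) (Nat.pow 2 (Nat.add 36 (Nat.mul s L))))
   (and (kall (Nat.succ L') fun k => kall (Nat.sub (Nat.succ L') k) fun j =>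
      Nat.ble (Nat.mul 68719476736 (dig S' (idx L' (Nat.add k j) j)))
        (dw (NW L T S wV) (idx L' (Nat.add k j) j)))
    (and (Nat.ble (Nat.mul 68719476736 (dig S' (ei L'))) (NG L T S wV))
     (kall L' fun k => Nat.beq (dig S' (Nat.add (ei L') (Nat.succ k))) 0)))

def chkW (a s L L' T S S' : Nat) : Bool := chkW2 a s L L' T S S' (wV a s L S)

/-- check of one row of the table: source vector `(X, Y, Z)` scaled by `2 ^ (s L)`, target lattice
`a' s' L'`, `lam = -p/r` -/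
def chkRow (D a' s' L' p r T row X Y Z : Nat) : Bool :=
  and (and (Nat.ble (Nat.succ (tb T row 0)) (ei L'))
      (and (Nat.ble (Nat.succ (tb T row 2)) (ei L')) (Nat.ble (Nat.succ (tb T row 4)) (ei L'))))
   (and (Nat.ble (Nat.mul D (Nat.add (Nat.add (Nat.add
          (Nat.mul (tb T row 1) (rr a' s' L' (Nat.mod (tb T row 0) (Nat.succ L'))))
          (Nat.mul (tb T row 3) (rr a' s' L' (Nat.mod (tb T row 2) (Nat.succ L')))))
          (Nat.mul (tb T row 5) (rr a' s' L' (Nat.mod (tb T row 4) (Nat.succ L')))))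
          (Nat.mul (tb T row 6) (rr a' s' L' 0))))
        (Nat.mul (Nat.mul 68719476736 (rr a' s' L' 0))
          (Nat.add (Nat.mul (Nat.sub r (Nat.mul 2 p)) Z) (Nat.mul (Nat.add r p) (Nat.add X Y)))))
    (and (Nat.ble (Nat.mul D (Nat.add (Nat.add (Nat.add
          (Nat.mul (tb T row 1) (rr a' s' L' (Nat.div (tb T row 0) (Nat.succ L'))))
          (Nat.mul (tb T row 3) (rr a' s' L' (Nat.div (tb T row 2) (Nat.succ L')))))
          (Nat.mul (tb T row 5) (rr a' s' L' (Nat.div (tb T row 4) (Nat.succ L')))))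
          (Nat.mul (tb T row 6) (rr a' s' L' 0))))
        (Nat.mul (Nat.mul 68719476736 (rr a' s' L' 0))
          (Nat.add (Nat.mul (Nat.sub r (Nat.mul 2 p)) Y) (Nat.mul (Nat.add r p) (Nat.add X Z)))))
     (Nat.ble (Nat.mul D (Nat.add (Nat.add (tb T row 1) (tb T row 3)) (tb T row 5)))
        (Nat.mul 68719476736
          (Nat.add (Nat.mul (Nat.sub r (Nat.mul 2 p)) X) (Nat.mul (Nat.add r p) (Nat.add Y Z)))))))

/-- check of the table -/
def chkT (a s L a' s' L' p r T : Nat) : Bool :=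
  let D := Nat.mul (Nat.mul 3 r) (rr a s L 0)
  and (kall (Nat.succ L) fun k => kall (Nat.sub (Nat.succ L) k) fun j =>
      chkRow D a' s' L' p r T (idx L (Nat.add k j) j) (rr a s L (Nat.add k j)) (rr a s L j)
        (rr a s L 0))
   (and (kall (Nat.succ L) fun k =>
      chkRow D a' s' L' p r T (Nat.add (ei L) k) (rr a s L k) (rr a s L 0) 0)
    (chkRow D a' s' L' p r T (Nat.add (ei L) (Nat.succ L)) (rr a s L 0) 0 0))

/-! ### elementary facts -/

lemma tb_lt (T s c : ℕ) : tb T s c < 2 ^ 48 := by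
  have h := and_mask (Nat.shiftRight (trow T s) (Nat.mul 48 c)) 48
  have h2 : tb T s c = Nat.land (Nat.shiftRight (trow T s) (Nat.mul 48 c))
    (2 ^ 48 - 1) := rfl
  rw [h2, h]
  exact Nat.mod_lt _ (by norm_num)

lemma sh1_eq (w p : ℕ) : sh1 w p = w * (2 ^ 128) ^ p := by
  unfold sh1
  have : Nat.shiftLeft w (Nat.mul 128 p) = w * 2 ^ (128 * p) := Nat.shiftLeft_eq _ _
  rw [this, pow_mul]

lemma sc_eq (a s w i : ℕ) : sc a s w i = w * a ^ i / 2 ^ (s * i) := by
  unfold sc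
  exact Nat.shiftRight_eq_div_pow _ _

/-- validity of a lattice; `ρ ^ L ≤ 2 ^ K` -/
structure OK (a s L K : ℕ) : Prop where
  one_lt : 2 ^ s < a
  pow_le : a ^ L ≤ 2 ^ (K + s * L)
  size : 3 * (6 * (L + 1) ^ 2 * 2 ^ (40 + K)) ^ 2 < 2 ^ 128

lemma OK.pow_le' {a s L K : ℕ} (h : OK a s L K) {i : ℕ} (hi : i ≤ L) :
    a ^ i ≤ 2 ^ K * 2 ^ (s * i) := by
  have h1 : a ^ i * 2 ^ (s * (L - i)) ≤ a ^ i * a ^ (L - i) := by
    refine Nat.mul_le_mul_left _ ?_
    rw [pow_mul]
    exact Nat.pow_le_pow_left h.one_lt.le _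
  have h2 : a ^ i * a ^ (L - i) = a ^ L := by rw [← pow_add]; congr 1; omega
  have h3 := h.pow_le
  have h4 : (2 : ℕ) ^ (K + s * L) = 2 ^ K * 2 ^ (s * i) * 2 ^ (s * (L - i)) := by
    rw [← pow_add, ← pow_add]
    congr 1
    rw [add_assoc, ← mul_add]
    congr 2
    omega
  have h5 : a ^ i * 2 ^ (s * (L - i)) ≤ 2 ^ K * 2 ^ (s * i) * 2 ^ (s * (L - i)) := by
    rw [← h4]; omega
  exact Nat.le_of_mul_le_mul_right h5 (by positivity)

lemma OK.sc_lt {a s L K : ℕ} (h : OK a s L K) {w i : ℕ} (hw : w < 2 ^ 40) (hi : i ≤ L) :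
    sc a s w i < 2 ^ (40 + K) := by
  rw [sc_eq, Nat.div_lt_iff_lt_mul (by positivity)]
  calc w * a ^ i ≤ w * (2 ^ K * 2 ^ (s * i)) := Nat.mul_le_mul_left _ (h.pow_le' hi)
    _ < 2 ^ 40 * (2 ^ K * 2 ^ (s * i)) := Nat.mul_lt_mul_of_pos_right hw (by positivity)
    _ = 2 ^ (40 + K) * 2 ^ (s * i) := by rw [pow_add]; ring

lemma mod_div_mod (N u v w : ℕ) (h : u + w ≤ v) :
    N % 2 ^ v / 2 ^ u % 2 ^ w = N / 2 ^ u % 2 ^ w := by
  have e : (2 : ℕ) ^ v = 2 ^ u * 2 ^ (v - u) := by rw [← pow_add]; congr 1; omega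
  rw [e, Nat.mod_mul_right_div_self]
  exact Nat.mod_mod_of_dvd _ (pow_dvd_pow 2 (by omega))

lemma rowc_eq (L N q : ℕ) : rowc L N q =
    N / 2 ^ (128 * ((4 * L + 1) * (q + 2 * L))) % 2 ^ (128 * (4 * L + 1)) := by
  have h := and_mask (Nat.shiftRight N (Nat.mul 128 (Nat.mul (st L) (Nat.add q (Nat.mul 2 L)))))
    (128 * (4 * L + 1))
  have h2 : Nat.shiftRight N (Nat.mul 128 (Nat.mul (st L) (Nat.add q (Nat.mul 2 L)))) =
    N / 2 ^ (128 * ((4 * L + 1) * (q + 2 * L))) := Nat.shiftRight_eq_div_pow _ _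
  rw [← h2, ← h]
  rfl

lemma cf_eq (L N p q : ℕ) (hp : p ≤ 2 * L) : cf L N p q =
    N / (2 ^ 128) ^ ((p + 2 * L) + (4 * L + 1) * (q + 2 * L)) % 2 ^ 128 := by
  have h := and_mask (Nat.shiftRight (rowc L N q) (Nat.mul 128 (Nat.add p (Nat.mul 2 L)))) 128
  have h2 : Nat.shiftRight (rowc L N q) (Nat.mul 128 (Nat.add p (Nat.mul 2 L))) =
    rowc L N q / 2 ^ (128 * (p + 2 * L)) := Nat.shiftRight_eq_div_pow _ _
  have h3 : cf L N p q = rowc L N q / 2 ^ (128 * (p + 2 * L)) % 2 ^ 128 := by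
    rw [← h2, ← h]
    cases q <;> rfl
  rw [h3, rowc_eq, mod_div_mod _ _ _ _ (by omega), Nat.div_div_eq_div_mul, ← pow_add, ← pow_mul]
  congr 3
  ring

lemma cfe_eq (L N m : ℕ) : cfe L N m = N / (2 ^ 128) ^ (m + 2 * L) % 2 ^ 128 := by
  have h := and_mask (Nat.shiftRight N (Nat.mul 128 (Nat.add m (Nat.mul 2 L)))) 128
  have h2 : Nat.shiftRight N (Nat.mul 128 (Nat.add m (Nat.mul 2 L))) =
    N / 2 ^ (128 * (m + 2 * L)) := Nat.shiftRight_eq_div_pow _ _
  rw [← pow_mul, ← h2, ← h]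
  rfl

lemma dw_eq (N t : ℕ) : dw N t = N / (2 ^ 112) ^ t % 2 ^ 112 := by
  have h := and_mask (Nat.shiftRight N (Nat.mul 112 t)) 112
  have h2 : Nat.shiftRight N (Nat.mul 112 t) = N / 2 ^ (112 * t) := Nat.shiftRight_eq_div_pow _ _
  rw [← pow_mul, ← h2, ← h]
  rfl

lemma mul_add_inj {M a b a' b' : ℕ} (ha : a < M) (ha' : a' < M) :
    a + M * b = a' + M * b' ↔ a = a' ∧ b = b' := by
  constructor
  · intro h
    have h1 : (a + M * b) % M = (a' + M * b') % M := by rw [h]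
    rw [Nat.add_mul_mod_self_left, Nat.add_mul_mod_self_left, Nat.mod_eq_of_lt ha,
      Nat.mod_eq_of_lt ha'] at h1
    subst h1
    refine ⟨rfl, ?_⟩
    have h2 : M * b = M * b' := by omega
    exact Nat.eq_of_mul_eq_mul_left (by omega) h2
  · rintro ⟨rfl, rfl⟩; rfl

end Crest.Agent.R163.DG
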