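import Crest.Agent.R163.DG1
import Crest.Agent.R163.DG2

/-!
Row 163, generic density evolution: soundness of the edge step.
-/

set_option autoImplicit false

namespace Crest.Agent.R163.DG

open Crest.Agent.R163

open Crest.Agent.R163.DE (SG gs sec ksum kall dig sum_sec ksum_eq kall_iff
  dig_eq dig_lt dig_zero digit_sum fiber_le)

/-- lattice ratio -/
noncomputable def rho (a s : ℕ) : ℝ := a / 2 ^ s

/-- interior digits -/
def Y (L S : ℕ) (k j : ℕ) : ℕ := dig S (idx L (k + j) j)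

/-- edge digits -/
def E (L S : ℕ) (k : ℕ) : ℕ := dig S (ei L + k)

lemma rr_cast {a s L i : ℕ} (hi : i ≤ L) : (rr a s L i : ℝ) = 2 ^ (s * L) * rho a s ^ i := by
  have h : rr a s L i = a ^ i * 2 ^ (s * (L - i)) := rfl
  rw [h]
  push_cast
  unfold rho
  rw [div_pow, ← pow_mul]
  have h2 : (2 : ℝ) ^ (s * L) = 2 ^ (s * (L - i)) * 2 ^ (s * i) := by
    rw [← pow_add, ← mul_add]; congr 2; omega
  rw [h2]
  field_simp

lemma rr_zero (a s L : ℕ) : (rr a s L 0 : ℝ) = 2 ^ (s * L) := by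
  rw [rr_cast (Nat.zero_le _), pow_zero, mul_one]

lemma card_sec_le (n : ℕ) : (sec n).card ≤ n ^ 2 := by
  have h : (sec n).card = ∑ k ∈ Finset.range n, (n - k) := by
    rw [Finset.card_eq_sum_ones, ← sum_sec n (fun _ _ => 1)]
    simp
  rw [h]
  calc ∑ k ∈ Finset.range n, (n - k) ≤ ∑ _k ∈ Finset.range n, n :=
        Finset.sum_le_sum fun k _ => Nat.sub_le _ _
    _ = n ^ 2 := by simp [sq]

/-! ### the sources -/

/-- source identifiers -/
def sid (L : ℕ) : (Σ _ : ℕ, ℕ) ⊕ ℕ → ℕ :=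
  Sum.elim (fun x => idx L (x.1 + x.2) x.2) (fun k => ei L + k)

/-- source weights -/
def sw (L S w : ℕ) : (Σ _ : ℕ, ℕ) ⊕ ℕ → ℕ :=
  Sum.elim (fun x => dig S (idx L (x.1 + x.2) x.2)) (fun k => if k = L + 1 then w else
    dig S (ei L + k))

@[irreducible] def Src (L : ℕ) : Finset ((Σ _ : ℕ, ℕ) ⊕ ℕ) :=
  (sec (L + 1)).disjSum (Finset.range (L + 2))

lemma card_Src_le (L : ℕ) : (Src L).card ≤ (L + 1) ^ 2 + (L + 2) := by
  unfold Src
  rw [Finset.card_disjSum, Finset.card_range]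
  exact Nat.add_le_add_right (card_sec_le _) _

lemma sum_Src {M : Type*} [AddCommMonoid M] (L : ℕ) (f : (Σ _ : ℕ, ℕ) ⊕ ℕ → M) :
    ∑ x ∈ Src L, f x = ∑ x ∈ sec (L + 1), f (Sum.inl x) +
      (∑ k ∈ Finset.range (L + 1), f (Sum.inr k) + f (Sum.inr (L + 1))) := by
  unfold Src
  rw [Finset.sum_disjSum, Finset.sum_range_succ]

lemma sw_lt {L S w : ℕ} (hw : w < 2 ^ 40) (x : (Σ _ : ℕ, ℕ) ⊕ ℕ) : sw L S w x < 2 ^ 40 := by
  rcases x with x | k
  · exact dig_lt _ _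
  · change (if k = L + 1 then w else dig S (ei L + k)) < 2 ^ 40
    split_ifs
    · exact hw
    · exact dig_lt _ _

lemma wterm_eq (T w s : ℕ) : wterm T w s =
    ∑ c : Fin 3, w * tb T s (2 * c + 1) * (2 ^ 112) ^ tb T s (2 * c) := by
  have h : ∀ a b : ℕ, Nat.shiftLeft a (Nat.mul 112 b) = a * (2 ^ 112) ^ b := by
    intro a b
    have : Nat.shiftLeft a (Nat.mul 112 b) = a * 2 ^ (112 * b) := Nat.shiftLeft_eq _ _
    rw [this, pow_mul]
  unfold wterm
  rw [h, h, h, Fin.sum_univ_three]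
  rfl

lemma sw_inr {L S w k : ℕ} (hk : k < L + 1) : sw L S w (Sum.inr k) = dig S (ei L + k) := by
  change (if k = L + 1 then w else dig S (ei L + k)) = _
  rw [if_neg (by omega)]

lemma sw_last {L S w : ℕ} : sw L S w (Sum.inr (L + 1)) = w := by
  change (if L + 1 = L + 1 then w else dig S (ei L + (L + 1))) = _
  rw [if_pos rfl]

lemma NW_eq (L T S w : ℕ) : NW L T S w = ∑ x ∈ Src L ×ˢ (Finset.univ : Finset (Fin 3)),
    (sw L S w x.1 * tb T (sid L x.1) (2 * x.2 + 1)) *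
      (2 ^ 112) ^ tb T (sid L x.1) (2 * x.2) := by
  rw [Finset.sum_product, sum_Src]
  unfold NW
  simp only [ksum_eq]
  have h1 : ∑ k ∈ Finset.range (L + 1), ∑ c : Fin 3, sw L S w (Sum.inr k) *
      tb T (sid L (Sum.inr k)) (2 * c + 1) * (2 ^ 112) ^ tb T (sid L (Sum.inr k)) (2 * c) =
      ∑ k ∈ Finset.range (L + 1), wterm T (dig S (Nat.add (ei L) k)) (Nat.add (ei L) k) := by
    refine Finset.sum_congr rfl fun k hk => ?_
    rw [sw_inr (Finset.mem_range.1 hk), wterm_eq]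
    rfl
  rw [h1, sw_last]
  simp only [wterm_eq]
  rw [← sum_sec (L + 1) (fun k j => ∑ c : Fin 3, sw L S w (Sum.inl ⟨k, j⟩) *
    tb T (sid L (Sum.inl ⟨k, j⟩)) (2 * c + 1) *
      (2 ^ 112) ^ tb T (sid L (Sum.inl ⟨k, j⟩)) (2 * c))]
  rfl

lemma NG_eq (L T S w : ℕ) : NG L T S w = ∑ x ∈ Src L, sw L S w x * tb T (sid L x) 6 := by
  rw [sum_Src]
  unfold NG
  simp only [ksum_eq]
  have h1 : ∑ k ∈ Finset.range (L + 1), sw L S w (Sum.inr k) * tb T (sid L (Sum.inr k)) 6 =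
      ∑ k ∈ Finset.range (L + 1), Nat.mul (dig S (Nat.add (ei L) k)) (tb T (Nat.add (ei L) k) 6) := by
    refine Finset.sum_congr rfl fun k hk => ?_
    rw [sw_inr (Finset.mem_range.1 hk)]
    rfl
  rw [h1, sw_last]
  rw [← sum_sec (L + 1) (fun k j => sw L S w (Sum.inl ⟨k, j⟩) * tb T (sid L (Sum.inl ⟨k, j⟩)) 6)]
  rfl

lemma NW_digit {L T S w : ℕ} (hL : (L + 1) ^ 2 + (L + 2) < 2 ^ 20) (hw : w < 2 ^ 40) (t : ℕ) :
    dw (NW L T S w) t =
    ∑ x ∈ Src L ×ˢ (Finset.univ : Finset (Fin 3)) with tb T (sid L x.1) (2 * x.2) = t,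
      (sw L S w x.1 * tb T (sid L x.1) (2 * x.2 + 1)) := by
  rw [dw_eq, NW_eq]
  refine digit_sum _ _ _ _ ?_ t
  have h1 : ∀ x ∈ Src L ×ˢ (Finset.univ : Finset (Fin 3)),
      sw L S w x.1 * tb T (sid L x.1) (2 * x.2 + 1) ≤ 2 ^ 40 * 2 ^ 48 := by
    intro x _
    exact Nat.mul_le_mul (sw_lt hw _).le (tb_lt _ _ _).le
  have h2 := Finset.sum_le_card_nsmul _ _ _ h1
  rw [Finset.card_product, Finset.card_univ, Fintype.card_fin] at h2
  refine lt_of_le_of_lt h2 ?_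
  have h3 := card_Src_le L
  have h4 : (Src L).card * 3 ≤ 2 ^ 20 * 3 := Nat.mul_le_mul_right _ (by omega)
  calc ((Src L).card * 3) • (2 ^ 40 * 2 ^ 48) = ((Src L).card * 3) * (2 ^ 40 * 2 ^ 48) :=
        smul_eq_mul _ _
    _ ≤ (2 ^ 20 * 3) * (2 ^ 40 * 2 ^ 48) := Nat.mul_le_mul_right _ h4
    _ < 2 ^ 112 := by norm_num

/-! ### the table -/

/-- row of a table at a real source vector -/
def RowOK (T row L' : ℕ) (ρ' lam x y z : ℝ) : Prop :=
  (∀ c : Fin 3, tb T row (2 * c) < ei L') ∧ ∀ G, SG G →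
    ∑ c : Fin 3, (tb T row (2 * c + 1) : ℝ) *
      gs G (ρ' ^ (tb T row (2 * c) % (L' + 1))) (ρ' ^ (tb T row (2 * c) / (L' + 1))) 1 +
      (tb T row 6 : ℝ) * gs G 1 1 0 ≤ 2 ^ 36 * gw lam G x y z

lemma div_le' {t L : ℕ} (h : Nat.succ t ≤ ei L) : t / (L + 1) ≤ L := by
  have h2 : t < (L + 1) * (L + 1) := h
  exact Nat.lt_succ_iff.1 ((Nat.div_lt_iff_lt_mul (Nat.succ_pos L)).2 h2)

lemma mod_le' (t L : ℕ) : t % (L + 1) ≤ L := Nat.lt_succ_iff.1 (Nat.mod_lt t (Nat.succ_pos L))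

lemma rho_pos {a s : ℕ} (ha : 2 ^ s < a) : 0 < rho a s := by
  unfold rho
  have : (0 : ℝ) < a := by exact_mod_cast (Nat.zero_le _).trans_lt ha
  positivity

lemma wx_eq {p r : ℕ} (hr : 0 < r) (x y z : ℝ) :
    3 * r * wx (-(p / r : ℝ)) x y z = (r - 2 * p) * x + (r + p) * (y + z) := by
  unfold wx
  have : (r : ℝ) ≠ 0 := by positivity
  field_simp
  ring

theorem rowOK_of_chkRow {a' s' L' p r T row X Y Z : ℕ} {x y z N : ℝ} (ha : 2 ^ s' < a')
    (hr : 0 < r) (hpr : 2 * p ≤ r) (hN : 0 < N)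
    {M : ℕ} (hM : (M : ℝ) = N) (hX : (X : ℝ) = N * x) (hY : (Y : ℝ) = N * y) (hZ : (Z : ℝ) = N * z)
    (h : chkRow (Nat.mul (Nat.mul 3 r) M) a' s' L' p r T row X Y Z = true) :
    RowOK T row L' (rho a' s') (-(p / r : ℝ)) x y z := by
  unfold chkRow at h
  simp only [Bool.and_eq_true, Nat.ble_eq] at h
  change ((Nat.succ (tb T row 0) ≤ ei L' ∧ (Nat.succ (tb T row 2) ≤ ei L' ∧
      Nat.succ (tb T row 4) ≤ ei L')) ∧
      (3 * r * M * (tb T row 1 * rr a' s' L' (tb T row 0 % (L' + 1)) +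
          tb T row 3 * rr a' s' L' (tb T row 2 % (L' + 1)) +
          tb T row 5 * rr a' s' L' (tb T row 4 % (L' + 1)) + tb T row 6 * rr a' s' L' 0) ≤
        68719476736 * rr a' s' L' 0 * ((r - 2 * p) * Z + (r + p) * (X + Y))) ∧
      (3 * r * M * (tb T row 1 * rr a' s' L' (tb T row 0 / (L' + 1)) +
          tb T row 3 * rr a' s' L' (tb T row 2 / (L' + 1)) +
          tb T row 5 * rr a' s' L' (tb T row 4 / (L' + 1)) + tb T row 6 * rr a' s' L' 0) ≤
        68719476736 * rr a' s' L' 0 * ((r - 2 * p) * Y + (r + p) * (X + Z))) ∧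
      (3 * r * M * (tb T row 1 + tb T row 3 + tb T row 5) ≤
        68719476736 * ((r - 2 * p) * X + (r + p) * (Y + Z)))) at h
  obtain ⟨⟨d0, d1, d2⟩, h1, h2, h3⟩ := h
  refine ⟨?_, fun G hG => ?_⟩
  · intro c
    fin_cases c
    · exact d0
    · exact d1
    · exact d2
  generalize ht0 : tb T row 0 = t0 at *
  generalize ha0 : tb T row 1 = a0 at *
  generalize ht1 : tb T row 2 = t1 at *
  generalize ha1 : tb T row 3 = a1 at *
  generalize ht2 : tb T row 4 = t2 at *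
  generalize ha2 : tb T row 5 = a2 at *
  generalize hb : tb T row 6 = b at *
  have hρ := rho_pos ha
  have hrp : ∀ n, 0 ≤ rho a' s' ^ n := fun n => (pow_pos hρ n).le
  have h1' : (3 : ℝ) * r * M * (a0 * rr a' s' L' (t0 % (L' + 1)) + a1 * rr a' s' L' (t1 % (L' + 1)) +
      a2 * rr a' s' L' (t2 % (L' + 1)) + b * rr a' s' L' 0) ≤
      68719476736 * rr a' s' L' 0 * (((r - 2 * p : ℕ) : ℝ) * Z + (r + p) * (X + Y)) := by
    exact_mod_cast h1
  have h2' : (3 : ℝ) * r * M * (a0 * rr a' s' L' (t0 / (L' + 1)) + a1 * rr a' s' L' (t1 / (L' + 1)) +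
      a2 * rr a' s' L' (t2 / (L' + 1)) + b * rr a' s' L' 0) ≤
      68719476736 * rr a' s' L' 0 * (((r - 2 * p : ℕ) : ℝ) * Y + (r + p) * (X + Z)) := by
    exact_mod_cast h2
  have h3' : (3 : ℝ) * r * M * (a0 + a1 + a2) ≤
      68719476736 * (((r - 2 * p : ℕ) : ℝ) * X + (r + p) * (Y + Z)) := by
    exact_mod_cast h3
  rw [Nat.cast_sub hpr] at h1' h2' h3'
  push_cast at h1' h2' h3'
  rw [rr_cast (mod_le' _ _), rr_cast (mod_le' _ _), rr_cast (mod_le' _ _), rr_zero, hM, hX, hY, hZ]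
    at h1'
  rw [rr_cast (div_le' d0), rr_cast (div_le' d1), rr_cast (div_le' d2), rr_zero, hM, hX, hY, hZ]
    at h2'
  rw [hM, hX, hY, hZ] at h3'
  have hr' : (0 : ℝ) < r := by exact_mod_cast hr
  have hpr' : (2 : ℝ) * p ≤ r := by exact_mod_cast hpr
  have hD : (0 : ℝ) < 3 * r * N := by positivity
  have h2p : (0 : ℝ) < 2 ^ (s' * L') := by positivity
  -- cancel the scalings
  have k1 : (a0 : ℝ) * rho a' s' ^ (t0 % (L' + 1)) + a1 * rho a' s' ^ (t1 % (L' + 1)) +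
      a2 * rho a' s' ^ (t2 % (L' + 1)) + b ≤ 2 ^ 36 * wx (-(p / r : ℝ)) z x y := by
    have e := wx_eq (p := p) hr z x y
    have e2 : (3 * r * N) * 2 ^ (s' * L') * ((a0 : ℝ) * rho a' s' ^ (t0 % (L' + 1)) +
        a1 * rho a' s' ^ (t1 % (L' + 1)) + a2 * rho a' s' ^ (t2 % (L' + 1)) + b) ≤
        (3 * r * N) * 2 ^ (s' * L') * (2 ^ 36 * wx (-(p / r : ℝ)) z x y) := by
      calc _ = 3 * r * N * (a0 * (2 ^ (s' * L') * rho a' s' ^ (t0 % (L' + 1))) +
            a1 * (2 ^ (s' * L') * rho a' s' ^ (t1 % (L' + 1))) +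
            a2 * (2 ^ (s' * L') * rho a' s' ^ (t2 % (L' + 1))) + b * 2 ^ (s' * L')) := by ring
        _ ≤ _ := h1'
        _ = 68719476736 * 2 ^ (s' * L') * N * (3 * r * wx (-(p / r : ℝ)) z x y) := by
            rw [e]; ring
        _ = _ := by norm_num; ring
    exact le_of_mul_le_mul_left e2 (by positivity)
  have k2 : (a0 : ℝ) * rho a' s' ^ (t0 / (L' + 1)) + a1 * rho a' s' ^ (t1 / (L' + 1)) +
      a2 * rho a' s' ^ (t2 / (L' + 1)) + b ≤ 2 ^ 36 * wx (-(p / r : ℝ)) y x z := by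
    have e := wx_eq (p := p) hr y x z
    have e2 : (3 * r * N) * 2 ^ (s' * L') * ((a0 : ℝ) * rho a' s' ^ (t0 / (L' + 1)) +
        a1 * rho a' s' ^ (t1 / (L' + 1)) + a2 * rho a' s' ^ (t2 / (L' + 1)) + b) ≤
        (3 * r * N) * 2 ^ (s' * L') * (2 ^ 36 * wx (-(p / r : ℝ)) y x z) := by
      calc _ = 3 * r * N * (a0 * (2 ^ (s' * L') * rho a' s' ^ (t0 / (L' + 1))) +
            a1 * (2 ^ (s' * L') * rho a' s' ^ (t1 / (L' + 1))) +
            a2 * (2 ^ (s' * L') * rho a' s' ^ (t2 / (L' + 1))) + b * 2 ^ (s' * L')) := by ring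
        _ ≤ _ := h2'
        _ = 68719476736 * 2 ^ (s' * L') * N * (3 * r * wx (-(p / r : ℝ)) y x z) := by
            rw [e]; ring
        _ = _ := by norm_num; ring
    exact le_of_mul_le_mul_left e2 (by positivity)
  have k3 : (a0 : ℝ) + a1 + a2 ≤ 2 ^ 36 * wx (-(p / r : ℝ)) x y z := by
    have e := wx_eq (p := p) hr x y z
    have e2 : (3 * r * N) * ((a0 : ℝ) + a1 + a2) ≤
        (3 * r * N) * (2 ^ 36 * wx (-(p / r : ℝ)) x y z) := by
      calc _ ≤ _ := h3'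
        _ = 68719476736 * N * (3 * r * wx (-(p / r : ℝ)) x y z) := by rw [e]; ring
        _ = _ := by norm_num; ring
    exact le_of_mul_le_mul_left e2 hD
  have c0 : (0 : ℝ) ≤ a0 := Nat.cast_nonneg _
  have c1 : (0 : ℝ) ≤ a1 := Nat.cast_nonneg _
  have c2 : (0 : ℝ) ≤ a2 := Nat.cast_nonneg _
  have c3 : (0 : ℝ) ≤ b := Nat.cast_nonneg _
  have hA : (0 : ℝ) ≤ a0 * rho a' s' ^ (t0 % (L' + 1)) + a1 * rho a' s' ^ (t1 % (L' + 1)) +
      a2 * rho a' s' ^ (t2 % (L' + 1)) :=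
    add_nonneg (add_nonneg (mul_nonneg c0 (hrp _)) (mul_nonneg c1 (hrp _)))
      (mul_nonneg c2 (hrp _))
  have hB : (0 : ℝ) ≤ a0 * rho a' s' ^ (t0 / (L' + 1)) + a1 * rho a' s' ^ (t1 / (L' + 1)) +
      a2 * rho a' s' ^ (t2 / (L' + 1)) :=
    add_nonneg (add_nonneg (mul_nonneg c0 (hrp _)) (mul_nonneg c1 (hrp _)))
      (mul_nonneg c2 (hrp _))
  have hC : (0 : ℝ) ≤ a0 + a1 + a2 := by positivity
  have e1 : (b : ℝ) * gs G 1 1 0 = gs G b b 0 := by
    rw [← hG.gs_hom c3 zero_le_one zero_le_one le_rfl]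
    simp
  have w1 : 0 ≤ wx (-(p / r : ℝ)) z x y := by
    have : (0 : ℝ) ≤ 2 ^ 36 * wx (-(p / r : ℝ)) z x y := le_trans (by positivity) k1
    exact nonneg_of_mul_nonneg_right this (by positivity)
  have w2 : 0 ≤ wx (-(p / r : ℝ)) y x z := by
    have : (0 : ℝ) ≤ 2 ^ 36 * wx (-(p / r : ℝ)) y x z := le_trans (by positivity) k2
    exact nonneg_of_mul_nonneg_right this (by positivity)
  have w3 : 0 ≤ wx (-(p / r : ℝ)) x y z := by
    have : (0 : ℝ) ≤ 2 ^ 36 * wx (-(p / r : ℝ)) x y z := le_trans hC k3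
    exact nonneg_of_mul_nonneg_right this (by positivity)
  have s1 := hG.comb3 (a₁ := a0) (a₂ := a1) (a₃ := a2) (x₁ := rho a' s' ^ (t0 % (L' + 1)))
    (x₂ := rho a' s' ^ (t1 % (L' + 1))) (x₃ := rho a' s' ^ (t2 % (L' + 1)))
    (y₁ := rho a' s' ^ (t0 / (L' + 1)))
    (y₂ := rho a' s' ^ (t1 / (L' + 1))) (y₃ := rho a' s' ^ (t2 / (L' + 1)))
    c0 c1 c2 (hrp _) (hrp _) (hrp _) (hrp _) (hrp _) (hrp _) hA hB hC zero_le_one
    (by rw [one_mul]) (by rw [one_mul]) (by rw [one_mul])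
  rw [one_mul] at s1
  have s2 := hG.gs_sup hA hB hC c3 c3 le_rfl
  have k3' : (a0 : ℝ) + a1 + a2 + 0 ≤ 2 ^ 36 * wx (-(p / r : ℝ)) x y z := by
    rw [add_zero]; exact k3
  have s3 := hG.gs_mono (add_nonneg hA c3) (add_nonneg hB c3) (add_nonneg hC le_rfl) k1 k2 k3'
  have e2 : gs G (2 ^ 36 * wx (-(p / r : ℝ)) z x y) (2 ^ 36 * wx (-(p / r : ℝ)) y x z)
      (2 ^ 36 * wx (-(p / r : ℝ)) x y z) = 2 ^ 36 * gw (-(p / r : ℝ)) G x y z :=
    hG.gs_hom (by positivity) w1 w2 w3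
  rw [e2] at s3
  rw [Fin.sum_univ_three, e1]
  simp only [Fin.val_zero, Fin.val_one, Fin.val_two, mul_zero, zero_add, mul_one,
    show 2 * 2 = 4 from rfl, show 4 + 1 = 5 from rfl, show 2 + 1 = 3 from rfl, ht0, ha0, ht1, ha1,
    ht2, ha2]
  linarith

/-- the facts contained in the table check -/
structure TabOK (a s L a' s' L' : ℕ) (lam : ℝ) (T : ℕ) : Prop where
  int : ∀ x ∈ sec (L + 1), RowOK T (idx L (x.1 + x.2) x.2) L' (rho a' s') lam
    (rho a s ^ (x.1 + x.2)) (rho a s ^ x.2) 1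
  edge : ∀ k, k < L + 1 → RowOK T (ei L + k) L' (rho a' s') lam (rho a s ^ k) 1 0
  vert : RowOK T (ei L + (L + 1)) L' (rho a' s') lam 1 0 0

theorem tabOK_of_chkT {a s L a' s' L' p r T : ℕ} (ha : 2 ^ s < a) (ha' : 2 ^ s' < a')
    (hr : 0 < r) (hpr : 2 * p ≤ r) (h : chkT a s L a' s' L' p r T = true) :
    TabOK a s L a' s' L' (-(p / r : ℝ)) T := by
  unfold chkT at h
  rw [Bool.and_eq_true, Bool.and_eq_true, kall_iff, kall_iff] at h
  obtain ⟨h1, h2, h3⟩ := h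
  have hρ := rho_pos ha
  have hrp : ∀ n, 0 ≤ rho a s ^ n := fun n => (pow_pos hρ n).le
  have hN : (0 : ℝ) < 2 ^ (s * L) := by positivity
  refine ⟨fun x hx => ?_, fun k hk => ?_, ?_⟩
  · have hx' := DE.mem_sec.1 hx
    have h4 := h1 x.1 (by change x.1 < L + 1; omega)
    rw [kall_iff] at h4
    have h5 := h4 x.2 (by change x.2 < L + 1 - x.1; omega)
    exact rowOK_of_chkRow ha' hr hpr hN (rr_zero a s L) (rr_cast (by omega)) (rr_cast (by omega))
      (by rw [rr_zero, mul_one]) h5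
  · have h4 := h2 k hk
    exact rowOK_of_chkRow ha' hr hpr hN (rr_zero a s L) (rr_cast (by omega))
      (by rw [rr_zero, mul_one]) (by simp) h4
  · exact rowOK_of_chkRow ha' hr hpr hN (rr_zero a s L) (by rw [rr_zero, mul_one])
      (by simp) (by simp) h3

/-! ### column sums -/

lemma colnum_cast (a s L S : ℕ) :
    (colnum a s L S : ℝ) = 2 ^ (s * L) * col (rho a s) (L + 1) (Y L S) (E L S) := by
  unfold colnum col
  simp only [ksum_eq]
  have e : ∀ a b : ℕ, Nat.add a b = a + b := fun _ _ => rfl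
  rw [e]
  rw [← sum_sec (L + 1) (fun k j => (Y L S k j : ℝ) * (rho a s ^ (k + j) + rho a s ^ j + 1))]
  push_cast
  rw [mul_add, Finset.mul_sum, Finset.mul_sum]
  congr 1
  · refine Finset.sum_congr rfl fun k hk => ?_
    rw [Finset.mul_sum]
    refine Finset.sum_congr rfl fun j hj => ?_
    have hk' : k < L + 1 := Finset.mem_range.1 hk
    have hj' : j < L + 1 - k := Finset.mem_range.1 hj
    change ((dig S (idx L (k + j) j) * (rr a s L (k + j) + rr a s L j + rr a s L 0) : ℕ) : ℝ) = _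
    push_cast
    rw [rr_cast (by omega), rr_cast (by omega), rr_zero]
    unfold Y
    ring
  · refine Finset.sum_congr rfl fun k hk => ?_
    have hk' : k < L + 1 := Finset.mem_range.1 hk
    change ((dig S (ei L + k) * (rr a s L k + rr a s L 0) : ℕ) : ℝ) = _
    push_cast
    rw [rr_cast (by omega), rr_zero]
    unfold E
    ring

lemma idx_mod {L a b : ℕ} (ha : a < L + 1) : idx L a b % (L + 1) = a := by
  change (a + (L + 1) * b) % (L + 1) = a
  rw [Nat.add_mul_mod_self_left, Nat.mod_eq_of_lt ha]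

lemma idx_div {L a b : ℕ} (ha : a < L + 1) : idx L a b / (L + 1) = b := by
  change (a + (L + 1) * b) / (L + 1) = b
  rw [Nat.add_mul_div_left _ _ (Nat.succ_pos L), Nat.div_eq_of_lt ha, zero_add]

theorem chkW_sound {Ω : Type*} {C : Ω → Fin 3 → ℝ} (hC : IsChan C) {a s L a' s' L' T S S' : ℕ}
    {lam : ℝ} (hl : Adm 3 lam) (ha : 2 ^ s < a) (ha' : 2 ^ s' < a')
    (hL : (L + 1) ^ 2 + (L + 2) < 2 ^ 20) (hT : TabOK a s L a' s' L' lam T)
    (h : chkW a s L L' T S S' = true)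
    (hlb : LB C (rho a s) (L + 1) (Y L S) (E L S)) :
    LB (fun o => W lam (C o)) (rho a' s') (L' + 1) (Y L' S') (E L' S') := by
  intro G hG
  unfold chkW at h
  generalize hw : wV a s L S = w at h
  unfold chkW2 at h
  rw [Bool.and_eq_true, Bool.and_eq_true, Bool.and_eq_true, kall_iff, kall_iff] at h
  obtain ⟨c1, c2, c3, c4⟩ := h
  have hρ := rho_pos ha
  have hρ' := rho_pos ha'
  have hrp : ∀ n, 0 ≤ rho a s ^ n := fun n => (pow_pos hρ n).le
  have hrp' : ∀ n, 0 ≤ rho a' s' ^ n := fun n => (pow_pos hρ' n).le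
  -- column sum
  have c1' : 2 * colnum a s L S ≤ 2 ^ (36 + s * L) := Nat.le_of_ble_eq_true c1
  have hcol : 2 * col (rho a s) (L + 1) (Y L S) (E L S) ≤ 2 ^ 36 := by
    have h1 : ((2 * colnum a s L S : ℕ) : ℝ) ≤ ((2 ^ (36 + s * L) : ℕ) : ℝ) := by
      exact_mod_cast c1'
    push_cast at h1
    rw [colnum_cast, pow_add] at h1
    have h2 : (2 : ℝ) ^ (s * L) * (2 * col (rho a s) (L + 1) (Y L S) (E L S)) ≤
        2 ^ (s * L) * 2 ^ 36 := by linarith
    exact le_of_mul_le_mul_left h2 (by positivity)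
  have hwV : w = (2 ^ (36 + s * L) - 2 * colnum a s L S) / 2 ^ (s * L + 1) := by
    rw [← hw]
    exact Nat.shiftRight_eq_div_pow _ _
  have hw1 : (w : ℝ) ≤ (2 ^ 36 - 2 * col (rho a s) (L + 1) (Y L S) (E L S)) / 2 := by
    rw [hwV]
    refine Nat.cast_div_le.trans ?_
    rw [Nat.cast_sub c1']
    push_cast
    rw [colnum_cast, pow_add, pow_succ]
    refine le_of_eq ?_
    field_simp
    ring
  have hw2 : w < 2 ^ 40 := by
    rw [hwV, Nat.div_lt_iff_lt_mul (by positivity)]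
    calc 2 ^ (36 + s * L) - 2 * colnum a s L S ≤ 2 ^ (36 + s * L) := Nat.sub_le _ _
      _ < 2 ^ 40 * 2 ^ (s * L + 1) := by
        rw [← pow_add]
        exact Nat.pow_lt_pow_right (by norm_num) (by omega)
  -- interior digits
  have c2' : ∀ x ∈ sec (L' + 1), 68719476736 * Y L' S' x.1 x.2 ≤
      dw (NW L T S w) (idx L' (x.1 + x.2) x.2) := by
    intro x hx
    have hx' := DE.mem_sec.1 hx
    have h3 := c2 x.1 (by change x.1 < L' + 1; omega)
    rw [kall_iff] at h3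
    exact Nat.le_of_ble_eq_true (h3 x.2 (by change x.2 < L' + 1 - x.1; omega))
  have c3' : 68719476736 * E L' S' 0 ≤ NG L T S w := Nat.le_of_ble_eq_true c3
  have c4' : ∀ k, k < L' → E L' S' (k + 1) = 0 := by
    intro k hk
    exact Nat.eq_of_beq_eq_true (c4 k hk)
  have h1 := hlb.edge hC hl hG
  refine le_trans ?_ h1
  -- the new state
  have hg0 : 0 ≤ gs G 1 1 0 := hG.gs_nonneg zero_le_one zero_le_one le_rfl
  have hE : ∑ k ∈ Finset.range (L' + 1), (E L' S' k : ℝ) * gs G (rho a' s' ^ k) 1 0 =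
      (E L' S' 0 : ℝ) * gs G 1 1 0 := by
    rw [Finset.sum_range_succ']
    have : ∑ k ∈ Finset.range L', (E L' S' (k + 1) : ℝ) * gs G (rho a' s' ^ (k + 1)) 1 0 = 0 := by
      refine Finset.sum_eq_zero fun k hk => ?_
      rw [c4' k (Finset.mem_range.1 hk)]
      simp
    rw [this]
    simp
  -- interior part
  set H : ℕ → ℝ := fun t => gs G (rho a' s' ^ (t % (L' + 1))) (rho a' s' ^ (t / (L' + 1))) 1
    with hH
  have hH0 : ∀ t, 0 ≤ H t := fun t => hG.gs_nonneg (hrp' _) (hrp' _) zero_le_one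
  have hφ : Set.InjOn (fun x : Σ _ : ℕ, ℕ => idx L' (x.1 + x.2) x.2) (sec (L' + 1)) := by
    rintro ⟨k, j⟩ hx ⟨k', j'⟩ hx' heq
    have h3 := DE.mem_sec.1 (Finset.mem_coe.1 hx)
    have h4 := DE.mem_sec.1 (Finset.mem_coe.1 hx')
    simp only at h3 h4
    change (k + j) + (L' + 1) * j = (k' + j') + (L' + 1) * j' at heq
    obtain ⟨e1, e2⟩ := (mul_add_inj (by omega) (by omega)).1 heq
    subst e2
    have : k = k' := by omega
    subst this
    rfl
  have h5 := fiber_le (Src L ×ˢ (Finset.univ : Finset (Fin 3))) (sec (L' + 1))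
    (fun x : Σ _ : ℕ, ℕ => idx L' (x.1 + x.2) x.2) hφ
    (fun x => tb T (sid L x.1) (2 * x.2))
    (fun x => sw L S w x.1 * tb T (sid L x.1) (2 * x.2 + 1)) H (fun _ _ => hH0 _)
  simp only [← NW_digit hL hw2] at h5
  have h6 : (2 : ℝ) ^ 36 * ∑ x ∈ sec (L' + 1),
      (Y L' S' x.1 x.2 : ℝ) * gs G (rho a' s' ^ (x.1 + x.2)) (rho a' s' ^ x.2) 1 ≤
      ∑ x ∈ sec (L' + 1), (dw (NW L T S w) (idx L' (x.1 + x.2) x.2) : ℝ) *
        H (idx L' (x.1 + x.2) x.2) := by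
    rw [Finset.mul_sum]
    refine Finset.sum_le_sum fun x hx => ?_
    have hx' := DE.mem_sec.1 hx
    have e1 : H (idx L' (x.1 + x.2) x.2) = gs G (rho a' s' ^ (x.1 + x.2)) (rho a' s' ^ x.2) 1 := by
      simp only [hH, idx_mod hx', idx_div hx']
    rw [e1, ← mul_assoc]
    refine mul_le_mul_of_nonneg_right ?_ (hG.gs_nonneg (hrp' _) (hrp' _) zero_le_one)
    have := c2' x hx
    have h7 : ((68719476736 * Y L' S' x.1 x.2 : ℕ) : ℝ) ≤
        dw (NW L T S w) (idx L' (x.1 + x.2) x.2) := by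
      exact_mod_cast this
    push_cast at h7
    norm_num at h7 ⊢
    linarith
  have h7 : ((E L' S' 0 : ℝ) * gs G 1 1 0) * 2 ^ 36 ≤
      ∑ x ∈ Src L, (sw L S w x : ℝ) * ((tb T (sid L x) 6 : ℝ) * gs G 1 1 0) := by
    have h8 : ((68719476736 * E L' S' 0 : ℕ) : ℝ) ≤ NG L T S w := by exact_mod_cast c3'
    rw [NG_eq] at h8
    push_cast at h8
    have h9 := mul_le_mul_of_nonneg_right h8 hg0
    rw [Finset.sum_mul] at h9
    have e1 : ∑ x ∈ Src L, (sw L S w x : ℝ) * ((tb T (sid L x) 6 : ℝ) * gs G 1 1 0) =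
        ∑ x ∈ Src L, (sw L S w x : ℝ) * (tb T (sid L x) 6 : ℝ) * gs G 1 1 0 := by
      refine Finset.sum_congr rfl fun x _ => ?_
      ring
    rw [e1]
    refine le_trans (le_of_eq ?_) h9
    norm_num
    ring
  -- rows
  have hrow : ∀ (x : (Σ _ : ℕ, ℕ) ⊕ ℕ) (wt X Y Z : ℝ), 0 ≤ wt →
      RowOK T (sid L x) L' (rho a' s') lam X Y Z →
      ∑ c : Fin 3, wt * ((tb T (sid L x) (2 * c + 1) : ℝ) * H (tb T (sid L x) (2 * c))) +
        wt * ((tb T (sid L x) 6 : ℝ) * gs G 1 1 0) ≤ 2 ^ 36 * (wt * gw lam G X Y Z) := by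
    intro x wt X Y Z hwt hrow
    have h8 := mul_le_mul_of_nonneg_left (hrow.2 G hG) hwt
    rw [mul_add, Finset.mul_sum] at h8
    linarith
  have h8 : ∑ x ∈ Src L ×ˢ (Finset.univ : Finset (Fin 3)),
      ((sw L S w x.1 * tb T (sid L x.1) (2 * x.2 + 1) : ℕ) : ℝ) * H (tb T (sid L x.1) (2 * x.2)) +
      ∑ x ∈ Src L, (sw L S w x : ℝ) * ((tb T (sid L x) 6 : ℝ) * gs G 1 1 0) ≤
      2 ^ 36 * (∑ x ∈ sec (L + 1), (Y L S x.1 x.2 : ℝ) *
        gw lam G (rho a s ^ (x.1 + x.2)) (rho a s ^ x.2) 1 +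
      (∑ k ∈ Finset.range (L + 1), (E L S k : ℝ) * gw lam G (rho a s ^ k) 1 0 +
      w * gw lam G 1 0 0)) := by
    rw [Finset.sum_product, ← Finset.sum_add_distrib]
    have e1 : ∀ x : (Σ _ : ℕ, ℕ) ⊕ ℕ, ∑ c : Fin 3,
        ((sw L S w x * tb T (sid L x) (2 * c + 1) : ℕ) : ℝ) * H (tb T (sid L x) (2 * c)) =
        ∑ c : Fin 3, (sw L S w x : ℝ) * ((tb T (sid L x) (2 * c + 1) : ℝ) *
          H (tb T (sid L x) (2 * c))) := by
      intro x
      refine Finset.sum_congr rfl fun c _ => ?_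
      rw [Nat.cast_mul, mul_assoc]
    simp only [e1]
    rw [sum_Src, mul_add, mul_add, Finset.mul_sum, Finset.mul_sum]
    refine add_le_add (Finset.sum_le_sum fun x hx => ?_) (add_le_add
      (Finset.sum_le_sum fun k hk => ?_) ?_)
    · exact hrow (Sum.inl x) _ _ _ _ (Nat.cast_nonneg _) (hT.int x hx)
    · have hk' : k < L + 1 := Finset.mem_range.1 hk
      have := hrow (Sum.inr k) (E L S k) _ _ _ (Nat.cast_nonneg _) (hT.edge k hk')
      rw [sw_inr hk']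
      exact this
    · have := hrow (Sum.inr (L + 1)) w _ _ _ (Nat.cast_nonneg _) hT.vert
      rw [sw_last]
      exact this
  -- the vertex weight
  have hv0 : 0 ≤ gw lam G 1 0 0 := by
    rw [← gv3_sum]
    have hn : ∀ i, 0 ≤ gv3 lam G i := fun i => hG.nn _ (W_nonneg hl (single_nonneg i))
    have := hn 0; have := hn 1; have := hn 2
    linarith
  have h9 := mul_le_mul_of_nonneg_right hw1 hv0
  unfold Uf
  rw [hE]
  set P := ∑ x ∈ sec (L' + 1),
      (Y L' S' x.1 x.2 : ℝ) * gs G (rho a' s' ^ (x.1 + x.2)) (rho a' s' ^ x.2) 1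
  set Q := ∑ x ∈ sec (L + 1), (Y L S x.1 x.2 : ℝ) *
        gw lam G (rho a s ^ (x.1 + x.2)) (rho a s ^ x.2) 1
  set R := ∑ k ∈ Finset.range (L + 1), (E L S k : ℝ) * gw lam G (rho a s ^ k) 1 0
  have h10 : (2 : ℝ) ^ 36 * P + ((E L' S' 0 : ℝ) * gs G 1 1 0) * 2 ^ 36 ≤
      2 ^ 36 * (Q + (R + w * gw lam G 1 0 0)) := by linarith
  have h11 : P + (E L' S' 0 : ℝ) * gs G 1 1 0 ≤ Q + (R + w * gw lam G 1 0 0) := by
    have : (2 : ℝ) ^ 36 * (P + (E L' S' 0 : ℝ) * gs G 1 1 0) ≤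
        2 ^ 36 * (Q + (R + w * gw lam G 1 0 0)) := by linarith
    exact le_of_mul_le_mul_left this (by positivity)
  linarith

end Crest.Agent.R163.DG
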