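import Crest.Agent.R163.DG3

/-!
Row 163, generic density evolution: soundness of the product step, digits.
-/

set_option autoImplicit false

namespace Crest.Agent.R163.DG

open Crest.Agent.R163

open Crest.Agent.R163.DE (SG gs sec ksum kall dig sum_sec ksum_eq kall_iff
  dig_eq dig_lt dig_zero digit_sum fiber_le tA img gs_eq_sum u3 u3_nonneg hh hh' PP PP_hh PP_hh'
  PP_comm mul_vec nn3 sum_prod_mul sum_mul_sum_pow hh'_nn)

/-- positions of the six images of the sector element `(k, j)` -/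
def p1 (L : ℕ) (x : Σ _ : ℕ, ℕ) : Fin 6 → ℕ :=
  ![x.1 + x.2 + L, x.2 + L, x.1 + L, L - x.2, L - x.1, L - (x.1 + x.2)]

def p2 (L : ℕ) (x : Σ _ : ℕ, ℕ) : Fin 6 → ℕ :=
  ![x.2 + L, x.1 + x.2 + L, L - x.2, x.1 + L, L - (x.1 + x.2), L - x.1]

def wA (a s L S : ℕ) (x : Σ _ : ℕ, ℕ) : Fin 6 → ℕ :=
  ![dig S (idx L (x.1 + x.2) x.2), dig S (idx L (x.1 + x.2) x.2),
    sc a s (dig S (idx L (x.1 + x.2) x.2)) x.2, sc a s (dig S (idx L (x.1 + x.2) x.2)) x.2,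
    sc a s (dig S (idx L (x.1 + x.2) x.2)) (x.1 + x.2),
    sc a s (dig S (idx L (x.1 + x.2) x.2)) (x.1 + x.2)]

lemma pw_id {ρ : ℝ} (hρ : 0 < ρ) {L a b c : ℕ} (h : a + b = c + L) :
    ρ ^ a * (ρ ^ b / ρ ^ L) = ρ ^ c := by
  have h20 : ρ ^ L ≠ 0 := (pow_pos hρ L).ne'
  rw [← mul_div_assoc, ← pow_add, h, pow_add, mul_div_assoc, div_self h20, mul_one]

lemma img_eq {ρ : ℝ} (hρ : 0 < ρ) {L : ℕ} {x : Σ _ : ℕ, ℕ} (hx : x ∈ sec (L + 1)) (g : Fin 6) :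
    img (ρ ^ (x.1 + x.2)) (ρ ^ x.2) 1 g =
      ![ρ ^ tA x g * (ρ ^ p1 L x g / ρ ^ L), ρ ^ tA x g * (ρ ^ p2 L x g / ρ ^ L),
        ρ ^ tA x g] := by
  have h := DE.mem_sec.1 hx
  obtain ⟨k, j⟩ := x
  simp only at h
  fin_cases g
  · change ![ρ ^ (k + j), ρ ^ j, 1] = ![ρ ^ 0 * (ρ ^ (k + j + L) / ρ ^ L),
      ρ ^ 0 * (ρ ^ (j + L) / ρ ^ L), ρ ^ 0]
    rw [pw_id hρ (c := k + j) (by omega), pw_id hρ (c := j) (by omega), pow_zero]
  · change ![ρ ^ j, ρ ^ (k + j), 1] = ![ρ ^ 0 * (ρ ^ (j + L) / ρ ^ L),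
      ρ ^ 0 * (ρ ^ (k + j + L) / ρ ^ L), ρ ^ 0]
    rw [pw_id hρ (c := j) (by omega), pw_id hρ (c := k + j) (by omega), pow_zero]
  · change ![ρ ^ (k + j), 1, ρ ^ j] = ![ρ ^ j * (ρ ^ (k + L) / ρ ^ L),
      ρ ^ j * (ρ ^ (L - j) / ρ ^ L), ρ ^ j]
    rw [pw_id hρ (c := k + j) (by omega), pw_id hρ (c := 0) (by omega), pow_zero]
  · change ![1, ρ ^ (k + j), ρ ^ j] = ![ρ ^ j * (ρ ^ (L - j) / ρ ^ L),
      ρ ^ j * (ρ ^ (k + L) / ρ ^ L), ρ ^ j]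
    rw [pw_id hρ (c := 0) (by omega), pw_id hρ (c := k + j) (by omega), pow_zero]
  · change ![ρ ^ j, 1, ρ ^ (k + j)] = ![ρ ^ (k + j) * (ρ ^ (L - k) / ρ ^ L),
      ρ ^ (k + j) * (ρ ^ (L - (k + j)) / ρ ^ L), ρ ^ (k + j)]
    rw [pw_id hρ (c := j) (by omega), pw_id hρ (c := 0) (by omega), pow_zero]
  · change ![1, ρ ^ j, ρ ^ (k + j)] = ![ρ ^ (k + j) * (ρ ^ (L - (k + j)) / ρ ^ L),
      ρ ^ (k + j) * (ρ ^ (L - k) / ρ ^ L), ρ ^ (k + j)]
    rw [pw_id hρ (c := 0) (by omega), pw_id hρ (c := j) (by omega), pow_zero]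

lemma sc_cast_le (a s w i : ℕ) : (sc a s w i : ℝ) ≤ w * rho a s ^ i := by
  rw [sc_eq]
  refine Nat.cast_div_le.trans ?_
  push_cast
  unfold rho
  rw [div_pow, ← pow_mul, mul_div_assoc]

lemma wA_le (a s L S : ℕ) (x : Σ _ : ℕ, ℕ) (g : Fin 6) :
    (wA a s L S x g : ℝ) ≤ Y L S x.1 x.2 * rho a s ^ tA x g := by
  have h0 : (dig S (idx L (x.1 + x.2) x.2) : ℝ) ≤ Y L S x.1 x.2 * rho a s ^ 0 := by
    rw [pow_zero, mul_one]; exact le_rfl
  have h1 := sc_cast_le a s (dig S (idx L (x.1 + x.2) x.2)) x.2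
  have h2 := sc_cast_le a s (dig S (idx L (x.1 + x.2) x.2)) (x.1 + x.2)
  fin_cases g
  · exact h0
  · exact h0
  · exact h1
  · exact h1
  · exact h2
  · exact h2

lemma wA_lt {a s L K : ℕ} (hO : OK a s L K) (S : ℕ) {x : Σ _ : ℕ, ℕ} (hx : x ∈ sec (L + 1))
    (g : Fin 6) : wA a s L S x g < 2 ^ (40 + K) := by
  have h := DE.mem_sec.1 hx
  have h0 : dig S (idx L (x.1 + x.2) x.2) < 2 ^ (40 + K) :=
    (dig_lt _ _).trans_le (Nat.pow_le_pow_right (by norm_num) (by omega))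
  have h1 := hO.sc_lt (dig_lt S (idx L (x.1 + x.2) x.2)) (i := x.2) (by omega)
  have h2 := hO.sc_lt (dig_lt S (idx L (x.1 + x.2) x.2)) (i := x.1 + x.2) (by omega)
  fin_cases g
  · exact h0
  · exact h0
  · exact h1
  · exact h1
  · exact h2
  · exact h2

lemma p1_le {L : ℕ} {x : Σ _ : ℕ, ℕ} (hx : x ∈ sec (L + 1)) (g : Fin 6) : p1 L x g ≤ 2 * L := by
  have h := DE.mem_sec.1 hx
  obtain ⟨k, j⟩ := x
  simp only at h
  fin_cases g
  · change k + j + L ≤ 2 * L; omega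
  · change j + L ≤ 2 * L; omega
  · change k + L ≤ 2 * L; omega
  · change L - j ≤ 2 * L; omega
  · change L - k ≤ 2 * L; omega
  · change L - (k + j) ≤ 2 * L; omega

/-- index set of the images -/
@[irreducible] def FA (L : ℕ) : Finset ((Σ _ : ℕ, ℕ) × Fin 6) := sec (L + 1) ×ˢ Finset.univ

lemma card_FA_le (L : ℕ) : (FA L).card ≤ 6 * (L + 1) ^ 2 := by
  unfold FA
  rw [Finset.card_product, Finset.card_univ, Fintype.card_fin]
  have := card_sec_le (L + 1)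
  omega

lemma termB_eq (L w wj wi i j k : ℕ) : termB L w wj wi i j k =
    (((w * (2 ^ 128) ^ (j + L) + w * (2 ^ 128) ^ (i + L)) +
    (wj * (2 ^ 128) ^ (L - j) + wj * (2 ^ 128) ^ (k + L))) +
    (wi * (2 ^ 128) ^ (L - i) + wi * (2 ^ 128) ^ (L - k))) := by
  unfold termB
  simp only [sh1_eq]
  rfl

lemma sum_sec_j (n : ℕ) (f : ℕ → ℕ → ℕ) :
    ∑ m ∈ Finset.range n, ∑ k ∈ Finset.range (n - m), f k m = ∑ x ∈ sec n, f x.1 x.2 := by
  rw [← sum_sec n f]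
  refine Finset.sum_comm' fun x y => ?_
  simp only [Finset.mem_range]
  omega

lemma sum_sec_i (n : ℕ) (f : ℕ → ℕ → ℕ) :
    ∑ m ∈ Finset.range n, ∑ j ∈ Finset.range (m + 1), f (m - j) j = ∑ x ∈ sec n, f x.1 x.2 := by
  rw [Finset.sum_sigma']
  refine Finset.sum_bij' (fun x _ => ⟨x.1 - x.2, x.2⟩) (fun x _ => ⟨x.1 + x.2, x.2⟩) ?_ ?_ ?_ ?_ ?_
  · intro x hx
    rw [Finset.mem_sigma, Finset.mem_range, Finset.mem_range] at hx
    rw [DE.mem_sec]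
    change x.1 - x.2 + x.2 < n
    omega
  · intro x hx
    rw [DE.mem_sec] at hx
    rw [Finset.mem_sigma, Finset.mem_range, Finset.mem_range]
    change x.1 + x.2 < n ∧ x.2 < x.1 + x.2 + 1
    omega
  · rintro ⟨m, j⟩ hx
    rw [Finset.mem_sigma, Finset.mem_range, Finset.mem_range] at hx
    simp only at hx ⊢
    congr 1
    omega
  · rintro ⟨k, j⟩ _
    simp only
    congr 1
    omega
  · intro x _
    rfl

lemma NA_eq (a s L S : ℕ) : NA a s L S = ∑ b ∈ FA L, wA a s L S b.1 b.2 *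
    (2 ^ 128) ^ (p1 L b.1 b.2 + (4 * L + 1) * p2 L b.1 b.2) := by
  set X : ℕ := 2 ^ 128 with hX
  set f : Fin 6 → ℕ → ℕ → ℕ := fun g k j => wA a s L S ⟨k, j⟩ g *
    X ^ (p1 L ⟨k, j⟩ g + (4 * L + 1) * p2 L ⟨k, j⟩ g) with hf
  have hR : ∑ b ∈ FA L, wA a s L S b.1 b.2 *
      X ^ (p1 L b.1 b.2 + (4 * L + 1) * p2 L b.1 b.2) =
      ∑ m ∈ Finset.range (L + 1),
        ((∑ k ∈ Finset.range (L + 1 - m), (f 0 k m + f 3 m k) +
          ∑ j ∈ Finset.range (m + 1), f 1 (m - j) j) +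
        (∑ k ∈ Finset.range (L + 1 - m), (f 2 k m + f 5 m k) +
          ∑ j ∈ Finset.range (m + 1), f 4 (m - j) j)) := by
    simp only [Finset.sum_add_distrib]
    rw [sum_sec_j (L + 1) (f 0), sum_sec_j (L + 1) (f 2), sum_sec (L + 1) (f 3),
      sum_sec (L + 1) (f 5), sum_sec_i (L + 1) (f 1), sum_sec_i (L + 1) (f 4)]
    unfold FA
    rw [Finset.sum_product, ← Finset.sum_add_distrib, ← Finset.sum_add_distrib,
      ← Finset.sum_add_distrib, ← Finset.sum_add_distrib, ← Finset.sum_add_distrib]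
    refine Finset.sum_congr rfl fun x _ => ?_
    rw [Fin.sum_univ_six]
    change f 0 x.1 x.2 + f 1 x.1 x.2 + f 2 x.1 x.2 + f 3 x.1 x.2 + f 4 x.1 x.2 + f 5 x.1 x.2 = _
    ring
  rw [hR]
  unfold NA
  rw [ksum_eq]
  refine Finset.sum_congr rfl fun m hm => ?_
  have hm' : m < L + 1 := Finset.mem_range.1 hm
  have e1 : Nat.shiftLeft (RU a s L S m) (Nat.mul 128 (Nat.mul (st L) (Nat.add m L))) =
      RU a s L S m * X ^ ((4 * L + 1) * (m + L)) := by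
    have : Nat.shiftLeft (RU a s L S m) (Nat.mul 128 (Nat.mul (st L) (Nat.add m L))) =
      RU a s L S m * 2 ^ (128 * ((4 * L + 1) * (m + L))) := Nat.shiftLeft_eq _ _
    rw [this, pow_mul]
  have e2 : Nat.shiftLeft (RD a s L S m) (Nat.mul 128 (Nat.mul (st L) (Nat.sub L m))) =
      RD a s L S m * X ^ ((4 * L + 1) * (L - m)) := by
    have : Nat.shiftLeft (RD a s L S m) (Nat.mul 128 (Nat.mul (st L) (Nat.sub L m))) =
      RD a s L S m * 2 ^ (128 * ((4 * L + 1) * (L - m))) := Nat.shiftLeft_eq _ _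
    rw [this, pow_mul]
  change Nat.shiftLeft (RU a s L S m) _ + Nat.shiftLeft (RD a s L S m) _ = _
  rw [e1, e2]
  congr 1
  · unfold RU
    simp only [ksum_eq]
    change (∑ k ∈ Finset.range (L + 1 - m), (sh1 (dig S (idx L (k + m) m)) (k + m + L) +
      sh1 (sc a s (dig S (idx L (m + k) k)) k) (L - k)) +
      ∑ j ∈ Finset.range (m + 1), sh1 (dig S (idx L m j)) (j + L)) *
      X ^ ((4 * L + 1) * (m + L)) = _
    rw [add_mul, Finset.sum_mul, Finset.sum_mul]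
    congr 1
    · refine Finset.sum_congr rfl fun k _ => ?_
      rw [sh1_eq, sh1_eq, add_mul, mul_assoc, mul_assoc, ← pow_add, ← pow_add]
      rfl
    · refine Finset.sum_congr rfl fun j hj => ?_
      have hj' : j < m + 1 := Finset.mem_range.1 hj
      rw [sh1_eq, mul_assoc, ← pow_add]
      change _ = dig S (idx L (m - j + j) j) * X ^ (j + L + (4 * L + 1) * (m - j + j + L))
      rw [show m - j + j = m by omega]
  · unfold RD
    simp only [ksum_eq]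
    change (∑ k ∈ Finset.range (L + 1 - m), (sh1 (sc a s (dig S (idx L (k + m) m)) m) (k + L) +
      sh1 (sc a s (dig S (idx L (m + k) k)) (m + k)) (L - (m + k))) +
      ∑ j ∈ Finset.range (m + 1), sh1 (sc a s (dig S (idx L m j)) m) (L - (m - j))) *
      X ^ ((4 * L + 1) * (L - m)) = _
    rw [add_mul, Finset.sum_mul, Finset.sum_mul]
    congr 1
    · refine Finset.sum_congr rfl fun k _ => ?_
      rw [sh1_eq, sh1_eq, add_mul, mul_assoc, mul_assoc, ← pow_add, ← pow_add]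
      rfl
    · refine Finset.sum_congr rfl fun j hj => ?_
      have hj' : j < m + 1 := Finset.mem_range.1 hj
      rw [sh1_eq, mul_assoc, ← pow_add]
      change _ = sc a s (dig S (idx L (m - j + j) j)) (m - j + j) *
        X ^ (L - (m - j) + (4 * L + 1) * (L - (m - j + j)))
      rw [show m - j + j = m by omega]

lemma NB_eq (a s L S : ℕ) : NB a s L S = ∑ b ∈ FA L, wA a s L S b.1 b.2 *
    (2 ^ 128) ^ (p2 L b.1 b.2) := by
  unfold FA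
  rw [Finset.sum_product]
  unfold NB
  simp only [ksum_eq]
  change ∑ k ∈ Finset.range (L + 1), ∑ j ∈ Finset.range (L + 1 - k), _ = _
  rw [sum_sec (L + 1)]
  refine Finset.sum_congr rfl fun x _ => ?_
  rw [Fin.sum_univ_six, termB_eq]
  rw [add_assoc (wA a s L S x 0 * _ + wA a s L S x 1 * _ + wA a s L S x 2 * _ +
    wA a s L S x 3 * _), add_assoc (wA a s L S x 0 * _ + wA a s L S x 1 * _)]
  rfl

/-- edge images -/
def pE (L k : ℕ) : Fin 2 → ℕ := ![k + L, L - k]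

def tE (k : ℕ) : Fin 2 → ℕ := ![0, k]

def wE (a s L S k : ℕ) : Fin 2 → ℕ := ![dig S (ei L + k), sc a s (dig S (ei L + k)) k]

@[irreducible] def FEd (L : ℕ) : Finset (ℕ × Fin 2) := Finset.range (L + 1) ×ˢ Finset.univ

lemma card_FEd (L : ℕ) : (FEd L).card = (L + 1) * 2 := by
  unfold FEd
  rw [Finset.card_product, Finset.card_range, Finset.card_univ, Fintype.card_fin]

lemma NE_eq (a s L S : ℕ) : NE a s L S = ∑ b ∈ FEd L, wE a s L S b.1 b.2 *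
    (2 ^ 128) ^ (pE L b.1 b.2) := by
  unfold FEd
  rw [Finset.sum_product]
  unfold NE
  simp only [ksum_eq]
  refine Finset.sum_congr rfl fun x _ => ?_
  rw [Fin.sum_univ_two]
  simp only [sh1_eq]
  rfl

lemma wE_le (a s L S k : ℕ) (g : Fin 2) :
    (wE a s L S k g : ℝ) ≤ E L S k * rho a s ^ tE k g := by
  have h0 : (dig S (ei L + k) : ℝ) ≤ E L S k * rho a s ^ 0 := by
    rw [pow_zero, mul_one]; exact le_rfl
  have h1 := sc_cast_le a s (dig S (ei L + k)) k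
  fin_cases g
  · exact h0
  · exact h1

lemma wE_lt {a s L K : ℕ} (hO : OK a s L K) (S : ℕ) {k : ℕ} (hk : k < L + 1) (g : Fin 2) :
    wE a s L S k g < 2 ^ (40 + K) := by
  have h0 : dig S (ei L + k) < 2 ^ (40 + K) :=
    (dig_lt _ _).trans_le (Nat.pow_le_pow_right (by norm_num) (by omega))
  have h1 := hO.sc_lt (dig_lt S (ei L + k)) (i := k) (by omega)
  fin_cases g
  · exact h0
  · exact h1

lemma mem_FA {L : ℕ} {b : (Σ _ : ℕ, ℕ) × Fin 6} (h : b ∈ FA L) : b.1 ∈ sec (L + 1) := by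
  rw [FA, Finset.mem_product] at h
  exact h.1

lemma mem_FEd {L : ℕ} {b : ℕ × Fin 2} (h : b ∈ FEd L) : b.1 < L + 1 := by
  rw [FEd, Finset.mem_product] at h
  exact Finset.mem_range.1 h.1

lemma sum_wA_le {a s L K : ℕ} (hO : OK a s L K) (S : ℕ) :
    ∑ b ∈ FA L, wA a s L S b.1 b.2 ≤ 6 * (L + 1) ^ 2 * 2 ^ (40 + K) := by
  have h1 : ∀ b ∈ FA L, wA a s L S b.1 b.2 ≤ 2 ^ (40 + K) := by
    intro b hb
    exact (wA_lt hO S (mem_FA hb) b.2).le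
  have h2 := Finset.sum_le_card_nsmul _ _ _ h1
  rw [smul_eq_mul] at h2
  exact h2.trans (Nat.mul_le_mul_right _ (card_FA_le L))

lemma sum_wE_le {a s L K : ℕ} (hO : OK a s L K) (S : ℕ) :
    ∑ b ∈ FEd L, wE a s L S b.1 b.2 ≤ 6 * (L + 1) ^ 2 * 2 ^ (40 + K) := by
  have h1 : ∀ b ∈ FEd L, wE a s L S b.1 b.2 ≤ 2 ^ (40 + K) := by
    intro b hb
    exact (wE_lt hO S (mem_FEd hb) b.2).le
  have h2 := Finset.sum_le_card_nsmul _ _ _ h1
  rw [smul_eq_mul, card_FEd] at h2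
  refine h2.trans (Nat.mul_le_mul_right _ ?_)
  nlinarith

lemma OK.size' {a s L K : ℕ} (hO : OK a s L K) :
    (6 * (L + 1) ^ 2 * 2 ^ (40 + K)) * (6 * (L + 1) ^ 2 * 2 ^ (40 + K)) * 3 < 2 ^ 128 := by
  have := hO.size
  calc _ = 3 * (6 * (L + 1) ^ 2 * 2 ^ (40 + K)) ^ 2 := by ring
    _ < _ := this

/-- digits of the interior product -/
lemma cf_digit {a s L K : ℕ} (hO : OK a s L K) (S S₂ p q : ℕ) (hp : p ≤ 2 * L) :
    cf L (NA a s L S * NA a s L S₂) p q = ∑ x ∈ FA L ×ˢ FA L with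
      (p1 L x.1.1 x.1.2 + p1 L x.2.1 x.2.2, p2 L x.1.1 x.1.2 + p2 L x.2.1 x.2.2) =
        (p + 2 * L, q + 2 * L),
        wA a s L S x.1.1 x.1.2 * wA a s L S₂ x.2.1 x.2.2 := by
  rw [cf_eq _ _ _ _ hp, NA_eq, NA_eq, sum_mul_sum_pow]
  rw [digit_sum (FA L ×ˢ FA L) (fun x => wA a s L S x.1.1 x.1.2 * wA a s L S₂ x.2.1 x.2.2)
    (fun x => (p1 L x.1.1 x.1.2 + (4 * L + 1) * p2 L x.1.1 x.1.2) +
      (p1 L x.2.1 x.2.2 + (4 * L + 1) * p2 L x.2.1 x.2.2))]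
  · refine Finset.sum_congr ?_ fun _ _ => rfl
    refine Finset.filter_congr fun x hx => ?_
    have h1 := p1_le (mem_FA (Finset.mem_product.1 hx).1) x.1.2
    have h2 := p1_le (mem_FA (Finset.mem_product.1 hx).2) x.2.2
    rw [Prod.mk.injEq]
    have e : (p1 L x.1.1 x.1.2 + (4 * L + 1) * p2 L x.1.1 x.1.2) +
      (p1 L x.2.1 x.2.2 + (4 * L + 1) * p2 L x.2.1 x.2.2) =
      (p1 L x.1.1 x.1.2 + p1 L x.2.1 x.2.2) +
        (4 * L + 1) * (p2 L x.1.1 x.1.2 + p2 L x.2.1 x.2.2) := by ring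
    rw [e]
    exact mul_add_inj (by omega) (by omega)
  · refine lt_of_eq_of_lt (sum_prod_mul (FA L) (FA L) (fun b => wA a s L S b.1 b.2)
      (fun b => wA a s L S₂ b.1 b.2)) ?_
    refine lt_of_le_of_lt (Nat.mul_le_mul (sum_wA_le hO S) (sum_wA_le hO S₂)) ?_
    have := hO.size'
    omega

/-! ### positions and folded functionals -/

noncomputable def Hh (ρ : ℝ) (L : ℕ) (G : (Fin 3 → ℝ) → ℝ) (p : ℕ × ℕ) : ℝ :=
  hh G ![ρ ^ p.1 / ρ ^ (2 * L), ρ ^ p.2 / ρ ^ (2 * L), 1]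

noncomputable def He (ρ : ℝ) (L : ℕ) (G : (Fin 3 → ℝ) → ℝ) (m : ℕ) : ℝ :=
  hh' G ![0, ρ ^ m / ρ ^ (2 * L), 1]

section pos

variable {ρ : ℝ} {L : ℕ} {G : (Fin 3 → ℝ) → ℝ}

lemma div_pow_nonneg (hρ : 0 < ρ) (m n : ℕ) : 0 ≤ ρ ^ m / ρ ^ n :=
  div_nonneg (pow_pos hρ _).le (pow_pos hρ _).le

lemma Hh_nonneg (hρ : 0 < ρ) (h : SG G) (p : ℕ × ℕ) : 0 ≤ Hh ρ L G p :=
  h.hh_nonneg (div_pow_nonneg hρ _ _) (div_pow_nonneg hρ _ _) zero_le_one

lemma He_nonneg (hρ : 0 < ρ) (h : SG G) (m : ℕ) : 0 ≤ He ρ L G m :=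
  h.hh'_nonneg le_rfl (div_pow_nonneg hρ _ _) zero_le_one

lemma pos_mul (hρ : 0 < ρ) (a b c d : ℕ) :
    ρ ^ a * (ρ ^ b / ρ ^ L) * (ρ ^ c * (ρ ^ d / ρ ^ L)) =
    ρ ^ a * ρ ^ c * (ρ ^ (b + d) / ρ ^ (2 * L)) := by
  rw [pow_add, show 2 * L = L + L by ring, pow_add]
  have h20 : ρ ^ L ≠ 0 := (pow_pos hρ L).ne'
  field_simp

lemma hh_img (hρ : 0 < ρ) (h : SG G) {x x' : Σ _ : ℕ, ℕ} (hx : x ∈ sec (L + 1))
    (hx' : x' ∈ sec (L + 1)) (g g' : Fin 6) :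
    hh G (fun i => img (ρ ^ (x.1 + x.2)) (ρ ^ x.2) 1 g i *
      img (ρ ^ (x'.1 + x'.2)) (ρ ^ x'.2) 1 g' i) =
      ρ ^ tA x g * ρ ^ tA x' g' * Hh ρ L G (p1 L x g + p1 L x' g', p2 L x g + p2 L x' g') := by
  rw [img_eq hρ hx, img_eq hρ hx', mul_vec, pos_mul hρ, pos_mul hρ]
  have hc : 0 < ρ ^ tA x g * ρ ^ tA x' g' := mul_pos (pow_pos hρ _) (pow_pos hρ _)
  have := h.hh_hom (x := ρ ^ (p1 L x g + p1 L x' g') / ρ ^ (2 * L))
    (y := ρ ^ (p2 L x g + p2 L x' g') / ρ ^ (2 * L)) (z := 1) hc (div_pow_nonneg hρ _ _)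
    (div_pow_nonneg hρ _ _) zero_le_one
  rw [mul_one] at this
  exact this

/-- images of an edge vector with first coordinate zero -/
lemma edge_img (hρ : 0 < ρ) {k : ℕ} (hk : k < L + 1) (g : Fin 2) :
    (![![0, ρ ^ k, 1], ![0, 1, ρ ^ k]] : Fin 2 → Fin 3 → ℝ) g =
      ![0, ρ ^ tE k g * (ρ ^ pE L k g / ρ ^ L), ρ ^ tE k g] := by
  fin_cases g
  · change ![0, ρ ^ k, 1] = ![0, ρ ^ 0 * (ρ ^ (k + L) / ρ ^ L), ρ ^ 0]
    rw [pw_id hρ (c := k) (by omega), pow_zero]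
  · change ![0, 1, ρ ^ k] = ![0, ρ ^ k * (ρ ^ (L - k) / ρ ^ L), ρ ^ k]
    rw [pw_id hρ (c := 0) (by omega), pow_zero]

/-- lower bound for the symmetrisation over an edge vector -/
lemma gs_edge_ge (hρ : 0 < ρ) {F : (Fin 3 → ℝ) → ℝ}
    (hF : ∀ v : Fin 3 → ℝ, (∀ i, 0 ≤ v i) → 0 ≤ F v) {k : ℕ} :
    ∑ g : Fin 2, F ((![![0, ρ ^ k, 1], ![0, 1, ρ ^ k]] : Fin 2 → Fin 3 → ℝ) g) ≤
      gs F (ρ ^ k) 1 0 := by
  rw [Fin.sum_univ_two]
  have h := (pow_pos hρ k).le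
  have h1 := hF _ (nn3 h zero_le_one le_rfl)
  have h2 := hF _ (nn3 zero_le_one h le_rfl)
  have h3 := hF _ (nn3 h le_rfl zero_le_one)
  have h5 := hF _ (nn3 zero_le_one le_rfl h)
  unfold gs
  change F ![0, ρ ^ k, 1] + F ![0, 1, ρ ^ k] ≤ _
  linarith

lemma hh'_pos (hρ : 0 < ρ) (h : SG G) (a b c d : ℕ) (x : ℝ) :
    hh' G (fun i => ![x, ρ ^ a * (ρ ^ b / ρ ^ L), ρ ^ a] i *
      ![0, ρ ^ c * (ρ ^ d / ρ ^ L), ρ ^ c] i) = ρ ^ a * ρ ^ c * He ρ L G (b + d) := by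
  rw [mul_vec, pos_mul hρ, mul_zero]
  have hc : 0 < ρ ^ a * ρ ^ c := mul_pos (pow_pos hρ _) (pow_pos hρ _)
  have := h.hh'_hom (x := 0) (y := ρ ^ (b + d) / ρ ^ (2 * L)) (z := 1) hc le_rfl
    (div_pow_nonneg hρ _ _) zero_le_one
  rw [mul_one, mul_zero] at this
  exact this

end pos

/-! ### interior part -/

lemma partA {a s L K : ℕ} (hO : OK a s L K) {G : (Fin 3 → ℝ) → ℝ} (hG : SG G) (S S₂ : ℕ) :
    ∑ z ∈ sec (2 * L + 1), (cf L (NA a s L S * NA a s L S₂) (z.1 + z.2) z.2 : ℝ) *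
        (u3 (rho a s ^ (z.1 + z.2)) (rho a s ^ z.2) 1 *
          gs G (rho a s ^ (z.1 + z.2)) (rho a s ^ z.2) 1) ≤
      ∑ x ∈ sec (L + 1), ∑ x' ∈ sec (L + 1), (Y L S x.1 x.2 : ℝ) * (Y L S₂ x'.1 x'.2 *
        PP G (rho a s ^ (x.1 + x.2)) (rho a s ^ x.2) 1
          (rho a s ^ (x'.1 + x'.2)) (rho a s ^ x'.2) 1) := by
  have hρ := rho_pos hO.one_lt
  have hφ : Set.InjOn (fun z : Σ _ : ℕ, ℕ => (z.1 + z.2 + 2 * L, z.2 + 2 * L))
      (sec (2 * L + 1)) := by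
    rintro ⟨k, j⟩ _ ⟨k', j'⟩ _ heq
    simp only [Prod.mk.injEq] at heq
    have : j = j' := by omega
    have : k = k' := by omega
    subst_vars
    rfl
  have h1 := fiber_le (FA L ×ˢ FA L) (sec (2 * L + 1))
    (fun z : Σ _ : ℕ, ℕ => (z.1 + z.2 + 2 * L, z.2 + 2 * L)) hφ
    (fun x => (p1 L x.1.1 x.1.2 + p1 L x.2.1 x.2.2, p2 L x.1.1 x.1.2 + p2 L x.2.1 x.2.2))
    (fun x => wA a s L S x.1.1 x.1.2 * wA a s L S₂ x.2.1 x.2.2) (Hh (rho a s) L G)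
    (fun _ _ => Hh_nonneg hρ hG _)
  have h2 : ∑ z ∈ sec (2 * L + 1), (cf L (NA a s L S * NA a s L S₂) (z.1 + z.2) z.2 : ℝ) *
        (u3 (rho a s ^ (z.1 + z.2)) (rho a s ^ z.2) 1 *
          gs G (rho a s ^ (z.1 + z.2)) (rho a s ^ z.2) 1) =
      ∑ z ∈ sec (2 * L + 1), ((∑ x ∈ FA L ×ˢ FA L with
      (p1 L x.1.1 x.1.2 + p1 L x.2.1 x.2.2, p2 L x.1.1 x.1.2 + p2 L x.2.1 x.2.2) =
        (z.1 + z.2 + 2 * L, z.2 + 2 * L),
        wA a s L S x.1.1 x.1.2 * wA a s L S₂ x.2.1 x.2.2 : ℕ) : ℝ) *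
          Hh (rho a s) L G (z.1 + z.2 + 2 * L, z.2 + 2 * L) := by
    refine Finset.sum_congr rfl fun z hz => ?_
    have hz' := DE.mem_sec.1 hz
    rw [cf_digit hO S S₂ _ _ (by omega)]
    congr 1
    unfold Hh
    have h40 : rho a s ^ (2 * L) ≠ 0 := (pow_pos hρ _).ne'
    have e1 : ∀ n : ℕ, rho a s ^ (n + 2 * L) / rho a s ^ (2 * L) = rho a s ^ n := by
      intro n; rw [pow_add, mul_div_assoc, div_self h40, mul_one]
    simp only [e1]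
    rfl
  rw [h2]
  refine h1.trans ?_
  rw [Finset.sum_product]
  unfold FA
  rw [Finset.sum_product]
  refine Finset.sum_le_sum fun x hx => ?_
  rw [Finset.sum_comm, Finset.sum_product]
  refine Finset.sum_le_sum fun x' hx' => ?_
  rw [PP_hh]
  unfold PP
  rw [gs_eq_sum, Finset.mul_sum, Finset.mul_sum]
  rw [Finset.sum_comm]
  refine Finset.sum_le_sum fun g _ => ?_
  rw [gs_eq_sum, Finset.mul_sum, Finset.mul_sum]
  refine Finset.sum_le_sum fun g' _ => ?_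
  rw [hh_img hρ hG hx hx']
  have a1 := wA_le a s L S x g
  have a2 := wA_le a s L S₂ x' g'
  have a3 := Hh_nonneg (L := L) hρ hG (p1 L x g + p1 L x' g', p2 L x g + p2 L x' g')
  push_cast
  calc (wA a s L S x g : ℝ) * wA a s L S₂ x' g' *
        Hh (rho a s) L G (p1 L x g + p1 L x' g', p2 L x g + p2 L x' g')
      ≤ (Y L S x.1 x.2 * rho a s ^ tA x g) * (Y L S₂ x'.1 x'.2 * rho a s ^ tA x' g') *
        Hh (rho a s) L G (p1 L x g + p1 L x' g', p2 L x g + p2 L x' g') := by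
        refine mul_le_mul_of_nonneg_right ?_ a3
        exact mul_le_mul a1 a2 (Nat.cast_nonneg _)
          (mul_nonneg (Nat.cast_nonneg _) (pow_pos hρ _).le)
    _ = _ := by ring

end Crest.Agent.R163.DG
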