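import Crest.Agent.R163.DG4

/-!
Row 163, generic density evolution: soundness of the product step, edge part.
-/

set_option autoImplicit false

namespace Crest.Agent.R163.DG

open Crest.Agent.R163

open Crest.Agent.R163.DE (SG gs sec ksum kall dig sum_sec ksum_eq kall_iff
  dig_eq dig_lt dig_zero digit_sum fiber_le tA img gs_eq_sum u3 u3_nonneg hh hh' PP PP_hh PP_hh'
  PP_comm mul_vec nn3 sum_prod_mul sum_mul_sum_pow hh'_nn gs_swap01 gs_swap12)

variable {G : (Fin 3 → ℝ) → ℝ}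

/-- interior vector times edge vector -/
lemma PP_int_edge {a s L : ℕ} (hρ : 0 < rho a s) (hG : SG G) (S S₂ : ℕ) {x : Σ _ : ℕ, ℕ}
    (hx : x ∈ sec (L + 1)) {k : ℕ} (hk : k < L + 1) :
    ∑ g : Fin 6, ∑ g' : Fin 2, (wA a s L S x g : ℝ) *
        (wE a s L S₂ k g' * He (rho a s) L G (p2 L x g + pE L k g')) ≤
      (Y L S x.1 x.2 : ℝ) * (E L S₂ k *
        PP G (rho a s ^ (x.1 + x.2)) (rho a s ^ x.2) 1 (rho a s ^ k) 1 0) := by
  rw [PP_hh']
  unfold PP
  rw [gs_eq_sum, Finset.mul_sum, Finset.mul_sum]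
  refine Finset.sum_le_sum fun g _ => ?_
  have hu : ∀ i, 0 ≤ img (rho a s ^ (x.1 + x.2)) (rho a s ^ x.2) 1 g i := by
    rw [img_eq hρ hx]
    exact nn3 (mul_nonneg (pow_pos hρ _).le (div_pow_nonneg hρ _ _))
      (mul_nonneg (pow_pos hρ _).le (div_pow_nonneg hρ _ _)) (pow_pos hρ _).le
  have h1 := gs_edge_ge hρ (F := fun v => hh' G (fun i =>
    img (rho a s ^ (x.1 + x.2)) (rho a s ^ x.2) 1 g i *
    v i)) (k := k) (fun v hv => hh'_nn hG _ fun i => mul_nonneg (hu i) (hv i))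
  have h2 : ∑ g' : Fin 2, (wA a s L S x g : ℝ) *
        (wE a s L S₂ k g' * He (rho a s) L G (p2 L x g + pE L k g')) ≤
      (Y L S x.1 x.2 : ℝ) * (E L S₂ k * ∑ g' : Fin 2, hh' G (fun i =>
        img (rho a s ^ (x.1 + x.2)) (rho a s ^ x.2) 1 g i *
        (![![0, rho a s ^ k, 1], ![0, 1, rho a s ^ k]] : Fin 2 → Fin 3 → ℝ) g' i)) := by
    rw [Finset.mul_sum, Finset.mul_sum]
    refine Finset.sum_le_sum fun g' _ => ?_
    rw [edge_img hρ hk, img_eq hρ hx, hh'_pos hρ hG]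
    have a1 := wA_le a s L S x g
    have a2 := wE_le a s L S₂ k g'
    have a3 := He_nonneg (L := L) hρ hG (p2 L x g + pE L k g')
    calc (wA a s L S x g : ℝ) * (wE a s L S₂ k g' * He (rho a s) L G (p2 L x g + pE L k g'))
        = ((wA a s L S x g : ℝ) * wE a s L S₂ k g') *
          He (rho a s) L G (p2 L x g + pE L k g') := by ring
      _ ≤ ((Y L S x.1 x.2 * rho a s ^ tA x g) * (E L S₂ k * rho a s ^ tE k g')) *
          He (rho a s) L G (p2 L x g + pE L k g') := by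
          refine mul_le_mul_of_nonneg_right ?_ a3
          exact mul_le_mul a1 a2 (Nat.cast_nonneg _)
            (mul_nonneg (Nat.cast_nonneg _) (pow_pos hρ _).le)
      _ = _ := by ring
  refine h2.trans ?_
  exact mul_le_mul_of_nonneg_left (mul_le_mul_of_nonneg_left h1 (Nat.cast_nonneg _))
    (Nat.cast_nonneg _)

/-- edge vector times edge vector -/
lemma PP_edge_edge {a s L : ℕ} (hρ : 0 < rho a s) (hG : SG G) (S S₂ : ℕ) {k l : ℕ}
    (hk : k < L + 1) (hl : l < L + 1) :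
    ∑ g : Fin 2, ∑ g' : Fin 2, (wE a s L S k g : ℝ) *
        (wE a s L S₂ l g' * He (rho a s) L G (pE L k g + pE L l g')) ≤
      (E L S k : ℝ) * (E L S₂ l * PP G (rho a s ^ k) 1 0 (rho a s ^ l) 1 0) := by
  rw [PP_hh']
  unfold PP
  have hnn : ∀ u : Fin 3 → ℝ, (∀ i, 0 ≤ u i) →
      ∀ v : Fin 3 → ℝ, (∀ i, 0 ≤ v i) → 0 ≤ hh' G (fun i => u i * v i) :=
    fun u hu v hv => hh'_nn hG _ fun i => mul_nonneg (hu i) (hv i)
  have h0 := gs_edge_ge hρ (F := fun u =>
      gs (fun v => hh' G (fun i => u i * v i)) (rho a s ^ l) 1 0)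
    (k := k) (fun u hu => by
      have h := (pow_pos hρ l).le
      have h1 := hnn u hu _ (nn3 h zero_le_one le_rfl)
      have h2 := hnn u hu _ (nn3 zero_le_one h le_rfl)
      have h3 := hnn u hu _ (nn3 h le_rfl zero_le_one)
      have h4 := hnn u hu _ (nn3 le_rfl h zero_le_one)
      have h5 := hnn u hu _ (nn3 zero_le_one le_rfl h)
      have h6 := hnn u hu _ (nn3 le_rfl zero_le_one h)
      unfold gs
      linarith)
  refine le_trans ?_ (mul_le_mul_of_nonneg_left (mul_le_mul_of_nonneg_left h0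
    (Nat.cast_nonneg _)) (Nat.cast_nonneg _))
  rw [Finset.mul_sum, Finset.mul_sum]
  refine Finset.sum_le_sum fun g _ => ?_
  have hu : ∀ i, 0 ≤ (![![0, rho a s ^ k, 1], ![0, 1, rho a s ^ k]] : Fin 2 → Fin 3 → ℝ) g i := by
    rw [edge_img hρ hk]
    exact nn3 le_rfl (mul_nonneg (pow_pos hρ _).le (div_pow_nonneg hρ _ _)) (pow_pos hρ _).le
  have h1 := gs_edge_ge hρ (F := fun v => hh' G (fun i =>
    (![![0, rho a s ^ k, 1], ![0, 1, rho a s ^ k]] : Fin 2 → Fin 3 → ℝ) g i * v i)) (k := l)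
    (fun v hv => hnn _ hu v hv)
  refine le_trans ?_ (mul_le_mul_of_nonneg_left (mul_le_mul_of_nonneg_left h1
    (Nat.cast_nonneg _)) (Nat.cast_nonneg _))
  rw [Finset.mul_sum, Finset.mul_sum]
  refine Finset.sum_le_sum fun g' _ => ?_
  rw [edge_img hρ hk, edge_img hρ hl, hh'_pos hρ hG]
  have a1 := wE_le a s L S k g
  have a2 := wE_le a s L S₂ l g'
  have a3 := He_nonneg (L := L) hρ hG (pE L k g + pE L l g')
  calc (wE a s L S k g : ℝ) * (wE a s L S₂ l g' * He (rho a s) L G (pE L k g + pE L l g'))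
      = ((wE a s L S k g : ℝ) * wE a s L S₂ l g') *
        He (rho a s) L G (pE L k g + pE L l g') := by ring
    _ ≤ ((E L S k * rho a s ^ tE k g) * (E L S₂ l * rho a s ^ tE l g')) *
        He (rho a s) L G (pE L k g + pE L l g') := by
        refine mul_le_mul_of_nonneg_right ?_ a3
        exact mul_le_mul a1 a2 (Nat.cast_nonneg _)
          (mul_nonneg (Nat.cast_nonneg _) (pow_pos hρ _).le)
    _ = _ := by ring

/-! ### the family of the three products -/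

abbrev TA := (Σ _ : ℕ, ℕ) × Fin 6

abbrev TE := ℕ × Fin 2

@[irreducible] def FM (L : ℕ) : Finset (((TA × TE) ⊕ (TE × TA)) ⊕ (TE × TE)) :=
  ((FA L ×ˢ FEd L).disjSum (FEd L ×ˢ FA L)).disjSum (FEd L ×ˢ FEd L)

def wM (a s L S S₂ : ℕ) : ((TA × TE) ⊕ (TE × TA)) ⊕ (TE × TE) → ℕ :=
  Sum.elim (Sum.elim
    (fun x => wA a s L S x.1.1 x.1.2 * wE a s L S₂ x.2.1 x.2.2)
    (fun x => wE a s L S x.1.1 x.1.2 * wA a s L S₂ x.2.1 x.2.2))
    (fun x => wE a s L S x.1.1 x.1.2 * wE a s L S₂ x.2.1 x.2.2)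

def pM (L : ℕ) : ((TA × TE) ⊕ (TE × TA)) ⊕ (TE × TE) → ℕ :=
  Sum.elim (Sum.elim
    (fun x => p2 L x.1.1 x.1.2 + pE L x.2.1 x.2.2)
    (fun x => pE L x.1.1 x.1.2 + p2 L x.2.1 x.2.2))
    (fun x => pE L x.1.1 x.1.2 + pE L x.2.1 x.2.2)

/-- the three edge products -/
def NM (a s L S S₂ : ℕ) : ℕ :=
  NB a s L S * NE a s L S₂ + NE a s L S * NB a s L S₂ + NE a s L S * NE a s L S₂

lemma NM_eq (a s L S S₂ : ℕ) : NM a s L S S₂ =
    ∑ c ∈ FM L, wM a s L S S₂ c * (2 ^ 128) ^ pM L c := by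
  unfold FM
  rw [Finset.sum_disjSum, Finset.sum_disjSum]
  unfold NM
  rw [NB_eq, NE_eq, NB_eq, NE_eq, sum_mul_sum_pow, sum_mul_sum_pow, sum_mul_sum_pow]
  rfl

lemma sum_wM_lt {a s L K : ℕ} (hO : OK a s L K) (S S₂ : ℕ) :
    ∑ c ∈ FM L, wM a s L S S₂ c < 2 ^ 128 := by
  unfold FM
  rw [Finset.sum_disjSum, Finset.sum_disjSum]
  have h1 : ∑ x ∈ FA L ×ˢ FEd L, wM a s L S S₂ (Sum.inl (Sum.inl x)) =
      (∑ x ∈ FA L, wA a s L S x.1 x.2) * (∑ x ∈ FEd L, wE a s L S₂ x.1 x.2) :=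
    sum_prod_mul (FA L) (FEd L) (fun x => wA a s L S x.1 x.2) (fun x => wE a s L S₂ x.1 x.2)
  have h2 : ∑ x ∈ FEd L ×ˢ FA L, wM a s L S S₂ (Sum.inl (Sum.inr x)) =
      (∑ x ∈ FEd L, wE a s L S x.1 x.2) * (∑ x ∈ FA L, wA a s L S₂ x.1 x.2) :=
    sum_prod_mul (FEd L) (FA L) (fun x => wE a s L S x.1 x.2) (fun x => wA a s L S₂ x.1 x.2)
  have h3 : ∑ x ∈ FEd L ×ˢ FEd L, wM a s L S S₂ (Sum.inr x) =
      (∑ x ∈ FEd L, wE a s L S x.1 x.2) * (∑ x ∈ FEd L, wE a s L S₂ x.1 x.2) :=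
    sum_prod_mul (FEd L) (FEd L) (fun x => wE a s L S x.1 x.2) (fun x => wE a s L S₂ x.1 x.2)
  rw [h1, h2, h3]
  have b1 := Nat.mul_le_mul (sum_wA_le hO S) (sum_wE_le hO S₂)
  have b2 := Nat.mul_le_mul (sum_wE_le hO S) (sum_wA_le hO S₂)
  have b3 := Nat.mul_le_mul (sum_wE_le hO S) (sum_wE_le hO S₂)
  have := hO.size'
  omega

lemma cfe_digit {a s L K : ℕ} (hO : OK a s L K) (S S₂ m : ℕ) :
    cfe L (NM a s L S S₂) m = ∑ x ∈ FM L with pM L x = m + 2 * L, wM a s L S S₂ x := by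
  rw [cfe_eq, NM_eq]
  exact digit_sum (FM L) (wM a s L S S₂) (pM L) _ (sum_wM_lt hO S S₂) _

lemma partB {a s L K : ℕ} (hO : OK a s L K) (hG : SG G) (S S₂ : ℕ) :
    ∑ m ∈ Finset.range (2 * L + 1), (cfe L (NM a s L S S₂) m : ℝ) *
        (u3 (rho a s ^ m) 1 0 * gs G (rho a s ^ m) 1 0) ≤
      ∑ x ∈ sec (L + 1), ∑ k ∈ Finset.range (L + 1), (Y L S x.1 x.2 : ℝ) * (E L S₂ k *
        PP G (rho a s ^ (x.1 + x.2)) (rho a s ^ x.2) 1 (rho a s ^ k) 1 0) +
      ∑ k ∈ Finset.range (L + 1), ∑ x ∈ sec (L + 1), (E L S k : ℝ) * (Y L S₂ x.1 x.2 *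
        PP G (rho a s ^ k) 1 0 (rho a s ^ (x.1 + x.2)) (rho a s ^ x.2) 1) +
      ∑ k ∈ Finset.range (L + 1), ∑ l ∈ Finset.range (L + 1), (E L S k : ℝ) * (E L S₂ l *
        PP G (rho a s ^ k) 1 0 (rho a s ^ l) 1 0) := by
  have hρ := rho_pos hO.one_lt
  have hφ : Set.InjOn (fun z : ℕ => z + 2 * L) (Finset.range (2 * L + 1)) := by
    intro a _ b _ h
    simpa using h
  have h1 := fiber_le (FM L) (Finset.range (2 * L + 1)) (fun z : ℕ => z + 2 * L) hφ
    (pM L) (wM a s L S S₂) (He (rho a s) L G)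
    (fun _ _ => He_nonneg hρ hG _)
  simp only [← cfe_digit hO] at h1
  have h2 : ∀ m ∈ Finset.range (2 * L + 1), (cfe L (NM a s L S S₂) m : ℝ) *
        (u3 (rho a s ^ m) 1 0 * gs G (rho a s ^ m) 1 0) =
      (cfe L (NM a s L S S₂) m : ℝ) * He (rho a s) L G (m + 2 * L) := by
    intro m _
    congr 1
    have h40 : rho a s ^ (2 * L) ≠ 0 := (pow_pos hρ _).ne'
    have e1 : rho a s ^ (m + 2 * L) / rho a s ^ (2 * L) = rho a s ^ m := by
      rw [pow_add, mul_div_assoc, div_self h40, mul_one]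
    unfold He
    rw [e1]
    change _ = u3 (rho a s ^ m) 1 0 * gs G 0 (rho a s ^ m) 1
    rw [gs_swap01 G (rho a s ^ m) 0 1, gs_swap12 G (rho a s ^ m) 1 0]
  rw [Finset.sum_congr rfl h2]
  refine h1.trans ?_
  unfold FM
  rw [Finset.sum_disjSum, Finset.sum_disjSum]
  refine add_le_add (add_le_add ?_ ?_) ?_
  · rw [Finset.sum_product]
    unfold FA
    rw [Finset.sum_product]
    refine Finset.sum_le_sum fun x hx => ?_
    unfold FEd
    have h3 : ∀ g : Fin 6, ∑ b ∈ Finset.range (L + 1) ×ˢ (Finset.univ : Finset (Fin 2)),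
        (wM a s L S S₂ (Sum.inl (Sum.inl ((x, g), b))) : ℝ) *
          He (rho a s) L G (pM L (Sum.inl (Sum.inl ((x, g), b)))) =
        ∑ k ∈ Finset.range (L + 1), ∑ g' : Fin 2,
          (wA a s L S x g : ℝ) * (wE a s L S₂ k g' *
            He (rho a s) L G (p2 L x g + pE L k g')) := by
      intro g
      rw [Finset.sum_product]
      refine Finset.sum_congr rfl fun k _ => ?_
      refine Finset.sum_congr rfl fun g' _ => ?_
      change ((wA a s L S x g * wE a s L S₂ k g' : ℕ) : ℝ) *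
        He (rho a s) L G (p2 L x g + pE L k g') = _
      push_cast
      ring
    rw [Finset.sum_congr rfl fun g _ => h3 g, Finset.sum_comm]
    refine Finset.sum_le_sum fun k hk => ?_
    exact PP_int_edge hρ hG S S₂ hx (Finset.mem_range.1 hk)
  · rw [Finset.sum_product]
    unfold FEd
    rw [Finset.sum_product]
    refine Finset.sum_le_sum fun k hk => ?_
    unfold FA
    have h3 : ∀ g : Fin 2, ∑ b ∈ sec (L + 1) ×ˢ (Finset.univ : Finset (Fin 6)),
        (wM a s L S S₂ (Sum.inl (Sum.inr ((k, g), b))) : ℝ) *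
          He (rho a s) L G (pM L (Sum.inl (Sum.inr ((k, g), b)))) =
        ∑ x ∈ sec (L + 1), ∑ g' : Fin 6,
          (wA a s L S₂ x g' : ℝ) * (wE a s L S k g *
            He (rho a s) L G (p2 L x g' + pE L k g)) := by
      intro g
      rw [Finset.sum_product]
      refine Finset.sum_congr rfl fun x _ => ?_
      refine Finset.sum_congr rfl fun g' _ => ?_
      change ((wE a s L S k g * wA a s L S₂ x g' : ℕ) : ℝ) *
        He (rho a s) L G (pE L k g + p2 L x g') = _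
      rw [add_comm (pE L k g)]
      push_cast
      ring
    rw [Finset.sum_congr rfl fun g _ => h3 g, Finset.sum_comm]
    refine Finset.sum_le_sum fun x hx => ?_
    rw [Finset.sum_comm]
    refine (PP_int_edge hρ hG S₂ S hx (Finset.mem_range.1 hk)).trans (le_of_eq ?_)
    rw [PP_comm]
    ring
  · rw [Finset.sum_product]
    unfold FEd
    rw [Finset.sum_product]
    refine Finset.sum_le_sum fun k hk => ?_
    have h3 : ∀ g : Fin 2, ∑ b ∈ Finset.range (L + 1) ×ˢ (Finset.univ : Finset (Fin 2)),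
        (wM a s L S S₂ (Sum.inr ((k, g), b)) : ℝ) *
          He (rho a s) L G (pM L (Sum.inr ((k, g), b))) =
        ∑ l ∈ Finset.range (L + 1), ∑ g' : Fin 2,
          (wE a s L S k g : ℝ) * (wE a s L S₂ l g' *
            He (rho a s) L G (pE L k g + pE L l g')) := by
      intro g
      rw [Finset.sum_product]
      refine Finset.sum_congr rfl fun l _ => ?_
      refine Finset.sum_congr rfl fun g' _ => ?_
      change ((wE a s L S k g * wE a s L S₂ l g' : ℕ) : ℝ) *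
        He (rho a s) L G (pE L k g + pE L l g') = _
      push_cast
      ring
    rw [Finset.sum_congr rfl fun g _ => h3 g, Finset.sum_comm]
    refine Finset.sum_le_sum fun l hl => ?_
    exact PP_edge_edge hρ hG S S₂ (Finset.mem_range.1 hk) (Finset.mem_range.1 hl)

end Crest.Agent.R163.DG
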