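import Crest.Agent.R163.DG5

/-!
Row 163, generic density evolution: soundness of the product step, conclusion.
-/

set_option autoImplicit false

namespace Crest.Agent.R163.DG

open Crest.Agent.R163

open Crest.Agent.R163.DE (SG gs sec ksum kall dig sum_sec ksum_eq kall_iff mlt mlte
  gs_eq_sum u3 PP PP_comm sum_add_range)

variable {G : (Fin 3 → ℝ) → ℝ}

/-- interior value -/
noncomputable def gI (ρ : ℝ) (G : (Fin 3 → ℝ) → ℝ) (a b : ℕ) : ℝ := gs G (ρ ^ a) (ρ ^ b) 1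

/-- edge value -/
noncomputable def gE (ρ : ℝ) (G : (Fin 3 → ℝ) → ℝ) (k : ℕ) : ℝ := gs G (ρ ^ k) 1 0

section vals

variable {ρ : ℝ}

lemma gI_nonneg (hρ : 1 < ρ) (h : SG G) (a b : ℕ) : 0 ≤ gI ρ G a b :=
  h.gs_nonneg (pow_pos (zero_lt_one.trans hρ) _).le (pow_pos (zero_lt_one.trans hρ) _).le
    zero_le_one

lemma gE_nonneg (hρ : 1 < ρ) (h : SG G) (k : ℕ) : 0 ≤ gE ρ G k :=
  h.gs_nonneg (pow_pos (zero_lt_one.trans hρ) _).le zero_le_one le_rfl

lemma gE_mono (hρ : 1 < ρ) (h : SG G) {k l : ℕ} (hkl : k ≤ l) : gE ρ G k ≤ gE ρ G l := by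
  refine h.gs_mono (pow_pos (zero_lt_one.trans hρ) _).le zero_le_one le_rfl ?_ le_rfl le_rfl
  exact pow_le_pow_right₀ hρ.le hkl

/-- far vectors, ratio in range -/
lemma far1 (hρ : 1 < ρ) (h : SG G) {L k q : ℕ} (hk : k ≤ L) :
    gI ρ G L (L - k) + (ρ ^ (L + 1 - k + q) - ρ ^ (L - k)) * gE ρ G k ≤
      gI ρ G (k + (L + 1 - k + q)) (L + 1 - k + q) := by
  have h1 : 0 ≤ ρ ^ (L + 1 - k + q) - ρ ^ (L - k) :=
    sub_nonneg.2 (pow_le_pow_right₀ hρ.le (by omega))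
  have hp : ∀ n, 0 ≤ ρ ^ n := fun n => (pow_pos (zero_lt_one.trans hρ) n).le
  unfold gI gE
  rw [← h.gs_hom h1 (hp k) zero_le_one le_rfl]
  have h2 := h.gs_sup (hp L) (hp (L - k)) zero_le_one (mul_nonneg h1 (hp k))
    (mul_nonneg h1 zero_le_one) (mul_nonneg h1 le_rfl)
  refine h2.trans (le_of_eq ?_)
  congr 1
  · have e1 : ρ ^ (k + (L + 1 - k + q)) = ρ ^ (L + 1 - k + q) * ρ ^ k := by
      rw [← pow_add]; congr 1; omega
    have e2 : ρ ^ L = ρ ^ (L - k) * ρ ^ k := by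
      rw [← pow_add]; congr 1; omega
    rw [e1, e2]; ring
  · ring
  · ring

/-- far vectors, large ratio -/
lemma far2 (hρ : 1 < ρ) (h : SG G) (L k q : ℕ) :
    gI ρ G L 0 + (ρ ^ q - 1) * gE ρ G L ≤ gI ρ G (L + 1 + k + q) q := by
  have h1 : 0 ≤ ρ ^ q - 1 := sub_nonneg.2 (one_le_pow₀ hρ.le)
  have hp : ∀ n, 0 ≤ ρ ^ n := fun n => (pow_pos (zero_lt_one.trans hρ) n).le
  unfold gI gE
  rw [← h.gs_hom h1 (hp L) zero_le_one le_rfl]
  have h2 := h.gs_sup (hp L) (hp 0) zero_le_one (mul_nonneg h1 (hp L))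
    (mul_nonneg h1 zero_le_one) (mul_nonneg h1 le_rfl)
  refine h2.trans (h.gs_mono ?_ ?_ ?_ ?_ ?_ ?_)
  · exact add_nonneg (hp _) (mul_nonneg h1 (hp _))
  · exact add_nonneg (hp _) (mul_nonneg h1 zero_le_one)
  · norm_num
  · have e1 : ρ ^ L + (ρ ^ q - 1) * ρ ^ L = ρ ^ (L + q) := by rw [pow_add]; ring
    rw [e1]
    exact pow_le_pow_right₀ hρ.le (by omega)
  · rw [pow_zero]; linarith
  · norm_num

lemma mlt_cast (hρ : 1 < ρ) (k j : ℕ) : (mlt k j : ℝ) = 6 * u3 (ρ ^ (k + j)) (ρ ^ j) 1 := by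
  have h1 : (1 : ℝ) ≤ ρ ^ j := one_le_pow₀ hρ.le
  have h2 : ρ ^ j ≤ ρ ^ (k + j) := pow_le_pow_right₀ hρ.le (by omega)
  unfold u3
  rw [if_pos ⟨h1, h2⟩]
  have h3 : ρ ^ j = 1 ↔ j = 0 := by
    constructor
    · intro h
      by_contra hj
      have := one_lt_pow₀ hρ hj
      linarith
    · rintro rfl; exact pow_zero _
  have h4 : ρ ^ (k + j) = ρ ^ j ↔ k = 0 := by
    constructor
    · intro h
      by_contra hk
      have : ρ ^ j < ρ ^ (k + j) := pow_lt_pow_right₀ hρ (by omega)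
      linarith
    · rintro rfl; rw [zero_add]
  rcases Nat.eq_zero_or_pos k with hk | hk
  · rw [if_pos (h4.2 hk)]
    subst hk
    rcases Nat.eq_zero_or_pos j with hj | hj
    · rw [if_pos (h3.2 hj)]
      subst hj
      change ((1 : ℕ) : ℝ) = _
      norm_num
    · rw [if_neg (fun h => by have := h3.1 h; omega)]
      obtain ⟨j', rfl⟩ := Nat.exists_eq_succ_of_ne_zero hj.ne'
      change ((3 : ℕ) : ℝ) = _
      norm_num
  · rw [if_neg (fun h => by have := h4.1 h; omega)]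
    obtain ⟨k', rfl⟩ := Nat.exists_eq_succ_of_ne_zero hk.ne'
    rcases Nat.eq_zero_or_pos j with hj | hj
    · rw [if_pos (h3.2 hj)]
      subst hj
      change ((3 : ℕ) : ℝ) = _
      norm_num
    · rw [if_neg (fun h => by have := h3.1 h; omega)]
      obtain ⟨j', rfl⟩ := Nat.exists_eq_succ_of_ne_zero hj.ne'
      change ((6 : ℕ) : ℝ) = _
      norm_num

lemma mlte_cast (hρ : 1 < ρ) (m : ℕ) : (mlte m : ℝ) = 6 * u3 (ρ ^ m) 1 0 := by
  have h1 : (1 : ℝ) ≤ ρ ^ m := one_le_pow₀ hρ.le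
  unfold u3
  rw [if_pos ⟨zero_le_one, h1⟩]
  rcases Nat.eq_zero_or_pos m with hm | hm
  · subst hm
    rw [pow_zero, if_pos rfl, if_neg one_ne_zero]
    change ((3 : ℕ) : ℝ) = _
    norm_num
  · have := one_lt_pow₀ hρ hm.ne'
    rw [if_neg (by linarith), if_neg one_ne_zero]
    obtain ⟨m', rfl⟩ := Nat.exists_eq_succ_of_ne_zero hm.ne'
    change ((6 : ℕ) : ℝ) = _
    norm_num

lemma Uf_sec (ρ : ℝ) (n : ℕ) (y : ℕ → ℕ → ℕ) (e : ℕ → ℕ) (F : (Fin 3 → ℝ) → ℝ) :
    Uf ρ n y e F = ∑ x ∈ sec n, (y x.1 x.2 : ℝ) * gs F (ρ ^ (x.1 + x.2)) (ρ ^ x.2) 1 +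
      ∑ k ∈ Finset.range n, (e k : ℝ) * gs F (ρ ^ k) 1 0 := by
  rfl

/-- expansion of the double functional -/
lemma UU_eq (ρ : ℝ) (L : ℕ) (S S₂ : ℕ) :
    Uf ρ (L + 1) (Y L S) (E L S) (fun u =>
      Uf ρ (L + 1) (Y L S₂) (E L S₂) (fun v => G (fun i => u i * v i))) =
      ∑ x ∈ sec (L + 1), ∑ x' ∈ sec (L + 1), (Y L S x.1 x.2 : ℝ) * (Y L S₂ x'.1 x'.2 *
        PP G (ρ ^ (x.1 + x.2)) (ρ ^ x.2) 1 (ρ ^ (x'.1 + x'.2)) (ρ ^ x'.2) 1) +
      ∑ x ∈ sec (L + 1), ∑ k ∈ Finset.range (L + 1), (Y L S x.1 x.2 : ℝ) * (E L S₂ k *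
        PP G (ρ ^ (x.1 + x.2)) (ρ ^ x.2) 1 (ρ ^ k) 1 0) +
      (∑ k ∈ Finset.range (L + 1), ∑ x ∈ sec (L + 1), (E L S k : ℝ) * (Y L S₂ x.1 x.2 *
        PP G (ρ ^ k) 1 0 (ρ ^ (x.1 + x.2)) (ρ ^ x.2) 1) +
      ∑ k ∈ Finset.range (L + 1), ∑ l ∈ Finset.range (L + 1), (E L S k : ℝ) * (E L S₂ l *
        PP G (ρ ^ k) 1 0 (ρ ^ l) 1 0)) := by
  have hlin : ∀ (x y z : ℝ), gs (fun u =>
        Uf ρ (L + 1) (Y L S₂) (E L S₂) (fun v => G (fun i => u i * v i))) x y z =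
      ∑ x' ∈ sec (L + 1), (Y L S₂ x'.1 x'.2 : ℝ) *
        PP G x y z (ρ ^ (x'.1 + x'.2)) (ρ ^ x'.2) 1 +
      ∑ k ∈ Finset.range (L + 1), (E L S₂ k : ℝ) * PP G x y z (ρ ^ k) 1 0 := by
    intro x y z
    have e : ∀ u : Fin 3 → ℝ,
        Uf ρ (L + 1) (Y L S₂) (E L S₂) (fun v => G (fun i => u i * v i)) =
        ∑ x' ∈ sec (L + 1), (Y L S₂ x'.1 x'.2 : ℝ) * gs (fun v => G (fun i => u i * v i))
          (ρ ^ (x'.1 + x'.2)) (ρ ^ x'.2) 1 +
        ∑ k ∈ Finset.range (L + 1), (E L S₂ k : ℝ) *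
          gs (fun v => G (fun i => u i * v i)) (ρ ^ k) 1 0 := by
      intro u
      exact Uf_sec _ _ _ _ _
    rw [gs_eq_sum]
    simp only [e]
    rw [Finset.sum_add_distrib, Finset.sum_comm, Finset.sum_comm (s := Finset.univ)
      (t := Finset.range (L + 1))]
    congr 1
    · refine Finset.sum_congr rfl fun x' _ => ?_
      unfold PP
      rw [gs_eq_sum (fun u => gs (fun v => G fun i => u i * v i) _ _ _), Finset.mul_sum]
    · refine Finset.sum_congr rfl fun x' _ => ?_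
      unfold PP
      rw [gs_eq_sum (fun u => gs (fun v => G fun i => u i * v i) _ _ _), Finset.mul_sum]
  rw [Uf_sec ρ (L + 1) (Y L S) (E L S)]
  simp only [hlin]
  simp only [mul_add, Finset.sum_add_distrib, Finset.mul_sum]

end vals

lemma one_lt_rho {a s : ℕ} (ha : 2 ^ s < a) : 1 < rho a s := by
  unfold rho
  rw [lt_div_iff₀ (by positivity), one_mul]
  exact_mod_cast ha

lemma exc_cast_le {a s c q m : ℕ} (ha : 2 ^ s < a) (hm : m ≤ q) :
    (exc a s c q m : ℝ) ≤ c * (rho a s ^ q - rho a s ^ m) := by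
  have h1 : exc a s c q m = c * (a ^ q - a ^ m * 2 ^ (s * (q - m))) / 2 ^ (s * q) := by
    unfold exc
    exact Nat.shiftRight_eq_div_pow _ _
  rw [h1]
  refine Nat.cast_div_le.trans ?_
  have h2 : a ^ m * 2 ^ (s * (q - m)) ≤ a ^ q := by
    calc a ^ m * 2 ^ (s * (q - m)) ≤ a ^ m * a ^ (q - m) := by
          refine Nat.mul_le_mul_left _ ?_
          rw [pow_mul]
          exact Nat.pow_le_pow_left ha.le _
      _ = a ^ q := by rw [← pow_add]; congr 1; omega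
  rw [Nat.cast_mul, Nat.cast_sub h2]
  push_cast
  rw [mul_div_assoc]
  refine le_of_eq ?_
  congr 1
  unfold rho
  rw [div_pow, div_pow, sub_div, ← pow_mul, ← pow_mul]
  congr 1
  have h3 : (2 : ℝ) ^ (s * q) = 2 ^ (s * m) * 2 ^ (s * (q - m)) := by
    rw [← pow_add, ← mul_add]; congr 2; omega
  rw [h3, mul_div_mul_right _ _ (by positivity)]

/-- the main inequality behind a product check -/
lemma main_ineq {a s L K : ℕ} (hO : OK a s L K) (hG : SG G) (S S₂ : ℕ) :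
    ∑ z ∈ sec (2 * L + 1), (mC L (NA a s L S * NA a s L S₂) z.1 z.2 : ℝ) *
      gI (rho a s) G (z.1 + z.2) z.2 +
    ∑ m ∈ Finset.range (2 * L + 1), (mlte m * cfe L (NM a s L S S₂) m : ℝ) *
      gE (rho a s) G m ≤
      6 * Uf (rho a s) (L + 1) (Y L S) (E L S) (fun u =>
        Uf (rho a s) (L + 1) (Y L S₂) (E L S₂) (fun v => G (fun i => u i * v i))) := by
  have hρ := one_lt_rho hO.one_lt
  rw [UU_eq]
  have h1 := partA hO hG S S₂
  have h2 := partB hO hG S S₂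
  have h4 : ∑ z ∈ sec (2 * L + 1), (mC L (NA a s L S * NA a s L S₂) z.1 z.2 : ℝ) *
      gI (rho a s) G (z.1 + z.2) z.2 =
      6 * ∑ z ∈ sec (2 * L + 1), (cf L (NA a s L S * NA a s L S₂) (z.1 + z.2) z.2 : ℝ) *
        (u3 (rho a s ^ (z.1 + z.2)) (rho a s ^ z.2) 1 *
          gs G (rho a s ^ (z.1 + z.2)) (rho a s ^ z.2) 1) := by
    rw [Finset.mul_sum]
    refine Finset.sum_congr rfl fun z _ => ?_
    have e : mC L (NA a s L S * NA a s L S₂) z.1 z.2 =
      mlt z.1 z.2 * cf L (NA a s L S * NA a s L S₂) (z.1 + z.2) z.2 := rfl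
    rw [e, Nat.cast_mul, mlt_cast hρ]
    unfold gI
    ring
  have h5 : ∑ m ∈ Finset.range (2 * L + 1), (mlte m * cfe L (NM a s L S S₂) m : ℝ) *
      gE (rho a s) G m =
      6 * ∑ m ∈ Finset.range (2 * L + 1), (cfe L (NM a s L S S₂) m : ℝ) *
        (u3 (rho a s ^ m) 1 0 * gs G (rho a s ^ m) 1 0) := by
    rw [Finset.mul_sum]
    refine Finset.sum_congr rfl fun m _ => ?_
    rw [mlte_cast hρ]
    unfold gE
    ring
  rw [h4, h5]
  linarith

/-- rearrangement with far vectors split -/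
lemma split_far {a s : ℕ} (ha : 2 ^ s < a) (hG : SG G) (L N : ℕ) :
    ∑ k ∈ Finset.range (L + 1), (∑ j ∈ Finset.range (L - k), (mC L N k j : ℝ) *
        gI (rho a s) G (k + j) j +
      ((mC L N k (L - k) : ℝ) + FI L N k) * gI (rho a s) G L (L - k) +
      FE a s L N k * gE (rho a s) G k) +
      GI L N * gI (rho a s) G L 0 + GE a s L N * gE (rho a s) G L ≤
    ∑ z ∈ sec (2 * L + 1), (mC L N z.1 z.2 : ℝ) * gI (rho a s) G (z.1 + z.2) z.2 := by
  have hρ := one_lt_rho ha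
  rw [← sum_sec (2 * L + 1) (fun k j => (mC L N k j : ℝ) * gI (rho a s) G (k + j) j)]
  rw [show (2 * L + 1 : ℕ) = (L + 1) + L by ring, sum_add_range _ (L + 1) L, add_assoc]
  refine add_le_add (Finset.sum_le_sum fun k hk => ?_) ?_
  · have hk' := Finset.mem_range.1 hk
    rw [show L + 1 + L - k = (L - k + 1) + L by omega, sum_add_range _ (L - k + 1) L,
      Finset.sum_range_succ]
    have e0 : k + (L - k) = L := by omega
    rw [e0, add_mul, add_assoc, add_assoc, add_assoc]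
    refine add_le_add le_rfl (add_le_add le_rfl ?_)
    have e1 : (FI L N k : ℝ) = ∑ q ∈ Finset.range L, (mC L N k (L + 1 - k + q) : ℝ) := by
      unfold FI
      rw [ksum_eq]
      push_cast
      rfl
    have e2 : (FE a s L N k : ℝ) ≤ ∑ q ∈ Finset.range L, (mC L N k (L + 1 - k + q) : ℝ) *
        (rho a s ^ (L + 1 - k + q) - rho a s ^ (L - k)) := by
      unfold FE
      rw [ksum_eq]
      push_cast
      refine Finset.sum_le_sum fun q _ => ?_
      exact exc_cast_le ha (c := mC L N k (L + 1 - k + q)) (q := L + 1 - k + q) (m := L - k)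
        (by omega)
    have e3 := mul_le_mul_of_nonneg_right e2 (gE_nonneg hρ hG k)
    rw [e1]
    refine (add_le_add le_rfl e3).trans ?_
    rw [Finset.sum_mul, Finset.sum_mul, ← Finset.sum_add_distrib]
    refine Finset.sum_le_sum fun q _ => ?_
    have h := mul_le_mul_of_nonneg_left (far1 hρ hG (L := L) (k := k) (q := q) (by omega))
      (Nat.cast_nonneg (α := ℝ) (mC L N k (L + 1 - k + q)))
    have e4 : L - k + 1 + q = L + 1 - k + q := by omega
    rw [e4]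
    refine le_trans (le_of_eq ?_) h
    ring
  · have e1 : (GI L N : ℝ) = ∑ k ∈ Finset.range L, ∑ q ∈ Finset.range (L - k),
        (mC L N (L + 1 + k) q : ℝ) := by
      unfold GI
      simp only [ksum_eq]
      push_cast
      rfl
    have e2 : (GE a s L N : ℝ) ≤ ∑ k ∈ Finset.range L, ∑ q ∈ Finset.range (L - k),
        (mC L N (L + 1 + k) q : ℝ) * (rho a s ^ q - 1) := by
      unfold GE
      simp only [ksum_eq]
      push_cast
      refine Finset.sum_le_sum fun k _ => Finset.sum_le_sum fun q _ => ?_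
      have := exc_cast_le ha (c := mC L N (L + 1 + k) q) (q := q) (m := 0) (Nat.zero_le _)
      rw [pow_zero] at this
      exact this
    have e3 := mul_le_mul_of_nonneg_right e2 (gE_nonneg hρ hG L)
    rw [e1]
    refine (add_le_add le_rfl e3).trans ?_
    rw [Finset.sum_mul, Finset.sum_mul, ← Finset.sum_add_distrib]
    refine Finset.sum_le_sum fun k hk => ?_
    have hk' := Finset.mem_range.1 hk
    rw [show L + 1 + L - (L + 1 + k) = L - k by omega, Finset.sum_mul, Finset.sum_mul,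
      ← Finset.sum_add_distrib]
    refine Finset.sum_le_sum fun q _ => ?_
    have h := mul_le_mul_of_nonneg_left (far2 hρ hG L k q)
      (Nat.cast_nonneg (α := ℝ) (mC L N (L + 1 + k) q))
    refine le_trans (le_of_eq ?_) h
    ring

lemma split_edge {a s : ℕ} (ha : 2 ^ s < a) (hG : SG G) {L : ℕ} (hL : 0 < L) (N : ℕ) :
    ∑ m ∈ Finset.range L, (mlte m * cfe L N m : ℝ) * gE (rho a s) G m +
      6 * (∑ m ∈ Finset.range (L + 1), (cfe L N (L + m) : ℝ)) * gE (rho a s) G L ≤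
    ∑ m ∈ Finset.range (2 * L + 1), (mlte m * cfe L N m : ℝ) * gE (rho a s) G m := by
  rw [show (2 * L + 1 : ℕ) = L + (L + 1) by ring, sum_add_range _ L (L + 1)]
  refine add_le_add le_rfl ?_
  rw [Finset.mul_sum, Finset.sum_mul]
  refine Finset.sum_le_sum fun m _ => ?_
  have e : mlte (L + m) = 6 := by
    obtain ⟨l, rfl⟩ := Nat.exists_eq_succ_of_ne_zero hL.ne'
    rw [Nat.succ_add]
    rfl
  rw [e]
  refine mul_le_mul_of_nonneg_left (gE_mono (one_lt_rho ha) hG (by omega)) (by positivity)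

/-- the constant `6 * 2 ^ 36` -/
def c0 : ℕ := 412316860416

theorem chkPr_sound {Ω₁ Ω₂ : Type*} {L₁ : Ω₁ → Fin 3 → ℝ} {L₂ : Ω₂ → Fin 3 → ℝ}
    (hL₁ : IsChan L₁) (hL₂ : IsChan L₂) {a s L K S₁ S₂ S' : ℕ} (hO : OK a s L K) (hL : 0 < L)
    (h : chkPr a s L S₁ S₂ S' = true)
    (h₁ : LB L₁ (rho a s) (L + 1) (Y L S₁) (E L S₁))
    (h₂ : LB L₂ (rho a s) (L + 1) (Y L S₂) (E L S₂)) :
    LB (mrg L₁ L₂) (rho a s) (L + 1) (Y L S') (E L S') := by
  intro G hG
  have hρ := one_lt_rho hO.one_lt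
  have hm := main_ineq hO hG S₁ S₂
  have hJ := h₁.mrg (rho_pos hO.one_lt) hL₁ hL₂ h₂ hG
  have e0 : chkPr a s L S₁ S₂ S' =
    chkPr2 a s L (NA a s L S₁ * NA a s L S₂) (NM a s L S₁ S₂) S' := rfl
  rw [e0] at h
  set N := NA a s L S₁ * NA a s L S₂ with hN
  set M := NM a s L S₁ S₂ with hM
  clear_value N M
  have s1 := split_far hO.one_lt hG L N
  have s2 := split_edge hO.one_lt hG hL M
  unfold chkPr2 at h
  rw [Bool.and_eq_true, Bool.and_eq_true, kall_iff] at h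
  obtain ⟨c1, c2, c3⟩ := h
  have c1' : ∀ k, k < L → (∀ j, j < L - k → (c0 * Y L S' k j : ℕ) ≤ mC L N k j) ∧
      (c0 * Y L S' k (L - k) ≤ mC L N k (L - k) + FI L N k) ∧
      (c0 * E L S' k ≤ FE a s L N k + mlte k * cfe L M k) := by
    intro k hk
    have h3 := c1 k hk
    rw [Bool.and_eq_true, Bool.and_eq_true, kall_iff] at h3
    obtain ⟨a1, a2, a3⟩ := h3
    refine ⟨fun j hj => Nat.le_of_ble_eq_true (a1 j hj), ?_, Nat.le_of_ble_eq_true a3⟩
    have a2' := Nat.le_of_ble_eq_true a2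
    have e : Y L S' k (L - k) = dig S' (idx L L (Nat.sub L k)) := by
      unfold Y
      have : k + (L - k) = L := by omega
      rw [this]
      rfl
    rw [e]
    exact a2'
  have c2' : c0 * Y L S' L 0 ≤ mC L N L 0 + (FI L N L + GI L N) := Nat.le_of_ble_eq_true c2
  have c3' : c0 * E L S' L ≤ (FE a s L N L + GE a s L N) +
      6 * ksum (L + 1) (fun m => cfe L M (L + m)) :=
    Nat.le_of_ble_eq_true c3
  rw [ksum_eq] at c3'
  -- real versions
  have hc0 : (c0 : ℝ) = 6 * 2 ^ 36 := by unfold c0; norm_num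
  have r2 : (6 * 2 ^ 36 : ℝ) * Y L S' L 0 ≤ mC L N L 0 + (FI L N L + GI L N) := by
    rw [← hc0]; exact_mod_cast c2'
  have r3 : (6 * 2 ^ 36 : ℝ) * E L S' L ≤ (FE a s L N L + GE a s L N) +
      6 * ∑ m ∈ Finset.range (L + 1), (cfe L M (L + m) : ℝ) := by
    rw [← hc0]; exact_mod_cast c3'
  have r1 : ∀ k, k < L → (∀ j, j < L - k → (6 * 2 ^ 36 : ℝ) * Y L S' k j ≤ mC L N k j) ∧
      ((6 * 2 ^ 36 : ℝ) * Y L S' k (L - k) ≤ mC L N k (L - k) + FI L N k) ∧
      ((6 * 2 ^ 36 : ℝ) * E L S' k ≤ FE a s L N k + mlte k * cfe L M k) := by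
    intro k hk
    obtain ⟨a1, a2, a3⟩ := c1' k hk
    refine ⟨fun j hj => ?_, ?_, ?_⟩
    · rw [← hc0]; exact_mod_cast a1 j hj
    · rw [← hc0]; exact_mod_cast a2
    · rw [← hc0]; exact_mod_cast a3
  -- the new functional
  have hI := gI_nonneg hρ hG
  have hE := gE_nonneg hρ hG
  have hU : (6 * 2 ^ 36 : ℝ) * Uf (rho a s) (L + 1) (Y L S') (E L S') G ≤
      (∑ k ∈ Finset.range (L + 1), (∑ j ∈ Finset.range (L - k), (mC L N k j : ℝ) *
          gI (rho a s) G (k + j) j +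
      ((mC L N k (L - k) : ℝ) + FI L N k) * gI (rho a s) G L (L - k) +
      FE a s L N k * gE (rho a s) G k) +
      GI L N * gI (rho a s) G L 0 + GE a s L N * gE (rho a s) G L) +
      (∑ m ∈ Finset.range L, (mlte m * cfe L M m : ℝ) * gE (rho a s) G m +
      6 * (∑ m ∈ Finset.range (L + 1), (cfe L M (L + m) : ℝ)) * gE (rho a s) G L) := by
    unfold Uf
    rw [← sum_sec (L + 1) (fun k j => (Y L S' k j : ℝ) *
      gs G (rho a s ^ (k + j)) (rho a s ^ j) 1)]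
    rw [mul_add, Finset.mul_sum, Finset.mul_sum]
    rw [Finset.sum_range_succ, Finset.sum_range_succ (n := L), Finset.sum_range_succ
      (f := fun k => (∑ j ∈ Finset.range (L - k), (mC L N k j : ℝ) * gI (rho a s) G (k + j) j +
      ((mC L N k (L - k) : ℝ) + FI L N k) * gI (rho a s) G L (L - k) +
      FE a s L N k * gE (rho a s) G k))]
    have t1 : ∑ k ∈ Finset.range L, (6 * 2 ^ 36 : ℝ) * ∑ j ∈ Finset.range (L + 1 - k),
          (Y L S' k j : ℝ) * gs G (rho a s ^ (k + j)) (rho a s ^ j) 1 +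
        ∑ k ∈ Finset.range L, (6 * 2 ^ 36 : ℝ) * ((E L S' k : ℝ) * gs G (rho a s ^ k) 1 0) ≤
        ∑ k ∈ Finset.range L, (∑ j ∈ Finset.range (L - k), (mC L N k j : ℝ) *
          gI (rho a s) G (k + j) j +
        ((mC L N k (L - k) : ℝ) + FI L N k) * gI (rho a s) G L (L - k) +
        FE a s L N k * gE (rho a s) G k) +
        ∑ m ∈ Finset.range L, (mlte m * cfe L M m : ℝ) * gE (rho a s) G m := by
      rw [← Finset.sum_add_distrib, ← Finset.sum_add_distrib]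
      refine Finset.sum_le_sum fun k hk => ?_
      have hk' := Finset.mem_range.1 hk
      obtain ⟨a1, a2, a3⟩ := r1 k hk'
      rw [show L + 1 - k = L - k + 1 by omega, Finset.sum_range_succ, mul_add, Finset.mul_sum]
      have e0 : k + (L - k) = L := by omega
      rw [e0]
      have b1 : ∑ j ∈ Finset.range (L - k), (6 * 2 ^ 36 : ℝ) *
          ((Y L S' k j : ℝ) * gs G (rho a s ^ (k + j)) (rho a s ^ j) 1) ≤
          ∑ j ∈ Finset.range (L - k), (mC L N k j : ℝ) * gI (rho a s) G (k + j) j := by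
        refine Finset.sum_le_sum fun j hj => ?_
        rw [← mul_assoc]
        exact mul_le_mul_of_nonneg_right (a1 j (Finset.mem_range.1 hj)) (hI _ _)
      have b2 := mul_le_mul_of_nonneg_right a2 (hI L (L - k))
      have b3 := mul_le_mul_of_nonneg_right a3 (hE k)
      unfold gI gE at *
      linarith
    have t2 : (6 * 2 ^ 36 : ℝ) * ∑ j ∈ Finset.range (L + 1 - L),
          (Y L S' L j : ℝ) * gs G (rho a s ^ (L + j)) (rho a s ^ j) 1 =
        (6 * 2 ^ 36 : ℝ) * Y L S' L 0 * gI (rho a s) G L 0 := by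
      rw [show L + 1 - L = 1 by omega, Finset.sum_range_one]
      unfold gI
      rw [add_zero]
      ring
    have t3 := mul_le_mul_of_nonneg_right r2 (hI L 0)
    have t4 := mul_le_mul_of_nonneg_right r3 (hE L)
    rw [t2]
    rw [show L - L = 0 by omega, Finset.sum_range_zero]
    unfold gE at *
    linarith
  have hfin : (6 * 2 ^ 36 : ℝ) * Uf (rho a s) (L + 1) (Y L S') (E L S') G ≤
      6 * (2 ^ 72 * J G (mrg L₁ L₂)) := by
    linarith
  have h6 : (6 : ℝ) * (2 ^ 72 * J G (mrg L₁ L₂)) =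
      6 * 2 ^ 36 * (2 ^ 36 * J G (mrg L₁ L₂)) := by ring
  rw [h6] at hfin
  exact le_of_mul_le_mul_left hfin (by positivity)

end Crest.Agent.R163.DG
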