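import Crest.Agent.R163.DG6
import Crest.Agent.R163.DE7
import Crest.Agent.R163.MonoPair

/-!
Row 163, generic density evolution: one level of the regular tree, final bound on chi-square.
-/

set_option autoImplicit false

namespace Crest.Agent.R163.DG

open Crest.Agent.R163

open Crest.Agent.R163.DE (SG gs sec ksum kall dig sum_sec ksum_eq kall_iff dig_zero J_pw_add
  gs_gchi chi_single)

lemma LB.congr {Ω Ω' : Type*} {C : Ω → Fin 3 → ℝ} {C' : Ω' → Fin 3 → ℝ} {ρ : ℝ} {n : ℕ}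
    {y : ℕ → ℕ → ℕ} {e : ℕ → ℕ} (h : LB C ρ n y e)
    (hJ : ∀ φ : (Fin 3 → ℝ) → ℝ, J φ C' = J φ C) : LB C' ρ n y e := by
  intro G hG
  rw [hJ]
  exact h G hG

/-- state `S` is a lower bound of the `b`-ary tree of depth `n` -/
def Lev (b : ℕ) (lam : ℝ) (a s L n S : ℕ) : Prop :=
  LB (reg 3 b lam n) (rho a s) (L + 1) (Y L S) (E L S)

/-- state `S` is a lower bound of the `m`-th power of an edge of the `b`-ary tree -/
def PW (b : ℕ) (lam : ℝ) (a s L n m S : ℕ) : Prop :=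
  LB (pw (fun o => W lam (reg 3 b lam n o)) m) (rho a s) (L + 1) (Y L S) (E L S)

theorem lev_zero {b : ℕ} {lam : ℝ} (hl : Adm 3 lam) (a s L : ℕ) : Lev b lam a s L 0 0 := by
  intro G hG
  have h1 : Uf (rho a s) (L + 1) (Y L 0) (E L 0) G = 0 := by
    unfold Uf
    have hY : ∀ k j, Y L 0 k j = 0 := fun k j => dig_zero _
    have hE : ∀ k, E L 0 k = 0 := fun k => dig_zero _
    simp [hY, hE]
  rw [h1]
  have h2 : 0 ≤ J G (reg 3 b lam 0) :=
    (reg_isChan b hl 0).J_nonneg fun v hv => hG.nn v hv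
  positivity

theorem PW.mul {b : ℕ} {lam : ℝ} {a s L K n m₁ m₂ S₁ S₂ S' : ℕ} (hl : Adm 3 lam)
    (hO : OK a s L K) (hL : 0 < L)
    (h₁ : PW b lam a s L n m₁ S₁) (h₂ : PW b lam a s L n m₂ S₂)
    (hc : chkPr a s L S₁ S₂ S' = true) : PW b lam a s L n (m₁ + m₂) S' := by
  have hcW := (reg_isChan (q := 3) b hl n).edge hl
  exact LB.congr (chkPr_sound (hcW.pw m₁) (hcW.pw m₂) hO hL hc h₁ h₂) fun φ => J_pw_add φ _ m₁ m₂

theorem PW.lev {b : ℕ} {lam : ℝ} {a s L n S : ℕ} (h : PW b lam a s L n b S) :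
    Lev b lam a s L (n + 1) S :=
  LB.congr h fun φ => J_reg_succ φ b lam n

/-- parameters of one level: source lattice `a s L`, target lattice `a' s' L'` -/
structure Ctx (a s L a' s' L' : ℕ) (lam : ℝ) (T : ℕ) : Prop where
  adm : Adm 3 lam
  lt : 2 ^ s < a
  size : (L + 1) ^ 2 + (L + 2) < 2 ^ 20
  pos : 0 < L'
  ok : ∃ K, OK a' s' L' K
  tab : TabOK a s L a' s' L' lam T

theorem Ctx.edge {a s L a' s' L' : ℕ} {lam : ℝ} {T b n S₀ S₁ : ℕ} (c : Ctx a s L a' s' L' lam T)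
    (h : Lev b lam a s L n S₀) (hc : chkW a s L L' T S₀ S₁ = true) :
    PW b lam a' s' L' n 1 S₁ := by
  obtain ⟨K, hK⟩ := c.ok
  have l1 := chkW_sound (reg_isChan (q := 3) b c.adm n) c.adm c.lt hK.one_lt c.size c.tab hc h
  exact LB.congr l1 fun φ => J_pw_one φ _

theorem ctx_of {a s L a' s' L' K p r T : ℕ} (hr : 0 < r) (hpr : 2 * p ≤ r) (h1 : 2 ^ s < a)
    (h2 : (L + 1) ^ 2 + (L + 2) < 2 ^ 20) (h3 : 0 < L') (h4 : OK a' s' L' K)
    (h5 : chkT a s L a' s' L' p r T = true) : Ctx a s L a' s' L' (-(p / r : ℝ)) T where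
  adm := by
    have hr' : (0 : ℝ) < r := by exact_mod_cast hr
    have hpr' : (2 : ℝ) * p ≤ r := by exact_mod_cast hpr
    refine adm3_neg (by positivity) ?_
    rw [div_le_iff₀ hr']
    linarith
  lt := h1
  size := h2
  pos := h3
  ok := ⟨K, h4⟩
  tab := tabOK_of_chkT h1 h4.one_lt hr hpr h5

section steps

variable {a s L a' s' L' : ℕ} {lam : ℝ} {T n S₀ S₁ S₂ S₃ S₄ S₅ S₆ : ℕ}

theorem Ctx.step4 (c : Ctx a s L a' s' L' lam T) (h : Lev 4 lam a s L n S₀)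
    (h₁ : chkW a s L L' T S₀ S₁ = true) (h₂ : chkPr a' s' L' S₁ S₁ S₂ = true)
    (h₃ : chkPr a' s' L' S₂ S₂ S₃ = true) : Lev 4 lam a' s' L' (n + 1) S₃ := by
  obtain ⟨K, hK⟩ := c.ok
  have p1 := c.edge h h₁
  have p2 := p1.mul c.adm hK c.pos p1 h₂
  exact (p2.mul c.adm hK c.pos p2 h₃).lev

theorem Ctx.step5 (c : Ctx a s L a' s' L' lam T) (h : Lev 5 lam a s L n S₀)
    (h₁ : chkW a s L L' T S₀ S₁ = true) (h₂ : chkPr a' s' L' S₁ S₁ S₂ = true)
    (h₃ : chkPr a' s' L' S₂ S₂ S₃ = true) (h₄ : chkPr a' s' L' S₃ S₁ S₄ = true) :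
    Lev 5 lam a' s' L' (n + 1) S₄ := by
  obtain ⟨K, hK⟩ := c.ok
  have p1 := c.edge h h₁
  have p2 := p1.mul c.adm hK c.pos p1 h₂
  have p4 := p2.mul c.adm hK c.pos p2 h₃
  exact (p4.mul c.adm hK c.pos p1 h₄).lev

theorem Ctx.step6 (c : Ctx a s L a' s' L' lam T) (h : Lev 6 lam a s L n S₀)
    (h₁ : chkW a s L L' T S₀ S₁ = true) (h₂ : chkPr a' s' L' S₁ S₁ S₂ = true)
    (h₃ : chkPr a' s' L' S₂ S₂ S₃ = true) (h₄ : chkPr a' s' L' S₃ S₂ S₄ = true) :
    Lev 6 lam a' s' L' (n + 1) S₄ := by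
  obtain ⟨K, hK⟩ := c.ok
  have p1 := c.edge h h₁
  have p2 := p1.mul c.adm hK c.pos p1 h₂
  have p4 := p2.mul c.adm hK c.pos p2 h₃
  exact (p4.mul c.adm hK c.pos p2 h₄).lev

/-- `Q³ = Q² Q`, `Q⁴ = Q² Q²`, `Q⁷ = Q⁴ Q³` -/
theorem Ctx.step7 (c : Ctx a s L a' s' L' lam T) (h : Lev 7 lam a s L n S₀)
    (h₁ : chkW a s L L' T S₀ S₁ = true) (h₂ : chkPr a' s' L' S₁ S₁ S₂ = true)
    (h₃ : chkPr a' s' L' S₂ S₁ S₃ = true) (h₄ : chkPr a' s' L' S₂ S₂ S₄ = true)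
    (h₅ : chkPr a' s' L' S₄ S₃ S₅ = true) : Lev 7 lam a' s' L' (n + 1) S₅ := by
  obtain ⟨K, hK⟩ := c.ok
  have p1 := c.edge h h₁
  have p2 := p1.mul c.adm hK c.pos p1 h₂
  have p3 := p2.mul c.adm hK c.pos p1 h₃
  have p4 := p2.mul c.adm hK c.pos p2 h₄
  exact (p4.mul c.adm hK c.pos p3 h₅).lev

end steps

/-- the states of the module `DE` -/
theorem lev_of_DE {n S : ℕ} (h : DE.Lev n S) : Lev 4 (-(1 / 2)) 5 2 20 n S := by
  intro G hG
  have h1 := h G hG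
  have hr : rho 5 2 = DE.rho := by unfold rho DE.rho; norm_num
  have h2 : Uf (rho 5 2) (20 + 1) (Y 20 S) (E 20 S) G = DE.Uf (DE.Y S) (DE.E S) G := by
    unfold Uf DE.Uf
    rw [hr, ← sum_sec (20 + 1) (fun k j => (Y 20 S k j : ℝ) *
      gs G (DE.rho ^ (k + j)) (DE.rho ^ j) 1)]
    rfl
  rw [h2]
  exact h1

/-! ### final evaluation -/

theorem LB.J_le {Ω : Type*} {C : Ω → Fin 3 → ℝ} (hC : IsChan C) {ρ : ℝ} {n : ℕ}
    {y : ℕ → ℕ → ℕ} {e : ℕ → ℕ} (h : LB C ρ n y e) {φ : (Fin 3 → ℝ) → ℝ} (hφ : CH φ) :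
    2 ^ 36 * J φ C ≤ 2 ^ 36 * ∑ i, φ (Pi.single i 1) -
      Uf ρ n y e (fun v => ∑ i, v i * φ (Pi.single i 1) - φ v) := by
  have h1 := h _ (SG.of_CH hφ)
  have h2 : J (fun v => ∑ i, v i * φ (Pi.single i 1) - φ v) C =
      ∑ i, φ (Pi.single i 1) - J φ C := by
    have hs : HasSum (fun o => ∑ i, C o i * φ (Pi.single i 1)) (∑ i, φ (Pi.single i 1)) := by
      have := hasSum_sum (s := Finset.univ) fun (i : Fin 3) _ =>
        (hC.hasSum i).mul_right (φ (Pi.single i 1))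
      simpa using this
    have := hs.sub (hC.summable hφ.bdd).hasSum
    exact this.tsum_eq
  rw [h2] at h1
  linarith

/-- integer lower bound of `2 ^ 20 * N * gs`, `N = 2 ^ (s L)` the scale of the arguments -/
def gv (N x y z : Nat) : Nat :=
  Nat.div (Nat.mul 12582912 (Nat.add (Nat.add (Nat.mul x y) (Nat.mul y z)) (Nat.mul z x)))
    (Nat.mul N (Nat.add (Nat.add x y) z))

/-- final evaluation -/
def fin (a s L S : Nat) : Nat :=
  Nat.add (ksum (Nat.succ L) fun k => ksum (Nat.sub (Nat.succ L) k) fun j =>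
    Nat.mul (dig S (idx L (Nat.add k j) j))
      (gv (rr a s L 0) (rr a s L (Nat.add k j)) (rr a s L j) (rr a s L 0)))
   (ksum (Nat.succ L) fun k => Nat.mul (dig S (Nat.add (ei L) k))
     (gv (rr a s L 0) (rr a s L k) (rr a s L 0) 0))

lemma gv_le {N a b c : ℕ} {M x y z : ℝ} (hM : 0 < M) (hN : (N : ℝ) = M) (hx : (a : ℝ) = M * x)
    (hy : (b : ℝ) = M * y) (hz : (c : ℝ) = M * z) (hs : 0 < x + y + z) :
    (gv N a b c : ℝ) ≤ 2 ^ 20 *
      gs (fun v => ∑ i, v i * chi (Pi.single i (1 : ℝ) : Fin 3 → ℝ) - chi v) x y z := by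
  rw [gs_gchi hs]
  have h1 : gv N a b c = (12582912 * (a * b + b * c + c * a)) / (N * (a + b + c)) := rfl
  rw [h1]
  refine Nat.cast_div_le.trans ?_
  push_cast
  rw [hx, hy, hz, hN]
  refine le_of_eq ?_
  have h2 : M * x + M * y + M * z = M * (x + y + z) := by ring
  rw [h2]
  have h3 : x + y + z ≠ 0 := hs.ne'
  field_simp
  norm_num
  ring

theorem J_chi_le {b : ℕ} {lam : ℝ} (hl : Adm 3 lam) {a s L n S : ℕ} (ha : 2 ^ s < a)
    (h : Lev b lam a s L n S) {B : ℕ} (hB : Nat.ble B (fin a s L S) = true) :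
    J chi (reg 3 b lam n) ≤ 2 - B / 2 ^ 56 := by
  have hL := reg_isChan (q := 3) b hl n
  have h1 := LB.J_le hL h (ch_chi (q := 3))
  have hρ := rho_pos ha
  have hM : (0 : ℝ) < 2 ^ (s * L) := by positivity
  have h2 : ∑ i : Fin 3, chi (Pi.single i (1 : ℝ) : Fin 3 → ℝ) = 2 := by
    simp only [chi_single]
    rw [Fin.sum_univ_three]; norm_num
  rw [h2] at h1
  have h3 : (fin a s L S : ℝ) ≤ 2 ^ 20 * Uf (rho a s) (L + 1) (Y L S) (E L S)
      (fun v => ∑ i, v i * chi (Pi.single i (1 : ℝ) : Fin 3 → ℝ) - chi v) := by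
    unfold fin Uf
    simp only [ksum_eq]
    have e : ∀ a b : ℕ, Nat.add a b = a + b := fun _ _ => rfl
    rw [e, ← sum_sec (L + 1) (fun k j => (Y L S k j : ℝ) *
      gs (fun v => ∑ i, v i * chi (Pi.single i (1 : ℝ) : Fin 3 → ℝ) - chi v)
        (rho a s ^ (k + j)) (rho a s ^ j) 1)]
    push_cast
    rw [mul_add, Finset.mul_sum, Finset.mul_sum]
    refine add_le_add ?_ ?_
    · refine Finset.sum_le_sum fun k hk => ?_
      rw [Finset.mul_sum]
      refine Finset.sum_le_sum fun j hj => ?_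
      have hk' := Finset.mem_range.1 hk
      have hj' : j < L + 1 - k := Finset.mem_range.1 hj
      change ((dig S (idx L (k + j) j) *
        gv (rr a s L 0) (rr a s L (k + j)) (rr a s L j) (rr a s L 0) : ℕ) : ℝ) ≤ _
      rw [Nat.cast_mul]
      have h4 := mul_le_mul_of_nonneg_left (gv_le hM (rr_zero a s L)
        (rr_cast (a := a) (s := s) (L := L) (i := k + j) (by omega))
        (rr_cast (a := a) (s := s) (L := L) (i := j) (by omega))
        (c := rr a s L 0) (z := 1) (by rw [rr_zero, mul_one])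
        (by have := pow_pos hρ (k + j); have := pow_pos hρ j; linarith))
        (Nat.cast_nonneg (α := ℝ) (dig S (idx L (k + j) j)))
      refine h4.trans (le_of_eq ?_)
      unfold Y
      ring
    · refine Finset.sum_le_sum fun k hk => ?_
      have hk' := Finset.mem_range.1 hk
      change ((dig S (ei L + k) * gv (rr a s L 0) (rr a s L k) (rr a s L 0) 0 : ℕ) : ℝ) ≤ _
      rw [Nat.cast_mul]
      have h4 := mul_le_mul_of_nonneg_left (gv_le hM (rr_zero a s L)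
        (rr_cast (a := a) (s := s) (L := L) (i := k) (by omega))
        (b := rr a s L 0) (y := 1) (c := 0) (z := 0) (by rw [rr_zero, mul_one])
        (by rw [mul_zero]; norm_num)
        (by have := pow_pos hρ k; linarith))
        (Nat.cast_nonneg (α := ℝ) (dig S (ei L + k)))
      refine h4.trans (le_of_eq ?_)
      unfold E
      ring
  have h5 : (B : ℝ) ≤ fin a s L S := by exact_mod_cast Nat.le_of_ble_eq_true hB
  have h6 : (2 : ℝ) - B / 2 ^ 56 = (2 ^ 56 * 2 - B) / 2 ^ 56 := by field_simp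
  rw [h6, le_div_iff₀ (by positivity)]
  norm_num at h1 h3 ⊢
  linarith

/-- strict bound at level `n` -/
theorem regLt_of {b p r : ℕ} (hr : 0 < r) (hpr : 2 * p ≤ r) {a s L n S : ℕ} (ha : 2 ^ s < a)
    (h : Lev b (-(p / r : ℝ)) a s L n S) {B : ℕ} (hB : Nat.ble B (fin a s L S) = true) {x : ℝ}
    (hx : 2 - (B : ℝ) / 2 ^ 56 < x) : RegLt b (p / r : ℝ) x := by
  refine ⟨n, lt_of_le_of_lt (J_chi_le ?_ ha h hB) hx⟩
  have hr' : (0 : ℝ) < r := by exact_mod_cast hr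
  have hpr' : (2 : ℝ) * p ≤ r := by exact_mod_cast hpr
  refine adm3_neg (by positivity) ?_
  rw [div_le_iff₀ hr']
  linarith

end Crest.Agent.R163.DG
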