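import Crest.Agent.R163.DG7

/-!
Row 163, generic density evolution: one level of the regular tree, `b = 8, 9, 10`.
-/

set_option autoImplicit false

namespace Crest.Agent.R163.DG

open Crest.Agent.R163

variable {a s L a' s' L' : ℕ} {lam : ℝ} {T n S₀ S₁ S₂ S₃ S₄ S₅ : ℕ}

theorem Ctx.step8 (c : Ctx a s L a' s' L' lam T) (h : Lev 8 lam a s L n S₀)
    (h₁ : chkW a s L L' T S₀ S₁ = true) (h₂ : chkPr a' s' L' S₁ S₁ S₂ = true)
    (h₃ : chkPr a' s' L' S₂ S₂ S₃ = true) (h₄ : chkPr a' s' L' S₃ S₃ S₄ = true) :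
    Lev 8 lam a' s' L' (n + 1) S₄ := by
  obtain ⟨K, hK⟩ := c.ok
  have p1 := c.edge h h₁
  have p2 := p1.mul c.adm hK c.pos p1 h₂
  have p4 := p2.mul c.adm hK c.pos p2 h₃
  exact (p4.mul c.adm hK c.pos p4 h₄).lev

theorem Ctx.step9 (c : Ctx a s L a' s' L' lam T) (h : Lev 9 lam a s L n S₀)
    (h₁ : chkW a s L L' T S₀ S₁ = true) (h₂ : chkPr a' s' L' S₁ S₁ S₂ = true)
    (h₃ : chkPr a' s' L' S₂ S₂ S₃ = true) (h₄ : chkPr a' s' L' S₃ S₃ S₄ = true)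
    (h₅ : chkPr a' s' L' S₄ S₁ S₅ = true) : Lev 9 lam a' s' L' (n + 1) S₅ := by
  obtain ⟨K, hK⟩ := c.ok
  have p1 := c.edge h h₁
  have p2 := p1.mul c.adm hK c.pos p1 h₂
  have p4 := p2.mul c.adm hK c.pos p2 h₃
  have p8 := p4.mul c.adm hK c.pos p4 h₄
  exact (p8.mul c.adm hK c.pos p1 h₅).lev

theorem Ctx.step10 (c : Ctx a s L a' s' L' lam T) (h : Lev 10 lam a s L n S₀)
    (h₁ : chkW a s L L' T S₀ S₁ = true) (h₂ : chkPr a' s' L' S₁ S₁ S₂ = true)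
    (h₃ : chkPr a' s' L' S₂ S₂ S₃ = true) (h₄ : chkPr a' s' L' S₃ S₃ S₄ = true)
    (h₅ : chkPr a' s' L' S₄ S₂ S₅ = true) : Lev 10 lam a' s' L' (n + 1) S₅ := by
  obtain ⟨K, hK⟩ := c.ok
  have p1 := c.edge h h₁
  have p2 := p1.mul c.adm hK c.pos p1 h₂
  have p4 := p2.mul c.adm hK c.pos p2 h₃
  have p8 := p4.mul c.adm hK c.pos p4 h₄
  exact (p8.mul c.adm hK c.pos p2 h₅).lev

end Crest.Agent.R163.DG
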