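import Crest.Agent.R163.DGB4d1
import Crest.Agent.R163.DGB4d2
import Crest.Agent.R163.DGB4d3
import Crest.Agent.R163.DGB4d4
import Crest.Agent.R163.DGB4d5
import Crest.Agent.R163.DGB4d6
import Crest.Agent.R163.DGB4d7
import Crest.Agent.R163.DGB4d8
import Crest.Agent.R163.DGB4d9
import Crest.Agent.R163.DGB4d10
import Crest.Agent.R163.DGB4d11
import Crest.Agent.R163.DGB4d12

/-!
Row 163, generic density evolution: the `4`-ary tree.
-/

set_option autoImplicit false
set_option Elab.async false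

namespace Crest.Agent.R163.DG.B4

open Crest.Agent.R163 Crest.Agent.R163.DG

lemma adm_ctx {a s L a' s' L' T : ℕ} {lam : ℝ} (c : Ctx a s L a' s' L' lam T) : Adm 3 lam := c.adm

theorem lev_fin : Lev 4 (-(((1 : ℕ) : ℝ) / ((2 : ℕ) : ℝ))) 9 3 20 135 F12.s135 :=
  (F12.run (F11.run (F10.run (F9.run (F8.run (F7.run (F6.run (F5.run (F4.run (F3.run (F2.run (F1.run (lev_zero (adm_ctx ctxT1) 5 2 20)))))))))))))

theorem chk_fin : Nat.ble 129843343624881491 (fin 9 3 20 F12.s135) = true := by decide +kernel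

/-- the `4`-ary tree at `lam = -1/2` -/
theorem regLt : RegLt 4 ((((1 : ℕ) : ℝ) / ((2 : ℕ) : ℝ))) (1 / 5) :=
  regLt_of (by norm_num) (by norm_num) (by norm_num) lev_fin chk_fin (by norm_num)

end Crest.Agent.R163.DG.B4
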