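import Crest.Agent.R163.DGB6d1
import Crest.Agent.R163.DGB6d2
import Crest.Agent.R163.DGB6d3
import Crest.Agent.R163.DGB6d4
import Crest.Agent.R163.DGB6d5

/-!
Row 163, generic density evolution: the `6`-ary tree.
-/

set_option autoImplicit false
set_option Elab.async false

namespace Crest.Agent.R163.DG.B6

open Crest.Agent.R163 Crest.Agent.R163.DG

lemma adm_ctx {a s L a' s' L' T : ℕ} {lam : ℝ} (c : Ctx a s L a' s' L' lam T) : Adm 3 lam := c.adm

theorem lev_fin : Lev 6 (-(((89 : ℕ) : ℝ) / ((218 : ℕ) : ℝ))) 9 3 20 52 F5.s52 :=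
  (F5.run (F4.run (F3.run (F2.run (F1.run (lev_zero (adm_ctx ctxT1) 9 3 20))))))

theorem chk_fin : Nat.ble 129851709348465502 (fin 9 3 20 F5.s52) = true := by decide +kernel

/-- the `6`-ary tree at `lam = -89/218` -/
theorem regLt : RegLt 6 ((((89 : ℕ) : ℝ) / ((218 : ℕ) : ℝ))) (1 / 5) :=
  regLt_of (by norm_num) (by norm_num) (by norm_num) lev_fin chk_fin (by norm_num)

end Crest.Agent.R163.DG.B6
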