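import Crest.Agent.R163.DGB4
import Crest.Agent.R163.DGB5
import Crest.Agent.R163.DGB6
import Crest.Agent.R163.DGB7

/-!
Row 163, density evolution: `chi < 1/5` for the critical antiferromagnetic trees, `b = 4, 5, 6, 7`.
-/

set_option autoImplicit false

namespace Crest.Agent.R163.DG

open Crest.Agent.R163

theorem regLt4 : RegLt 4 (1 / 2) (1 / 5) := by
  have h := B4.regLt
  norm_num at h ⊢
  exact h

theorem regLt5 : RegLt 5 (161 / 360) (1 / 5) := by
  have h := B5.regLt
  norm_num at h ⊢
  exact h

theorem regLt6 : RegLt 6 (89 / 218) (1 / 5) := by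
  have h := B6.regLt
  norm_num at h ⊢
  exact h

theorem regLt7 : RegLt 7 (223 / 590) (1 / 5) := by
  have h := B7.regLt
  norm_num at h ⊢
  exact h

/-- **Density evolution**: `chi < 1/5` at some level of the critical trees, `b = 4, 5, 6, 7` -/
theorem regLt_crit {b : ℕ} (h4 : 4 ≤ b) (h7 : b ≤ 7) : RegLt b (1 / Real.sqrt b) (1 / 5) := by
  interval_cases b
  · rw [inv_sqrt_four]; exact regLt4
  · exact regLt5.crit (by norm_num) (by norm_num) (by norm_num) le_rfl
  · exact regLt6.crit (by norm_num) (by norm_num) (by norm_num) le_rfl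
  · exact regLt7.crit (by norm_num) (by norm_num) (by norm_num) le_rfl

end Crest.Agent.R163.DG
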