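import Crest.Agent.R163.DGFin
import Crest.Agent.R163.DGB8
import Crest.Agent.R163.DGB9
import Crest.Agent.R163.DGB10

/-!
Row 163, density evolution: `chi < 1/5` for the critical antiferromagnetic trees, `4 ≤ b ≤ 10`.
-/

set_option autoImplicit false

namespace Crest.Agent.R163.DG

open Crest.Agent.R163

theorem regLt8 : RegLt 8 (169 / 478) (1 / 5) := by
  have h := B8.regLt
  norm_num at h ⊢
  exact h

theorem regLt9 : RegLt 9 (1 / 3) (1 / 5) := by
  have h := B9.regLt
  norm_num at h ⊢
  exact h

theorem regLt10 : RegLt 10 (37 / 117) (1 / 5) := by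
  have h := B10.regLt
  norm_num at h ⊢
  exact h

/-- **Density evolution**: `chi < 1/5` at some level of the critical trees, `4 ≤ b ≤ 10` -/
theorem regLt_crit10 {b : ℕ} (h4 : 4 ≤ b) (h10 : b ≤ 10) :
    RegLt b (1 / Real.sqrt b) (1 / 5) := by
  rcases le_or_gt b 7 with h | h
  · exact regLt_crit h4 h
  interval_cases b
  · exact regLt8.crit (by norm_num) (by norm_num) (by norm_num) le_rfl
  · exact regLt9.crit (by norm_num) (by norm_num) (by norm_num) le_rfl
  · exact regLt10.crit (by norm_num) (by norm_num) (by norm_num) le_rfl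

end Crest.Agent.R163.DG
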