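import Crest.Agent.R163.Chan

/-!
Row 163: the edge operator, chi-square, total variation, and the comparison TV ≤ √χ²/2.
-/

set_option autoImplicit false

namespace Crest.Agent.R163

variable {q : ℕ}

/-- the edge operator on likelihood vectors -/
noncomputable def W (lam : ℝ) (v : Fin q → ℝ) : Fin q → ℝ :=
  fun i => lam * v i + (1 - lam) * avg v

lemma channel_sum (lam : ℝ) (v : Fin q → ℝ) (i : Fin q) :
    ∑ j : Fin q, Crest.ProbabilityR.Broadcast.channel q lam i j * v j = W lam v i := by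
  unfold Crest.ProbabilityR.Broadcast.channel W avg
  simp only [add_mul, ite_mul, zero_mul, Finset.sum_add_distrib, Finset.sum_ite_eq,
    Finset.mem_univ, if_true, ← Finset.mul_sum]
  ring

lemma avg_W [NeZero q] (lam : ℝ) (v : Fin q → ℝ) : avg (W lam v) = avg v := by
  have hq : (q : ℝ) ≠ 0 := Nat.cast_ne_zero.mpr (NeZero.ne q)
  unfold W
  have : avg (fun i => lam * v i + (1 - lam) * avg v) = lam * avg v + (1 - lam) * avg v := by
    conv_lhs => unfold avg
    rw [Finset.sum_add_distrib, ← Finset.mul_sum]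
    simp only [Finset.sum_const, Finset.card_univ, Fintype.card_fin, nsmul_eq_mul]
    have : ∑ i, v i = q * avg v := by
      unfold avg; field_simp
    rw [this]
    field_simp
  rw [this]; ring

/-- admissible edge parameters -/
structure Adm (q : ℕ) (lam : ℝ) : Prop where
  le_one : lam ≤ 1
  low : 0 ≤ lam + (1 - lam) / q

lemma le_avg [NeZero q] {v : Fin q → ℝ} (hv : ∀ i, 0 ≤ v i) (i : Fin q) : v i / q ≤ avg v := by
  unfold avg
  exact div_le_div_of_nonneg_right
    (Finset.single_le_sum (f := v) (fun j _ => hv j) (Finset.mem_univ i)) (Nat.cast_nonneg _)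

lemma W_nonneg [NeZero q] {lam : ℝ} (h : Adm q lam) {v : Fin q → ℝ} (hv : ∀ i, 0 ≤ v i)
    (i : Fin q) : 0 ≤ W lam v i := by
  unfold W
  have h1 : (1 - lam) * (v i / q) ≤ (1 - lam) * avg v :=
    mul_le_mul_of_nonneg_left (le_avg hv i) (by linarith [h.le_one])
  have h2 : 0 ≤ v i * (lam + (1 - lam) / q) := mul_nonneg (hv i) h.low
  have : v i * (lam + (1 - lam) / q) = lam * v i + (1 - lam) * (v i / q) := by ring
  linarith

lemma IsChan.edge [NeZero q] {Ω : Type*} {L : Ω → Fin q → ℝ} (h : IsChan L) {lam : ℝ}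
    (hl : Adm q lam) : IsChan (fun o => W lam (L o)) where
  nonneg o i := W_nonneg hl (h.nonneg o) i
  hasSum i := by
    have h1 := ((h.hasSum i).mul_left lam).add (h.avg_hasSum.mul_left (1 - lam))
    simpa [W] using h1
  symm σ := by
    obtain ⟨e, he⟩ := h.symm σ
    refine ⟨e, fun o i => ?_⟩
    have : avg (L (e o)) = avg (L o) := by
      unfold avg
      rw [← Equiv.sum_comp σ (L (e o))]
      simp [he]
    simp [W, he, this]

/-- chi-square functional (homogeneous form) -/
noncomputable def chi (v : Fin q → ℝ) : ℝ := avg (fun i => v i ^ 2) / avg v - avg v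

lemma eq_zero_of_avg [NeZero q] {v : Fin q → ℝ} (hv : ∀ i, 0 ≤ v i) (h : avg v = 0) :
    v = fun _ => 0 := by
  have hq : (q : ℝ) ≠ 0 := Nat.cast_ne_zero.mpr (NeZero.ne q)
  unfold avg at h
  have h1 : ∑ i, v i = 0 := by
    rcases div_eq_zero_iff.1 h with h | h
    · exact h
    · exact absurd h hq
  funext i
  exact (Finset.sum_eq_zero_iff_of_nonneg fun i _ => hv i).1 h1 i (Finset.mem_univ i)

lemma avg_sub_sq [NeZero q] (v : Fin q → ℝ) :
    avg (fun i => (v i - avg v) ^ 2) = avg (fun i => v i ^ 2) - avg v ^ 2 := by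
  have hq : (q : ℝ) ≠ 0 := Nat.cast_ne_zero.mpr (NeZero.ne q)
  have hs : ∑ i, v i = q * avg v := by unfold avg; field_simp
  have : ∑ i, (v i - avg v) ^ 2 = ∑ i, v i ^ 2 - q * avg v ^ 2 := by
    have : ∀ i, (v i - avg v) ^ 2 = v i ^ 2 - 2 * avg v * v i + avg v ^ 2 := fun i => by ring
    simp only [this, Finset.sum_add_distrib, Finset.sum_sub_distrib, ← Finset.mul_sum, hs,
      Finset.sum_const, Finset.card_univ, Fintype.card_fin, nsmul_eq_mul]
    ring
  conv_lhs => unfold avg
  rw [show (∑ i, v i) / (q : ℝ) = avg v from rfl] at *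
  rw [this]
  unfold avg
  field_simp

lemma chi_eq [NeZero q] {v : Fin q → ℝ} (h : avg v ≠ 0) :
    chi v = avg (fun i => (v i - avg v) ^ 2) / avg v := by
  rw [avg_sub_sq, chi]
  field_simp

lemma chi_nonneg [NeZero q] {v : Fin q → ℝ} (hv : ∀ i, 0 ≤ v i) : 0 ≤ chi v := by
  by_cases h : avg v = 0
  · simp [chi, h]
  · rw [chi_eq h]
    exact div_nonneg (avg_nonneg fun i => sq_nonneg _) (avg_nonneg hv)

lemma chi_le [NeZero q] {v : Fin q → ℝ} (hv : ∀ i, 0 ≤ v i) : chi v ≤ (q - 1) * avg v := by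
  by_cases h : avg v = 0
  · simp [chi, h]
  have hpos : 0 < avg v := lt_of_le_of_ne (avg_nonneg hv) (Ne.symm h)
  have hq : (0 : ℝ) < q := Nat.cast_pos.mpr (Nat.pos_of_ne_zero (NeZero.ne q))
  have h1 : ∀ i, v i ^ 2 ≤ q * avg v * v i := fun i => by
    have := le_avg hv i
    have h2 : v i ≤ q * avg v := by
      rw [div_le_iff₀ hq] at this; linarith
    nlinarith [hv i]
  have h2 : avg (fun i => v i ^ 2) ≤ q * avg v * avg v := by
    unfold avg
    rw [← mul_div_assoc]
    apply div_le_div_of_nonneg_right _ hq.le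
    rw [Finset.mul_sum]
    exact Finset.sum_le_sum fun i _ => h1 i
  unfold chi
  have : avg (fun i => v i ^ 2) / avg v ≤ q * avg v := by
    rw [div_le_iff₀ hpos]; exact h2
  linarith

lemma bdd_chi [NeZero q] : Bdd (chi (q := q)) := by
  have hq : (1 : ℝ) ≤ q := by exact_mod_cast Nat.pos_of_ne_zero (NeZero.ne q)
  exact ⟨q - 1, by linarith, fun v hv => by rw [abs_of_nonneg (chi_nonneg hv)]; exact chi_le hv⟩

lemma chi_W [NeZero q] (lam : ℝ) (v : Fin q → ℝ) (hv : avg v ≠ 0) :
    chi (W lam v) = lam ^ 2 * chi v := by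
  rw [chi_eq (by rwa [avg_W]), chi_eq hv, avg_W]
  have : (fun i => (W lam v i - avg v) ^ 2) = fun i => lam ^ 2 * (v i - avg v) ^ 2 := by
    funext i; unfold W; ring
  rw [this]
  have h2 : avg (fun i => lam ^ 2 * (v i - avg v) ^ 2) = lam ^ 2 * avg (fun i => (v i - avg v) ^ 2) := by
    unfold avg; rw [← Finset.mul_sum, mul_div_assoc]
  rw [h2, mul_div_assoc]

lemma chi_W' [NeZero q] (lam : ℝ) {v : Fin q → ℝ} (hv : ∀ i, 0 ≤ v i) :
    chi (W lam v) = lam ^ 2 * chi v := by
  by_cases h : avg v = 0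
  · have h2 : avg (W lam v) = 0 := by rw [avg_W]; exact h
    simp [chi, h, h2]
  · exact chi_W lam v h

lemma IsChan.J_chi_edge [NeZero q] {Ω : Type*} {L : Ω → Fin q → ℝ} (h : IsChan L) (lam : ℝ) :
    J chi (fun o => W lam (L o)) = lam ^ 2 * J chi L := by
  unfold J
  rw [← tsum_mul_left]
  exact tsum_congr fun o => chi_W' lam (h.nonneg o)

/-- total variation functional -/
noncomputable def tv (v : Fin q → ℝ) : ℝ := (1 / 2) * avg (fun i => |v i - avg v|)

lemma tv_nonneg (v : Fin q → ℝ) : 0 ≤ tv v :=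
  mul_nonneg (by norm_num) (avg_nonneg fun _ => abs_nonneg _)

lemma avg_abs_sq_le [NeZero q] (w : Fin q → ℝ) : avg (fun i => |w i|) ^ 2 ≤ avg (fun i => w i ^ 2) := by
  have h := avg_sub_sq (fun i => |w i|)
  have h2 : 0 ≤ avg (fun i => (|w i| - avg fun i => |w i|) ^ 2) := avg_nonneg fun i => sq_nonneg _
  rw [h] at h2
  simp only [sq_abs] at h2
  linarith

/-- pointwise AM-GM bound of TV by chi-square -/
lemma tv_le [NeZero q] {v : Fin q → ℝ} (hv : ∀ i, 0 ≤ v i) {s : ℝ} (hs : 0 < s) :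
    tv v ≤ (1 / 4) * (s * avg v + chi v / s) := by
  by_cases h : avg v = 0
  · have := eq_zero_of_avg hv h
    have h3 : tv v = 0 := by
      unfold tv
      rw [h]
      subst this
      simp [avg]
    have h4 : chi v = 0 := by simp [chi, h]
    rw [h3, h4, h]; simp
  have hpos : 0 < avg v := lt_of_le_of_ne (avg_nonneg hv) (Ne.symm h)
  set A := avg (fun i => |v i - avg v|) with hA
  have hA0 : 0 ≤ A := avg_nonneg fun _ => abs_nonneg _
  have h1 : A ^ 2 ≤ avg v * chi v := by
    rw [chi_eq h]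
    have := avg_abs_sq_le (fun i => v i - avg v)
    calc A ^ 2 ≤ avg (fun i => (v i - avg v) ^ 2) := this
      _ = avg v * (avg (fun i => (v i - avg v) ^ 2) / avg v) := by field_simp
  have hc : 0 ≤ chi v := chi_nonneg hv
  have h2 : 2 * A ≤ s * avg v + chi v / s := by
    have h3 : (2 * A) ^ 2 ≤ (s * avg v + chi v / s) ^ 2 := by
      have : (s * avg v + chi v / s) ^ 2 = (s * avg v - chi v / s) ^ 2 + 4 * (avg v * chi v) := by
        field_simp; ring
      rw [this]
      nlinarith [sq_nonneg (s * avg v - chi v / s)]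
    exact le_of_sq_le_sq h3 (by positivity)
  unfold tv
  linarith
where
  le_of_sq_le_sq {a b : ℝ} (h : a ^ 2 ≤ b ^ 2) (hb : 0 ≤ b) : a ≤ b := abs_le_of_sq_le_sq' h hb |>.2

lemma bdd_tv [NeZero q] : Bdd (tv (q := q)) := by
  obtain ⟨K, hK, h⟩ := bdd_chi (q := q)
  refine ⟨(1 / 4) * (1 + K), by positivity, fun v hv => ?_⟩
  rw [abs_of_nonneg (tv_nonneg v)]
  have h1 := tv_le hv one_pos
  have h2 := h v hv
  rw [abs_of_nonneg (chi_nonneg hv)] at h2
  calc tv v ≤ (1 / 4) * (1 * avg v + chi v / 1) := h1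
    _ ≤ (1 / 4) * (1 + K) * avg v := by
      rw [div_one]; nlinarith

lemma IsChan.J_tv_le [NeZero q] {Ω : Type*} {L : Ω → Fin q → ℝ} (h : IsChan L) :
    J tv L ≤ (1 / 2) * Real.sqrt (J chi L) := by
  have key : ∀ s : ℝ, 0 < s → J tv L ≤ (1 / 4) * (s + J chi L / s) := by
    intro s hs
    have h1 : J tv L ≤ J (fun v => (1 / 4) * (s * avg v + (1 / s) * chi v)) L := by
      refine h.J_mono bdd_tv ?_ fun v hv => ?_
      · exact ((bdd_avg.const_mul s).add (bdd_chi.const_mul (1 / s))).const_mul (1 / 4)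
      · have := tv_le hv hs
        calc tv v ≤ _ := this
          _ = _ := by ring
    rw [J_const_mul, h.J_add (bdd_avg.const_mul s) (bdd_chi.const_mul (1 / s)), J_const_mul,
      J_const_mul, h.J_avg] at h1
    calc J tv L ≤ _ := h1
      _ = _ := by ring
  have hX : 0 ≤ J chi L := h.J_nonneg fun v hv => chi_nonneg hv
  rcases hX.eq_or_lt with hX0 | hX0
  · rw [← hX0]
    simp only [Real.sqrt_zero, mul_zero]
    refine le_of_forall_pos_le_add fun ε hε => ?_
    have := key (4 * ε) (by positivity)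
    rw [← hX0] at this
    simp at this
    linarith
  · have hs : 0 < Real.sqrt (J chi L) := Real.sqrt_pos.2 hX0
    have := key _ hs
    have h2 : J chi L / Real.sqrt (J chi L) = Real.sqrt (J chi L) := Real.div_sqrt
    rw [h2] at this
    linarith

end Crest.Agent.R163
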