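import Crest.Agent.R163.Class
import Crest.Agent.R163.CapFlow

/-!
Row 163 (S0246): the forward direction (reconstruction implies positive cubic capacity), from
the law-level hypotheses `LawHyp`.
-/

set_option autoImplicit false

universe u

namespace Crest.Agent.R163

open Crest.ProbabilityR.Broadcast Crest.ProbabilityR.TreeBroadcast

variable {q : ℕ}

/-- chi-square information of the subtree channel -/
noncomputable def Xt (q : ℕ) [NeZero q] {V : Type u} [DecidableEq V] (T : LocFinTree V) (lam : ℝ)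
    (k : ℕ) (v : V) : ℝ := J chi (tc q T lam k v)

/-- chi-square information of the merged channel of a set of children -/
noncomputable def XS (q : ℕ) [NeZero q] {V : Type u} [DecidableEq V] (T : LocFinTree V) (lam : ℝ)
    (k : ℕ) (S : Finset V) : ℝ := J chi (sc q T lam k S)

lemma Xt_succ [NeZero q] {V : Type u} [DecidableEq V] (T : LocFinTree V) (lam : ℝ)
    (k : ℕ) (v : V) : Xt q T lam (k + 1) v = XS q T lam k (T.children v) := rfl

lemma XS_empty [NeZero q] {V : Type u} [DecidableEq V] (T : LocFinTree V) (lam : ℝ)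
    (k : ℕ) : XS q T lam k ∅ = 0 := by
  unfold XS
  rw [sc_empty]
  have : IsEmpty ↥((∅ : Finset V).biUnion (D T k)) := by
    rw [Finset.biUnion_empty]
    infer_instance
  rw [J_unit, chi_one]

/-- reconstruction implies positive cubic capacity -/
theorem LawHyp.forward [NeZero q] {ψ : (Fin q → ℝ) → ℝ} {c κ : ℝ} {Λ : Set ℝ}
    (H : LawHyp.{u} q ψ c κ Λ) {V : Type u} [DecidableEq V] (T : LocFinTree V) (B : ℕ)
    (hB : ∀ v, (T.children v).card ≤ B) {lam : ℝ} (hlam : lam ∈ Λ) (h0 : 0 < lam) (h1 : lam < 1)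
    {ε : ℝ} (hε : 0 < ε) (h : ∀ n, ε ≤ treeAdvantage q T lam n) :
    ∃ θ : V → ℝ, IsFlow T θ ∧ 0 < flowMass T θ ∧
      ∀ ξ : ℕ → V, T.IsRay ξ → rayPotential lam θ ξ ≤ 1 := by
  have hadm := H.adm lam hlam
  have hq1 : (1 : ℝ) ≤ q := by exact_mod_cast Nat.pos_of_ne_zero (NeZero.ne q)
  set M : ℝ := q - 1 with hM
  have hM0 : 0 ≤ M := by rw [hM]; linarith
  set K : ℝ := B * M + 1 with hK
  have hK0 : 0 < K := by positivity
  have hκ := H.κpos
  set η : ℝ := min (κ / 6) (1 / (4 * (M ^ 2 + 1))) with hη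
  have hη0 : 0 < η := lt_min (by positivity) (by positivity)
  have hη3 : 3 * η ≤ κ / 2 := by
    have : η ≤ κ / 6 := min_le_left _ _
    linarith
  have hηM : η * M ^ 2 ≤ 1 / 4 := by
    have h2 : η ≤ 1 / (4 * (M ^ 2 + 1)) := min_le_right _ _
    calc η * M ^ 2 ≤ 1 / (4 * (M ^ 2 + 1)) * (M ^ 2 + 1) :=
          mul_le_mul h2 (by linarith) (by positivity) (by positivity)
      _ = 1 / 4 := by field_simp
  set c₁ : ℝ := min (κ / 24) (3 / (56 * K ^ 2)) with hc₁
  have hc₁0 : 0 < c₁ := lt_min (by positivity) (by positivity)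
  have hc₁c : 24 * c₁ ≤ κ := by
    have : c₁ ≤ κ / 24 := min_le_left _ _
    linarith
  have hc₁K : 56 * K ^ 2 * c₁ ≤ 3 := by
    have h2 : c₁ ≤ 3 / (56 * K ^ 2) := min_le_right _ _
    calc 56 * K ^ 2 * c₁ ≤ 56 * K ^ 2 * (3 / (56 * K ^ 2)) :=
          mul_le_mul_of_nonneg_left h2 (by positivity)
      _ = 3 := by field_simp
  have hl4 : 0 < 1 - lam ^ 4 := by
    have : lam ^ 4 < 1 := pow_lt_one₀ h0.le h1 (by norm_num)
    linarith
  set μ : ℝ := min (η * lam ^ 2 * (1 - lam ^ 4)) (3 * c₁ * lam ^ 6) with hμ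
  have hμ0 : 0 < μ := lt_min (by positivity) (by positivity)
  -- the quantities
  have htc : ∀ k v, InC ψ c (tc q T lam k v) := H.inC_tc T hlam
  have hXt0 : ∀ k v, 0 ≤ Xt q T lam k v := fun k v => (htc k v).1.X_nonneg
  have hXtM : ∀ k v, Xt q T lam k v ≤ M := fun k v => (htc k v).1.X_le
  set x : ℕ → V → ℝ := fun n v => Xt q T lam (n - T.depth v) v with hx
  have hx0 : ∀ n v, 0 ≤ x n v := fun n v => hXt0 _ _
  have hxM : ∀ n v, x n v ≤ M := fun n v => hXtM _ _
  refine CapF.exists_flow T h0 hη0.le hM0 hμ0 (ε := 4 * ε ^ 2) (by positivity) x hx0 hxM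
    ?_ ?_ ?_
  · intro n
    have e : x n T.root = Xt q T lam n T.root := by
      simp only [hx, CapF.root_depth, Nat.sub_zero]
    have h2 := h n
    rw [treeAdvantage_eq] at h2
    have h3 := (htc n T.root).1.J_tv_le
    rw [e]
    have hX := hXt0 n T.root
    have h4 : ε ≤ 1 / 2 * Real.sqrt (Xt q T lam n T.root) := h2.trans h3
    have h5 : 2 * ε ≤ Real.sqrt (Xt q T lam n T.root) := by linarith
    have h6 := Real.sq_sqrt hX
    nlinarith
  · intro n v hv hc
    obtain ⟨k, hk⟩ : ∃ k, n - T.depth v = k + 1 := ⟨n - T.depth v - 1, by omega⟩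
    simp only [hx]
    rw [hk, Xt_succ, hc, XS_empty]
  · intro n v hv w hw
    obtain ⟨k, hk⟩ : ∃ k, n - T.depth v = k + 1 := ⟨n - T.depth v - 1, by omega⟩
    have hkw : ∀ w' ∈ T.children v, n - T.depth w' = k := fun w' hw' => by
      have := CapF.depth_of_mem_children T hw'
      omega
    have e1 : x n v = XS q T lam k (T.children v) := by
      simp only [hx]
      rw [hk, Xt_succ]
    have e2 : ∀ w' ∈ T.children v, x n w' = Xt q T lam k w' := fun w' hw' => by
      simp only [hx]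
      rw [hkw w' hw']
    have e3 : ∑ w' ∈ T.children v, CapF.cub η (x n w') =
        ∑ w' ∈ T.children v, CapF.cub η (Xt q T lam k w') :=
      Finset.sum_congr rfl fun w' hw' => by rw [e2 w' hw']
    have e4 : ∑ w' ∈ T.children v, x n w' = ∑ w' ∈ T.children v, Xt q T lam k w' :=
      Finset.sum_congr rfl e2
    rw [e1, e3, e4, e2 w hw]
    have hsc : ∀ A : Finset V, InC ψ c (sc q T lam k A) := fun A =>
      H.inC_sc_of T hlam k A fun w _ => htc k w
    refine CapF.vertex_loss (K := K) (M := M) (c₁ := c₁) h0 h1 hκ hη0 hη3 hM0 hηM hK0 hc₁0 hc₁K hc₁c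
      (T.children v) (fun w' => Xt q T lam k w') (fun w' _ => hXt0 k w') ?_
      (fun A => XS q T lam k A) ?_ ?_ ?_ ?_ hw
    · calc ∑ w' ∈ T.children v, Xt q T lam k w' ≤ ∑ _w' ∈ T.children v, M :=
            Finset.sum_le_sum fun w' _ => hXtM k w'
        _ = (T.children v).card * M := by rw [Finset.sum_const, nsmul_eq_mul]
        _ ≤ B * M := mul_le_mul_of_nonneg_right (by exact_mod_cast hB v) hM0
        _ ≤ K := by rw [hK]; linarith
    · intro A _
      exact (hsc A).1.X_nonneg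
    · intro A _
      exact (hsc A).1.X_le
    · exact XS_empty T lam k
    · intro A _ i _ hiA
      have g1 := H.inC_edge (htc k i) hlam
      have g3 := H.X_mrg_le g1 (hsc A)
      rw [(htc k i).1.J_chi_edge lam] at g3
      have g4 : XS q T lam k (insert i A) =
          J chi (mrg (fun o => W lam (tc q T lam k i o)) (sc q T lam k A)) :=
        J_sc_insert T lam k hiA chi
      rw [g4]
      change _ ≤ XS q T lam k A + lam ^ 2 * Xt q T lam k i -
        κ * (XS q T lam k A ^ 2 * (lam ^ 2 * Xt q T lam k i) +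
          XS q T lam k A * (lam ^ 2 * Xt q T lam k i) ^ 2)
      change _ ≤ lam ^ 2 * Xt q T lam k i + XS q T lam k A -
        κ * ((lam ^ 2 * Xt q T lam k i) ^ 2 * XS q T lam k A +
          lam ^ 2 * Xt q T lam k i * XS q T lam k A ^ 2) at g3
      calc _ ≤ _ := g3
        _ = _ := by ring

end Crest.Agent.R163
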