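import Crest.Agent.R163.Q3Ferro
import Crest.Agent.R163.Bern5

/-!
Row 163, three states, antiferromagnetic local lemma: polar chamber coordinates and the common
function list of the Bernstein checks.
-/

set_option autoImplicit false
set_option maxRecDepth 100000

namespace Crest.Agent.R163.Loc

open Crest.Agent.R163.Q3 Crest.Agent.R163.Bern


/-- `2 s` in polar chamber coordinates -/
noncomputable def sT (r t : ℝ) : ℝ := r^2*(4-6*t+3*t^2)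

/-- `4 c` in polar chamber coordinates -/
noncomputable def cT (r t : ℝ) : ℝ := r^3*(8-18*t+9*t^2)

/-- coefficients of `(2s)^i (4c)^j` -/
def fs : List (List (List Int)) :=
  [[[1, 0, 0, 0, 0, 0, 0], [0, 0, 0, 0, 0, 0, 0], [0, 0, 0, 0, 0, 0, 0], [0, 0, 0, 0, 0, 0, 0], [0, 0, 0, 0, 0, 0, 0], [0, 0, 0, 0, 0, 0, 0], [0, 0, 0, 0, 0, 0, 0], [0, 0, 0, 0, 0, 0, 0]], [[0, 0, 0, 0, 0, 0, 0], [0, 0, 0, 0, 0, 0, 0], [4, -6, 3, 0, 0, 0, 0], [0, 0, 0, 0, 0, 0, 0], [0, 0, 0, 0, 0, 0, 0], [0, 0, 0, 0, 0, 0, 0], [0, 0, 0, 0, 0, 0, 0], [0, 0, 0, 0, 0, 0, 0]], [[0, 0, 0, 0, 0, 0, 0], [0, 0, 0, 0, 0, 0, 0], [0, 0, 0, 0, 0, 0, 0], [8, -18, 9, 0, 0, 0, 0], [0, 0, 0, 0, 0, 0, 0], [0, 0, 0, 0, 0, 0, 0], [0, 0, 0, 0, 0, 0, 0], [0, 0, 0, 0, 0, 0, 0]], [[0, 0, 0, 0, 0, 0, 0], [0, 0, 0, 0, 0, 0, 0], [0, 0, 0, 0, 0, 0, 0], [0, 0,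 0, 0, 0, 0, 0], [16, -48, 60, -36, 9, 0, 0], [0, 0, 0, 0, 0, 0, 0], [0, 0, 0, 0, 0, 0, 0], [0, 0, 0, 0, 0, 0, 0]], [[0, 0, 0, 0, 0, 0, 0], [0, 0, 0, 0, 0, 0, 0], [0, 0, 0, 0, 0, 0, 0], [0, 0, 0, 0, 0, 0, 0], [0, 0, 0, 0, 0, 0, 0], [32, -120, 168, -108, 27, 0, 0], [0, 0, 0, 0, 0, 0, 0], [0, 0, 0, 0, 0, 0, 0]], [[0, 0, 0, 0, 0, 0, 0], [0, 0, 0, 0, 0, 0, 0], [0, 0, 0, 0, 0, 0, 0], [0, 0, 0, 0, 0, 0, 0], [0, 0, 0, 0, 0, 0, 0], [0, 0, 0, 0, 0, 0, 0], [64, -288, 468, -324, 81, 0, 0], [0, 0, 0, 0, 0, 0, 0]], [[0, 0, 0, 0, 0, 0, 0], [0, 0, 0, 0, 0, 0, 0], [0, 0, 0, 0, 0, 0, 0], [0, 0, 0, 0, 0, 0, 0], [0, 0, 0, 0, 0, 0, 0], [0, 0, 0, 0, 0, 0, 0], [64, -288, 576, -648, 432, -162, 27], [0, 0, 0, 0, 0, 0, 0]], [[0, 0, 0, 0, 0, 0, 0], [0, 0, 0, 0, 0, 0, 0], [0, 0, 0, 0, 0, 0, 0], [0, 0, 0, 0, 0, 0, 0], [0, 0, 0, 0,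 0, 0, 0], [0, 0, 0, 0, 0, 0, 0], [0, 0, 0, 0, 0, 0, 0], [128, -672, 1488, -1800, 1260, -486, 81]]]

lemma fs_map (r t : ℝ) : fs.map (ev2 r t) =
    [1, (sT r t), (cT r t), (sT r t)^2, (sT r t)*(cT r t), (cT r t)^2, (sT r t)^3, (sT r t)^2*(cT r t)] := by
  simp only [fs, List.map_cons, List.map_nil, ev2, evRows, ev, sT, cT]
  push_cast
  refine congrArg₂ List.cons (by ring) ?_
  iterate 6 refine congrArg₂ List.cons (by ring) ?_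
  exact congrArg₂ List.cons (by ring) rfl

lemma Cham.polar {s c : ℝ} (h : Cham s c) : ∃ r t : ℝ, 0 ≤ r ∧ r ≤ 1 ∧ 0 ≤ t ∧ t ≤ 1 ∧
    sT r t = 2 * s ∧ cT r t = 4 * c := by
  obtain ⟨α, β, γ, hα, hβ, hγ, h1, rfl, rfl⟩ := h
  rcases (show 0 ≤ β + 2 * γ by positivity).eq_or_lt with h0 | h0
  · have hb : β = 0 := by linarith
    have hc : γ = 0 := by linarith
    subst hb hc
    exact ⟨0, 0, le_rfl, zero_le_one, le_rfl, zero_le_one, by simp [sT], by simp [cT]⟩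
  · refine ⟨β + 2 * γ, 2 * γ / (β + 2 * γ), h0.le, by linarith, by positivity, ?_, ?_, ?_⟩
    · rw [div_le_one h0]; linarith
    · unfold sT; field_simp; ring
    · unfold cT; field_simp; ring


end Crest.Agent.R163.Loc
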