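import Crest.Agent.R163.LocBase

/-!
Row 163, three states, antiferromagnetic local lemma: polar chamber coordinates (second form).
-/

set_option autoImplicit false

namespace Crest.Agent.R163.Loc

open Crest.Agent.R163.Q3

/-- angular factor of `2 s` -/
noncomputable def hS (t : ℝ) : ℝ := 4-6*t+3*t^2

/-- angular factor of `4 c` -/
noncomputable def hC (t : ℝ) : ℝ := 8-18*t+9*t^2

lemma Cham.polar2 {s c : ℝ} (h : Cham s c) : ∃ r t : ℝ, 0 ≤ r ∧ r ≤ 1 ∧ 0 ≤ t ∧ t ≤ 1 ∧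
    s = r^2 * hS t / 2 ∧ c = r^3 * hC t / 4 := by
  obtain ⟨r, t, h1, h2, h3, h4, h5, h6⟩ := Cham.polar h
  refine ⟨r, t, h1, h2, h3, h4, ?_, ?_⟩
  · unfold sT at h5; unfold hS; linarith
  · unfold cT at h6; unfold hC; linarith

end Crest.Agent.R163.Loc
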