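import Crest.Agent.R163.PoisDer
import Mathlib.Probability.Distributions.Poisson.PoissonLimitThm
import Mathlib.Analysis.Normed.Group.Tannery

/-!
Row 163: binomial averages converge to Poisson averages.
-/

set_option autoImplicit false

namespace Crest.Agent.R163

/-- binomial average of a sequence -/
noncomputable def bav (a : ℕ → ℝ) (N : ℕ) (p : ℝ) : ℝ :=
  ∑ n ∈ Finset.range (N + 1), (N.choose n : ℝ) * p ^ n * (1 - p) ^ (N - n) * a n

theorem tendsto_bav {a : ℕ → ℝ} {K : ℝ} (ha : ∀ n, |a n| ≤ K) {d : ℝ} (hd : 0 ≤ d) :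
    Filter.Tendsto (fun N : ℕ => bav a N (d / N)) Filter.atTop
      (nhds (∑' n, pwt d n * a n)) := by
  have hK : 0 ≤ K := (abs_nonneg _).trans (ha 0)
  have h0 : Filter.Tendsto (fun N : ℕ => (N : ℝ) * (d / N)) Filter.atTop (nhds d) := by
    refine tendsto_const_nhds.congr' ?_
    filter_upwards [Filter.eventually_gt_atTop 0] with N hN
    have : (N : ℝ) ≠ 0 := by exact_mod_cast hN.ne'
    field_simp
  have key : Filter.Tendsto (fun N : ℕ => ∑' n, (if n ≤ N then
      (N.choose n : ℝ) * (d / N) ^ n * (1 - d / N) ^ (N - n) * a n else 0)) Filter.atTop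
      (nhds (∑' n, pwt d n * a n)) := by
    refine tendsto_tsum_of_dominated_convergence (bound := fun n => d ^ n / (n.factorial : ℝ) * K)
      ((Real.summable_pow_div_factorial d).mul_right K) (fun n => ?_) ?_
    · have h1 := (ProbabilityTheory.tendsto_choose_mul_pow_of_tendsto_mul_atTop n h0).mul_const (a n)
      refine Filter.Tendsto.congr' ?_ h1
      filter_upwards [Filter.eventually_ge_atTop n] with N hN
      rw [if_pos hN]
    · filter_upwards [Filter.eventually_gt_atTop 0, Filter.eventually_ge_atTop ⌈d⌉₊] with N hN hN2 n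
      have hN' : (0 : ℝ) < N := by exact_mod_cast hN
      have hdN : d ≤ N := Nat.ceil_le.1 hN2
      have hp0 : 0 ≤ d / N := by positivity
      have hp1 : d / N ≤ 1 := (div_le_one hN').2 hdN
      split_ifs with h
      · rw [Real.norm_eq_abs, abs_mul, abs_of_nonneg (by
          have : 0 ≤ 1 - d / N := by linarith
          positivity)]
        refine mul_le_mul ?_ (ha n) (abs_nonneg _) (by positivity)
        have h1 : (N.choose n : ℝ) ≤ (N : ℝ) ^ n / (n.factorial : ℝ) := Nat.choose_le_pow_div n N
        have h2 : (1 - d / N) ^ (N - n) ≤ 1 := pow_le_one₀ (by linarith) (by linarith)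
        calc (N.choose n : ℝ) * (d / N) ^ n * (1 - d / N) ^ (N - n)
            ≤ (N : ℝ) ^ n / (n.factorial : ℝ) * (d / N) ^ n * 1 := by
              have : 0 ≤ 1 - d / N := by linarith
              gcongr
          _ = d ^ n / (n.factorial : ℝ) := by
              rw [div_pow]; field_simp
      · rw [norm_zero]
        positivity
  refine key.congr fun N => ?_
  unfold bav
  rw [tsum_eq_sum (s := Finset.range (N + 1))]
  · refine Finset.sum_congr rfl fun n hn => ?_
    rw [if_pos (Nat.lt_succ_iff.1 (Finset.mem_range.1 hn))]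
  · intro n hn
    rw [if_neg]
    intro h
    exact hn (Finset.mem_range.2 (Nat.lt_succ_iff.2 h))

end Crest.Agent.R163
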