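import Crest.Agent.R163.LocRec
import Crest.Agent.R163.PoisLim

/-!
Row 163: binomial mixtures of sequences satisfying the recursion inequalities.
-/

set_option autoImplicit false

namespace Crest.Agent.R163

lemma bav_zero (a : ℕ → ℝ) (p : ℝ) : bav a 0 p = a 0 := by simp [bav]

lemma bav_succ (a : ℕ → ℝ) (N : ℕ) (p : ℝ) :
    bav a (N + 1) p = (1 - p) * bav a N p + p * bav (fun n => a (n + 1)) N p := by
  unfold bav
  rw [Finset.sum_range_succ']
  simp only [Nat.choose_succ_succ', Nat.choose_zero_right, Nat.cast_add, Nat.cast_one,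
    Nat.add_sub_add_right, pow_zero, Nat.sub_zero]
  have h1 : ∑ n ∈ Finset.range (N + 1), ((N.choose n : ℝ) + (N.choose (n + 1) : ℝ)) *
      p ^ (n + 1) * (1 - p) ^ (N - n) * a (n + 1) =
      p * ∑ n ∈ Finset.range (N + 1), (N.choose n : ℝ) * p ^ n * (1 - p) ^ (N - n) * a (n + 1) +
      ∑ n ∈ Finset.range (N + 1), (N.choose (n + 1) : ℝ) * p ^ (n + 1) * (1 - p) ^ (N - n) *
        a (n + 1) := by
    rw [Finset.mul_sum, ← Finset.sum_add_distrib]
    refine Finset.sum_congr rfl fun n _ => ?_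
    ring
  have h2 : ∑ n ∈ Finset.range (N + 1), (N.choose (n + 1) : ℝ) * p ^ (n + 1) *
      (1 - p) ^ (N - n) * a (n + 1) + 1 * 1 * (1 - p) ^ (N + 1) * a 0 =
      (1 - p) * ∑ n ∈ Finset.range (N + 1), (N.choose n : ℝ) * p ^ n * (1 - p) ^ (N - n) * a n := by
    rw [Finset.sum_range_succ, Nat.choose_succ_self]
    rw [Finset.sum_range_succ' (fun n => (N.choose n : ℝ) * p ^ n * (1 - p) ^ (N - n) * a n)]
    rw [mul_add, Finset.mul_sum]
    have h3 : ∀ n ∈ Finset.range N, (N.choose (n + 1) : ℝ) * p ^ (n + 1) * (1 - p) ^ (N - n) *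
        a (n + 1) = (1 - p) * ((N.choose (n + 1) : ℝ) * p ^ (n + 1) * (1 - p) ^ (N - (n + 1)) *
        a (n + 1)) := by
      intro n hn
      have hn' := Finset.mem_range.1 hn
      have : N - n = (N - (n + 1)) + 1 := by omega
      rw [this, pow_succ]
      ring
    rw [Finset.sum_congr rfl h3]
    simp only [Nat.choose_zero_right, Nat.cast_one, pow_zero, Nat.sub_zero, Nat.cast_zero,
      zero_mul, add_zero, pow_succ]
    ring
  rw [h1, add_assoc, h2]
  ring

section

variable {e : ℝ}

lemma bav_weight_nonneg (h0 : 0 ≤ e) (h1 : e ≤ 1) (N n : ℕ) :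
    0 ≤ (N.choose n : ℝ) * e ^ n * (1 - e) ^ (N - n) := by
  have : 0 ≤ 1 - e := by linarith
  positivity

lemma bav_mono (h0 : 0 ≤ e) (h1 : e ≤ 1) (N : ℕ) {a b : ℕ → ℝ} (h : ∀ n, a n ≤ b n) :
    bav a N e ≤ bav b N e :=
  Finset.sum_le_sum fun n _ => mul_le_mul_of_nonneg_left (h n) (bav_weight_nonneg h0 h1 N n)

lemma bav_one (N : ℕ) (e : ℝ) : bav (fun _ => 1) N e = 1 := by
  induction N with
  | zero => simp [bav_zero]
  | succ N ih => rw [bav_succ, ih]; ring

lemma bav_aff (N : ℕ) (e c0 c1 c2 c3 : ℝ) (X T M : ℕ → ℝ) :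
    bav (fun n => c0 + c1 * X n + c2 * T n + c3 * M n) N e =
      c0 + c1 * bav X N e + c2 * bav T N e + c3 * bav M N e := by
  have h := bav_one N e
  have h2 : c0 = c0 * bav (fun _ => 1) N e := by rw [h, mul_one]
  rw [h2]
  unfold bav
  simp only [Finset.mul_sum, ← Finset.sum_add_distrib]
  refine Finset.sum_congr rfl fun n _ => ?_
  have h3 : ∑ i ∈ Finset.range (N + 1), (N.choose i : ℝ) * e ^ i * (1 - e) ^ (N - i) * 1 = 1 := h
  rw [← Finset.mul_sum, h3]
  ring

/-- Jensen -/
lemma bav_sq_le (h0 : 0 ≤ e) (h1 : e ≤ 1) (N : ℕ) (X : ℕ → ℝ) :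
    bav X N e ^ 2 ≤ bav (fun n => X n ^ 2) N e := by
  set y := bav X N e with hy
  have h := bav_mono h0 h1 N (a := fun n => -(y ^ 2) + (2 * y) * X n + 0 * X n + 0 * X n)
    (b := fun n => X n ^ 2) fun n => by nlinarith [sq_nonneg (X n - y)]
  rw [bav_aff] at h
  rw [← hy] at h
  nlinarith

end

/-- binomial mixtures satisfy the recursion with the scaled parameters -/
theorem LocRec.bin {al be be1 C D x t m : ℝ} {X T M : ℕ → ℝ} (h : LocRec al be be1 C D x t m X T M)
    {e : ℝ} (h0 : 0 ≤ e) (h1 : e ≤ 1) :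
    LocRec al be be1 C D (e * x) (e * t) (e * m) (fun k => bav X k e) (fun k => bav T k e)
      (fun k => bav M k e) where
  X0 := by rw [bav_zero, h.X0]
  T0 := by rw [bav_zero, h.T0]
  M0 := by rw [bav_zero, h.M0]
  K0 k := by
    have h2 := bav_mono h0 h1 k (a := fun n => X (n + 1))
      (b := fun n => x + (1 + x) * X n + 0 * T n + 0 * M n) fun n => by
        have := h.K0 n
        linarith
    rw [bav_aff] at h2
    rw [bav_succ]
    have h3 := mul_le_mul_of_nonneg_left h2 h0
    linarith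
  K1 k := by
    have h2 := bav_mono h0 h1 k (a := fun n => X (n + 1))
      (b := fun n => x + (1 - x / 2 + t + al * m) * X n + (-x - t) * T n + (al * x) * M n)
      fun n => by
        have := h.K1 n
        linarith
    rw [bav_aff] at h2
    rw [bav_succ]
    have h3 := mul_le_mul_of_nonneg_left h2 h0
    linarith
  K2 k := by
    have h2 := bav_mono h0 h1 k (b := fun n => X (n + 1))
      (a := fun n => x + (1 - x / 2 + t) * X n + (-x - t) * T n + 0 * M n)
      fun n => by
        have := h.K2 n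
        linarith
    rw [bav_aff] at h2
    rw [bav_succ]
    have h3 := mul_le_mul_of_nonneg_left h2 h0
    linarith
  T1 k := by
    have h2 := bav_mono h0 h1 k (b := fun n => T (n + 1))
      (a := fun n => -t + (3 * x + 3 * t - be * m) * X n + (1 - 3 * x) * T n + (-be * x) * M n)
      fun n => by
        have := h.T1 n
        linarith
    rw [bav_aff] at h2
    rw [bav_succ]
    have h3 := mul_le_mul_of_nonneg_left h2 h0
    linarith
  T2 k := by
    have h2 := bav_mono h0 h1 k (a := fun n => T (n + 1))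
      (b := fun n => -t + (3 * x + 3 * t + be1 * m) * X n + (1 - 3 * x) * T n + (be1 * x) * M n)
      fun n => by
        have := h.T2 n
        linarith
    rw [bav_aff] at h2
    rw [bav_succ]
    have h3 := mul_le_mul_of_nonneg_left h2 h0
    linarith
  MC k := by
    have h2 := bav_mono h0 h1 k (a := fun n => M (n + 1))
      (b := fun n => m + (C * x + D * m) * X n + 0 * T n + 1 * M n)
      fun n => by
        have := h.MC n
        linarith
    rw [bav_aff] at h2
    rw [bav_succ]
    have h3 := mul_le_mul_of_nonneg_left h2 h0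
    linarith
  Xmono k := by
    have h2 := bav_mono h0 h1 k (a := X) (b := fun n => X (n + 1)) h.Xmono
    rw [bav_succ]
    have h3 := mul_le_mul_of_nonneg_left h2 h0
    linarith
  Mmono k := by
    have h2 := bav_mono h0 h1 k (a := M) (b := fun n => M (n + 1)) h.Mmono
    rw [bav_succ]
    have h3 := mul_le_mul_of_nonneg_left h2 h0
    linarith
  TX k := bav_mono h0 h1 k h.TX
  XT k := by
    have h2 := bav_mono h0 h1 k (a := fun n => 0 + (-1 / 2) * X n + 0 * T n + 0 * M n) (b := T)
      fun n => by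
        have := h.XT n
        linarith
    rw [bav_aff] at h2
    linarith
  XM k := (bav_sq_le h0 h1 k X).trans (bav_mono h0 h1 k h.XM)
  MX k := by
    have h2 := bav_mono h0 h1 k (a := M) (b := fun n => 0 + 2 * X n + 0 * T n + 0 * M n)
      fun n => by
        have := h.MX n
        linarith
    rw [bav_aff] at h2
    linarith

lemma LocRec.abs_X_le {al be be1 C D x t m : ℝ} {X T M : ℕ → ℝ}
    (h : LocRec al be be1 C D x t m X T M) (k : ℕ) : |X k| ≤ 2 ∧ |T k| ≤ 2 ∧ |M k| ≤ 4 := by
  have h1 := h.XM k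
  have h2 := h.MX k
  have h3 := h.TX k
  have h4 := h.XT k
  have h5 : 0 ≤ X k := by linarith
  have h6 : X k ≤ 2 := by nlinarith
  have h7 : 0 ≤ M k := (sq_nonneg _).trans h1
  refine ⟨by rw [abs_of_nonneg h5]; exact h6, ?_, by rw [abs_of_nonneg h7]; linarith⟩
  rw [abs_le]
  constructor <;> linarith

/-- the Poisson averages as limits of binomial ones -/
theorem LocRec.pois {al be be1 C D x t m : ℝ} {X T M : ℕ → ℝ} (h : LocRec al be be1 C D x t m X T M)
    {d : ℝ} (hd : 0 ≤ d) :
    Filter.Tendsto (fun N : ℕ => bav X N (d / N)) Filter.atTop (nhds (∑' n, pwt d n * X n)) ∧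
    Filter.Tendsto (fun N : ℕ => bav T N (d / N)) Filter.atTop (nhds (∑' n, pwt d n * T n)) ∧
    Filter.Tendsto (fun N : ℕ => bav M N (d / N)) Filter.atTop (nhds (∑' n, pwt d n * M n)) :=
  ⟨tendsto_bav (fun n => (h.abs_X_le n).1) hd, tendsto_bav (fun n => (h.abs_X_le n).2.1) hd,
    tendsto_bav (fun n => (h.abs_X_le n).2.2) hd⟩

end Crest.Agent.R163
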