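import Crest.Agent.R163.LocScalar

/-!
Row 163, q = 3 antiferromagnetic local lemma: the numerical conditions of the ansatz on boxes, and
the contradiction for the parameter classes.
-/

set_option autoImplicit false

namespace Crest.Agent.R163

theorem box0 {p q : ℝ} (h1 : -1 / 4 ≤ p) (h2 : p ≤ 1 / 2) (h3 : 0 ≤ q) (h4 : q ≤ 17 / 125) :
    AnsC (5 / 8) (23 / 10) (73 / 100) (23 / 5 + 4 * q) p q (1 / 5) (22 / 5) (931 / 100) (2521 / 100)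
      (625 / 100) := by
  have u : 0 ≤ p + 1 / 4 := by linarith
  have v : 0 ≤ 1 / 2 - p := by linarith
  have z : 0 ≤ 17 / 125 - q := by linarith
  have uv := mul_nonneg u v
  have uq := mul_nonneg u h3
  have vq := mul_nonneg v h3
  have uz := mul_nonneg u z
  have vz := mul_nonneg v z
  have qz := mul_nonneg h3 z
  have uuv := mul_nonneg u uv
  have uvv := mul_nonneg uv v
  have uvq := mul_nonneg uv h3
  have uvz := mul_nonneg uv z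
  have uqz := mul_nonneg u qz
  have vqz := mul_nonneg v qz
  constructor <;> nlinarith

theorem boxB {p q : ℝ} (h1 : 0 ≤ p) (h2 : p ≤ 107 / 1000) (h3 : 0 ≤ q) (h4 : q ≤ 17 / 125) :
    AnsC (5 / 8) (23 / 10) (73 / 100) (23 / 5 + 4 * q) p q (1 / 5) (121 / 50) (83 / 20) (1121 / 50)
      (3 / 10) := by
  have v : 0 ≤ 107 / 1000 - p := by linarith
  have z : 0 ≤ 17 / 125 - q := by linarith
  have uv := mul_nonneg h1 v
  have uq := mul_nonneg h1 h3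
  have vq := mul_nonneg v h3
  have uz := mul_nonneg h1 z
  have vz := mul_nonneg v z
  have qz := mul_nonneg h3 z
  have uuv := mul_nonneg h1 uv
  have uvv := mul_nonneg uv v
  have uvq := mul_nonneg uv h3
  have uvz := mul_nonneg uv z
  have uqz := mul_nonneg h1 qz
  have vqz := mul_nonneg v qz
  constructor <;> nlinarith

theorem boxC {p q : ℝ} (h1 : 0 ≤ p) (h2 : p ≤ 531 / 5000) (h3 : 0 ≤ q) (h4 : q ≤ 49 / 400) :
    AnsC (5 / 8) (23 / 10) (73 / 100) (23 / 5 + 4 * q) p q (9 / 50) (219 / 100) (103 / 25) (2241 / 100)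
      (1 / 20) := by
  have v : 0 ≤ 531 / 5000 - p := by linarith
  have z : 0 ≤ 49 / 400 - q := by linarith
  have uv := mul_nonneg h1 v
  have uq := mul_nonneg h1 h3
  have vq := mul_nonneg v h3
  have uz := mul_nonneg h1 z
  have vz := mul_nonneg v z
  have qz := mul_nonneg h3 z
  have uuv := mul_nonneg h1 uv
  have uvv := mul_nonneg uv v
  have uvq := mul_nonneg uv h3
  have uvz := mul_nonneg uv z
  have uqz := mul_nonneg h1 qz
  have vqz := mul_nonneg v qz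
  constructor <;> nlinarith

theorem boxD {p q : ℝ} (h1 : 0 ≤ p) (h2 : p ≤ 531 / 5000) (h3 : 0 ≤ q) (h4 : q ≤ 57 / 500) :
    AnsC (5 / 8) (23 / 10) (73 / 100) (23 / 5 + 4 * q) p q (9 / 50) (213 / 100) (411 / 100) (2241 / 100)
      (1 / 100) := by
  have v : 0 ≤ 531 / 5000 - p := by linarith
  have z : 0 ≤ 57 / 500 - q := by linarith
  have uv := mul_nonneg h1 v
  have uq := mul_nonneg h1 h3
  have vq := mul_nonneg v h3
  have uz := mul_nonneg h1 z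
  have vz := mul_nonneg v z
  have qz := mul_nonneg h3 z
  have uuv := mul_nonneg h1 uv
  have uvv := mul_nonneg uv v
  have uvq := mul_nonneg uv h3
  have uvz := mul_nonneg uv z
  have uqz := mul_nonneg h1 qz
  have vqz := mul_nonneg v qz
  constructor <;> nlinarith

lemma AnsC.mono {al be be1 G p q r r' c1 c2 c3 c5 : ℝ} (h : AnsC al be be1 G p q r c1 c2 c3 c5)
    (hr : r' ≤ r) (hr0 : 0 ≤ r') : AnsC al be be1 G p q r' c1 c2 c3 c5 := by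
  have key : ∀ A B c : ℝ, A ≤ c → A + r / 3 * B ≤ c → A + r' / 3 * B ≤ c := by
    intro A B c h1 h2
    rcases le_total B 0 with hB | hB
    · have : r' / 3 * B ≤ 0 := mul_nonpos_of_nonneg_of_nonpos (by positivity) hB
      linarith
    · have : r' / 3 * B ≤ r / 3 * B := mul_le_mul_of_nonneg_right (by linarith) hB
      linarith
  exact { h with
    f1 := key _ _ _ h.e1 h.f1
    f2 := key _ _ _ h.e2 h.f2
    f3 := key _ _ _ h.e3 h.f3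
    f4 := key _ _ _ h.e4 h.f4
    f5 := key _ _ _ h.e5 h.f5 }

section

variable {p q ξ T M D2 D3 Ki K w τ x0 r1 : ℝ}

/-- two phases -/
theorem loc_fin1 (e q0 p1 : ℝ)
    (H : LocEnd (5 / 8) (23 / 10) (73 / 100) (23 / 5) 4 p q (1 / 5) r1 ξ ξ T M D2 D3)
    (F : LocFacts p q ξ T M D2 D3 Ki K w τ x0 r1)
    (hr1 : 0 ≤ r1) (hτ : 0 ≤ τ) (he0 : 0 ≤ e) (he : 1 + e / 2 * r1 ≤ e) (hw0 : 0 ≤ w)
    (n1 : 0 < τ - 4 * (1 / 2 + e * r1 / 6) * x0)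
    (n2 : 23 / 5 * (1 / 2 + e * r1 / 6) * x0 ≤ q0 * (τ - 4 * (1 / 2 + e * r1 / 6) * x0))
    (n2' : q0 ≤ 17 / 125)
    (n3 : 0 < (3 - 2 * (23 / 10) * q0) / 2 - 2521 / 100 * r1 / 6)
    (n4 : 3 * w * x0 < K + 1)
    (n5 : (3 + 2 * (73 / 100) * q0) / 2 * w * x0 ≤ p1 * (K + 1 - 3 * w * x0))
    (n6 : p1 ≤ 107 / 1000)
    (n7 : (-1 / 2 + 2 * p1 + p1 ^ 2 + 2 * (5 / 8) * q0) / 2 + 121 / 50 * r1 / 6 < 0) : False := by
  have a1 := H.q_crude F (by norm_num) (by norm_num) he0 he hr1 hτ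
  have a2 : q ≤ q0 := le_of_mul_le_mul_right (a1.trans n2) n1
  have hq := F.q0
  have A0 := box0 F.le_p F.p_le_half hq (a2.trans n2')
  have hp := H.p_nonneg F A0 (by linarith) n4 hw0
  have hwx : 0 ≤ w * x0 := mul_nonneg hw0 F.x00.le
  have a3 := H.p_le F (by norm_num) A0 hp hw0
  have a4 : (3 + 2 * (73 / 100) * q) / 2 * w * x0 ≤ (3 + 2 * (73 / 100) * q0) / 2 * w * x0 := by
    have := mul_le_mul_of_nonneg_right a2 hwx
    linarith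
  have a5 : p ≤ p1 := le_of_mul_le_mul_right (a3.trans (a4.trans n5)) (by linarith)
  have A1 := boxB hp (a5.trans n6) hq (a2.trans n2')
  refine H.contra F A1 ?_
  have : p ^ 2 ≤ p1 ^ 2 := pow_le_pow_left₀ hp a5 2
  linarith

/-- three phases, for Poisson with `θ ≥ 5` -/
theorem loc_fin2 (e q0 p1 q2 : ℝ)
    (H : LocEnd (5 / 8) (23 / 10) (73 / 100) (23 / 5) 4 p q (9 / 50) r1 ξ ξ T M D2 D3)
    (F : LocFacts p q ξ T M D2 D3 Ki K w τ x0 r1)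
    (hr1 : 0 ≤ r1) (hτ : 0 ≤ τ) (he0 : 0 ≤ e) (he : 1 + e / 2 * r1 ≤ e) (hw0 : 0 ≤ w)
    (n1 : 0 < τ - 4 * (1 / 2 + e * r1 / 6) * x0)
    (n2 : 23 / 5 * (1 / 2 + e * r1 / 6) * x0 ≤ q0 * (τ - 4 * (1 / 2 + e * r1 / 6) * x0))
    (n2' : q0 ≤ 49 / 400)
    (n3 : 0 < (3 - 2 * (23 / 10) * q0) / 2 - 2521 / 100 * r1 / 6)
    (n4 : 3 * w * x0 < K + 1)
    (n5 : (3 + 2 * (73 / 100) * q0) / 2 * w * x0 ≤ p1 * (K + 1 - 3 * w * x0))
    (n6 : p1 ≤ 531 / 5000)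
    (m1 : 0 < τ - 4 / 2 * x0)
    (m2 : (23 / 5 / 2 + 1 / 20 * r1 / 6) * x0 ≤ q2 * (τ - 4 / 2 * x0))
    (m3 : q2 ≤ 57 / 500)
    (n7 : (-1 / 2 + 2 * p1 + p1 ^ 2 + 2 * (5 / 8) * q2) / 2 + 213 / 100 * r1 / 6 < 0) : False := by
  have a1 := H.q_crude F (by norm_num) (by norm_num) he0 he hr1 hτ
  have a2 : q ≤ q0 := le_of_mul_le_mul_right (a1.trans n2) n1
  have hq := F.q0
  have A0 := (box0 F.le_p F.p_le_half hq (by linarith)).mono (r' := 9 / 50) (by norm_num)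
    (by norm_num)
  have hp := H.p_nonneg F A0 (by linarith) n4 hw0
  have hwx : 0 ≤ w * x0 := mul_nonneg hw0 F.x00.le
  have a3 := H.p_le F (by norm_num) A0 hp hw0
  have a4 : (3 + 2 * (73 / 100) * q) / 2 * w * x0 ≤ (3 + 2 * (73 / 100) * q0) / 2 * w * x0 := by
    have := mul_le_mul_of_nonneg_right a2 hwx
    linarith
  have a5 : p ≤ p1 := le_of_mul_le_mul_right (a3.trans (a4.trans n5)) (by linarith)
  have A1 := boxC hp (a5.trans n6) hq (a2.trans n2')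
  have b1 := H.q_ref F (by norm_num) (by norm_num) A1 hr1 hτ
  have b2 : q ≤ q2 := le_of_mul_le_mul_right (b1.trans m2) m1
  have A2 := boxD hp (a5.trans n6) hq (b2.trans m3)
  refine H.contra F A2 ?_
  have : p ^ 2 ≤ p1 ^ 2 := pow_le_pow_left₀ hp a5 2
  linarith

/-- regular trees, `b = 4` -/
theorem loc_R4
    (H : LocEnd (5 / 8) (23 / 10) (73 / 100) (23 / 5) 4 p q (1 / 5) (1 / 10) ξ ξ T M D2 D3)
    (F : LocFacts p q ξ T M D2 D3 Ki 2 (3 / 4) 4 (1 / 5) (1 / 10)) : False := by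
  refine loc_fin1 (20 / 19) (133 / 1000) (94 / 1000) H F ?_ ?_ ?_ ?_ ?_ ?_ ?_ ?_ ?_ ?_ ?_ ?_ ?_ <;>
    norm_num

/-- regular trees, `5 ≤ b ≤ 7` -/
theorem loc_R5
    (H : LocEnd (5 / 8) (23 / 10) (73 / 100) (23 / 5) 4 p q (1 / 5) (1 / 7) ξ ξ T M D2 D3)
    (F : LocFacts p q ξ T M D2 D3 Ki (223 / 100) (6 / 7) 5 (1 / 5) (1 / 7)) : False := by
  refine loc_fin1 (14 / 13) (106 / 1000) (998 / 10000) H F ?_ ?_ ?_ ?_ ?_ ?_ ?_ ?_ ?_ ?_ ?_ ?_ ?_ <;>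
    norm_num

/-- regular trees, `7 ≤ b` -/
theorem loc_R7
    (H : LocEnd (5 / 8) (23 / 10) (73 / 100) (23 / 5) 4 p q (1 / 5) (1 / 5) ξ ξ T M D2 D3)
    (F : LocFacts p q ξ T M D2 D3 Ki (264 / 100) 1 7 (1 / 5) (1 / 5)) : False := by
  refine loc_fin1 (10 / 9) (76 / 1000) (103 / 1000) H F ?_ ?_ ?_ ?_ ?_ ?_ ?_ ?_ ?_ ?_ ?_ ?_ ?_ <;>
    norm_num

/-- Poisson, `4 ≤ θ`, threshold `3/20` -/
theorem loc_P4
    (H : LocEnd (5 / 8) (23 / 10) (73 / 100) (23 / 5) 4 p q (1 / 5) (3 / 20) ξ ξ T M D2 D3)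
    (F : LocFacts p q ξ T M D2 D3 Ki 2 1 3 (3 / 20) (3 / 20)) : False := by
  refine loc_fin1 (40 / 37) (1355 / 10000) (942 / 10000) H F ?_ ?_ ?_ ?_ ?_ ?_ ?_ ?_ ?_ ?_ ?_ ?_ ?_ <;>
    norm_num

/-- Poisson, `5 ≤ θ`, threshold `9/50` -/
theorem loc_P5
    (H : LocEnd (5 / 8) (23 / 10) (73 / 100) (23 / 5) 4 p q (9 / 50) (9 / 50) ξ ξ T M D2 D3)
    (F : LocFacts p q ξ T M D2 D3 Ki (2236 / 1000) 1 4 (9 / 50) (9 / 50)) : False := by
  refine loc_fin2 (100 / 91) (1221 / 10000) (10615 / 100000) (114 / 1000) H F ?_ ?_ ?_ ?_ ?_ ?_ ?_ ?_ ?_ ?_ ?_ ?_ ?_ ?_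
    ?_ ?_ <;> norm_num

/-- Poisson, `7 ≤ θ`, threshold `1/5` -/
theorem loc_P7
    (H : LocEnd (5 / 8) (23 / 10) (73 / 100) (23 / 5) 4 p q (1 / 5) (1 / 5) ξ ξ T M D2 D3)
    (F : LocFacts p q ξ T M D2 D3 Ki (264 / 100) 1 6 (1 / 5) (1 / 5)) : False := by
  refine loc_fin1 (10 / 9) (888 / 10000) (1031 / 10000) H F ?_ ?_ ?_ ?_ ?_ ?_ ?_ ?_ ?_ ?_ ?_ ?_ ?_ <;>
    norm_num

end

end Crest.Agent.R163
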