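import Crest.Agent.R163.Conv

/-!
Row 163, q = 3 antiferromagnetic local lemma: the third and fourth order functionals `cub3`, `sq`,
their homogeneity, bounds, continuity, and the pairwise inequalities as a structure.
-/

set_option autoImplicit false

namespace Crest.Agent.R163

open Filter Topology

/-- third order functional: `z₁ z₂ z₃` for the mean one vector `1 + z` -/
noncomputable def cub3 (v : Fin 3 → ℝ) : ℝ := (∏ i, (v i - avg v)) / avg v ^ 2

/-- fourth order functional: `(avg z²)²` for the mean one vector `1 + z` -/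
noncomputable def sq (v : Fin 3 → ℝ) : ℝ := chi v ^ 2 / avg v

lemma avg_three (v : Fin 3 → ℝ) : avg v = (v 0 + v 1 + v 2) / 3 := by
  unfold avg
  rw [Fin.sum_univ_three]
  norm_num

lemma hom_c3 : Hom cub3 := by
  intro a v ha hv
  unfold cub3
  rw [avg_smul]
  have h1 : (∏ i, (a * v i - a * avg v)) = a ^ 3 * ∏ i, (v i - avg v) := by
    rw [Fin.prod_univ_three, Fin.prod_univ_three]; ring
  rw [h1]
  rcases ha.eq_or_lt with h0 | h0
  · subst h0; simp
  · by_cases hv0 : avg v = 0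
    · rw [hv0]; simp
    · field_simp

lemma hom_sq : Hom sq := by
  intro a v ha hv
  unfold sq
  rw [avg_smul, hom_chi a v ha hv]
  rcases ha.eq_or_lt with h0 | h0
  · subst h0; simp
  · by_cases hv0 : avg v = 0
    · rw [hv0]; simp
    · field_simp

lemma c3_norm {w : Fin 3 → ℝ} (h : avg w = 1) : cub3 w = (w 0 - 1) * (w 1 - 1) * (w 2 - 1) := by
  unfold cub3
  rw [h, Fin.prod_univ_three]
  norm_num

lemma sq_norm {w : Fin 3 → ℝ} (h : avg w = 1) : sq w = chi w ^ 2 := by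
  unfold sq
  rw [h, div_one]

lemma chi_norm3 {w : Fin 3 → ℝ} (h : avg w = 1) :
    chi w = (w 0 ^ 2 + w 1 ^ 2 + w 2 ^ 2) / 3 - 1 := by
  unfold chi
  rw [h, avg_three]
  norm_num

lemma c3_le_chi {v : Fin 3 → ℝ} (hv : ∀ i, 0 ≤ v i) : cub3 v ≤ chi v := by
  obtain ⟨a, w, ha, hw, hw1, rfl⟩ := exists_norm hv
  rw [hom_c3 a w ha hw, hom_chi a w ha hw]
  refine mul_le_mul_of_nonneg_left ?_ ha
  rw [c3_norm hw1, chi_norm3 hw1]
  rw [avg_three] at hw1
  have e : w 2 = 3 - w 0 - w 1 := by linarith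
  have h0 := hw 0
  have h1 := hw 1
  have h2 := hw 2
  rw [e] at h2 ⊢
  set x := w 0
  set y := w 1
  nlinarith [mul_nonneg h0 (sq_nonneg (y - (3 - x - y))), mul_nonneg h1 (sq_nonneg (x - (3 - x - y))),
    mul_nonneg h2 (sq_nonneg (x - y))]

private lemma schur {x y z : ℝ} (hx : 0 ≤ x) (hy : 0 ≤ y) (hz : 0 ≤ z) :
    0 ≤ x * (x - y) * (x - z) + y * (y - x) * (y - z) + z * (z - x) * (z - y) := by
  have key : ∀ a b c : ℝ, 0 ≤ a → a ≤ b → b ≤ c →
      0 ≤ a * (a - b) * (a - c) + b * (b - a) * (b - c) + c * (c - a) * (c - b) := by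
    intro a b c ha hab hbc
    have h1 : 0 ≤ b - a := by linarith
    have h2 : 0 ≤ c - b := by linarith
    have h3 : 0 ≤ c - a := by linarith
    have h4 : 0 ≤ a * (b - a) * (c - a) := mul_nonneg (mul_nonneg ha h1) h3
    have h5 : 0 ≤ (c - b) * ((c - b) * (c + b - a)) :=
      mul_nonneg h2 (mul_nonneg h2 (by linarith))
    nlinarith [h4, h5]
  rcases le_total x y with h | h <;> rcases le_total y z with h' | h' <;>
    rcases le_total x z with h'' | h''
  · have := key x y z hx h h'; linarith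
  · have := key x y z hx h h'; linarith
  · have := key x z y hx h'' h'; linarith
  · have := key z x y hz h'' h; linarith
  · have := key y x z hy h h''; linarith
  · have := key y z x hy h' h''; linarith
  · have := key z y x hz h' h; linarith
  · have := key z y x hz h' h; linarith

lemma neg_chi_le_c3 {v : Fin 3 → ℝ} (hv : ∀ i, 0 ≤ v i) : -chi v / 2 ≤ cub3 v := by
  obtain ⟨a, w, ha, hw, hw1, rfl⟩ := exists_norm hv
  rw [hom_c3 a w ha hw, hom_chi a w ha hw]
  have e0 : -(a * chi w) / 2 = a * (-chi w / 2) := by ring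
  rw [e0]
  refine mul_le_mul_of_nonneg_left ?_ ha
  rw [c3_norm hw1, chi_norm3 hw1]
  rw [avg_three] at hw1
  have e : w 2 = 3 - w 0 - w 1 := by linarith
  have := schur (hw 0) (hw 1) (hw 2)
  rw [e] at this ⊢
  nlinarith [this]

lemma sq_nonneg' {v : Fin 3 → ℝ} (hv : ∀ i, 0 ≤ v i) : 0 ≤ sq v :=
  div_nonneg (sq_nonneg _) (avg_nonneg hv)

lemma sq_le {v : Fin 3 → ℝ} (hv : ∀ i, 0 ≤ v i) : sq v ≤ 2 * chi v := by
  obtain ⟨a, w, ha, hw, hw1, rfl⟩ := exists_norm hv
  rw [hom_sq a w ha hw, hom_chi a w ha hw, sq_norm hw1]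
  have h1 := chi_nonneg hw
  have h2 := chi_le hw
  rw [hw1] at h2
  norm_num at h2
  have : chi w ^ 2 ≤ 2 * chi w := by nlinarith
  nlinarith

lemma abs_c3_le {v : Fin 3 → ℝ} (hv : ∀ i, 0 ≤ v i) : |cub3 v| ≤ chi v := by
  have h1 := chi_nonneg hv
  exact abs_le.2 ⟨by linarith [neg_chi_le_c3 hv], c3_le_chi hv⟩

lemma chi_le2 {v : Fin 3 → ℝ} (hv : ∀ i, 0 ≤ v i) : chi v ≤ 2 * avg v := by
  have := chi_le hv
  norm_num at this
  exact this

lemma bdd_c3 : Bdd cub3 :=
  ⟨2, by norm_num, fun _ hv => (abs_c3_le hv).trans (chi_le2 hv)⟩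

lemma bdd_sq : Bdd sq :=
  ⟨4, by norm_num, fun v hv => by
    rw [abs_of_nonneg (sq_nonneg' hv)]
    linarith [sq_le hv, chi_le2 hv]⟩

/-- Jensen: tangent line of the square -/
lemma tangent_le_sq (r : ℝ) {v : Fin 3 → ℝ} (hv : ∀ i, 0 ≤ v i) :
    2 * r * chi v - r ^ 2 * avg v ≤ sq v := by
  obtain ⟨a, w, ha, hw, hw1, rfl⟩ := exists_norm hv
  rw [hom_sq a w ha hw, hom_chi a w ha hw, sq_norm hw1, avg_smul, hw1]
  nlinarith [mul_nonneg ha (sq_nonneg (chi w - r))]

lemma ch_sq : CH sq where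
  bdd := bdd_sq
  hom := hom_sq
  sub u v hu hv := by
    by_cases h1 : avg u = 0
    · have := eq_zero_of_avg hu h1
      subst this
      have e0 : sq (fun _ : Fin 3 => (0 : ℝ)) = 0 := by simp [sq, chi, avg]
      rw [e0]
      simp
    by_cases h2 : avg v = 0
    · have := eq_zero_of_avg hv h2
      subst this
      have e0 : sq (fun _ : Fin 3 => (0 : ℝ)) = 0 := by simp [sq, chi, avg]
      rw [e0]
      simp
    have p1 : 0 < avg u := lt_of_le_of_ne (avg_nonneg hu) (Ne.symm h1)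
    have p2 : 0 < avg v := lt_of_le_of_ne (avg_nonneg hv) (Ne.symm h2)
    have h3 := (ch_chi (q := 3)).sub u v hu hv
    have h4 := chi_nonneg (v := fun i => u i + v i) fun i => add_nonneg (hu i) (hv i)
    unfold sq
    rw [avg_add]
    have h5 := ch_chi.add_sq_div_le p1 p2 (chi u) (chi v)
    refine le_trans ?_ h5
    exact div_le_div_of_nonneg_right (pow_le_pow_left₀ h4 h3 2) (by positivity)

/-! ### continuity -/

lemma continuousOn_of_ne {q : ℕ} [NeZero q] {φ : (Fin q → ℝ) → ℝ} (hb : Bdd φ)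
    (hc : ∀ v : Fin q → ℝ, avg v ≠ 0 → ContinuousAt φ v) :
    ContinuousOn φ {v | ∀ i, 0 ≤ v i} := by
  intro v hv
  by_cases h : avg v = 0
  · have hv0 := eq_zero_of_avg hv h
    obtain ⟨K, hK, hb⟩ := hb
    have h0 : φ v = 0 := by
      have := hb v hv
      rw [h, mul_zero] at this
      exact abs_nonpos_iff.1 this
    unfold ContinuousWithinAt
    rw [h0]
    have h1 : Tendsto (fun w : Fin q → ℝ => K * avg w) (𝓝[{v | ∀ i, 0 ≤ v i}] v) (𝓝 0) := by
      have : Tendsto (fun w : Fin q → ℝ => K * avg w) (𝓝 v) (𝓝 (K * avg v)) :=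
        (continuous_const.mul (continuous_avg (q := q))).tendsto v
      rw [h, mul_zero] at this
      exact this.mono_left nhdsWithin_le_nhds
    refine squeeze_zero_norm' ?_ h1
    filter_upwards [self_mem_nhdsWithin] with w hw
    rw [Real.norm_eq_abs]
    exact hb w hw
  · exact (hc v h).continuousWithinAt

lemma continuousAt_chi {q : ℕ} {v : Fin q → ℝ} (h : avg v ≠ 0) : ContinuousAt (chi (q := q)) v := by
  unfold chi
  have h1 : ContinuousAt (fun v : Fin q → ℝ => avg v) v := continuous_avg.continuousAt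
  have h2 : ContinuousAt (fun v : Fin q → ℝ => avg (fun i => v i ^ 2)) v := by
    apply Continuous.continuousAt
    exact continuous_avg.comp (continuous_pi fun i => (continuous_apply i).pow 2)
  exact (h2.div h1 h).sub h1

lemma continuousOn_chi {q : ℕ} [NeZero q] : ContinuousOn (chi (q := q)) {v | ∀ i, 0 ≤ v i} :=
  continuousOn_of_ne bdd_chi fun _ h => continuousAt_chi h

lemma continuousOn_sq : ContinuousOn sq {v | ∀ i, 0 ≤ v i} := by
  refine continuousOn_of_ne bdd_sq fun v h => ?_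
  unfold sq
  exact ((continuousAt_chi h).pow 2).div continuous_avg.continuousAt h

lemma continuousOn_c3 : ContinuousOn cub3 {v | ∀ i, 0 ≤ v i} := by
  refine continuousOn_of_ne bdd_c3 fun v h => ?_
  unfold cub3
  refine ContinuousAt.div ?_ (continuous_avg.continuousAt.pow 2) (pow_ne_zero 2 h)
  apply Continuous.continuousAt
  exact continuous_finsetProd _ fun i _ => (continuous_apply i).sub continuous_avg

/-! ### the channel -/

lemma c3_W (lam : ℝ) (v : Fin 3 → ℝ) : cub3 (W lam v) = lam ^ 3 * cub3 v := by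
  unfold cub3
  rw [avg_W]
  have : (∏ i, (W lam v i - avg v)) = lam ^ 3 * ∏ i, (v i - avg v) := by
    rw [Fin.prod_univ_three, Fin.prod_univ_three]
    unfold W
    ring
  rw [this, mul_div_assoc]

lemma sq_W (lam : ℝ) {v : Fin 3 → ℝ} (hv : ∀ i, 0 ≤ v i) : sq (W lam v) = lam ^ 4 * sq v := by
  unfold sq
  rw [avg_W, chi_W' lam hv]
  ring

lemma IsChan.J_c3_edge {Ω : Type*} {L : Ω → Fin 3 → ℝ} (lam : ℝ) :
    J cub3 (fun o => W lam (L o)) = lam ^ 3 * J cub3 L := by
  unfold J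
  rw [← tsum_mul_left]
  exact tsum_congr fun o => c3_W lam (L o)

lemma IsChan.J_sq_edge {Ω : Type*} {L : Ω → Fin 3 → ℝ} (h : IsChan L) (lam : ℝ) :
    J sq (fun o => W lam (L o)) = lam ^ 4 * J sq L := by
  unfold J
  rw [← tsum_mul_left]
  exact tsum_congr fun o => sq_W lam (h.nonneg o)

/-- the messages of an antiferromagnetic edge with `|lam| ≤ 1/2` are at most `3/2` times their
mean -/
lemma W_le_three_half {κ : ℝ} (h0 : 0 ≤ κ) (h1 : κ ≤ 1 / 2) {v : Fin 3 → ℝ} (hv : ∀ i, 0 ≤ v i)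
    (i : Fin 3) : W (-κ) v i ≤ 3 / 2 * avg (W (-κ) v) := by
  rw [avg_W]
  unfold W
  have h2 := avg_nonneg hv
  have h3 := mul_nonneg h0 (hv i)
  nlinarith

/-! ### the pairwise inequalities -/

/-- the five pairwise inequalities of the antiferromagnetic local lemma (`u` arbitrary, `v` a
message, `v i ≤ 3/2`) -/
structure PairLoc (al be be1 g1 g : ℝ) : Prop where
  K1 : ∀ u v : Fin 3 → ℝ, (∀ i, 0 ≤ u i) → (∀ i, 0 ≤ v i) → (∀ i, v i ≤ 3 / 2) →
    avg u = 1 → avg v = 1 →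
    orb chi u v ≤ chi u + chi v - chi u * chi v / 2 - chi u * cub3 v - cub3 u * chi v + cub3 u * cub3 v
      + al * (chi u * chi v * (chi u + chi v))
  K2 : ∀ u v : Fin 3 → ℝ, (∀ i, 0 ≤ u i) → (∀ i, 0 ≤ v i) → (∀ i, v i ≤ 3 / 2) →
    avg u = 1 → avg v = 1 →
    chi u + chi v - chi u * chi v / 2 - chi u * cub3 v - cub3 u * chi v + cub3 u * cub3 v ≤ orb chi u v
  T1 : ∀ u v : Fin 3 → ℝ, (∀ i, 0 ≤ u i) → (∀ i, 0 ≤ v i) → (∀ i, v i ≤ 3 / 2) →
    avg u = 1 → avg v = 1 →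
    cub3 u + cub3 v + 3 * (chi u * chi v) - 3 * (chi u * cub3 v + cub3 u * chi v)
      - be * (chi u * chi v * (chi u + chi v)) ≤ orb cub3 u v
  T2 : ∀ u v : Fin 3 → ℝ, (∀ i, 0 ≤ u i) → (∀ i, 0 ≤ v i) → (∀ i, v i ≤ 3 / 2) →
    avg u = 1 → avg v = 1 →
    orb cub3 u v ≤ cub3 u + cub3 v + 3 * (chi u * chi v) - 3 * (chi u * cub3 v + cub3 u * chi v)
      + be1 * (chi u * chi v * (chi u + chi v))
  M1 : ∀ u v : Fin 3 → ℝ, (∀ i, 0 ≤ u i) → (∀ i, 0 ≤ v i) → (∀ i, v i ≤ 3 / 2) →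
    avg u = 1 → avg v = 1 →
    orb sq u v ≤ chi u ^ 2 + chi v ^ 2 + 4 * (chi u * chi v) + 4 * (chi u * cub3 v + cub3 u * chi v)
      + g1 * (chi u * chi v * (chi u + chi v)) + g * (chi u ^ 2 * chi v ^ 2)

end Crest.Agent.R163
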