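import Mathlib.Tactic

/-!
Row 163, q = 3 antiferromagnetic local lemma: the linear recursion inequalities satisfied by the
second, third and fourth order moments of the `k`-fold merges of a message law.

`x = κ² ξ`, `t = κ³ T`, `m = κ⁴ M` are the moments (with the sign of the third one reversed) of the
single message law `R`; `X k`, `T k`, `M k` are `J chi`, `J c3`, `J sq` of the `k`-fold merge of `R`.
-/

set_option autoImplicit false

namespace Crest.Agent.R163

/-- the recursion inequalities (constants `al be be1 g1 g` come from the pairwise inequalities) -/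
structure LocSeq (al be be1 g1 g x t m : ℝ) (X T M : ℕ → ℝ) : Prop where
  X0 : X 0 = 0
  T0 : T 0 = 0
  M0 : M 0 = 0
  K1 : ∀ k, X (k + 1) ≤ X k + x - x * X k / 2 + t * X k - x * T k - t * T k
      + al * (x * M k + m * X k)
  K2 : ∀ k, X k + x - x * X k / 2 + t * X k - x * T k - t * T k ≤ X (k + 1)
  T1 : ∀ k, T k - t + 3 * x * X k + 3 * t * X k - 3 * x * T k
      - be * (x * M k + m * X k) ≤ T (k + 1)
  T2 : ∀ k, T (k + 1) ≤ T k - t + 3 * x * X k + 3 * t * X k - 3 * x * T k
      + be1 * (x * M k + m * X k)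
  M1 : ∀ k, M (k + 1) ≤ M k + m + 4 * x * X k - 4 * t * X k + 4 * x * T k
      + g1 * (x * M k + m * X k) + g * m * M k
  Xmono : ∀ k, X k ≤ X (k + 1)
  Mmono : ∀ k, M k ≤ M (k + 1)
  TX : ∀ k, T k ≤ X k
  XT : ∀ k, -(X k) / 2 ≤ T k
  XM : ∀ k, X k ^ 2 ≤ M k
  MX : ∀ k, M k ≤ 2 * X k

end Crest.Agent.R163
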