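import Crest.Agent.R163.LocRec
import Crest.Agent.R163.LocSeq

/-!
Row 163, q = 3 antiferromagnetic local lemma: the limit moments of the critical trees satisfy the
recursion inequalities `LocSeq`, `LocRec`.
-/

set_option autoImplicit false
set_option maxHeartbeats 400000

namespace Crest.Agent.R163

open Filter Topology

/-- the four functionals -/
noncomputable def F4 : Fin 4 → (Fin 3 → ℝ) → ℝ := ![avg, chi, cub3, sq]

lemma F4_bdd (i : Fin 4) : Bdd (F4 i) := by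
  fin_cases i
  exacts [bdd_avg, bdd_chi, bdd_c3, bdd_sq]

lemma F4_hom (i : Fin 4) : Hom (F4 i) := by
  fin_cases i
  exacts [fun a v _ _ => avg_smul a v, hom_chi, hom_c3, hom_sq]

lemma F4_cont (i : Fin 4) : ContinuousOn (F4 i) {v | ∀ i, 0 ≤ v i} := by
  fin_cases i
  exacts [continuous_avg.continuousOn, continuousOn_chi, continuousOn_c3, continuousOn_sq]

/-- a bilinear expression in the four functionals -/
noncomputable def B4 (c : Fin 4 → Fin 4 → ℝ) (a b : Fin 4 → ℝ) : ℝ :=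
  ∑ i, ∑ j, c i j * (a i * b j)

/-- normalized pairwise upper bound -/
def PUp (φ : (Fin 3 → ℝ) → ℝ) (c : Fin 4 → Fin 4 → ℝ) : Prop :=
  ∀ u v : Fin 3 → ℝ, (∀ i, 0 ≤ u i) → (∀ i, 0 ≤ v i) → (∀ i, v i ≤ 3 / 2) →
    avg u = 1 → avg v = 1 → orb φ u v ≤ B4 c (fun i => F4 i u) (fun j => F4 j v)

/-- normalized pairwise lower bound -/
def PLo (φ : (Fin 3 → ℝ) → ℝ) (c : Fin 4 → Fin 4 → ℝ) : Prop :=
  ∀ u v : Fin 3 → ℝ, (∀ i, 0 ≤ u i) → (∀ i, 0 ≤ v i) → (∀ i, v i ≤ 3 / 2) →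
    avg u = 1 → avg v = 1 → B4 c (fun i => F4 i u) (fun j => F4 j v) ≤ orb φ u v

lemma B4_smul (c : Fin 4 → Fin 4 → ℝ) {a b : ℝ} (ha : 0 ≤ a) (hb : 0 ≤ b) {u v : Fin 3 → ℝ}
    (hu : ∀ i, 0 ≤ u i) (hv : ∀ i, 0 ≤ v i) :
    B4 c (fun i => F4 i fun k => a * u k) (fun j => F4 j fun k => b * v k) =
      a * b * B4 c (fun i => F4 i u) (fun j => F4 j v) := by
  unfold B4
  rw [Finset.mul_sum]
  refine Finset.sum_congr rfl fun i _ => ?_
  rw [Finset.mul_sum]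
  refine Finset.sum_congr rfl fun j _ => ?_
  have e1 := F4_hom i a u ha hu
  have e2 := F4_hom j b v hb hv
  show c i j * (F4 i (fun k => a * u k) * F4 j (fun k => b * v k)) =
    a * b * (c i j * (F4 i u * F4 j v))
  rw [e1, e2]
  ring

lemma B4_zero_left (c : Fin 4 → Fin 4 → ℝ) (b : Fin 4 → ℝ) :
    B4 c (fun i => F4 i fun _ => 0) b = 0 := by
  unfold B4
  refine Finset.sum_eq_zero fun i _ => Finset.sum_eq_zero fun j _ => ?_
  show c i j * (F4 i (fun _ => 0) * b j) = 0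
  rw [(F4_hom i).zero]; ring

lemma B4_zero_right (c : Fin 4 → Fin 4 → ℝ) (a : Fin 4 → ℝ) :
    B4 c a (fun i => F4 i fun _ => 0) = 0 := by
  unfold B4
  refine Finset.sum_eq_zero fun i _ => Finset.sum_eq_zero fun j _ => ?_
  show c i j * (a i * F4 j (fun _ => 0)) = 0
  rw [(F4_hom j).zero]; ring

/-- passage from mean one vectors to all vectors -/
lemma pair_hom {P : (Fin 3 → ℝ) → (Fin 3 → ℝ) → Prop} (hz1 : ∀ v, P (fun _ => 0) v)
    (hz2 : ∀ u, P u (fun _ => 0))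
    (hs : ∀ (a b : ℝ) (u v : Fin 3 → ℝ), 0 < a → 0 < b → (∀ i, 0 ≤ u i) → (∀ i, 0 ≤ v i) →
      (∀ i, v i ≤ 3 / 2) → avg u = 1 → avg v = 1 → P (fun i => a * u i) (fun i => b * v i))
    {u v : Fin 3 → ℝ} (hu : ∀ i, 0 ≤ u i) (hv : ∀ i, 0 ≤ v i) (hv2 : ∀ i, v i ≤ 3 / 2 * avg v) :
    P u v := by
  obtain ⟨a, f, ha, hf, hf1, rfl⟩ := exists_norm hu
  obtain ⟨b, g, hb, hg, hg1, rfl⟩ := exists_norm hv
  rcases ha.eq_or_lt with h | h
  · subst h
    simpa using hz1 _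
  rcases hb.eq_or_lt with h' | h'
  · subst h'
    simpa using hz2 _
  refine hs a b f g h h' hf hg (fun i => ?_) hf1 hg1
  have h3 := hv2 i
  rw [avg_smul, hg1] at h3
  have h4 : b * g i ≤ b * (3 / 2) := by linarith
  exact le_of_mul_le_mul_left h4 h'

lemma PUp.hom {φ : (Fin 3 → ℝ) → ℝ} {c : Fin 4 → Fin 4 → ℝ} (H : PUp φ c) (hφ : Hom φ)
    {u v : Fin 3 → ℝ} (hu : ∀ i, 0 ≤ u i) (hv : ∀ i, 0 ≤ v i) (hv2 : ∀ i, v i ≤ 3 / 2 * avg v) :
    orb φ u v ≤ B4 c (fun i => F4 i u) (fun j => F4 j v) := by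
  refine pair_hom (P := fun u v => orb φ u v ≤ B4 c (fun i => F4 i u) (fun j => F4 j v))
    ?_ ?_ ?_ hu hv hv2
  · intro v; rw [hφ.orb_zero_left, B4_zero_left]
  · intro u; rw [hφ.orb_zero_right, B4_zero_right]
  · intro a b u v ha hb hu hv hv2 hu1 hv1
    rw [hφ.orb_smul ha.le hb.le hu hv, B4_smul c ha.le hb.le hu hv]
    exact mul_le_mul_of_nonneg_left (H u v hu hv hv2 hu1 hv1) (mul_pos ha hb).le

lemma PLo.hom {φ : (Fin 3 → ℝ) → ℝ} {c : Fin 4 → Fin 4 → ℝ} (H : PLo φ c) (hφ : Hom φ)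
    {u v : Fin 3 → ℝ} (hu : ∀ i, 0 ≤ u i) (hv : ∀ i, 0 ≤ v i) (hv2 : ∀ i, v i ≤ 3 / 2 * avg v) :
    B4 c (fun i => F4 i u) (fun j => F4 j v) ≤ orb φ u v := by
  refine pair_hom (P := fun u v => B4 c (fun i => F4 i u) (fun j => F4 j v) ≤ orb φ u v)
    ?_ ?_ ?_ hu hv hv2
  · intro v; rw [hφ.orb_zero_left, B4_zero_left]
  · intro u; rw [hφ.orb_zero_right, B4_zero_right]
  · intro a b u v ha hb hu hv hv2 hu1 hv1
    rw [hφ.orb_smul ha.le hb.le hu hv, B4_smul c ha.le hb.le hu hv]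
    exact mul_le_mul_of_nonneg_left (H u v hu hv hv2 hu1 hv1) (mul_pos ha hb).le

/-! ### law level -/

section law

attribute [local irreducible] orb

variable {Ω₁ Ω₂ : Type*} {L₁ : Ω₁ → Fin 3 → ℝ} {L₂ : Ω₂ → Fin 3 → ℝ}

lemma hasSum_B4 (c : Fin 4 → Fin 4 → ℝ) (h₁ : IsChan L₁) (h₂ : IsChan L₂) :
    HasSum (fun p : Ω₁ × Ω₂ => B4 c (fun i => F4 i (L₁ p.1)) (fun j => F4 j (L₂ p.2)))
      (B4 c (fun i => J (F4 i) L₁) (fun j => J (F4 j) L₂)) := by
  unfold B4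
  exact hasSum_sum fun i _ => hasSum_sum fun j _ =>
    (hasSum_mul_J h₁ h₂ (F4_bdd i) (F4_bdd j)).mul_left (c i j)

lemma PUp.law {φ : (Fin 3 → ℝ) → ℝ} {c : Fin 4 → Fin 4 → ℝ} (H : PUp φ c) (hφ : Hom φ)
    (hb : Bdd φ) (h₁ : IsChan L₁) (h₂ : IsChan L₂)
    (hb2 : ∀ o i, L₂ o i ≤ 3 / 2 * avg (L₂ o)) :
    J φ (mrg L₁ L₂) ≤ B4 c (fun i => J (F4 i) L₁) (fun j => J (F4 j) L₂) := by
  have e1 := J_mrg_orb h₁ h₂ hb
  have e2 := hasSum_B4 c h₁ h₂
  refine hasSum_le (fun p => ?_) e1 e2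
  exact H.hom hφ (h₁.nonneg p.1) (h₂.nonneg p.2) (hb2 p.2)

lemma PLo.law {φ : (Fin 3 → ℝ) → ℝ} {c : Fin 4 → Fin 4 → ℝ} (H : PLo φ c) (hφ : Hom φ)
    (hb : Bdd φ) (h₁ : IsChan L₁) (h₂ : IsChan L₂)
    (hb2 : ∀ o i, L₂ o i ≤ 3 / 2 * avg (L₂ o)) :
    B4 c (fun i => J (F4 i) L₁) (fun j => J (F4 j) L₂) ≤ J φ (mrg L₁ L₂) := by
  have e1 := J_mrg_orb h₁ h₂ hb
  have e2 := hasSum_B4 c h₁ h₂
  refine hasSum_le (fun p => ?_) e2 e1
  exact H.hom hφ (h₁.nonneg p.1) (h₂.nonneg p.2) (hb2 p.2)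

end law

/-! ### single channels -/

section single

variable {Ω : Type*} {L : Ω → Fin 3 → ℝ}

lemma IsChan.J_c3_le (h : IsChan L) : J cub3 L ≤ J chi L :=
  h.J_mono bdd_c3 bdd_chi fun _ hv => c3_le_chi hv

lemma IsChan.le_J_c3 (h : IsChan L) : -(J chi L) / 2 ≤ J cub3 L := by
  have := h.J_mono (bdd_chi.const_mul (-(1 / 2))) bdd_c3 fun v hv => by
    have := neg_chi_le_c3 hv
    linarith
  rw [J_const_mul] at this
  linarith

lemma IsChan.J_sq_le (h : IsChan L) : J sq L ≤ 2 * J chi L := by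
  have := h.J_mono bdd_sq (bdd_chi.const_mul 2) fun v hv => sq_le hv
  rwa [J_const_mul] at this

lemma IsChan.sq_le_J_sq (h : IsChan L) : J chi L ^ 2 ≤ J sq L := by
  have := h.J_mono ((bdd_chi.const_mul (2 * J chi L)).sub (bdd_avg.const_mul (J chi L ^ 2))) bdd_sq
    fun v hv => tangent_le_sq (J chi L) hv
  rw [h.J_sub (bdd_chi.const_mul _) (bdd_avg.const_mul _), J_const_mul, J_const_mul, h.J_avg]
    at this
  nlinarith

lemma IsChan.J_chi_le2 (h : IsChan L) : J chi L ≤ 2 := by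
  have := h.X_le
  norm_num at this
  exact this

lemma c3_one : cub3 (fun _ : Fin 3 => (1 : ℝ)) = 0 := by
  have h : avg (fun _ : Fin 3 => (1 : ℝ)) = 1 := by rw [avg_three]; norm_num
  rw [c3_norm h]; norm_num

lemma sq_one : sq (fun _ : Fin 3 => (1 : ℝ)) = 0 := by
  unfold sq; rw [chi_one]; norm_num

end single

/-! ### the limit moments -/

/-- abstract form of the limit moments: `X, T', M'` are the moments of the powers of the message
law, whose moments are `x = κ² ξ`, `-t = -κ³ T`, `m = κ⁴ M` -/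
structure LocLims (x t m : ℝ) (X T' M' : ℕ → ℝ) : Prop where
  X0 : X 0 = 0
  T0 : T' 0 = 0
  M0 : M' 0 = 0
  Xup : ∀ c, PUp chi c → ∀ k, X (k + 1) ≤ B4 c ![1, X k, T' k, M' k] ![1, x, -t, m]
  Xlo : ∀ c, PLo chi c → ∀ k, B4 c ![1, X k, T' k, M' k] ![1, x, -t, m] ≤ X (k + 1)
  Tup : ∀ c, PUp cub3 c → ∀ k, T' (k + 1) ≤ B4 c ![1, X k, T' k, M' k] ![1, x, -t, m]
  Tlo : ∀ c, PLo cub3 c → ∀ k, B4 c ![1, X k, T' k, M' k] ![1, x, -t, m] ≤ T' (k + 1)
  Mup : ∀ c, PUp sq c → ∀ k, M' (k + 1) ≤ B4 c ![1, X k, T' k, M' k] ![1, x, -t, m]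
  Mlo : ∀ c, PLo sq c → ∀ k, B4 c ![1, X k, T' k, M' k] ![1, x, -t, m] ≤ M' (k + 1)
  Xmono : ∀ k, X k ≤ X (k + 1)
  Mmono : ∀ k, M' k ≤ M' (k + 1)
  TX : ∀ k, T' k ≤ X k
  XT : ∀ k, -(X k) / 2 ≤ T' k
  XM : ∀ k, X k ^ 2 ≤ M' k
  MX : ∀ k, M' k ≤ 2 * X k
  X2 : ∀ k, X k ≤ 2

lemma tendsto_B4 (c : Fin 4 → Fin 4 → ℝ) {a b : ℕ → Fin 4 → ℝ} {A B : Fin 4 → ℝ}
    (ha : ∀ i, Tendsto (fun n => a n i) atTop (𝓝 (A i)))
    (hb : ∀ i, Tendsto (fun n => b n i) atTop (𝓝 (B i))) :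
    Tendsto (fun n => B4 c (a n) (b n)) atTop (𝓝 (B4 c A B)) := by
  unfold B4
  exact tendsto_finsetSum _ fun i _ => tendsto_finsetSum _ fun j _ =>
    ((ha i).mul (hb j)).const_mul _

/-- the limit moments of a decreasing sequence of channels and of the powers of its
antiferromagnetic messages -/
theorem exists_locLims {κ : ℝ}
    (h0 : 0 ≤ κ) (h1 : κ ≤ 1 / 2) {Ω : ℕ → Type*} {P : ∀ n, Ω n → Fin 3 → ℝ}
    (hP : ∀ n, IsChan (P n)) (hdec : ∀ n, CxLe (P (n + 1)) (P n)) :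
    ∃ (ξ T M : ℝ) (X T' M' : ℕ → ℝ),
      Tendsto (fun n => J chi (P n)) atTop (𝓝 ξ) ∧ Tendsto (fun n => J cub3 (P n)) atTop (𝓝 T) ∧
      Tendsto (fun n => J sq (P n)) atTop (𝓝 M) ∧
      (∀ k, Tendsto (fun n => J chi (pw (fun o => W (-κ) (P n o)) k)) atTop (𝓝 (X k))) ∧
      (∀ k, Tendsto (fun n => J cub3 (pw (fun o => W (-κ) (P n o)) k)) atTop (𝓝 (T' k))) ∧
      (∀ k, Tendsto (fun n => J sq (pw (fun o => W (-κ) (P n o)) k)) atTop (𝓝 (M' k))) ∧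
      LocLims (κ ^ 2 * ξ) (κ ^ 3 * T) (κ ^ 4 * M) X T' M' := by
  have hl : Adm 3 (-κ) := adm_three (by linarith) (by linarith)
  obtain ⟨ξ, hξ⟩ := tendsto_J hom_chi continuousOn_chi hP hdec
  obtain ⟨T, hT⟩ := tendsto_J hom_c3 continuousOn_c3 hP hdec
  obtain ⟨M, hM⟩ := tendsto_J hom_sq continuousOn_sq hP hdec
  have hR : ∀ n, IsChan (fun o => W (-κ) (P n o)) := fun n => (hP n).edge hl
  have hRd : ∀ n, CxLe (fun o => W (-κ) (P (n + 1) o)) (fun o => W (-κ) (P n o)) :=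
    fun n => (hdec n).edge hl
  have hpc : ∀ k n, IsChan (pw (fun o => W (-κ) (P n o)) k) := fun k n => (hR n).pw k
  have hpd : ∀ k n, CxLe (pw (fun o => W (-κ) (P (n + 1) o)) k) (pw (fun o => W (-κ) (P n o)) k) :=
    fun k n => (hRd n).pw (hR _) (hR _) k
  choose X hX using fun k => tendsto_J hom_chi continuousOn_chi (hpc k) (hpd k)
  choose T' hT' using fun k => tendsto_J hom_c3 continuousOn_c3 (hpc k) (hpd k)
  choose M' hM' using fun k => tendsto_J hom_sq continuousOn_sq (hpc k) (hpd k)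
  refine ⟨ξ, T, M, X, T', M', hξ, hT, hM, hX, hT', hM', ?_⟩
  -- the single message
  have hx : Tendsto (fun n => J chi (fun o => W (-κ) (P n o))) atTop (𝓝 (κ ^ 2 * ξ)) := by
    have := hξ.const_mul (κ ^ 2)
    refine this.congr fun n => ?_
    rw [(hP n).J_chi_edge]; ring
  have ht : Tendsto (fun n => J cub3 (fun o => W (-κ) (P n o))) atTop (𝓝 (-(κ ^ 3 * T))) := by
    have := (hT.const_mul (κ ^ 3)).neg
    refine this.congr fun n => ?_
    rw [IsChan.J_c3_edge]; ring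
  have hm : Tendsto (fun n => J sq (fun o => W (-κ) (P n o))) atTop (𝓝 (κ ^ 4 * M)) := by
    have := hM.const_mul (κ ^ 4)
    refine this.congr fun n => ?_
    rw [(hP n).J_sq_edge]; ring
  have hb : ∀ n o i, W (-κ) (P n o) i ≤ 3 / 2 * avg (W (-κ) (P n o)) := fun n o i =>
    W_le_three_half h0 h1 ((hP n).nonneg o) i
  have hsucc : ∀ (φ : (Fin 3 → ℝ) → ℝ) k n, J φ (pw (fun o => W (-κ) (P n o)) (k + 1)) =
      J φ (mrg (pw (fun o => W (-κ) (P n o)) k) (fun o => W (-κ) (P n o))) := by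
    intro φ k n
    rw [J_pw_succ, J_mrg_comm]
  have z0 : ∀ {φ : (Fin 3 → ℝ) → ℝ} {a : ℝ}, φ (fun _ => 1) = 0 →
      Tendsto (fun n => J φ (pw (fun o => W (-κ) (P n o)) 0)) atTop (𝓝 a) → a = 0 := by
    intro φ a hφ ha
    have : Tendsto (fun n => J φ (pw (fun o => W (-κ) (P n o)) 0)) atTop (𝓝 0) := by
      simp only [J_pw_zero, hφ]
      exact tendsto_const_nhds
    exact tendsto_nhds_unique ha this
  -- limits of the bilinear forms
  have hlim : ∀ (c : Fin 4 → Fin 4 → ℝ) (k : ℕ),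
      Tendsto (fun n => B4 c (fun i => J (F4 i) (pw (fun o => W (-κ) (P n o)) k))
        (fun j => J (F4 j) (fun o => W (-κ) (P n o)))) atTop
        (𝓝 (B4 c ![1, X k, T' k, M' k] ![1, κ ^ 2 * ξ, -(κ ^ 3 * T), κ ^ 4 * M])) := by
    intro c k
    refine tendsto_B4 c (fun i => ?_) (fun i => ?_)
    · fin_cases i
      · refine tendsto_const_nhds.congr fun n => ?_
        exact (hpc k n).J_avg.symm
      · exact hX k
      · exact hT' k
      · exact hM' k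
    · fin_cases i
      · refine tendsto_const_nhds.congr fun n => ?_
        exact (hR n).J_avg.symm
      · exact hx
      · exact ht
      · exact hm
  refine
    { X0 := z0 chi_one (hX 0)
      T0 := z0 c3_one (hT' 0)
      M0 := z0 sq_one (hM' 0)
      Xup := fun c H k => ?_
      Xlo := fun c H k => ?_
      Tup := fun c H k => ?_
      Tlo := fun c H k => ?_
      Mup := fun c H k => ?_
      Mlo := fun c H k => ?_
      Xmono := fun k => ?_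
      Mmono := fun k => ?_
      TX := fun k => ?_
      XT := fun k => ?_
      XM := fun k => ?_
      MX := fun k => ?_
      X2 := fun k => ?_ }
  · refine le_of_tendsto_of_tendsto' (hX (k + 1)) (hlim c k) fun n => ?_
    rw [hsucc]
    exact H.law hom_chi bdd_chi (hpc k n) (hR n) (hb n)
  · refine le_of_tendsto_of_tendsto' (hlim c k) (hX (k + 1)) fun n => ?_
    rw [hsucc]
    exact H.law hom_chi bdd_chi (hpc k n) (hR n) (hb n)
  · refine le_of_tendsto_of_tendsto' (hT' (k + 1)) (hlim c k) fun n => ?_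
    rw [hsucc]
    exact H.law hom_c3 bdd_c3 (hpc k n) (hR n) (hb n)
  · refine le_of_tendsto_of_tendsto' (hlim c k) (hT' (k + 1)) fun n => ?_
    rw [hsucc]
    exact H.law hom_c3 bdd_c3 (hpc k n) (hR n) (hb n)
  · refine le_of_tendsto_of_tendsto' (hM' (k + 1)) (hlim c k) fun n => ?_
    rw [hsucc]
    exact H.law hom_sq bdd_sq (hpc k n) (hR n) (hb n)
  · refine le_of_tendsto_of_tendsto' (hlim c k) (hM' (k + 1)) fun n => ?_
    rw [hsucc]
    exact H.law hom_sq bdd_sq (hpc k n) (hR n) (hb n)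
  · exact le_of_tendsto_of_tendsto' (hX k) (hX (k + 1)) fun n => cxLe_pw_succ (hR n) k chi ch_chi
  · exact le_of_tendsto_of_tendsto' (hM' k) (hM' (k + 1)) fun n => cxLe_pw_succ (hR n) k sq ch_sq
  · exact le_of_tendsto_of_tendsto' (hT' k) (hX k) fun n => (hpc k n).J_c3_le
  · exact le_of_tendsto_of_tendsto' ((hX k).neg.div_const 2) (hT' k) fun n => (hpc k n).le_J_c3
  · exact le_of_tendsto_of_tendsto' ((hX k).pow 2) (hM' k) fun n => (hpc k n).sq_le_J_sq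
  · exact le_of_tendsto_of_tendsto' (hM' k) ((hX k).const_mul 2) fun n => (hpc k n).J_sq_le
  · exact le_of_tendsto' (hX k) fun n => (hpc k n).J_chi_le2

/-- the limit moments of the regular trees -/
theorem reg_locLims {κ : ℝ} (h0 : 0 ≤ κ) (h1 : κ ≤ 1 / 2) (b : ℕ) :
    ∃ (ξ T M : ℝ) (X T' M' : ℕ → ℝ),
      Tendsto (fun n => J chi (reg 3 b (-κ) n)) atTop (𝓝 ξ) ∧
      Tendsto (fun n => J cub3 (reg 3 b (-κ) n)) atTop (𝓝 T) ∧
      Tendsto (fun n => J sq (reg 3 b (-κ) n)) atTop (𝓝 M) ∧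
      LocLims (κ ^ 2 * ξ) (κ ^ 3 * T) (κ ^ 4 * M) X T' M' ∧
      X b = ξ ∧ T' b = T ∧ M' b = M := by
  have hl : Adm 3 (-κ) := adm_three (by linarith) (by linarith)
  obtain ⟨ξ, T, M, X, T', M', hξ, hT, hM, hX, hT', hM', hs⟩ := exists_locLims h0 h1
    (fun n => reg_isChan b hl n) (fun n => cxLe_reg_succ b hl n)
  refine ⟨ξ, T, M, X, T', M', hξ, hT, hM, hs, ?_, ?_, ?_⟩
  · refine tendsto_nhds_unique ((hX b).congr fun n => ?_) ((tendsto_add_atTop_iff_nat 1).2 hξ)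
    rw [J_reg_succ]
  · refine tendsto_nhds_unique ((hT' b).congr fun n => ?_) ((tendsto_add_atTop_iff_nat 1).2 hT)
    rw [J_reg_succ]
  · refine tendsto_nhds_unique ((hM' b).congr fun n => ?_) ((tendsto_add_atTop_iff_nat 1).2 hM)
    rw [J_reg_succ]

lemma pwt_tsum_tendsto {d : ℝ} (hd : 0 ≤ d) {a : ℕ → ℕ → ℝ} {A : ℕ → ℝ} {K : ℝ}
    (hK : ∀ n k, |a n k| ≤ K) (h : ∀ k, Tendsto (fun n => a n k) atTop (𝓝 (A k))) :
    Tendsto (fun n => ∑' k, pwt d k * a n k) atTop (𝓝 (∑' k, pwt d k * A k)) := by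
  refine tendsto_tsum_of_dominated_convergence (bound := fun k => pwt d k * K)
    ((pwt_hasSum d).summable.mul_right K) (fun k => (h k).const_mul _) ?_
  refine Eventually.of_forall fun n k => ?_
  rw [Real.norm_eq_abs, abs_mul, abs_of_nonneg (pwt_nonneg hd k)]
  exact mul_le_mul_of_nonneg_left (hK n k) (pwt_nonneg hd k)

/-- the limit moments of the Poisson trees -/
theorem gw_locLims {κ d : ℝ} (h0 : 0 ≤ κ) (h1 : κ ≤ 1 / 2) (hd : 0 ≤ d) :
    ∃ (ξ T M : ℝ) (X T' M' : ℕ → ℝ),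
      Tendsto (fun n => J chi (gw 3 (-κ) d n)) atTop (𝓝 ξ) ∧
      Tendsto (fun n => J cub3 (gw 3 (-κ) d n)) atTop (𝓝 T) ∧
      Tendsto (fun n => J sq (gw 3 (-κ) d n)) atTop (𝓝 M) ∧
      LocLims (κ ^ 2 * ξ) (κ ^ 3 * T) (κ ^ 4 * M) X T' M' ∧
      ∑' k, pwt d k * X k = ξ ∧ ∑' k, pwt d k * T' k = T ∧ ∑' k, pwt d k * M' k = M := by
  have hl : Adm 3 (-κ) := adm_three (by linarith) (by linarith)
  obtain ⟨ξ, T, M, X, T', M', hξ, hT, hM, hX, hT', hM', hs⟩ := exists_locLims h0 h1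
    (fun n => gw_isChan hl hd n) (fun n => cxLe_gw_succ hl hd n)
  have hR : ∀ n, IsChan (fun o => W (-κ) (gw 3 (-κ) d n o)) := fun n => (gw_isChan hl hd n).edge hl
  have hbX : ∀ n k, |J chi (pw (fun o => W (-κ) (gw 3 (-κ) d n o)) k)| ≤ 4 := by
    intro n k
    have h2 := ((hR n).pw k).X_nonneg
    have h3 := ((hR n).pw k).J_chi_le2
    rw [abs_of_nonneg h2]; linarith
  have hbT : ∀ n k, |J cub3 (pw (fun o => W (-κ) (gw 3 (-κ) d n o)) k)| ≤ 4 := by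
    intro n k
    have h2 := ((hR n).pw k).J_c3_le
    have h3 := ((hR n).pw k).J_chi_le2
    have h4 := ((hR n).pw k).le_J_c3
    exact abs_le.2 ⟨by linarith, by linarith⟩
  have hbM : ∀ n k, |J sq (pw (fun o => W (-κ) (gw 3 (-κ) d n o)) k)| ≤ 4 := by
    intro n k
    have h2 := ((hR n).pw k).J_sq_le
    have h3 := ((hR n).pw k).J_chi_le2
    have h4 := ((hR n).pw k).sq_le_J_sq
    rw [abs_of_nonneg (le_trans (sq_nonneg _) h4)]
    linarith
  refine ⟨ξ, T, M, X, T', M', hξ, hT, hM, hs, ?_, ?_, ?_⟩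
  · refine tendsto_nhds_unique (pwt_tsum_tendsto hd hbX hX)
      (((tendsto_add_atTop_iff_nat 1).2 hξ).congr fun n => ?_)
    rw [gw_succ]
    exact (J_pois hd (hR n) bdd_chi hom_chi).tsum_eq.symm
  · refine tendsto_nhds_unique (pwt_tsum_tendsto hd hbT hT')
      (((tendsto_add_atTop_iff_nat 1).2 hT).congr fun n => ?_)
    rw [gw_succ]
    exact (J_pois hd (hR n) bdd_c3 hom_c3).tsum_eq.symm
  · refine tendsto_nhds_unique (pwt_tsum_tendsto hd hbM hM')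
      (((tendsto_add_atTop_iff_nat 1).2 hM).congr fun n => ?_)
    rw [gw_succ]
    exact (J_pois hd (hR n) bdd_sq hom_sq).tsum_eq.symm

/-! ### the concrete structures -/

lemma B4_F4 {c : Fin 4 → Fin 4 → ℝ} {u v : Fin 3 → ℝ} (hu : avg u = 1) (hv : avg v = 1) :
    B4 c (fun i => F4 i u) (fun j => F4 j v) =
      c 0 0 + c 0 1 * chi v + c 0 2 * cub3 v + c 0 3 * chi v ^ 2 +
      (c 1 0 * chi u + c 1 1 * (chi u * chi v) + c 1 2 * (chi u * cub3 v)
        + c 1 3 * (chi u * chi v ^ 2)) +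
      (c 2 0 * cub3 u + c 2 1 * (cub3 u * chi v) + c 2 2 * (cub3 u * cub3 v)
        + c 2 3 * (cub3 u * chi v ^ 2)) +
      (c 3 0 * chi u ^ 2 + c 3 1 * (chi u ^ 2 * chi v) + c 3 2 * (chi u ^ 2 * cub3 v)
        + c 3 3 * (chi u ^ 2 * chi v ^ 2)) := by
  have e0 : F4 0 = avg := rfl
  have e1 : F4 1 = chi := rfl
  have e2 : F4 2 = cub3 := rfl
  have e3 : F4 3 = sq := rfl
  unfold B4
  simp only [Fin.sum_univ_four, e0, e1, e2, e3, hu, hv, sq_norm hu, sq_norm hv]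
  ring

lemma B4_vec (c : Fin 4 → Fin 4 → ℝ) (X T M x t m : ℝ) :
    B4 c ![1, X, T, M] ![1, x, -t, m] =
      c 0 0 + c 0 1 * x - c 0 2 * t + c 0 3 * m +
      (c 1 0 * X + c 1 1 * (X * x) - c 1 2 * (X * t) + c 1 3 * (X * m)) +
      (c 2 0 * T + c 2 1 * (T * x) - c 2 2 * (T * t) + c 2 3 * (T * m)) +
      (c 3 0 * M + c 3 1 * (M * x) - c 3 2 * (M * t) + c 3 3 * (M * m)) := by
  unfold B4
  simp only [Fin.sum_univ_four, Matrix.cons_val_zero, Matrix.cons_val_one, Matrix.cons_val]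
  ring

theorem LocLims.locRec {x t m : ℝ} {X T' M' : ℕ → ℝ} (L : LocLims x t m X T' M')
    {al be be1 C D : ℝ} (H : PairRec al be be1 C D) :
    LocRec al be be1 C D x t m X T' M' where
  X0 := L.X0
  T0 := L.T0
  M0 := L.M0
  K0 k := by
    have h := L.Xup ![![0, 1, 0, 0], ![1, 1, 0, 0], ![0, 0, 0, 0], ![0, 0, 0, 0]]
      (fun u v hu hv hv2 hu1 hv1 => by
        rw [B4_F4 hu1 hv1]
        simp only [Matrix.cons_val_zero, Matrix.cons_val_one, Matrix.cons_val]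
        linarith [H.K0 u v hu hv hv2 hu1 hv1]) k
    rw [B4_vec] at h
    simp only [Matrix.cons_val_zero, Matrix.cons_val_one, Matrix.cons_val] at h
    linarith
  K1 k := by
    have h := L.Xup ![![0, 1, 0, 0], ![1, -(1 / 2), -1, al], ![0, -1, 1, 0], ![0, al, 0, 0]]
      (fun u v hu hv hv2 hu1 hv1 => by
        rw [B4_F4 hu1 hv1]
        simp only [Matrix.cons_val_zero, Matrix.cons_val_one, Matrix.cons_val]
        linarith [H.K1 u v hu hv hv2 hu1 hv1]) k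
    rw [B4_vec] at h
    simp only [Matrix.cons_val_zero, Matrix.cons_val_one, Matrix.cons_val] at h
    linarith
  K2 k := by
    have h := L.Xlo ![![0, 1, 0, 0], ![1, -(1 / 2), -1, 0], ![0, -1, 1, 0], ![0, 0, 0, 0]]
      (fun u v hu hv hv2 hu1 hv1 => by
        rw [B4_F4 hu1 hv1]
        simp only [Matrix.cons_val_zero, Matrix.cons_val_one, Matrix.cons_val]
        linarith [H.K2 u v hu hv hv2 hu1 hv1]) k
    rw [B4_vec] at h
    simp only [Matrix.cons_val_zero, Matrix.cons_val_one, Matrix.cons_val] at h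
    linarith
  T1 k := by
    have h := L.Tlo ![![0, 0, 1, 0], ![0, 3, -3, -be], ![1, -3, 0, 0], ![0, -be, 0, 0]]
      (fun u v hu hv hv2 hu1 hv1 => by
        rw [B4_F4 hu1 hv1]
        simp only [Matrix.cons_val_zero, Matrix.cons_val_one, Matrix.cons_val]
        linarith [H.T1 u v hu hv hv2 hu1 hv1]) k
    rw [B4_vec] at h
    simp only [Matrix.cons_val_zero, Matrix.cons_val_one, Matrix.cons_val] at h
    linarith
  T2 k := by
    have h := L.Tup ![![0, 0, 1, 0], ![0, 3, -3, be1], ![1, -3, 0, 0], ![0, be1, 0, 0]]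
      (fun u v hu hv hv2 hu1 hv1 => by
        rw [B4_F4 hu1 hv1]
        simp only [Matrix.cons_val_zero, Matrix.cons_val_one, Matrix.cons_val]
        linarith [H.T2 u v hu hv hv2 hu1 hv1]) k
    rw [B4_vec] at h
    simp only [Matrix.cons_val_zero, Matrix.cons_val_one, Matrix.cons_val] at h
    linarith
  MC k := by
    have h := L.Mup ![![0, 0, 0, 1], ![0, C, 0, D], ![0, 0, 0, 0], ![1, 0, 0, 0]]
      (fun u v hu hv hv2 hu1 hv1 => by
        rw [B4_F4 hu1 hv1]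
        simp only [Matrix.cons_val_zero, Matrix.cons_val_one, Matrix.cons_val]
        linarith [H.MC u v hu hv hv2 hu1 hv1]) k
    rw [B4_vec] at h
    simp only [Matrix.cons_val_zero, Matrix.cons_val_one, Matrix.cons_val] at h
    linarith
  Xmono := L.Xmono
  Mmono := L.Mmono
  TX := L.TX
  XT := L.XT
  XM := L.XM
  MX := L.MX

theorem LocLims.locSeq {x t m : ℝ} {X T' M' : ℕ → ℝ} (L : LocLims x t m X T' M')
    {al be be1 g1 g : ℝ} (H : PairLoc al be be1 g1 g) :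
    LocSeq al be be1 g1 g x t m X T' M' where
  X0 := L.X0
  T0 := L.T0
  M0 := L.M0
  K1 k := by
    have h := L.Xup ![![0, 1, 0, 0], ![1, -(1 / 2), -1, al], ![0, -1, 1, 0], ![0, al, 0, 0]]
      (fun u v hu hv hv2 hu1 hv1 => by
        rw [B4_F4 hu1 hv1]
        simp only [Matrix.cons_val_zero, Matrix.cons_val_one, Matrix.cons_val]
        linarith [H.K1 u v hu hv hv2 hu1 hv1]) k
    rw [B4_vec] at h
    simp only [Matrix.cons_val_zero, Matrix.cons_val_one, Matrix.cons_val] at h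
    linarith
  K2 k := by
    have h := L.Xlo ![![0, 1, 0, 0], ![1, -(1 / 2), -1, 0], ![0, -1, 1, 0], ![0, 0, 0, 0]]
      (fun u v hu hv hv2 hu1 hv1 => by
        rw [B4_F4 hu1 hv1]
        simp only [Matrix.cons_val_zero, Matrix.cons_val_one, Matrix.cons_val]
        linarith [H.K2 u v hu hv hv2 hu1 hv1]) k
    rw [B4_vec] at h
    simp only [Matrix.cons_val_zero, Matrix.cons_val_one, Matrix.cons_val] at h
    linarith
  T1 k := by
    have h := L.Tlo ![![0, 0, 1, 0], ![0, 3, -3, -be], ![1, -3, 0, 0], ![0, -be, 0, 0]]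
      (fun u v hu hv hv2 hu1 hv1 => by
        rw [B4_F4 hu1 hv1]
        simp only [Matrix.cons_val_zero, Matrix.cons_val_one, Matrix.cons_val]
        linarith [H.T1 u v hu hv hv2 hu1 hv1]) k
    rw [B4_vec] at h
    simp only [Matrix.cons_val_zero, Matrix.cons_val_one, Matrix.cons_val] at h
    linarith
  T2 k := by
    have h := L.Tup ![![0, 0, 1, 0], ![0, 3, -3, be1], ![1, -3, 0, 0], ![0, be1, 0, 0]]
      (fun u v hu hv hv2 hu1 hv1 => by
        rw [B4_F4 hu1 hv1]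
        simp only [Matrix.cons_val_zero, Matrix.cons_val_one, Matrix.cons_val]
        linarith [H.T2 u v hu hv hv2 hu1 hv1]) k
    rw [B4_vec] at h
    simp only [Matrix.cons_val_zero, Matrix.cons_val_one, Matrix.cons_val] at h
    linarith
  M1 k := by
    have h := L.Mup ![![0, 0, 0, 1], ![0, 4, 4, g1], ![0, 4, 0, 0], ![1, g1, 0, g]]
      (fun u v hu hv hv2 hu1 hv1 => by
        rw [B4_F4 hu1 hv1]
        simp only [Matrix.cons_val_zero, Matrix.cons_val_one, Matrix.cons_val]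
        linarith [H.M1 u v hu hv hv2 hu1 hv1]) k
    rw [B4_vec] at h
    simp only [Matrix.cons_val_zero, Matrix.cons_val_one, Matrix.cons_val] at h
    linarith
  Xmono := L.Xmono
  Mmono := L.Mmono
  TX := L.TX
  XT := L.XT
  XM := L.XM
  MX := L.MX

/-- **regular trees** -/
theorem reg_locRec {al be be1 C D : ℝ} (H : PairRec al be be1 C D) {κ : ℝ}
    (h0 : 0 ≤ κ) (h1 : κ ≤ 1 / 2) (b : ℕ) :
    ∃ (ξ T M : ℝ) (X T' M' : ℕ → ℝ),
      Tendsto (fun n => J chi (reg 3 b (-κ) n)) atTop (𝓝 ξ) ∧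
      Tendsto (fun n => J sq (reg 3 b (-κ) n)) atTop (𝓝 M) ∧
      LocRec al be be1 C D (κ ^ 2 * ξ) (κ ^ 3 * T) (κ ^ 4 * M) X T' M' ∧
      X b = ξ ∧ T' b = T ∧ M' b = M := by
  obtain ⟨ξ, T, M, X, T', M', hξ, -, hM, hs, h⟩ := reg_locLims h0 h1 b
  exact ⟨ξ, T, M, X, T', M', hξ, hM, hs.locRec H, h⟩

/-- **Poisson trees** -/
theorem gw_locRec {al be be1 C D : ℝ} (H : PairRec al be be1 C D) {κ d : ℝ}
    (h0 : 0 ≤ κ) (h1 : κ ≤ 1 / 2) (hd : 0 ≤ d) :
    ∃ (ξ T M : ℝ) (X T' M' : ℕ → ℝ),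
      Tendsto (fun n => J chi (gw 3 (-κ) d n)) atTop (𝓝 ξ) ∧
      Tendsto (fun n => J sq (gw 3 (-κ) d n)) atTop (𝓝 M) ∧
      LocRec al be be1 C D (κ ^ 2 * ξ) (κ ^ 3 * T) (κ ^ 4 * M) X T' M' ∧
      ∑' k, pwt d k * X k = ξ ∧ ∑' k, pwt d k * T' k = T ∧ ∑' k, pwt d k * M' k = M := by
  obtain ⟨ξ, T, M, X, T', M', hξ, -, hM, hs, h⟩ := gw_locLims h0 h1 hd
  exact ⟨ξ, T, M, X, T', M', hξ, hM, hs.locRec H, h⟩

end Crest.Agent.R163
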