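import Crest.Agent.R163.LocBase

/-! Row 163, three states, antiferromagnetic local lemma: kernel check of the polynomial inequality
behind `K1` (Bernstein coefficients on cells). -/

set_option autoImplicit false
set_option maxRecDepth 1000000

namespace Crest.Agent.R163.Loc.K1

open Crest.Agent.R163.Bern Crest.Agent.R163.Loc Crest.Agent.R163.Q3


/-- the matrix -/
def C : List (List Int) :=
  [[0, 0, 0, 0, 0, 0, 0, 0], [0, 0, 0, 48, 0, 0, 0, 0], [0, 0, 0, -96, -24, 0, 0, 0], [0, 192, 192, 48, -36, 0, -6, 0], [0, 0, -96, 72, 4, -2, -3, 0], [0, 0, 0, 0, 4, 2, -1, 0], [0, 0, 0, -24, 6, -1, 4, 0], [0, 0, 0, 0, 0, 0, 0, 0]]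

/-- data of the check -/
def D : Data where
  k := 102
  n := 8
  m := 7
  n' := 8
  m' := 7
  XM := 32
  YM := 8
  XM' := 2
  YM' := 2
  S := 5915
  S' := 5915
  SC := 861
  cr := 16
  cy := 4
  cr' := 1
  cy' := 1
  C := C
  fs := fs
  gs := fs

theorem D_ok : D.ok = true := by decide +kernel

/-- the right cells -/
def cells : List ((Int × Int) × List (Int × Int)) :=
  [((0, 1), [(0, 1)])]

theorem cov : covOK 0 1 0 1 cells = true := by decide +kernel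

theorem row_0_0 : D.row 0 16 0 4 (0, 1) (0, 1)
    [((0, 4), [(0, 4)]), ((4, 5), [(0, 4)]), ((5, 6), [(0, 1), (1, 2), (2, 4)]), ((6, 8), [(0, 2), (2, 4)]), ((8, 16), [(0, 4)])] = true := by decide +kernel

theorem rows : ∀ I' ∈ cells, ∀ J' ∈ I'.2, ∃ left,
    D.row 0 16 0 4 I'.1 J' left = true := by
  intro I' hI' J' hJ'
  simp only [cells, List.mem_cons, List.not_mem_nil, or_false] at hI'
  subst hI'
  simp only [List.mem_cons, List.not_mem_nil, or_false] at hJ'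
  subst hJ'
  exact ⟨_, row_0_0⟩

theorem nonneg {r y r2 y2 : ℝ} (hr0 : 0 ≤ r) (hr1 : r ≤ 1) (hy0 : 0 ≤ y) (hy1 : y ≤ 1)
    (hr0' : 0 ≤ r2) (hr1' : r2 ≤ 1) (hy0' : 0 ≤ y2) (hy1' : y2 ≤ 1) :
    0 ≤ bil C (fs.map (ev2 r y)) (fs.map (ev2 r2 y2)) := by
  have e1 : (((0 : Int) : ℝ) / ((D.cr : Int) : ℝ)) = 0 := by
    show (((0 : Int) : ℝ) / (((16 : Int)) : ℝ)) = 0
    norm_num
  have e2 : (((16 : Int) : ℝ) / ((D.cr : Int) : ℝ)) = 1 := by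
    show (((16 : Int) : ℝ) / (((16 : Int)) : ℝ)) = 1
    norm_num
  have e3 : (((0 : Int) : ℝ) / ((D.cy : Int) : ℝ)) = 0 := by
    show (((0 : Int) : ℝ) / (((4 : Int)) : ℝ)) = 0
    norm_num
  have e4 : (((4 : Int) : ℝ) / ((D.cy : Int) : ℝ)) = 1 := by
    show (((4 : Int) : ℝ) / (((4 : Int)) : ℝ)) = 1
    norm_num
  have e1' : (((0 : Int) : ℝ) / ((D.cr' : Int) : ℝ)) = 0 := by
    show (((0 : Int) : ℝ) / (((1 : Int)) : ℝ)) = 0
    norm_num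
  have e2' : (((1 : Int) : ℝ) / ((D.cr' : Int) : ℝ)) = 1 := by
    show (((1 : Int) : ℝ) / (((1 : Int)) : ℝ)) = 1
    norm_num
  have e3' : (((0 : Int) : ℝ) / ((D.cy' : Int) : ℝ)) = 0 := by
    show (((0 : Int) : ℝ) / (((1 : Int)) : ℝ)) = 0
    norm_num
  have e4' : (((1 : Int) : ℝ) / ((D.cy' : Int) : ℝ)) = 1 := by
    show (((1 : Int) : ℝ) / (((1 : Int)) : ℝ)) = 1
    norm_num
  exact Data.grid_sound D_ok cov rows (e1.trans_le hr0) (hr1.trans_eq e2.symm)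
    (e3.trans_le hy0) (hy1.trans_eq e4.symm) (e1'.trans_le hr0') (hr1'.trans_eq e2'.symm)
    (e3'.trans_le hy0') (hy1'.trans_eq e4'.symm)

/-- the certified polynomial -/
noncomputable def P (s c S C : ℝ) : ℝ := (1/2)*(c*S*C) + (-1/2)*(c*S^2) + (1/8)*(s*S^2) + (1/2)*(s*c*C) + (-1/2)*(s^2*C) + (1/8)*(s^2*S) + (2/3)*(c^2*C^2) + (-1/3)*(c^2*S*C) + (-1/3)*(s*c*C^2) + (-1/6)*(s*c*S*C) + (3/4)*(s*c*S^2) + (3/4)*(s^2*S*C) + (1/4)*(s^2*S^2) + (-1/6)*(c^2*S^3) + (-1/4)*(s*c*S^3) + (-1/4)*(s^2*S^3) + (-1/6)*(s^3*C^2) + (-1/4)*(s^3*S*C) + (-1/4)*(s^3*S^2) + (1/3)*(s^3*S^3)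

theorem P_nonneg {s c S C : ℝ} (h : Cham s c) (h' : Cham (4 * S) (-(8 * C))) : 0 ≤ P s c S C := by
  obtain ⟨r, t, h1, h2, h3, h4, h5, h6⟩ := Cham.polar h
  obtain ⟨r', t', h1', h2', h3', h4', h5', h6'⟩ := Cham.polar h'
  have key := nonneg h1 h2 h3 h4 h1' h2' h3' h4'
  rw [fs_map, fs_map, h5, h6, h5', h6'] at key
  have e : bil Loc.K1.C [1, (2*s), (4*c), (2*s)^2, (2*s)*(4*c), (4*c)^2, (2*s)^3, (2*s)^2*(4*c)] [1, (2*(4*S)), (4*(-(8*C))), (2*(4*S))^2, (2*(4*S))*(4*(-(8*C))), (4*(-(8*C)))^2, (2*(4*S))^3, (2*(4*S))^2*(4*(-(8*C)))] = 49152 * P s c S C := by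
    simp only [bil, dotR, Loc.K1.C, P]
    push_cast
    ring
  rw [e] at key
  linarith


end Crest.Agent.R163.Loc.K1
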