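import Crest.Agent.R163.LocDef

/-!
Row 163, q = 3 antiferromagnetic local lemma: pairwise inequalities and the linear recursion
inequalities satisfied by the second, third and fourth order moments of the `k`-fold merges of a
message law.

`x = κ² ξ`, `t = κ³ T`, `m = κ⁴ M` are the moments (with the sign of the third one reversed) of the
single message law `R`; `X k`, `T k`, `M k` are `J chi`, `J cub3`, `J sq` of the `k`-fold merge of `R`.
-/

set_option autoImplicit false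

namespace Crest.Agent.R163

/-- the six pairwise inequalities (`u` arbitrary, `v` a message, `v i ≤ 3/2`) -/
structure PairRec (al be be1 C D : ℝ) : Prop where
  K0 : ∀ u v : Fin 3 → ℝ, (∀ i, 0 ≤ u i) → (∀ i, 0 ≤ v i) → (∀ i, v i ≤ 3 / 2) →
    avg u = 1 → avg v = 1 → orb chi u v ≤ chi u + chi v + chi u * chi v
  K1 : ∀ u v : Fin 3 → ℝ, (∀ i, 0 ≤ u i) → (∀ i, 0 ≤ v i) → (∀ i, v i ≤ 3 / 2) →
    avg u = 1 → avg v = 1 →
    orb chi u v ≤ chi u + chi v - chi u * chi v / 2 - chi u * cub3 v - cub3 u * chi v + cub3 u * cub3 v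
      + al * (chi u * chi v * (chi u + chi v))
  K2 : ∀ u v : Fin 3 → ℝ, (∀ i, 0 ≤ u i) → (∀ i, 0 ≤ v i) → (∀ i, v i ≤ 3 / 2) →
    avg u = 1 → avg v = 1 →
    chi u + chi v - chi u * chi v / 2 - chi u * cub3 v - cub3 u * chi v + cub3 u * cub3 v ≤ orb chi u v
  T1 : ∀ u v : Fin 3 → ℝ, (∀ i, 0 ≤ u i) → (∀ i, 0 ≤ v i) → (∀ i, v i ≤ 3 / 2) →
    avg u = 1 → avg v = 1 →
    cub3 u + cub3 v + 3 * (chi u * chi v) - 3 * (chi u * cub3 v + cub3 u * chi v)
      - be * (chi u * chi v * (chi u + chi v)) ≤ orb cub3 u v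
  T2 : ∀ u v : Fin 3 → ℝ, (∀ i, 0 ≤ u i) → (∀ i, 0 ≤ v i) → (∀ i, v i ≤ 3 / 2) →
    avg u = 1 → avg v = 1 →
    orb cub3 u v ≤ cub3 u + cub3 v + 3 * (chi u * chi v) - 3 * (chi u * cub3 v + cub3 u * chi v)
      + be1 * (chi u * chi v * (chi u + chi v))
  MC : ∀ u v : Fin 3 → ℝ, (∀ i, 0 ≤ u i) → (∀ i, 0 ≤ v i) → (∀ i, v i ≤ 3 / 2) →
    avg u = 1 → avg v = 1 →
    orb sq u v ≤ chi u ^ 2 + chi v ^ 2 + C * (chi u * chi v) + D * (chi u * chi v ^ 2)

/-- the recursion inequalities (constants `al be be1 C D` come from the pairwise inequalities) -/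
structure LocRec (al be be1 C D x t m : ℝ) (X T M : ℕ → ℝ) : Prop where
  X0 : X 0 = 0
  T0 : T 0 = 0
  M0 : M 0 = 0
  K0 : ∀ k, X (k + 1) ≤ X k + x + x * X k
  K1 : ∀ k, X (k + 1) ≤ X k + x - x * X k / 2 + t * X k - x * T k - t * T k
      + al * (x * M k + m * X k)
  K2 : ∀ k, X k + x - x * X k / 2 + t * X k - x * T k - t * T k ≤ X (k + 1)
  T1 : ∀ k, T k - t + 3 * x * X k + 3 * t * X k - 3 * x * T k
      - be * (x * M k + m * X k) ≤ T (k + 1)
  T2 : ∀ k, T (k + 1) ≤ T k - t + 3 * x * X k + 3 * t * X k - 3 * x * T k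
      + be1 * (x * M k + m * X k)
  MC : ∀ k, M (k + 1) ≤ M k + m + C * (x * X k) + D * (m * X k)
  Xmono : ∀ k, X k ≤ X (k + 1)
  Mmono : ∀ k, M k ≤ M (k + 1)
  TX : ∀ k, T k ≤ X k
  XT : ∀ k, -(X k) / 2 ≤ T k
  XM : ∀ k, X k ^ 2 ≤ M k
  MX : ∀ k, M k ≤ 2 * X k

end Crest.Agent.R163
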