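import Crest.Agent.R163.Q3Sum

/-!
Row 163, three states, antiferromagnetic local lemma: generated polynomial identities (orbit sums of
the polynomial majorants/minorants of the merge functionals in terms of the invariants).
-/

set_option autoImplicit false
set_option linter.unusedSimpArgs false
set_option maxHeartbeats 4000000

namespace Crest.Agent.R163.Loc

open Crest.Agent.R163.Q3


/-- monomial symmetric polynomial -/
noncomputable def m000 (a b c : ℝ) : ℝ := 1

lemma m000_S6 (a b c x y z : ℝ) : S6 m000 a b c x y z = 6 * (m000 a b c * m000 x y z) := by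
  simp only [S6, m000]; ring

lemma m000_sc (a b c : ℝ) (h : a + b + c = 3) : m000 a b c = 1*(1) := by
  obtain rfl : c = 3 - a - b := by linarith
  simp only [i2, i3, m000]; ring

/-- monomial symmetric polynomial -/
noncomputable def m330 (a b c : ℝ) : ℝ := a^3*b^3 + a^3*c^3 + b^3*c^3

lemma m330_S6 (a b c x y z : ℝ) : S6 m330 a b c x y z = 2 * (m330 a b c * m330 x y z) := by
  simp only [S6, m330]; ring

lemma m330_sc (a b c : ℝ) (h : a + b + c = 3) : m330 a b c = 3*(1) + (-21)*((i3 a b c)) + (9/2)*((i2 a b c)) + 3*((i3 a b c)^2) + (9/2)*((i2 a b c)*(i3 a b c)) + (27/4)*((i2 a b c)^2) + (-27/8)*((i2 a b c)^3) := by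
  obtain rfl : c = 3 - a - b := by linarith
  simp only [i2, i3, m330]; ring

/-- monomial symmetric polynomial -/
noncomputable def m600 (a b c : ℝ) : ℝ := a^6 + b^6 + c^6

lemma m600_S6 (a b c x y z : ℝ) : S6 m600 a b c x y z = 2 * (m600 a b c * m600 x y z) := by
  simp only [S6, m600]; ring

lemma m600_sc (a b c : ℝ) (h : a + b + c = 3) : m600 a b c = 3*(1) + 60*((i3 a b c)) + 45*((i2 a b c)) + 3*((i3 a b c)^2) + 45*((i2 a b c)*(i3 a b c)) + (135/2)*((i2 a b c)^2) + (27/4)*((i2 a b c)^3) := by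
  obtain rfl : c = 3 - a - b := by linarith
  simp only [i2, i3, m600]; ring

/-- monomial symmetric polynomial -/
noncomputable def m700 (a b c : ℝ) : ℝ := a^7 + b^7 + c^7

lemma m700_S6 (a b c x y z : ℝ) : S6 m700 a b c x y z = 2 * (m700 a b c * m700 x y z) := by
  simp only [S6, m700]; ring

lemma m700_sc (a b c : ℝ) (h : a + b + c = 3) : m700 a b c = 3*(1) + 105*((i3 a b c)) + 63*((i2 a b c)) + 21*((i3 a b c)^2) + (315/2)*((i2 a b c)*(i3 a b c)) + (315/2)*((i2 a b c)^2) + (63/4)*((i2 a b c)^2*(i3 a b c)) + (189/4)*((i2 a b c)^3) := by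
  obtain rfl : c = 3 - a - b := by linarith
  simp only [i2, i3, m700]; ring

/-- polynomial bound `K1` -/
noncomputable def QK1 (a b c : ℝ) : ℝ :=
  let Z := (a+b+c)/3;
  let E := a*b+b*c+c*a;
  let v := Z - 1;
  2*Z - (2/3)*(E*(1 - v + v^2 - v^3 + (2/3)*v^4))

lemma QK1_eq (a b c : ℝ) : QK1 a b c = (2/3) * m100 a b c + (-28/9) * m110 a b c + (52/9) * m111 a b c + (52/27) * m210 a b c + (-80/27) * m211 a b c + (-32/27) * m220 a b c + (-16/27) * m310 a b c + (88/81) * m221 a b c + (154/243) * m311 a b c + (22/81) * m320 a b c + (22/243) * m410 a b c + (-16/81) * m222 a b c + (-88/729) * m321 a b c + (-8/243) * m330 a b c + (-4/81) * m411 a b c + (-16/729) * m420 a b c + (-4/729) * m510 a b c := by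
  simp only [QK1, m100, m110, m111, m210, m211, m220, m310, m221, m311, m320, m410, m222, m321, m330, m411, m420, m510]; ring

/-- orbit sum of `QK1` as a polynomial in the invariants -/
noncomputable def GK1 (s c S C : ℝ) : ℝ := 6*(S) + 6*(s) + 6*(c*C) + (-6)*(c*S) + (-6)*(s*C) + (-3)*(s*S) + (-3)*(c*S*C) + 3*(c*S^2) + 3*(s*S^2) + (-3)*(s*c*C) + 3*(s^2*C) + 3*(s^2*S) + (-4)*(c^2*C^2) + 2*(c^2*S*C) + 2*(s*c*C^2) + 1*(s*c*S*C) + (-9/2)*(s*c*S^2) + (-9/2)*(s^2*S*C) + (-3/2)*(s^2*S^2) + 1*(c^2*S^3) + (3/2)*(s*c*S^3) + (3/2)*(s^2*S^3) + 1*(s^3*C^2) + (3/2)*(s^3*S*C) + (3/2)*(s^3*S^2) + (-2)*(s^3*S^3)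

lemma S6_QK1_lin (a b c x y z : ℝ) : S6 QK1 a b c x y z = (2/3) * S6 m100 a b c x y z + (-28/9) * S6 m110 a b c x y z + (52/9) * S6 m111 a b c x y z + (52/27) * S6 m210 a b c x y z + (-80/27) * S6 m211 a b c x y z + (-32/27) * S6 m220 a b c x y z + (-16/27) * S6 m310 a b c x y z + (88/81) * S6 m221 a b c x y z + (154/243) * S6 m311 a b c x y z + (22/81) * S6 m320 a b c x y z + (22/243) * S6 m410 a b c x y z + (-16/81) * S6 m222 a b c x y z + (-88/729) * S6 m321 a b c x y z + (-8/243) * S6 m330 a b c x y z + (-4/81) * S6 m411 a b c x y z + (-16/729) * S6 m420 a b c x y z + (-4/729) * S6 m510 a b c x y z := by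
  simp only [S6, QK1_eq]; ring

lemma S6_QK1 (a b c x y z : ℝ) (h : a + b + c = 3) (h' : x + y + z = 3) :
    S6 QK1 a b c x y z = GK1 (i2 a b c) (i3 a b c) (i2 x y z) (i3 x y z) := by
  rw [S6_QK1_lin, m100_S6, m110_S6, m111_S6, m210_S6, m211_S6, m220_S6, m310_S6, m221_S6, m311_S6, m320_S6, m410_S6, m222_S6, m321_S6, m330_S6, m411_S6, m420_S6, m510_S6]
  rw [m100_sc a b c h, m110_sc a b c h, m111_sc a b c h, m210_sc a b c h, m211_sc a b c h, m220_sc a b c h, m310_sc a b c h, m221_sc a b c h, m311_sc a b c h, m320_sc a b c h, m410_sc a b c h, m222_sc a b c h, m321_sc a b c h, m330_sc a b c h, m411_sc a b c h, m420_sc a b c h, m510_sc a b c h]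
  rw [m100_sc x y z h', m110_sc x y z h', m111_sc x y z h', m210_sc x y z h', m211_sc x y z h', m220_sc x y z h', m310_sc x y z h', m221_sc x y z h', m311_sc x y z h', m320_sc x y z h', m410_sc x y z h', m222_sc x y z h', m321_sc x y z h', m330_sc x y z h', m411_sc x y z h', m420_sc x y z h', m510_sc x y z h']
  generalize i2 a b c = s
  generalize i3 a b c = c1
  generalize i2 x y z = s'
  generalize i3 x y z = c1'
  simp only [GK1]; ring

/-- polynomial bound `K2` -/
noncomputable def QK2 (a b c : ℝ) : ℝ :=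
  let Z := (a+b+c)/3;
  let E := a*b+b*c+c*a;
  let v := Z - 1;
  2*Z - (2/3)*(E*(1 - v + v^2 - v^3)) - 2*(Z*v^4)

lemma QK2_eq (a b c : ℝ) : QK2 a b c = (-8/9) * m110 a b c + (8/9) * m200 a b c + (4/3) * m111 a b c + (-4/9) * m300 a b c + (-8/27) * m211 a b c + (8/81) * m310 a b c + (8/81) * m400 a b c + (4/81) * m221 a b c + (2/243) * m311 a b c + (-2/243) * m320 a b c + (-4/243) * m410 a b c + (-2/243) * m500 a b c := by
  simp only [QK2, m110, m200, m111, m300, m211, m310, m400, m221, m311, m320, m410, m500]; ring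

/-- orbit sum of `QK2` as a polynomial in the invariants -/
noncomputable def GK2 (s c S C : ℝ) : ℝ := 6*(S) + 6*(s) + 6*(c*C) + (-6)*(c*S) + (-6)*(s*C) + (-3)*(s*S) + (-3)*(c*S*C) + 3*(c*S^2) + 3*(s*S^2) + (-3)*(s*c*C) + 3*(s^2*C) + 3*(s^2*S) + (-3/2)*(s*c*S*C) + (-9/2)*(s*c*S^2) + (-9/2)*(s^2*S*C) + (-3)*(s^2*S^2)

lemma S6_QK2_lin (a b c x y z : ℝ) : S6 QK2 a b c x y z = (-8/9) * S6 m110 a b c x y z + (8/9) * S6 m200 a b c x y z + (4/3) * S6 m111 a b c x y z + (-4/9) * S6 m300 a b c x y z + (-8/27) * S6 m211 a b c x y z + (8/81) * S6 m310 a b c x y z + (8/81) * S6 m400 a b c x y z + (4/81) * S6 m221 a b c x y z + (2/243) * S6 m311 a b c x y z + (-2/243) * S6 m320 a b c x y z + (-4/243) * S6 m410 a b c x y z + (-2/243) * S6 m500 a b c x y z := by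
  simp only [S6, QK2_eq]; ring

lemma S6_QK2 (a b c x y z : ℝ) (h : a + b + c = 3) (h' : x + y + z = 3) :
    S6 QK2 a b c x y z = GK2 (i2 a b c) (i3 a b c) (i2 x y z) (i3 x y z) := by
  rw [S6_QK2_lin, m110_S6, m200_S6, m111_S6, m300_S6, m211_S6, m310_S6, m400_S6, m221_S6, m311_S6, m320_S6, m410_S6, m500_S6]
  rw [m110_sc a b c h, m200_sc a b c h, m111_sc a b c h, m300_sc a b c h, m211_sc a b c h, m310_sc a b c h, m400_sc a b c h, m221_sc a b c h, m311_sc a b c h, m320_sc a b c h, m410_sc a b c h, m500_sc a b c h]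
  rw [m110_sc x y z h', m200_sc x y z h', m111_sc x y z h', m300_sc x y z h', m211_sc x y z h', m310_sc x y z h', m400_sc x y z h', m221_sc x y z h', m311_sc x y z h', m320_sc x y z h', m410_sc x y z h', m500_sc x y z h']
  generalize i2 a b c = s
  generalize i3 a b c = c1
  generalize i2 x y z = s'
  generalize i3 x y z = c1'
  simp only [GK2]; ring

/-- polynomial bound `T1` -/
noncomputable def QT1 (a b c : ℝ) : ℝ :=
  let Z := (a+b+c)/3;
  let E := a*b+b*c+c*a;
  let v := Z - 1;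
  (a*b*c)*(1 - 2*v + 3*v^2 - 4*v^3 + (28/9)*v^4) - E*(1 - v + v^2 - v^3) - 3*(Z*v^4) + 2*Z

lemma QT1_eq (a b c : ℝ) : QT1 a b c = (-1/3) * m100 a b c + (-4/3) * m110 a b c + (4/3) * m200 a b c + (136/9) * m111 a b c + (-2/3) * m300 a b c + (-304/27) * m211 a b c + (4/27) * m310 a b c + (4/27) * m400 a b c + (68/9) * m221 a b c + (304/81) * m311 a b c + (-1/81) * m320 a b c + (-2/81) * m410 a b c + (-1/81) * m500 a b c + (-296/81) * m222 a b c + (-148/81) * m321 a b c + (-148/243) * m411 a b c + (112/243) * m322 a b c + (56/243) * m331 a b c + (112/729) * m421 a b c + (28/729) * m511 a b c := by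
  simp only [QT1, m100, m110, m200, m111, m300, m211, m310, m400, m221, m311, m320, m410, m500, m222, m321, m411, m322, m331, m421, m511]; ring

/-- orbit sum of `QT1` as a polynomial in the invariants -/
noncomputable def GT1 (s c S C : ℝ) : ℝ := 6*(C) + 6*(c) + 3*(c*C) + (-18)*(c*S) + (-18)*(s*C) + 18*(s*S) + (-12)*(c*C^2) + (27/2)*(c*S*C) + (9/2)*(c*S^2) + (-12)*(c^2*C) + 9*(s*S*C) + (-9)*(s*S^2) + (27/2)*(s*c*C) + 9*(s*c*S) + (9/2)*(s^2*C) + (-9)*(s^2*S) + (-12)*(c^2*C^2) + 18*(c^2*S*C) + 18*(s*c*C^2) + (-81/4)*(s*c*S*C) + (-81/4)*(s*c*S^2) + (-81/4)*(s^2*S*C) + (91/4)*(s^2*S^2) + 7*(s^2*S^2*C) + (-21/2)*(s^2*S^3) + 7*(s^2*c*S^2) + (-21/2)*(s^3*S^2) + 7*(s^2*c*S^2*C) + (-21/2)*(s^2*c*S^3) + (-21/2)*(s^3*S^2*C) + (63/4)*(s^3*S^3)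

lemma S6_QT1_lin (a b c x y z : ℝ) : S6 QT1 a b c x y z = (-1/3) * S6 m100 a b c x y z + (-4/3) * S6 m110 a b c x y z + (4/3) * S6 m200 a b c x y z + (136/9) * S6 m111 a b c x y z + (-2/3) * S6 m300 a b c x y z + (-304/27) * S6 m211 a b c x y z + (4/27) * S6 m310 a b c x y z + (4/27) * S6 m400 a b c x y z + (68/9) * S6 m221 a b c x y z + (304/81) * S6 m311 a b c x y z + (-1/81) * S6 m320 a b c x y z + (-2/81) * S6 m410 a b c x y z + (-1/81) * S6 m500 a b c x y z + (-296/81) * S6 m222 a b c x y z + (-148/81) * S6 m321 a b c x y z + (-148/243) * S6 m411 a b c x y z + (112/243) * S6 m322 a b c x y z + (56/243) * S6 m331 a b c x y z + (112/729) * S6 m421 a b c x y z + (28/729) * S6 m511 a b c x y z := by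
  simp only [S6, QT1_eq]; ring

lemma S6_QT1 (a b c x y z : ℝ) (h : a + b + c = 3) (h' : x + y + z = 3) :
    S6 QT1 a b c x y z = GT1 (i2 a b c) (i3 a b c) (i2 x y z) (i3 x y z) := by
  rw [S6_QT1_lin, m100_S6, m110_S6, m200_S6, m111_S6, m300_S6, m211_S6, m310_S6, m400_S6, m221_S6, m311_S6, m320_S6, m410_S6, m500_S6, m222_S6, m321_S6, m411_S6, m322_S6, m331_S6, m421_S6, m511_S6]
  rw [m100_sc a b c h, m110_sc a b c h, m200_sc a b c h, m111_sc a b c h, m300_sc a b c h, m211_sc a b c h, m310_sc a b c h, m400_sc a b c h, m221_sc a b c h, m311_sc a b c h, m320_sc a b c h, m410_sc a b c h, m500_sc a b c h, m222_sc a b c h, m321_sc a b c h, m411_sc a b c h, m322_sc a b c h, m331_sc a b c h, m421_sc a b c h, m511_sc a b c h]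
  rw [m100_sc x y z h', m110_sc x y z h', m200_sc x y z h', m111_sc x y z h', m300_sc x y z h', m211_sc x y z h', m310_sc x y z h', m400_sc x y z h', m221_sc x y z h', m311_sc x y z h', m320_sc x y z h', m410_sc x y z h', m500_sc x y z h', m222_sc x y z h', m321_sc x y z h', m411_sc x y z h', m322_sc x y z h', m331_sc x y z h', m421_sc x y z h', m511_sc x y z h']
  generalize i2 a b c = s
  generalize i3 a b c = c1
  generalize i2 x y z = s'
  generalize i3 x y z = c1'
  simp only [GT1]; ring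

/-- polynomial bound `T2` -/
noncomputable def QT2 (a b c : ℝ) : ℝ :=
  let Z := (a+b+c)/3;
  let E := a*b+b*c+c*a;
  let v := Z - 1;
  (a*b*c)*(1 - 2*v + 3*v^2 - 4*v^3) + Z*(v^4*(5+4*v)) - E*(1 - v + v^2 - v^3 + (2/3)*v^4) + 2*Z

lemma QT2_eq (a b c : ℝ) : QT2 a b c = 1 * m100 a b c + (-14/3) * m110 a b c + (148/9) * m111 a b c + (16/9) * m210 a b c + (-10/27) * m300 a b c + (-220/27) * m211 a b c + (-8/27) * m220 a b c + (8/81) * m310 a b c + (20/81) * m400 a b c + (28/9) * m221 a b c + (112/81) * m311 a b c + (-17/81) * m320 a b c + (-14/81) * m410 a b c + (-5/81) * m500 a b c + (-56/81) * m222 a b c + (-8/27) * m321 a b c + (44/729) * m330 a b c + (-14/243) * m411 a b c + (4/81) * m420 a b c + (2/81) * m510 a b c + (4/729) * m600 a b c := by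
  simp only [QT2, m100, m110, m111, m210, m300, m211, m220, m310, m400, m221, m311, m320, m410, m500, m222, m321, m330, m411, m420, m510, m600]; ring

/-- orbit sum of `QT2` as a polynomial in the invariants -/
noncomputable def GT2 (s c S C : ℝ) : ℝ := 6*(C) + 6*(c) + 3*(c*C) + (-18)*(c*S) + (-18)*(s*C) + 18*(s*S) + (-12)*(c*C^2) + (27/2)*(c*S*C) + (9/2)*(c*S^2) + (-12)*(c^2*C) + 9*(s*S*C) + (-9)*(s*S^2) + (27/2)*(s*c*C) + 9*(s*c*S) + (9/2)*(s^2*C) + (-9)*(s^2*S) + (-6)*(c^2*C^2) + 21*(c^2*S*C) + 21*(s*c*C^2) + (69/4)*(s*c*S*C) + (-81/4)*(s*c*S^2) + (-81/4)*(s^2*S*C) + (117/4)*(s^2*S^2) + (-3/2)*(c^2*S^3) + (9/4)*(s*c*S^3) + (9/4)*(s^2*S^3) + (-3/2)*(s^3*C^2) + (9/4)*(s^3*S*C) + (9/4)*(s^3*S^2) + (21/4)*(s^3*S^3)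

lemma S6_QT2_lin (a b c x y z : ℝ) : S6 QT2 a b c x y z = 1 * S6 m100 a b c x y z + (-14/3) * S6 m110 a b c x y z + (148/9) * S6 m111 a b c x y z + (16/9) * S6 m210 a b c x y z + (-10/27) * S6 m300 a b c x y z + (-220/27) * S6 m211 a b c x y z + (-8/27) * S6 m220 a b c x y z + (8/81) * S6 m310 a b c x y z + (20/81) * S6 m400 a b c x y z + (28/9) * S6 m221 a b c x y z + (112/81) * S6 m311 a b c x y z + (-17/81) * S6 m320 a b c x y z + (-14/81) * S6 m410 a b c x y z + (-5/81) * S6 m500 a b c x y z + (-56/81) * S6 m222 a b c x y z + (-8/27) * S6 m321 a b c x y z + (44/729) * S6 m330 a b c x y z + (-14/243) * S6 m411 a b c x y z + (4/81) * S6 m420 a b c x y z + (2/81) * S6 m510 a b c x y z + (4/729) * S6 m600 a b c x y z := by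
  simp only [S6, QT2_eq]; ring

lemma S6_QT2 (a b c x y z : ℝ) (h : a + b + c = 3) (h' : x + y + z = 3) :
    S6 QT2 a b c x y z = GT2 (i2 a b c) (i3 a b c) (i2 x y z) (i3 x y z) := by
  rw [S6_QT2_lin, m100_S6, m110_S6, m111_S6, m210_S6, m300_S6, m211_S6, m220_S6, m310_S6, m400_S6, m221_S6, m311_S6, m320_S6, m410_S6, m500_S6, m222_S6, m321_S6, m330_S6, m411_S6, m420_S6, m510_S6, m600_S6]
  rw [m100_sc a b c h, m110_sc a b c h, m111_sc a b c h, m210_sc a b c h, m300_sc a b c h, m211_sc a b c h, m220_sc a b c h, m310_sc a b c h, m400_sc a b c h, m221_sc a b c h, m311_sc a b c h, m320_sc a b c h, m410_sc a b c h, m500_sc a b c h, m222_sc a b c h, m321_sc a b c h, m330_sc a b c h, m411_sc a b c h, m420_sc a b c h, m510_sc a b c h, m600_sc a b c h]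
  rw [m100_sc x y z h', m110_sc x y z h', m111_sc x y z h', m210_sc x y z h', m300_sc x y z h', m211_sc x y z h', m220_sc x y z h', m310_sc x y z h', m400_sc x y z h', m221_sc x y z h', m311_sc x y z h', m320_sc x y z h', m410_sc x y z h', m500_sc x y z h', m222_sc x y z h', m321_sc x y z h', m330_sc x y z h', m411_sc x y z h', m420_sc x y z h', m510_sc x y z h', m600_sc x y z h']
  generalize i2 a b c = s
  generalize i3 a b c = c1
  generalize i2 x y z = s'
  generalize i3 x y z = c1'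
  simp only [GT2]; ring

/-- polynomial bound `M1` -/
noncomputable def QM1 (a b c : ℝ) : ℝ :=
  let Z := (a+b+c)/3;
  let E := a*b+b*c+c*a;
  let v := Z - 1;
  (4/9)*((3*Z^2 - E)^2*(1 - 3*v + (33/5)*v^2 + (-39/10)*v^3) + (3*Z^2 - E)*((7/20)*v^2 + (-119/10)*v^3) + ((108/5)*v^4))

lemma QM1_eq (a b c : ℝ) : QM1 a b c = (48/5) * m000 a b c + (-64/5) * m100 a b c + (1483/135) * m110 a b c + (1109/135) * m200 a b c + (-424/135) * m111 a b c + (-64/15) * m210 a b c + (-1304/405) * m300 a b c + (-29/81) * m211 a b c + (386/135) * m220 a b c + (-443/1215) * m310 a b c + (347/243) * m400 a b c + (-1198/1215) * m221 a b c + (6934/3645) * m311 a b c + (-1912/3645) * m320 a b c + (1198/3645) * m410 a b c + (-1912/3645) * m500 a b c + (122/135) * m222 a b c + (244/1215) * m330 a b c + (-244/405) * m411 a b c + (122/1215) * m600 a b c + (-26/405) * m322 a b c + (-52/3645) * m331 a b c + (52/1215) * m421 a b c + (-52/3645) * m430 a b c + (52/1215) *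 m511 a b c + (-26/3645) * m610 a b c + (-26/3645) * m700 a b c := by
  simp only [QM1, m000, m100, m110, m200, m111, m210, m300, m211, m220, m310, m400, m221, m311, m320, m410, m500, m222, m330, m411, m600, m322, m331, m421, m430, m511, m610, m700]; ring

/-- orbit sum of `QM1` as a polynomial in the invariants -/
noncomputable def GM1 (s c S C : ℝ) : ℝ := 6*(S^2) + (-53/5)*(c*C) + 24*(c*S) + 24*(s*C) + 24*(s*S) + 6*(s^2) + (187/5)*(c*S*C) + (-713/10)*(c*S^2) + (-36)*(s*S*C) + (-233/10)*(s*S^2) + (187/5)*(s*c*C) + (-36)*(s*c*S) + (-713/10)*(s^2*C) + (-233/10)*(s^2*S) + (-117/10)*(c*S^2*C) + (198/5)*(c*S^3) + (-234/5)*(c^2*S*C) + (198/5)*(c^2*S^2) + (99/5)*(s*S^3) + (-234/5)*(s*c*C^2) + (323/5)*(s*c*S*C) + (1047/10)*(s*c*S^2) + (198/5)*(s^2*C^2) + (1047/10)*(s^2*S*C) + (203/4)*(s^2*S^2) + (-117/10)*(s^2*c*C) + (198/5)*(s^3*C) + (99/5)*(s^3*S) + (-117/5)*(c^2*S^3) + (-819/20)*(s*c*S^2*C) + (-252/5)*(s*c*S^3) + (-351/10)*(s^2*S^2*C) + (-27/5)*(s^2*S^3)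 + (-819/20)*(s^2*c*S*C) + (-351/10)*(s^2*c*S^2) + (-117/5)*(s^3*C^2) + (-252/5)*(s^3*S*C) + (-27/5)*(s^3*S^2) + (-117/40)*(s^2*c*S^2*C) + (-351/20)*(s^2*c*S^3) + (-351/20)*(s^3*S^2*C) + (-369/20)*(s^3*S^3)

lemma S6_QM1_lin (a b c x y z : ℝ) : S6 QM1 a b c x y z = (48/5) * S6 m000 a b c x y z + (-64/5) * S6 m100 a b c x y z + (1483/135) * S6 m110 a b c x y z + (1109/135) * S6 m200 a b c x y z + (-424/135) * S6 m111 a b c x y z + (-64/15) * S6 m210 a b c x y z + (-1304/405) * S6 m300 a b c x y z + (-29/81) * S6 m211 a b c x y z + (386/135) * S6 m220 a b c x y z + (-443/1215) * S6 m310 a b c x y z + (347/243) * S6 m400 a b c x y z + (-1198/1215) * S6 m221 a b c x y z + (6934/3645) * S6 m311 a b c x y z + (-1912/3645) * S6 m320 a b c x y z + (1198/3645) * S6 m410 a b c x y z + (-1912/3645) * S6 m500 a b c x y z + (122/135) * S6 m222 a b c x y z + (244/1215) * S6 m330 a b c x y z + (-244/405) * S6 m411 a b c x y z + (122/1215) * S6 m600 a b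 c x y z + (-26/405) * S6 m322 a b c x y z + (-52/3645) * S6 m331 a b c x y z + (52/1215) * S6 m421 a b c x y z + (-52/3645) * S6 m430 a b c x y z + (52/1215) * S6 m511 a b c x y z + (-26/3645) * S6 m610 a b c x y z + (-26/3645) * S6 m700 a b c x y z := by
  simp only [S6, QM1_eq]; ring

lemma S6_QM1 (a b c x y z : ℝ) (h : a + b + c = 3) (h' : x + y + z = 3) :
    S6 QM1 a b c x y z = GM1 (i2 a b c) (i3 a b c) (i2 x y z) (i3 x y z) := by
  rw [S6_QM1_lin, m000_S6, m100_S6, m110_S6, m200_S6, m111_S6, m210_S6, m300_S6, m211_S6, m220_S6, m310_S6, m400_S6, m221_S6, m311_S6, m320_S6, m410_S6, m500_S6, m222_S6, m330_S6, m411_S6, m600_S6, m322_S6, m331_S6, m421_S6, m430_S6, m511_S6, m610_S6, m700_S6]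
  rw [m000_sc a b c h, m100_sc a b c h, m110_sc a b c h, m200_sc a b c h, m111_sc a b c h, m210_sc a b c h, m300_sc a b c h, m211_sc a b c h, m220_sc a b c h, m310_sc a b c h, m400_sc a b c h, m221_sc a b c h, m311_sc a b c h, m320_sc a b c h, m410_sc a b c h, m500_sc a b c h, m222_sc a b c h, m330_sc a b c h, m411_sc a b c h, m600_sc a b c h, m322_sc a b c h, m331_sc a b c h, m421_sc a b c h, m430_sc a b c h, m511_sc a b c h, m610_sc a b c h, m700_sc a b c h]
  rw [m000_sc x y z h', m100_sc x y z h', m110_sc x y z h', m200_sc x y z h', m111_sc x y z h', m210_sc x y z h', m300_sc x y z h', m211_sc x y z h', m220_sc x y z h', m310_sc x y z h', m400_sc x y z h', m221_sc x y z h', m311_sc x y z h', m320_sc x y z h', m410_sc x y z h', m500_sc x y z h', m222_sc x y z h', m330_sc x y z h', m411_sc x y z h', m600_sc x y z h', m322_sc x y z h', m331_sc x y z h', m421_sc x y z h', m430_sc x y z h', m511_sc x y z h', m610_sc x y z h', m700_sc x y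 z h']
  generalize i2 a b c = s
  generalize i3 a b c = c1
  generalize i2 x y z = s'
  generalize i3 x y z = c1'
  simp only [GM1]; ring


end Crest.Agent.R163.Loc
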