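import Crest.Agent.R163.LocBase2

/-! Row 163, three states, antiferromagnetic local lemma: kernel check of the polynomial inequality
behind `T2` (Bernstein coefficients on cells, blown-up coordinates). -/

set_option autoImplicit false
set_option maxRecDepth 1000000
set_option maxHeartbeats 1000000

namespace Crest.Agent.R163.Loc.T2

open Crest.Agent.R163.Bern Crest.Agent.R163.Loc Crest.Agent.R163.Q3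


/-- the certified polynomial -/
noncomputable def P (s c S C : ℝ) : ℝ := (-1/2)*(c*C) + 2*(c*C^2) + (-9/4)*(c*S*C) + (-3/4)*(c*S^2) + 2*(c^2*C) + (-3/2)*(s*S*C) + (223/100)*(s*S^2) + (-9/4)*(s*c*C) + (-3/2)*(s*c*S) + (-3/4)*(s^2*C) + (223/100)*(s^2*S) + 1*(c^2*C^2) + (-7/2)*(c^2*S*C) + (-7/2)*(s*c*C^2) + (-23/8)*(s*c*S*C) + (27/8)*(s*c*S^2) + (27/8)*(s^2*S*C) + (-39/8)*(s^2*S^2) + (1/4)*(c^2*S^3) + (-3/8)*(s*c*S^3) + (-3/8)*(s^2*S^3) + (1/4)*(s^3*C^2) + (-3/8)*(s^3*S*C) + (-3/8)*(s^3*S^2) + (-7/8)*(s^3*S^3)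

/-- left functions -/
def fsA : List (List (List Int)) :=
  [[[8, -18, 9, 0, 0, 0, 0], [0, 0, 0, 0, 0, 0, 0], [0, 0, 0, 0, 0, 0, 0], [0, 0, 0, 0, 0, 0, 0], [0, 0, 0, 0, 0, 0, 0], [0, 0, 0, 0, 0, 0, 0], [0, 0, 0, 0, 0, 0, 0]], [[0, 0, 0, 0, 0, 0, 0], [8, -18, 9, 0, 0, 0, 0], [0, 0, 0, 0, 0, 0, 0], [0, 0, 0, 0, 0, 0, 0], [0, 0, 0, 0, 0, 0, 0], [0, 0, 0, 0, 0, 0, 0], [0, 0, 0, 0, 0, 0, 0]], [[0, 0, 0, 0, 0, 0, 0], [0, 0, 0, 0, 0, 0, 0], [8, -18, 9, 0, 0, 0, 0], [0, 0, 0, 0, 0, 0, 0], [0, 0, 0, 0, 0, 0, 0], [0, 0, 0, 0, 0, 0, 0], [0, 0, 0, 0, 0, 0, 0]], [[0, 0, 0, 0, 0, 0, 0], [0, 0, 0, 0, 0, 0, 0], [0, 0, 0, 0, 0, 0, 0], [8, -18, 9, 0, 0, 0, 0], [0, 0, 0, 0, 0, 0, 0], [0, 0, 0, 0, 0, 0, 0], [0, 0, 0, 0, 0, 0, 0]], [[0, 0, 0, 0, 0, 0, 0], [0, 0, 0, 0, 0, 0, 0], [0, 0, 0, 0, 0, 0,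 0], [64, -288, 468, -324, 81, 0, 0], [0, 0, 0, 0, 0, 0, 0], [0, 0, 0, 0, 0, 0, 0], [0, 0, 0, 0, 0, 0, 0]], [[0, 0, 0, 0, 0, 0, 0], [0, 0, 0, 0, 0, 0, 0], [0, 0, 0, 0, 0, 0, 0], [0, 0, 0, 0, 0, 0, 0], [0, 0, 0, 0, 0, 0, 0], [64, -288, 468, -324, 81, 0, 0], [0, 0, 0, 0, 0, 0, 0]], [[0, 0, 0, 0, 0, 0, 0], [0, 0, 0, 0, 0, 0, 0], [0, 0, 0, 0, 0, 0, 0], [0, 0, 0, 0, 0, 0, 0], [0, 0, 0, 0, 0, 0, 0], [0, 0, 0, 0, 0, 0, 0], [64, -288, 468, -324, 81, 0, 0]], [[4, -6, 3, 0, 0, 0, 0], [0, 0, 0, 0, 0, 0, 0], [0, 0, 0, 0, 0, 0, 0], [0, 0, 0, 0, 0, 0, 0], [0, 0, 0, 0, 0, 0, 0], [0, 0, 0, 0, 0, 0, 0], [0, 0, 0, 0, 0, 0, 0]], [[0, 0, 0, 0, 0, 0, 0], [4, -6, 3, 0, 0, 0, 0], [0, 0, 0, 0, 0, 0, 0], [0, 0, 0, 0, 0, 0, 0], [0, 0, 0, 0, 0, 0, 0], [0, 0, 0, 0, 0, 0, 0], [0, 0, 0, 0, 0, 0, 0]], [[0, 0,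 0, 0, 0, 0, 0], [32, -120, 168, -108, 27, 0, 0], [0, 0, 0, 0, 0, 0, 0], [0, 0, 0, 0, 0, 0, 0], [0, 0, 0, 0, 0, 0, 0], [0, 0, 0, 0, 0, 0, 0], [0, 0, 0, 0, 0, 0, 0]], [[0, 0, 0, 0, 0, 0, 0], [0, 0, 0, 0, 0, 0, 0], [32, -120, 168, -108, 27, 0, 0], [0, 0, 0, 0, 0, 0, 0], [0, 0, 0, 0, 0, 0, 0], [0, 0, 0, 0, 0, 0, 0], [0, 0, 0, 0, 0, 0, 0]], [[0, 0, 0, 0, 0, 0, 0], [0, 0, 0, 0, 0, 0, 0], [0, 0, 0, 0, 0, 0, 0], [32, -120, 168, -108, 27, 0, 0], [0, 0, 0, 0, 0, 0, 0], [0, 0, 0, 0, 0, 0, 0], [0, 0, 0, 0, 0, 0, 0]], [[0, 0, 0, 0, 0, 0, 0], [0, 0, 0, 0, 0, 0, 0], [0, 0, 0, 0, 0, 0, 0], [0, 0, 0, 0, 0, 0, 0], [32, -120, 168, -108, 27, 0, 0], [0, 0, 0, 0, 0, 0, 0], [0, 0, 0, 0, 0, 0, 0]], [[0, 0, 0, 0, 0, 0, 0], [0, 0, 0, 0, 0, 0, 0], [0, 0, 0, 0, 0, 0, 0], [0, 0, 0, 0, 0, 0, 0], [0, 0, 0,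 0, 0, 0, 0], [32, -120, 168, -108, 27, 0, 0], [0, 0, 0, 0, 0, 0, 0]], [[16, -48, 60, -36, 9, 0, 0], [0, 0, 0, 0, 0, 0, 0], [0, 0, 0, 0, 0, 0, 0], [0, 0, 0, 0, 0, 0, 0], [0, 0, 0, 0, 0, 0, 0], [0, 0, 0, 0, 0, 0, 0], [0, 0, 0, 0, 0, 0, 0]], [[0, 0, 0, 0, 0, 0, 0], [16, -48, 60, -36, 9, 0, 0], [0, 0, 0, 0, 0, 0, 0], [0, 0, 0, 0, 0, 0, 0], [0, 0, 0, 0, 0, 0, 0], [0, 0, 0, 0, 0, 0, 0], [0, 0, 0, 0, 0, 0, 0]], [[0, 0, 0, 0, 0, 0, 0], [0, 0, 0, 0, 0, 0, 0], [16, -48, 60, -36, 9, 0, 0], [0, 0, 0, 0, 0, 0, 0], [0, 0, 0, 0, 0, 0, 0], [0, 0, 0, 0, 0, 0, 0], [0, 0, 0, 0, 0, 0, 0]], [[0, 0, 0, 0, 0, 0, 0], [0, 0, 0, 0, 0, 0, 0], [0, 0, 0, 0, 0, 0, 0], [16, -48, 60, -36, 9, 0, 0], [0, 0, 0, 0, 0, 0, 0], [0, 0, 0, 0, 0, 0, 0], [0, 0, 0, 0, 0, 0, 0]], [[0, 0, 0, 0, 0, 0, 0], [0, 0, 0, 0, 0, 0,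 0], [0, 0, 0, 0, 0, 0, 0], [0, 0, 0, 0, 0, 0, 0], [16, -48, 60, -36, 9, 0, 0], [0, 0, 0, 0, 0, 0, 0], [0, 0, 0, 0, 0, 0, 0]], [[0, 0, 0, 0, 0, 0, 0], [0, 0, 0, 0, 0, 0, 0], [0, 0, 0, 0, 0, 0, 0], [0, 0, 0, 0, 0, 0, 0], [64, -288, 576, -648, 432, -162, 27], [0, 0, 0, 0, 0, 0, 0], [0, 0, 0, 0, 0, 0, 0]], [[0, 0, 0, 0, 0, 0, 0], [0, 0, 0, 0, 0, 0, 0], [0, 0, 0, 0, 0, 0, 0], [0, 0, 0, 0, 0, 0, 0], [0, 0, 0, 0, 0, 0, 0], [64, -288, 576, -648, 432, -162, 27], [0, 0, 0, 0, 0, 0, 0]], [[0, 0, 0, 0, 0, 0, 0], [0, 0, 0, 0, 0, 0, 0], [0, 0, 0, 0, 0, 0, 0], [0, 0, 0, 0, 0, 0, 0], [0, 0, 0, 0, 0, 0, 0], [0, 0, 0, 0, 0, 0, 0], [64, -288, 576, -648, 432, -162, 27]]]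

/-- right functions -/
def gsA : List (List (List Int)) :=
  [[[0, 0, 0, 0, 0, 0, 0], [8, -18, 9, 0, 0, 0, 0], [0, 0, 0, 0, 0, 0, 0], [0, 0, 0, 0, 0, 0, 0], [0, 0, 0, 0, 0, 0, 0]], [[0, 0, 0, 0, 0, 0, 0], [0, 0, 0, 0, 0, 0, 0], [0, 0, 0, 0, 0, 0, 0], [0, 0, 0, 0, 0, 0, 0], [64, -288, 468, -324, 81, 0, 0]], [[4, -6, 3, 0, 0, 0, 0], [0, 0, 0, 0, 0, 0, 0], [0, 0, 0, 0, 0, 0, 0], [0, 0, 0, 0, 0, 0, 0], [0, 0, 0, 0, 0, 0, 0]], [[0, 0, 0, 0, 0, 0, 0], [0, 0, 0, 0, 0, 0, 0], [0, 0, 0, 0, 0, 0, 0], [32, -120, 168, -108, 27, 0, 0], [0, 0, 0, 0, 0, 0, 0]], [[0, 0, 0, 0, 0, 0, 0], [0, 0, 0, 0, 0, 0, 0], [16, -48, 60, -36, 9, 0, 0], [0, 0, 0, 0, 0, 0, 0], [0, 0, 0, 0, 0, 0, 0]], [[0, 0, 0, 0, 0, 0, 0], [0, 0, 0, 0, 0, 0, 0], [0, 0, 0, 0, 0, 0, 0], [0, 0, 0, 0, 0, 0, 0], [64, -288, 576, -648,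 432, -162, 27]]]

/-- the matrix -/
def CA : List (List Int) :=
  [[3200, 0, 0, 0, 0, 0], [0, 0, 0, 0, -2400, 0], [0, 0, 0, 1800, 0, 0], [0, 400, 0, 0, 0, 0], [-3200, 0, 0, 0, 0, 0], [0, 0, 0, 700, 0, 0], [0, 50, 0, 0, 0, 25], [0, 0, 0, 0, 14272, 0], [0, 0, 0, 2400, 0, 0], [0, 0, -19200, 0, 0, 0], [7200, 0, 0, 0, 0, 0], [0, 0, 0, 0, 5400, 0], [0, 0, 0, 1150, 0, 0], [0, -350, 0, 0, 0, -75], [0, 0, 57088, 0, 0, 0], [4800, 0, 0, 0, 0, 0], [0, 0, 0, 0, -15600, 0], [0, 0, 0, -2700, 0, 0], [0, 0, 0, 0, 0, -150], [0, 0, 0, 0, -600, 0], [0, 0, 0, 150, 0, 0], [0, 25, 0, 0, 0, -175]]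

/-- data of the check -/
def DA : Data where
  k := 63
  n := 7
  m := 7
  n' := 5
  m' := 7
  XM := 2
  YM := 2
  XM' := 2
  YM' := 2
  S := 2197
  S' := 2197
  SC := 143110
  cr := 1
  cy := 1
  cr' := 1
  cy' := 1
  C := CA
  fs := fsA
  gs := gsA

theorem DA_ok : DA.ok = true := by decide +kernel

/-- the right cells -/
def cellsA : List ((Int × Int) × List (Int × Int)) :=
  [((0, 1), [(0, 1)])]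

theorem covA : covOK 0 1 0 1 cellsA = true := by decide +kernel

theorem rowA_0_0 : DA.row 0 1 0 1 (0, 1) (0, 1)
    [((0, 1), [(0, 1)])] = true := by decide +kernel

theorem rowsA : ∀ I' ∈ cellsA, ∀ J' ∈ I'.2, ∃ left,
    DA.row 0 1 0 1 I'.1 J' left = true := by
  intro I' hI' J' hJ'
  simp only [cellsA, List.mem_cons, List.not_mem_nil, or_false] at hI'
  subst hI'
  simp only [List.mem_cons, List.not_mem_nil, or_false] at hJ'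
  subst hJ'
  exact ⟨_, rowA_0_0⟩

theorem nonnegA {r y r2 y2 : ℝ} (hr0 : 0 ≤ r) (hr1 : r ≤ 1) (hy0 : 0 ≤ y) (hy1 : y ≤ 1)
    (hr0' : 0 ≤ r2) (hr1' : r2 ≤ 1) (hy0' : 0 ≤ y2) (hy1' : y2 ≤ 1) :
    0 ≤ bil CA (fsA.map (ev2 r y)) (gsA.map (ev2 r2 y2)) := by
  have e1 : (((0 : Int) : ℝ) / ((DA.cr : Int) : ℝ)) = 0 := by
    show (((0 : Int) : ℝ) / (((1 : Int)) : ℝ)) = 0
    norm_num
  have e2 : (((1 : Int) : ℝ) / ((DA.cr : Int) : ℝ)) = 1 := by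
    show (((1 : Int) : ℝ) / (((1 : Int)) : ℝ)) = 1
    norm_num
  have e3 : (((0 : Int) : ℝ) / ((DA.cy : Int) : ℝ)) = 0 := by
    show (((0 : Int) : ℝ) / (((1 : Int)) : ℝ)) = 0
    norm_num
  have e4 : (((1 : Int) : ℝ) / ((DA.cy : Int) : ℝ)) = 1 := by
    show (((1 : Int) : ℝ) / (((1 : Int)) : ℝ)) = 1
    norm_num
  have e1' : (((0 : Int) : ℝ) / ((DA.cr' : Int) : ℝ)) = 0 := by
    show (((0 : Int) : ℝ) / (((1 : Int)) : ℝ)) = 0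
    norm_num
  have e2' : (((1 : Int) : ℝ) / ((DA.cr' : Int) : ℝ)) = 1 := by
    show (((1 : Int) : ℝ) / (((1 : Int)) : ℝ)) = 1
    norm_num
  have e3' : (((0 : Int) : ℝ) / ((DA.cy' : Int) : ℝ)) = 0 := by
    show (((0 : Int) : ℝ) / (((1 : Int)) : ℝ)) = 0
    norm_num
  have e4' : (((1 : Int) : ℝ) / ((DA.cy' : Int) : ℝ)) = 1 := by
    show (((1 : Int) : ℝ) / (((1 : Int)) : ℝ)) = 1
    norm_num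
  exact Data.grid_sound DA_ok covA rowsA (e1.trans_le hr0) (hr1.trans_eq e2.symm)
    (e3.trans_le hy0) (hy1.trans_eq e4.symm) (e1'.trans_le hr0') (hr1'.trans_eq e2'.symm)
    (e3'.trans_le hy0') (hy1'.trans_eq e4'.symm)

lemma fsA_map (r t : ℝ) : fsA.map (ev2 r t) =
    [(hC t), r*(hC t), r^2*(hC t), r^3*(hC t), r^3*(hC t)^2, r^5*(hC t)^2, r^6*(hC t)^2, (hS t), r*(hS t), r*(hS t)*(hC t), r^2*(hS t)*(hC t), r^3*(hS t)*(hC t), r^4*(hS t)*(hC t), r^5*(hS t)*(hC t), (hS t)^2, r*(hS t)^2, r^2*(hS t)^2, r^3*(hS t)^2, r^4*(hS t)^2, r^4*(hS t)^3, r^5*(hS t)^3, r^6*(hS t)^3] := by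
  simp only [fsA, List.map_cons, List.map_nil, ev2, evRows, ev, hS, hC]
  push_cast
  refine congrArg₂ List.cons (by ring) ?_
  iterate 20 refine congrArg₂ List.cons (by ring) ?_
  exact congrArg₂ List.cons (by ring) rfl

lemma gsA_map (r t : ℝ) : gsA.map (ev2 r t) =
    [r*(hC t), r^4*(hC t)^2, (hS t), r^3*(hS t)*(hC t), r^2*(hS t)^2, r^4*(hS t)^3] := by
  simp only [gsA, List.map_cons, List.map_nil, ev2, evRows, ev, hS, hC]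
  push_cast
  refine congrArg₂ List.cons (by ring) ?_
  iterate 4 refine congrArg₂ List.cons (by ring) ?_
  exact congrArg₂ List.cons (by ring) rfl

theorem caseA {r t q t' : ℝ} (h1 : 0 ≤ r) (h2 : r ≤ 1) (h3 : 0 ≤ t) (h4 : t ≤ 1)
    (h1' : 0 ≤ q) (h2' : q ≤ 1) (h3' : 0 ≤ t') (h4' : t' ≤ 1) :
    0 ≤ P (r^2 * hS t / 2) (r^3 * hC t / 4) ((q * r)^2 * hS t' / 8) (-((q * r)^3 * hC t' / 32)) := by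
  have key := nonnegA h1 h2 h3 h4 h1' h2' h3' h4'
  rw [fsA_map, gsA_map] at key
  have e : (819200 : ℝ) * P (r^2 * hS t / 2) (r^3 * hC t / 4) ((q * r)^2 * hS t' / 8) (-((q * r)^3 * hC t' / 32)) =
      r^6 * q^2 * bil CA [(hC t), r*(hC t), r^2*(hC t), r^3*(hC t), r^3*(hC t)^2, r^5*(hC t)^2, r^6*(hC t)^2, (hS t), r*(hS t), r*(hS t)*(hC t), r^2*(hS t)*(hC t), r^3*(hS t)*(hC t), r^4*(hS t)*(hC t), r^5*(hS t)*(hC t), (hS t)^2, r*(hS t)^2, r^2*(hS t)^2, r^3*(hS t)^2, r^4*(hS t)^2, r^4*(hS t)^3, r^5*(hS t)^3, r^6*(hS t)^3]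
        [q*(hC t'), q^4*(hC t')^2, (hS t'), q^3*(hS t')*(hC t'), q^2*(hS t')^2, q^4*(hS t')^3] := by
    simp only [bil, dotR, CA, P]
    push_cast
    generalize hS t = a
    generalize hC t = b
    generalize hS t' = a'
    generalize hC t' = b'
    ring
  have k2 := mul_nonneg (show (0 : ℝ) ≤ r^6 * q^2 by positivity) key
  rw [← e] at k2
  linarith

/-- left functions -/
def fsB : List (List (List Int)) :=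
  [[[8, -18, 9, 0, 0, 0, 0], [0, 0, 0, 0, 0, 0, 0], [0, 0, 0, 0, 0, 0, 0], [0, 0, 0, 0, 0, 0, 0], [0, 0, 0, 0, 0, 0, 0], [0, 0, 0, 0, 0, 0, 0], [0, 0, 0, 0, 0, 0, 0]], [[0, 0, 0, 0, 0, 0, 0], [8, -18, 9, 0, 0, 0, 0], [0, 0, 0, 0, 0, 0, 0], [0, 0, 0, 0, 0, 0, 0], [0, 0, 0, 0, 0, 0, 0], [0, 0, 0, 0, 0, 0, 0], [0, 0, 0, 0, 0, 0, 0]], [[0, 0, 0, 0, 0, 0, 0], [0, 0, 0, 0, 0, 0, 0], [8, -18, 9, 0, 0, 0, 0], [0, 0, 0, 0, 0, 0, 0], [0, 0, 0, 0, 0, 0, 0], [0, 0, 0, 0, 0, 0, 0], [0, 0, 0, 0, 0, 0, 0]], [[0, 0, 0, 0, 0, 0, 0], [0, 0, 0, 0, 0, 0, 0], [0, 0, 0, 0, 0, 0, 0], [8, -18, 9, 0, 0, 0, 0], [0, 0, 0, 0, 0, 0, 0], [0, 0, 0, 0, 0, 0, 0], [0, 0, 0, 0, 0, 0, 0]], [[0, 0, 0, 0, 0, 0, 0], [0, 0, 0, 0, 0, 0, 0], [0, 0, 0, 0, 0, 0, 0], [64, -288, 468, -324, 81, 0, 0], [0, 0, 0, 0, 0, 0, 0],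 [0, 0, 0, 0, 0, 0, 0], [0, 0, 0, 0, 0, 0, 0]], [[0, 0, 0, 0, 0, 0, 0], [0, 0, 0, 0, 0, 0, 0], [0, 0, 0, 0, 0, 0, 0], [0, 0, 0, 0, 0, 0, 0], [0, 0, 0, 0, 0, 0, 0], [64, -288, 468, -324, 81, 0, 0], [0, 0, 0, 0, 0, 0, 0]], [[0, 0, 0, 0, 0, 0, 0], [0, 0, 0, 0, 0, 0, 0], [0, 0, 0, 0, 0, 0, 0], [0, 0, 0, 0, 0, 0, 0], [0, 0, 0, 0, 0, 0, 0], [0, 0, 0, 0, 0, 0, 0], [64, -288, 468, -324, 81, 0, 0]], [[4, -6, 3, 0, 0, 0, 0], [0, 0, 0, 0, 0, 0, 0], [0, 0, 0, 0, 0, 0, 0], [0, 0, 0, 0, 0, 0, 0], [0, 0, 0, 0, 0, 0, 0], [0, 0, 0, 0, 0, 0, 0], [0, 0, 0, 0, 0, 0, 0]], [[0, 0, 0, 0, 0, 0, 0], [4, -6, 3, 0, 0, 0, 0], [0, 0, 0, 0, 0, 0, 0], [0, 0, 0, 0, 0, 0, 0], [0, 0, 0, 0, 0, 0, 0], [0, 0, 0, 0, 0, 0, 0], [0, 0, 0, 0, 0, 0, 0]], [[0, 0, 0, 0, 0, 0, 0], [32, -120, 168, -108, 27, 0, 0], [0, 0, 0,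 0, 0, 0, 0], [0, 0, 0, 0, 0, 0, 0], [0, 0, 0, 0, 0, 0, 0], [0, 0, 0, 0, 0, 0, 0], [0, 0, 0, 0, 0, 0, 0]], [[0, 0, 0, 0, 0, 0, 0], [0, 0, 0, 0, 0, 0, 0], [32, -120, 168, -108, 27, 0, 0], [0, 0, 0, 0, 0, 0, 0], [0, 0, 0, 0, 0, 0, 0], [0, 0, 0, 0, 0, 0, 0], [0, 0, 0, 0, 0, 0, 0]], [[0, 0, 0, 0, 0, 0, 0], [0, 0, 0, 0, 0, 0, 0], [0, 0, 0, 0, 0, 0, 0], [32, -120, 168, -108, 27, 0, 0], [0, 0, 0, 0, 0, 0, 0], [0, 0, 0, 0, 0, 0, 0], [0, 0, 0, 0, 0, 0, 0]], [[0, 0, 0, 0, 0, 0, 0], [0, 0, 0, 0, 0, 0, 0], [0, 0, 0, 0, 0, 0, 0], [0, 0, 0, 0, 0, 0, 0], [32, -120, 168, -108, 27, 0, 0], [0, 0, 0, 0, 0, 0, 0], [0, 0, 0, 0, 0, 0, 0]], [[0, 0, 0, 0, 0, 0, 0], [0, 0, 0, 0, 0, 0, 0], [0, 0, 0, 0, 0, 0, 0], [0, 0, 0, 0, 0, 0, 0], [0, 0, 0, 0, 0, 0, 0], [32, -120, 168, -108, 27, 0, 0], [0, 0, 0, 0,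 0, 0, 0]], [[16, -48, 60, -36, 9, 0, 0], [0, 0, 0, 0, 0, 0, 0], [0, 0, 0, 0, 0, 0, 0], [0, 0, 0, 0, 0, 0, 0], [0, 0, 0, 0, 0, 0, 0], [0, 0, 0, 0, 0, 0, 0], [0, 0, 0, 0, 0, 0, 0]], [[0, 0, 0, 0, 0, 0, 0], [16, -48, 60, -36, 9, 0, 0], [0, 0, 0, 0, 0, 0, 0], [0, 0, 0, 0, 0, 0, 0], [0, 0, 0, 0, 0, 0, 0], [0, 0, 0, 0, 0, 0, 0], [0, 0, 0, 0, 0, 0, 0]], [[0, 0, 0, 0, 0, 0, 0], [0, 0, 0, 0, 0, 0, 0], [16, -48, 60, -36, 9, 0, 0], [0, 0, 0, 0, 0, 0, 0], [0, 0, 0, 0, 0, 0, 0], [0, 0, 0, 0, 0, 0, 0], [0, 0, 0, 0, 0, 0, 0]], [[0, 0, 0, 0, 0, 0, 0], [0, 0, 0, 0, 0, 0, 0], [0, 0, 0, 0, 0, 0, 0], [16, -48, 60, -36, 9, 0, 0], [0, 0, 0, 0, 0, 0, 0], [0, 0, 0, 0, 0, 0, 0], [0, 0, 0, 0, 0, 0, 0]], [[0, 0, 0, 0, 0, 0, 0], [0, 0, 0, 0, 0, 0, 0], [0, 0, 0, 0, 0, 0, 0], [0, 0, 0, 0, 0, 0, 0], [16, -48,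 60, -36, 9, 0, 0], [0, 0, 0, 0, 0, 0, 0], [0, 0, 0, 0, 0, 0, 0]], [[0, 0, 0, 0, 0, 0, 0], [0, 0, 0, 0, 0, 0, 0], [0, 0, 0, 0, 0, 0, 0], [0, 0, 0, 0, 0, 0, 0], [64, -288, 576, -648, 432, -162, 27], [0, 0, 0, 0, 0, 0, 0], [0, 0, 0, 0, 0, 0, 0]], [[0, 0, 0, 0, 0, 0, 0], [0, 0, 0, 0, 0, 0, 0], [0, 0, 0, 0, 0, 0, 0], [0, 0, 0, 0, 0, 0, 0], [0, 0, 0, 0, 0, 0, 0], [64, -288, 576, -648, 432, -162, 27], [0, 0, 0, 0, 0, 0, 0]], [[0, 0, 0, 0, 0, 0, 0], [0, 0, 0, 0, 0, 0, 0], [0, 0, 0, 0, 0, 0, 0], [0, 0, 0, 0, 0, 0, 0], [0, 0, 0, 0, 0, 0, 0], [0, 0, 0, 0, 0, 0, 0], [64, -288, 576, -648, 432, -162, 27]]]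

/-- right functions -/
def gsB : List (List (List Int)) :=
  [[[0, 0, 0, 0, 0, 0, 0], [8, -18, 9, 0, 0, 0, 0], [0, 0, 0, 0, 0, 0, 0], [0, 0, 0, 0, 0, 0, 0], [0, 0, 0, 0, 0, 0, 0]], [[0, 0, 0, 0, 0, 0, 0], [0, 0, 0, 0, 0, 0, 0], [0, 0, 0, 0, 0, 0, 0], [0, 0, 0, 0, 0, 0, 0], [64, -288, 468, -324, 81, 0, 0]], [[4, -6, 3, 0, 0, 0, 0], [0, 0, 0, 0, 0, 0, 0], [0, 0, 0, 0, 0, 0, 0], [0, 0, 0, 0, 0, 0, 0], [0, 0, 0, 0, 0, 0, 0]], [[0, 0, 0, 0, 0, 0, 0], [0, 0, 0, 0, 0, 0, 0], [0, 0, 0, 0, 0, 0, 0], [32, -120, 168, -108, 27, 0, 0], [0, 0, 0, 0, 0, 0, 0]], [[0, 0, 0, 0, 0, 0, 0], [0, 0, 0, 0, 0, 0, 0], [16, -48, 60, -36, 9, 0, 0], [0, 0, 0, 0, 0, 0, 0], [0, 0, 0, 0, 0, 0, 0]], [[0, 0, 0, 0, 0, 0, 0], [0, 0, 0, 0, 0, 0, 0], [0, 0, 0, 0, 0, 0, 0], [0, 0, 0, 0, 0, 0, 0], [64, -288, 576, -648,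 432, -162, 27]]]

/-- the matrix -/
def CB : List (List Int) :=
  [[3200, 0, 0, 0, 0, 0], [0, 0, 0, 0, 4800, 0], [0, 0, 0, 7200, 0, 0], [0, -3200, 0, 0, 0, 0], [400, 0, 0, 0, 0, 0], [0, 0, 0, -350, 0, 0], [0, 50, 0, 0, 0, 25], [0, 0, 0, 0, 57088, 0], [0, 0, 0, -19200, 0, 0], [0, 0, 2400, 0, 0, 0], [1800, 0, 0, 0, 0, 0], [0, 0, 0, 0, -2700, 0], [0, 0, 0, 1150, 0, 0], [0, 700, 0, 0, 0, 150], [0, 0, 14272, 0, 0, 0], [-2400, 0, 0, 0, 0, 0], [0, 0, 0, 0, -15600, 0], [0, 0, 0, 5400, 0, 0], [0, 0, 0, 0, 0, -600], [0, 0, 0, 0, -150, 0], [0, 0, 0, -75, 0, 0], [0, 25, 0, 0, 0, -175]]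

/-- data of the check -/
def DB : Data where
  k := 63
  n := 7
  m := 7
  n' := 5
  m' := 7
  XM := 2
  YM := 2
  XM' := 2
  YM' := 2
  S := 2197
  S' := 2197
  SC := 143110
  cr := 1
  cy := 1
  cr' := 1
  cy' := 1
  C := CB
  fs := fsB
  gs := gsB

theorem DB_ok : DB.ok = true := by decide +kernel

/-- the right cells -/
def cellsB : List ((Int × Int) × List (Int × Int)) :=
  [((0, 1), [(0, 1)])]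

theorem covB : covOK 0 1 0 1 cellsB = true := by decide +kernel

theorem rowB_0_0 : DB.row 0 1 0 1 (0, 1) (0, 1)
    [((0, 1), [(0, 1)])] = true := by decide +kernel

theorem rowsB : ∀ I' ∈ cellsB, ∀ J' ∈ I'.2, ∃ left,
    DB.row 0 1 0 1 I'.1 J' left = true := by
  intro I' hI' J' hJ'
  simp only [cellsB, List.mem_cons, List.not_mem_nil, or_false] at hI'
  subst hI'
  simp only [List.mem_cons, List.not_mem_nil, or_false] at hJ'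
  subst hJ'
  exact ⟨_, rowB_0_0⟩

theorem nonnegB {r y r2 y2 : ℝ} (hr0 : 0 ≤ r) (hr1 : r ≤ 1) (hy0 : 0 ≤ y) (hy1 : y ≤ 1)
    (hr0' : 0 ≤ r2) (hr1' : r2 ≤ 1) (hy0' : 0 ≤ y2) (hy1' : y2 ≤ 1) :
    0 ≤ bil CB (fsB.map (ev2 r y)) (gsB.map (ev2 r2 y2)) := by
  have e1 : (((0 : Int) : ℝ) / ((DB.cr : Int) : ℝ)) = 0 := by
    show (((0 : Int) : ℝ) / (((1 : Int)) : ℝ)) = 0
    norm_num
  have e2 : (((1 : Int) : ℝ) / ((DB.cr : Int) : ℝ)) = 1 := by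
    show (((1 : Int) : ℝ) / (((1 : Int)) : ℝ)) = 1
    norm_num
  have e3 : (((0 : Int) : ℝ) / ((DB.cy : Int) : ℝ)) = 0 := by
    show (((0 : Int) : ℝ) / (((1 : Int)) : ℝ)) = 0
    norm_num
  have e4 : (((1 : Int) : ℝ) / ((DB.cy : Int) : ℝ)) = 1 := by
    show (((1 : Int) : ℝ) / (((1 : Int)) : ℝ)) = 1
    norm_num
  have e1' : (((0 : Int) : ℝ) / ((DB.cr' : Int) : ℝ)) = 0 := by
    show (((0 : Int) : ℝ) / (((1 : Int)) : ℝ)) = 0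
    norm_num
  have e2' : (((1 : Int) : ℝ) / ((DB.cr' : Int) : ℝ)) = 1 := by
    show (((1 : Int) : ℝ) / (((1 : Int)) : ℝ)) = 1
    norm_num
  have e3' : (((0 : Int) : ℝ) / ((DB.cy' : Int) : ℝ)) = 0 := by
    show (((0 : Int) : ℝ) / (((1 : Int)) : ℝ)) = 0
    norm_num
  have e4' : (((1 : Int) : ℝ) / ((DB.cy' : Int) : ℝ)) = 1 := by
    show (((1 : Int) : ℝ) / (((1 : Int)) : ℝ)) = 1
    norm_num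
  exact Data.grid_sound DB_ok covB rowsB (e1.trans_le hr0) (hr1.trans_eq e2.symm)
    (e3.trans_le hy0) (hy1.trans_eq e4.symm) (e1'.trans_le hr0') (hr1'.trans_eq e2'.symm)
    (e3'.trans_le hy0') (hy1'.trans_eq e4'.symm)

lemma fsB_map (r t : ℝ) : fsB.map (ev2 r t) =
    [(hC t), r*(hC t), r^2*(hC t), r^3*(hC t), r^3*(hC t)^2, r^5*(hC t)^2, r^6*(hC t)^2, (hS t), r*(hS t), r*(hS t)*(hC t), r^2*(hS t)*(hC t), r^3*(hS t)*(hC t), r^4*(hS t)*(hC t), r^5*(hS t)*(hC t), (hS t)^2, r*(hS t)^2, r^2*(hS t)^2, r^3*(hS t)^2, r^4*(hS t)^2, r^4*(hS t)^3, r^5*(hS t)^3, r^6*(hS t)^3] := by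
  simp only [fsB, List.map_cons, List.map_nil, ev2, evRows, ev, hS, hC]
  push_cast
  refine congrArg₂ List.cons (by ring) ?_
  iterate 20 refine congrArg₂ List.cons (by ring) ?_
  exact congrArg₂ List.cons (by ring) rfl

lemma gsB_map (r t : ℝ) : gsB.map (ev2 r t) =
    [r*(hC t), r^4*(hC t)^2, (hS t), r^3*(hS t)*(hC t), r^2*(hS t)^2, r^4*(hS t)^3] := by
  simp only [gsB, List.map_cons, List.map_nil, ev2, evRows, ev, hS, hC]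
  push_cast
  refine congrArg₂ List.cons (by ring) ?_
  iterate 4 refine congrArg₂ List.cons (by ring) ?_
  exact congrArg₂ List.cons (by ring) rfl

theorem caseB {r t q t' : ℝ} (h1 : 0 ≤ r) (h2 : r ≤ 1) (h3 : 0 ≤ t) (h4 : t ≤ 1)
    (h1' : 0 ≤ q) (h2' : q ≤ 1) (h3' : 0 ≤ t') (h4' : t' ≤ 1) :
    0 ≤ P ((q * r)^2 * hS t' / 2) ((q * r)^3 * hC t' / 4) (r^2 * hS t / 8) (-(r^3 * hC t / 32)) := by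
  have key := nonnegB h1 h2 h3 h4 h1' h2' h3' h4'
  rw [fsB_map, gsB_map] at key
  have e : (819200 : ℝ) * P ((q * r)^2 * hS t' / 2) ((q * r)^3 * hC t' / 4) (r^2 * hS t / 8) (-(r^3 * hC t / 32)) =
      r^6 * q^2 * bil CB [(hC t), r*(hC t), r^2*(hC t), r^3*(hC t), r^3*(hC t)^2, r^5*(hC t)^2, r^6*(hC t)^2, (hS t), r*(hS t), r*(hS t)*(hC t), r^2*(hS t)*(hC t), r^3*(hS t)*(hC t), r^4*(hS t)*(hC t), r^5*(hS t)*(hC t), (hS t)^2, r*(hS t)^2, r^2*(hS t)^2, r^3*(hS t)^2, r^4*(hS t)^2, r^4*(hS t)^3, r^5*(hS t)^3, r^6*(hS t)^3]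
        [q*(hC t'), q^4*(hC t')^2, (hS t'), q^3*(hS t')*(hC t'), q^2*(hS t')^2, q^4*(hS t')^3] := by
    simp only [bil, dotR, CB, P]
    push_cast
    generalize hS t = a
    generalize hC t = b
    generalize hS t' = a'
    generalize hC t' = b'
    ring
  have k2 := mul_nonneg (show (0 : ℝ) ≤ r^6 * q^2 by positivity) key
  rw [← e] at k2
  linarith

theorem P_nonneg {s c S C : ℝ} (h : Cham s c) (h' : Cham (4 * S) (-(8 * C))) : 0 ≤ P s c S C := by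
  obtain ⟨r, t, h1, h2, h3, h4, h5, h6⟩ := Cham.polar2 h
  obtain ⟨r', t', h1', h2', h3', h4', h5', h6'⟩ := Cham.polar2 h'
  have hS' : S = r'^2 * hS t' / 8 := by linarith
  have hC' : C = -(r'^3 * hC t' / 32) := by linarith
  rcases le_total r' r with h | h
  · rcases h1.eq_or_lt with h0 | h0
    · have hr' : r' = 0 := le_antisymm (h0 ▸ h) h1'
      rw [h5, h6, hS', hC', ← h0, hr']
      simp [P]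
    · have := caseA h1 h2 h3 h4 (div_nonneg h1' h1) ((div_le_one h0).2 h) h3' h4'
      rw [div_mul_cancel₀ _ h0.ne'] at this
      rw [h5, h6, hS', hC']
      exact this
  · rcases h1'.eq_or_lt with h0 | h0
    · have hr' : r = 0 := le_antisymm (h0 ▸ h) h1
      rw [h5, h6, hS', hC', ← h0, hr']
      simp [P]
    · have := caseB h1' h2' h3' h4' (div_nonneg h1 h1') ((div_le_one h0).2 h) h3 h4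
      rw [div_mul_cancel₀ _ h0.ne'] at this
      rw [h5, h6, hS', hC']
      exact this


end Crest.Agent.R163.Loc.T2
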