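import Crest.Agent.R163.Q3Pair
import Crest.Agent.R163.LocRec
import Crest.Agent.R163.LocSum
import Crest.Agent.R163.LocK0
import Crest.Agent.R163.LocK1
import Crest.Agent.R163.LocK2
import Crest.Agent.R163.LocT1
import Crest.Agent.R163.LocT2
import Crest.Agent.R163.LocM1

/-!
Row 163, three states, antiferromagnetic local lemma: the six pairwise inequalities `PairRec`.
-/

set_option autoImplicit false

namespace Crest.Agent.R163.Loc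

open Crest.Agent.R163 Crest.Agent.R163.Q3

/-! ### coordinates -/

/-- `cub3` in coordinates -/
noncomputable def C3 (a b c : ℝ) : ℝ :=
  ((a - (a+b+c)/3) * (b - (a+b+c)/3) * (c - (a+b+c)/3)) / ((a+b+c)/3)^2

/-- `sq` in coordinates -/
noncomputable def SQ3 (a b c : ℝ) : ℝ := X3 a b c ^ 2 / ((a+b+c)/3)

lemma C3_formula {a b c Z : ℝ} (hZ : 0 < Z) (h : Z = (a + b + c) / 3) :
    C3 a b c = (a*b*c) * (1 / Z^2) - (a*b+b*c+c*a) * (1 / Z) + 2 * Z := by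
  obtain rfl : a = 3 * Z - b - c := by rw [h]; ring
  have : (3 * Z - b - c + b + c) / 3 = Z := by ring
  simp only [C3, this]
  field_simp
  ring

lemma SQ3_formula {a b c Z : ℝ} (hZ : 0 < Z) (h : Z = (a + b + c) / 3) :
    SQ3 a b c = (4/9) * ((3 * Z^2 - (a*b+b*c+c*a))^2 * (1 / Z^3)) := by
  have h1 := X3_formula hZ h
  unfold SQ3
  rw [h1, ← h]
  field_simp
  ring

/-- nonnegative triples with mean at most `3/2` -/
def Adm3 (a b c : ℝ) : Prop := 0 ≤ a ∧ 0 ≤ b ∧ 0 ≤ c ∧ (a + b + c) / 3 ≤ 3 / 2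

lemma geo1 {Z : ℝ} (hZ : 0 < Z) (h : Z ≤ 3 / 2) :
    1 - (Z-1) + (Z-1)^2 - (Z-1)^3 + (2/3)*(Z-1)^4 ≤ 1 / Z := by
  rw [le_div_iff₀ hZ]
  have : 1 - (1 - (Z-1) + (Z-1)^2 - (Z-1)^3 + (2/3)*(Z-1)^4) * Z =
      (Z-1)^4 * (1 - (2/3) * Z) := by ring
  have h2 : 0 ≤ (Z-1)^4 * (1 - (2/3) * Z) := mul_nonneg (by positivity) (by linarith)
  linarith

lemma geo1' {Z : ℝ} (hZ : 0 < Z) :
    1 / Z = 1 - (Z-1) + (Z-1)^2 - (Z-1)^3 + (Z-1)^4 * (1 / Z) := by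
  field_simp
  ring

lemma geo2 {Z : ℝ} (hZ : 0 < Z) (h : Z ≤ 3 / 2) :
    1 - 2*(Z-1) + 3*(Z-1)^2 - 4*(Z-1)^3 + (28/9)*(Z-1)^4 ≤ 1 / Z^2 := by
  rw [le_div_iff₀ (by positivity)]
  have : 1 - (1 - 2*(Z-1) + 3*(Z-1)^2 - 4*(Z-1)^3 + (28/9)*(Z-1)^4) * Z^2 =
      (Z-1)^4 * (1 + 4 * Z - (28/9) * Z^2) := by ring
  have h1 : 0 ≤ 1 + 4 * Z - (28/9) * Z^2 := by nlinarith
  have h2 : 0 ≤ (Z-1)^4 * (1 + 4 * Z - (28/9) * Z^2) := mul_nonneg (by positivity) h1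
  linarith

lemma geo2' {Z : ℝ} (hZ : 0 < Z) :
    1 / Z^2 = 1 - 2*(Z-1) + 3*(Z-1)^2 - 4*(Z-1)^3 + (Z-1)^4 * (5 + 4*(Z-1)) * (1 / Z^2) := by
  field_simp
  ring

lemma E_le {a b c Z : ℝ} (h : Z = (a + b + c) / 3) : a*b+b*c+c*a ≤ 3 * Z^2 := by
  rw [h]; nlinarith [sq_nonneg (a-b), sq_nonneg (b-c), sq_nonneg (c-a)]

lemma e3_le {a b c Z : ℝ} (ha : 0 ≤ a) (hb : 0 ≤ b) (hc : 0 ≤ c) (h : Z = (a + b + c) / 3) :
    a*b*c ≤ Z^3 := by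
  have h1 : 0 ≤ a + b + c := by positivity
  rw [h]
  nlinarith [mul_nonneg ha (sq_nonneg (b-c)), mul_nonneg hb (sq_nonneg (a-c)),
    mul_nonneg hc (sq_nonneg (a-b)), mul_nonneg h1 (sq_nonneg (a-b)), mul_nonneg h1 (sq_nonneg (b-c)),
    mul_nonneg h1 (sq_nonneg (c-a))]

lemma X3_le_QK1 {a b c : ℝ} (h : Adm3 a b c) : X3 a b c ≤ QK1 a b c := by
  obtain ⟨ha, hb, hc, h3⟩ := h
  by_cases h0 : (a + b + c) / 3 = 0
  · obtain ⟨rfl, rfl, rfl⟩ := all_zero ha hb hc h0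
    simp [QK1, X3]
  have hZ : 0 < (a + b + c) / 3 := lt_of_le_of_ne (by positivity) (Ne.symm h0)
  set Z := (a + b + c) / 3 with hZd
  have hE : 0 ≤ a*b+b*c+c*a := by positivity
  have hP := X3_formula hZ hZd
  have k1 := mul_le_mul_of_nonneg_left (geo1 hZ h3) hE
  rw [hP]
  simp only [QK1]
  rw [← hZd]
  linarith

lemma QK2_le_X3 {a b c : ℝ} (h : Adm3 a b c) : QK2 a b c ≤ X3 a b c := by
  obtain ⟨ha, hb, hc, -⟩ := h
  by_cases h0 : (a + b + c) / 3 = 0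
  · obtain ⟨rfl, rfl, rfl⟩ := all_zero ha hb hc h0
    simp [QK2, X3]
  have hZ : 0 < (a + b + c) / 3 := lt_of_le_of_ne (by positivity) (Ne.symm h0)
  set Z := (a + b + c) / 3 with hZd
  have hE : 0 ≤ a*b+b*c+c*a := by positivity
  have hP := X3_formula hZ hZd
  have hE3 := E_le hZd
  have k1 : (a*b+b*c+c*a) * (1 / Z) ≤ 3 * Z := by
    rw [mul_one_div, div_le_iff₀ hZ]; nlinarith
  have k2 := mul_le_mul_of_nonneg_left k1 (show 0 ≤ (Z-1)^4 by positivity)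
  rw [hP, geo1' hZ]
  simp only [QK2]
  rw [← hZd]
  have e : (a*b+b*c+c*a) * (1 - (Z-1) + (Z-1)^2 - (Z-1)^3 + (Z-1)^4 * (1 / Z)) =
      (a*b+b*c+c*a) * (1 - (Z-1) + (Z-1)^2 - (Z-1)^3) + (Z-1)^4 * ((a*b+b*c+c*a) * (1 / Z)) := by ring
  rw [e]
  linarith

lemma QT1_le_C3 {a b c : ℝ} (h : Adm3 a b c) : QT1 a b c ≤ C3 a b c := by
  obtain ⟨ha, hb, hc, h3⟩ := h
  by_cases h0 : (a + b + c) / 3 = 0
  · obtain ⟨rfl, rfl, rfl⟩ := all_zero ha hb hc h0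
    simp [QT1, C3]
  have hZ : 0 < (a + b + c) / 3 := lt_of_le_of_ne (by positivity) (Ne.symm h0)
  set Z := (a + b + c) / 3 with hZd
  have hE : 0 ≤ a*b+b*c+c*a := by positivity
  have he : 0 ≤ a*b*c := by positivity
  have hP := C3_formula hZ hZd
  have hE3 := E_le hZd
  have k1 : (a*b+b*c+c*a) * (1 / Z) ≤ 3 * Z := by
    rw [mul_one_div, div_le_iff₀ hZ]; nlinarith
  have k2 := mul_le_mul_of_nonneg_left k1 (show 0 ≤ (Z-1)^4 by positivity)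
  have k3 := mul_le_mul_of_nonneg_left (geo2 hZ h3) he
  have e : (a*b+b*c+c*a) * (1 / Z) =
      (a*b+b*c+c*a) * (1 - (Z-1) + (Z-1)^2 - (Z-1)^3) + (Z-1)^4 * ((a*b+b*c+c*a) * (1 / Z)) := by
    conv_lhs => rw [geo1' hZ]
    ring
  rw [hP]
  simp only [QT1]
  rw [← hZd]
  linarith

lemma C3_le_QT2 {a b c : ℝ} (h : Adm3 a b c) : C3 a b c ≤ QT2 a b c := by
  obtain ⟨ha, hb, hc, h3⟩ := h
  by_cases h0 : (a + b + c) / 3 = 0
  · obtain ⟨rfl, rfl, rfl⟩ := all_zero ha hb hc h0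
    simp [QT2, C3]
  have hZ : 0 < (a + b + c) / 3 := lt_of_le_of_ne (by positivity) (Ne.symm h0)
  set Z := (a + b + c) / 3 with hZd
  have hE : 0 ≤ a*b+b*c+c*a := by positivity
  have he : 0 ≤ a*b*c := by positivity
  have hP := C3_formula hZ hZd
  have k1 := mul_le_mul_of_nonneg_left (geo1 hZ h3) hE
  have k2 : (a*b*c) * (1 / Z^2) ≤ Z := by
    rw [mul_one_div, div_le_iff₀ (by positivity)]
    have := e3_le ha hb hc hZd
    nlinarith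
  have k3 := mul_le_mul_of_nonneg_left k2
    (show 0 ≤ (Z-1)^4 * (5 + 4*(Z-1)) from mul_nonneg (by positivity) (by linarith))
  have e : (a*b*c) * (1 / Z^2) =
      (a*b*c) * (1 - 2*(Z-1) + 3*(Z-1)^2 - 4*(Z-1)^3) +
        (Z-1)^4 * (5 + 4*(Z-1)) * ((a*b*c) * (1 / Z^2)) := by
    conv_lhs => rw [geo2' hZ]
    ring
  rw [hP]
  simp only [QT2]
  rw [← hZd]
  linarith

/-- auxiliary polynomial -/
noncomputable def bb (v t : ℝ) : ℝ :=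
  9 * (1 + v) * t^2 * (3/5 + 79/10 * v + 51/10 * v^2 - 51/10 * v^3 - 39/10 * v^4)
    + 3 * (1 + v)^2 * t * (7/20 - 119/10 * v) + 108/5 * v^2

lemma bb_0 {v t : ℝ} (h1 : (-1) ≤ v) (h2 : v ≤ (-1/2)) (h3 : 0 ≤ t) (h4 : t ≤ 1) : 0 ≤ bb v t := by
  have e : bb v t = 3456/5 * ((v - (-1))^0 * ((-1/2) - v)^5 * ((t - 0)^0 * (1 - t)^2)) +
    6912/5 * ((v - (-1))^0 * ((-1/2) - v)^5 * ((t - 0)^1 * (1 - t)^1)) +
    3456/5 * ((v - (-1))^0 * ((-1/2) - v)^5 * ((t - 0)^2 * (1 - t)^0)) +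
    13824/5 * ((v - (-1))^1 * ((-1/2) - v)^4 * ((t - 0)^0 * (1 - t)^2)) +
    27648/5 * ((v - (-1))^1 * ((-1/2) - v)^4 * ((t - 0)^1 * (1 - t)^1)) +
    13104/5 * ((v - (-1))^1 * ((-1/2) - v)^4 * ((t - 0)^2 * (1 - t)^0)) +
    4320 * ((v - (-1))^2 * ((-1/2) - v)^3 * ((t - 0)^0 * (1 - t)^2)) +
    8934 * ((v - (-1))^2 * ((-1/2) - v)^3 * ((t - 0)^1 * (1 - t)^1)) +
    3894 * ((v - (-1))^2 * ((-1/2) - v)^3 * ((t - 0)^2 * (1 - t)^0)) +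
    16416/5 * ((v - (-1))^3 * ((-1/2) - v)^2 * ((t - 0)^0 * (1 - t)^2)) +
    36528/5 * ((v - (-1))^3 * ((-1/2) - v)^2 * ((t - 0)^1 * (1 - t)^1)) +
    13092/5 * ((v - (-1))^3 * ((-1/2) - v)^2 * ((t - 0)^2 * (1 - t)^0)) +
    6048/5 * ((v - (-1))^4 * ((-1/2) - v)^1 * ((t - 0)^0 * (1 - t)^2)) +
    15078/5 * ((v - (-1))^4 * ((-1/2) - v)^1 * ((t - 0)^1 * (1 - t)^1)) +
    771 * ((v - (-1))^4 * ((-1/2) - v)^1 * ((t - 0)^2 * (1 - t)^0)) +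
    864/5 * ((v - (-1))^5 * ((-1/2) - v)^0 * ((t - 0)^0 * (1 - t)^2)) +
    2484/5 * ((v - (-1))^5 * ((-1/2) - v)^0 * ((t - 0)^1 * (1 - t)^1)) +
    819/10 * ((v - (-1))^5 * ((-1/2) - v)^0 * ((t - 0)^2 * (1 - t)^0)) := by
    unfold bb; ring
  have k1 : 0 ≤ v - (-1) := by linarith
  have k2 : 0 ≤ (-1/2) - v := by linarith
  have k3 : 0 ≤ t - 0 := by linarith
  have k4 : 0 ≤ 1 - t := by linarith
  rw [e]; positivity

lemma bb_1 {v t : ℝ} (h1 : (-1/2) ≤ v) (h2 : v ≤ (-3/8)) (h3 : 0 ≤ t) (h4 : t ≤ 1) : 0 ≤ bb v t := by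
  have e : bb v t = 884736/5 * ((v - (-1/2))^0 * ((-3/8) - v)^5 * ((t - 0)^0 * (1 - t)^2)) +
    2543616/5 * ((v - (-1/2))^0 * ((-3/8) - v)^5 * ((t - 0)^1 * (1 - t)^1)) +
    419328/5 * ((v - (-1/2))^0 * ((-3/8) - v)^5 * ((t - 0)^2 * (1 - t)^0)) +
    3981312/5 * ((v - (-1/2))^1 * ((-3/8) - v)^4 * ((t - 0)^0 * (1 - t)^2)) +
    12037632/5 * ((v - (-1/2))^1 * ((-3/8) - v)^4 * ((t - 0)^1 * (1 - t)^1)) +
    326784 * ((v - (-1/2))^1 * ((-3/8) - v)^4 * ((t - 0)^2 * (1 - t)^0)) +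
    7133184/5 * ((v - (-1/2))^2 * ((-3/8) - v)^3 * ((t - 0)^0 * (1 - t)^2)) +
    22781952/5 * ((v - (-1/2))^2 * ((-3/8) - v)^3 * ((t - 0)^1 * (1 - t)^1)) +
    2455488/5 * ((v - (-1/2))^2 * ((-3/8) - v)^3 * ((t - 0)^2 * (1 - t)^0)) +
    1271808 * ((v - (-1/2))^3 * ((-3/8) - v)^2 * ((t - 0)^0 * (1 - t)^2)) +
    4308960 * ((v - (-1/2))^3 * ((-3/8) - v)^2 * ((t - 0)^1 * (1 - t)^1)) +
    353712 * ((v - (-1/2))^3 * ((-3/8) - v)^2 * ((t - 0)^2 * (1 - t)^0)) +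
    2820096/5 * ((v - (-1/2))^4 * ((-3/8) - v)^1 * ((t - 0)^0 * (1 - t)^2)) +
    10176192/5 * ((v - (-1/2))^4 * ((-3/8) - v)^1 * ((t - 0)^1 * (1 - t)^1)) +
    609966/5 * ((v - (-1/2))^4 * ((-3/8) - v)^1 * ((t - 0)^2 * (1 - t)^0)) +
    497664/5 * ((v - (-1/2))^5 * ((-3/8) - v)^0 * ((t - 0)^0 * (1 - t)^2)) +
    1919328/5 * ((v - (-1/2))^5 * ((-3/8) - v)^0 * ((t - 0)^1 * (1 - t)^1)) +
    164253/10 * ((v - (-1/2))^5 * ((-3/8) - v)^0 * ((t - 0)^2 * (1 - t)^0)) := by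
    unfold bb; ring
  have k1 : 0 ≤ v - (-1/2) := by linarith
  have k2 : 0 ≤ (-3/8) - v := by linarith
  have k3 : 0 ≤ t - 0 := by linarith
  have k4 : 0 ≤ 1 - t := by linarith
  rw [e]; positivity

lemma bb_2 {v t : ℝ} (h1 : (-3/8) ≤ v) (h2 : v ≤ (-1/4)) (h3 : 0 ≤ t) (h4 : t ≤ 1) : 0 ≤ bb v t := by
  have e : bb v t = 497664/5 * ((v - (-3/8))^0 * ((-1/4) - v)^5 * ((t - 0)^0 * (1 - t)^2)) +
    1919328/5 * ((v - (-3/8))^0 * ((-1/4) - v)^5 * ((t - 0)^1 * (1 - t)^1)) +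
    164253/10 * ((v - (-3/8))^0 * ((-1/4) - v)^5 * ((t - 0)^2 * (1 - t)^0)) +
    2156544/5 * ((v - (-3/8))^1 * ((-1/4) - v)^4 * ((t - 0)^0 * (1 - t)^2)) +
    9017088/5 * ((v - (-3/8))^1 * ((-1/4) - v)^4 * ((t - 0)^1 * (1 - t)^1)) +
    211299/5 * ((v - (-3/8))^1 * ((-1/4) - v)^4 * ((t - 0)^2 * (1 - t)^0)) +
    3704832/5 * ((v - (-3/8))^2 * ((-1/4) - v)^3 * ((t - 0)^0 * (1 - t)^2)) +
    16908384/5 * ((v - (-3/8))^2 * ((-1/4) - v)^3 * ((t - 0)^1 * (1 - t)^1)) +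
    173892/5 * ((v - (-3/8))^2 * ((-1/4) - v)^3 * ((t - 0)^2 * (1 - t)^0)) +
    3151872/5 * ((v - (-3/8))^3 * ((-1/4) - v)^2 * ((t - 0)^0 * (1 - t)^2)) +
    3160896 * ((v - (-3/8))^3 * ((-1/4) - v)^2 * ((t - 0)^1 * (1 - t)^1)) +
    86808/5 * ((v - (-3/8))^3 * ((-1/4) - v)^2 * ((t - 0)^2 * (1 - t)^0)) +
    1327104/5 * ((v - (-3/8))^4 * ((-1/4) - v)^1 * ((t - 0)^0 * (1 - t)^2)) +
    1471104 * ((v - (-3/8))^4 * ((-1/4) - v)^1 * ((t - 0)^1 * (1 - t)^1)) +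
    85896/5 * ((v - (-3/8))^4 * ((-1/4) - v)^1 * ((t - 0)^2 * (1 - t)^0)) +
    221184/5 * ((v - (-3/8))^5 * ((-1/4) - v)^0 * ((t - 0)^0 * (1 - t)^2)) +
    1361664/5 * ((v - (-3/8))^5 * ((-1/4) - v)^0 * ((t - 0)^1 * (1 - t)^1)) +
    43632/5 * ((v - (-3/8))^5 * ((-1/4) - v)^0 * ((t - 0)^2 * (1 - t)^0)) := by
    unfold bb; ring
  have k1 : 0 ≤ v - (-3/8) := by linarith
  have k2 : 0 ≤ (-1/4) - v := by linarith
  have k3 : 0 ≤ t - 0 := by linarith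
  have k4 : 0 ≤ 1 - t := by linarith
  rw [e]; positivity

lemma bb_3 {v t : ℝ} (h1 : (-1/4) ≤ v) (h2 : v ≤ 0) (h3 : 0 ≤ t) (h4 : t ≤ 1) : 0 ≤ bb v t := by
  have e : bb v t = 6912/5 * ((v - (-1/4))^0 * (0 - v)^5 * ((t - 0)^0 * (1 - t)^2)) +
    42552/5 * ((v - (-1/4))^0 * (0 - v)^5 * ((t - 0)^1 * (1 - t)^1)) +
    2727/10 * ((v - (-1/4))^0 * (0 - v)^5 * ((t - 0)^2 * (1 - t)^0)) +
    20736/5 * ((v - (-1/4))^1 * (0 - v)^4 * ((t - 0)^0 * (1 - t)^2)) +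
    35712 * ((v - (-1/4))^1 * (0 - v)^4 * ((t - 0)^1 * (1 - t)^1)) +
    15084/5 * ((v - (-1/4))^1 * (0 - v)^4 * ((t - 0)^2 * (1 - t)^0)) +
    20736/5 * ((v - (-1/4))^2 * (0 - v)^3 * ((t - 0)^0 * (1 - t)^2)) +
    57720 * ((v - (-1/4))^2 * (0 - v)^3 * ((t - 0)^1 * (1 - t)^1)) +
    69144/5 * ((v - (-1/4))^2 * (0 - v)^3 * ((t - 0)^2 * (1 - t)^0)) +
    6912/5 * ((v - (-1/4))^3 * (0 - v)^2 * ((t - 0)^0 * (1 - t)^2)) +
    217104/5 * ((v - (-1/4))^3 * (0 - v)^2 * ((t - 0)^1 * (1 - t)^1)) +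
    132432/5 * ((v - (-1/4))^3 * (0 - v)^2 * ((t - 0)^2 * (1 - t)^0)) +
    69888/5 * ((v - (-1/4))^4 * (0 - v)^1 * ((t - 0)^1 * (1 - t)^1)) +
    110208/5 * ((v - (-1/4))^4 * (0 - v)^1 * ((t - 0)^2 * (1 - t)^0)) +
    5376/5 * ((v - (-1/4))^5 * (0 - v)^0 * ((t - 0)^1 * (1 - t)^1)) +
    33024/5 * ((v - (-1/4))^5 * (0 - v)^0 * ((t - 0)^2 * (1 - t)^0)) := by
    unfold bb; ring
  have k1 : 0 ≤ v - (-1/4) := by linarith
  have k2 : 0 ≤ 0 - v := by linarith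
  have k3 : 0 ≤ t - 0 := by linarith
  have k4 : 0 ≤ 1 - t := by linarith
  rw [e]; positivity

lemma disc_nonneg {v : ℝ} (h1 : 1/40 ≤ v) (h2 : v ≤ 1/2) :
    0 ≤ 3888/5 * v^2 * (3/5 + 79/10 * v + 51/10 * v^2 - 51/10 * v^3 - 39/10 * v^4)
      - 9 * ((1 + v)^3 * (7/20 - 119/10 * v)^2) := by
  have e : 3888/5 * v^2 * (3/5 + 79/10 * v + 51/10 * v^2 - 51/10 * v^3 - 39/10 * v^4)
      - 9 * ((1 + v)^3 * (7/20 - 119/10 * v)^2) = 37107818334/1176147025 * ((v - 1/40)^0 * (1/2 - v)^6) +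
    502894492326/235229405 * ((v - 1/40)^1 * (1/2 - v)^5) +
    115035782616/47045881 * ((v - 1/40)^2 * (1/2 - v)^4) +
    595266107040/47045881 * ((v - 1/40)^3 * (1/2 - v)^3) +
    1981898409600/47045881 * ((v - 1/40)^4 * (1/2 - v)^2) +
    1580083200000/47045881 * ((v - 1/40)^5 * (1/2 - v)^1) +
    34836480000/47045881 * ((v - 1/40)^6 * (1/2 - v)^0) := by ring
  have k1 : 0 ≤ v - 1/40 := by linarith
  have k2 : 0 ≤ 1/2 - v := by linarith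
  rw [e]; positivity

lemma kp_pos {v : ℝ} (h1 : 0 ≤ v) (h2 : v ≤ 1/2) : 0 < (3/5 + 79/10 * v + 51/10 * v^2 - 51/10 * v^3 - 39/10 * v^4) := by
  have e1 : v^2 ≤ 1/4 := by nlinarith
  have e2 : 0 ≤ v^2 * (1/2 - v) := mul_nonneg (sq_nonneg v) (by linarith)
  have e3 : 0 ≤ v^2 * (1/4 - v^2) := mul_nonneg (sq_nonneg v) (by linarith)
  nlinarith

lemma bb_high {v t : ℝ} (h1 : 1/40 ≤ v) (h2 : v ≤ 1/2) : 0 ≤ bb v t := by
  have hk := kp_pos (by linarith : 0 ≤ v) h2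
  have hv : 0 < 1 + v := by linarith
  have ha : 0 < 9 * (1 + v) * (3/5 + 79/10 * v + 51/10 * v^2 - 51/10 * v^3 - 39/10 * v^4) := by
    positivity
  have hd := disc_nonneg h1 h2
  have hd2 := mul_nonneg hv.le hd
  have e : 4 * (9 * (1 + v) * (3/5 + 79/10 * v + 51/10 * v^2 - 51/10 * v^3 - 39/10 * v^4)) * bb v t =
      (2 * (9 * (1 + v) * (3/5 + 79/10 * v + 51/10 * v^2 - 51/10 * v^3 - 39/10 * v^4)) * t
        + 3 * (1 + v)^2 * (7/20 - 119/10 * v))^2 +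
      (1 + v) * (3888/5 * v^2 * (3/5 + 79/10 * v + 51/10 * v^2 - 51/10 * v^3 - 39/10 * v^4)
      - 9 * ((1 + v)^3 * (7/20 - 119/10 * v)^2)) := by
    unfold bb; ring
  have h3 : 0 ≤ 4 * (9 * (1 + v) * (3/5 + 79/10 * v + 51/10 * v^2 - 51/10 * v^3 - 39/10 * v^4)) * bb v t := by
    rw [e]; positivity
  exact nonneg_of_mul_nonneg_right h3 (by positivity)

lemma bb_mid {v t : ℝ} (h1 : 0 ≤ v) (h2 : v ≤ 1/40) (h3 : 0 ≤ t) : 0 ≤ bb v t := by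
  have hk := kp_pos h1 (by linarith)
  have hr : 0 ≤ 7/20 - 119/10 * v := by linarith
  unfold bb
  positivity

lemma bb_nonneg {v t : ℝ} (h1 : -1 ≤ v) (h2 : v ≤ 1/2) (h3 : 0 ≤ t) (h4 : t ≤ 1) : 0 ≤ bb v t := by
  rcases le_total (1/40) v with h | h
  · exact bb_high h h2
  rcases le_total 0 v with h' | h'
  · exact bb_mid h' h h3
  rcases le_total v (-1/2) with g0 | g0
  · exact bb_0 (by linarith) (by linarith) (by linarith) (by linarith)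
  rcases le_total v (-3/8) with g1 | g1
  · exact bb_1 (by linarith) (by linarith) (by linarith) (by linarith)
  rcases le_total v (-1/4) with g2 | g2
  · exact bb_2 (by linarith) (by linarith) (by linarith) (by linarith)
  exact bb_3 (by linarith) (by linarith) (by linarith) (by linarith)

/-- one variable/ratio inequality behind the majorant of `sq` -/
lemma m0_key {Z t : ℝ} (hZ : 0 < Z) (hZ2 : Z ≤ 3 / 2) (h0 : 0 ≤ t) (h1 : t ≤ 1) :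
    0 ≤ 9 * Z^4 * t^2 * (1 - 3 * (Z-1) + (33/5 * (Z-1)^2 - 39/10 * (Z-1)^3)) - 9 * Z * t^2
      + 3 * Z^2 * t * (7/20 * (Z-1)^2 - 119/10 * (Z-1)^3) + 108/5 * (Z-1)^4 := by
  have h := bb_nonneg (v := Z - 1) (t := t) (by linarith) (by linarith) h0 h1
  have e : 9 * Z^4 * t^2 * (1 - 3 * (Z-1) + (33/5 * (Z-1)^2 - 39/10 * (Z-1)^3)) - 9 * Z * t^2
      + 3 * Z^2 * t * (7/20 * (Z-1)^2 - 119/10 * (Z-1)^3) + 108/5 * (Z-1)^4 =
      (Z-1)^2 * bb (Z-1) t := by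
    unfold bb; ring
  rw [e]; positivity

lemma SQ3_le_QM1 {a b c : ℝ} (h : Adm3 a b c) : SQ3 a b c ≤ QM1 a b c := by
  obtain ⟨ha, hb, hc, h3⟩ := h
  by_cases h0 : (a + b + c) / 3 = 0
  · obtain ⟨rfl, rfl, rfl⟩ := all_zero ha hb hc h0
    simp [QM1, SQ3]
    norm_num
  have hZ : 0 < (a + b + c) / 3 := lt_of_le_of_ne (by positivity) (Ne.symm h0)
  set Z := (a + b + c) / 3 with hZd
  have hE : 0 ≤ a*b+b*c+c*a := by positivity
  have hP := SQ3_formula hZ hZd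
  have hE3 := E_le hZd
  set t := 1 - (a*b+b*c+c*a) / (3 * Z^2) with ht
  have hDt : 3 * Z^2 - (a*b+b*c+c*a) = 3 * Z^2 * t := by
    rw [ht]; field_simp
  have ht0 : 0 ≤ t := by
    rw [ht, sub_nonneg, div_le_one (by positivity)]; exact hE3
  have ht1 : t ≤ 1 := by
    rw [ht]
    have : 0 ≤ (a*b+b*c+c*a) / (3 * Z^2) := by positivity
    linarith
  have key := m0_key hZ h3 ht0 ht1
  rw [hP]
  simp only [QM1]
  rw [← hZd, hDt]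
  have e : (3 * Z^2 * t)^2 * (1 / Z^3) = 9 * Z * t^2 := by
    field_simp
    ring
  rw [e]
  nlinarith [key]

lemma S6_le {Q Q' : ℝ → ℝ → ℝ → ℝ} (hQ : ∀ a b c : ℝ, Adm3 a b c → Q a b c ≤ Q' a b c)
    {a b c x y z : ℝ}
    (ha : 0 ≤ a) (hb : 0 ≤ b) (hc : 0 ≤ c) (hx : 0 ≤ x) (hy : 0 ≤ y) (hz : 0 ≤ z)
    (hx2 : x ≤ 3/2) (hy2 : y ≤ 3/2) (hz2 : z ≤ 3/2) (h : a + b + c = 3) :
    S6 Q a b c x y z ≤ S6 Q' a b c x y z := by
  have hx3 : 0 ≤ 3/2 - x := by linarith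
  have hy3 : 0 ≤ 3/2 - y := by linarith
  have hz3 : 0 ≤ 3/2 - z := by linarith
  have key : ∀ p q r : ℝ, 0 ≤ p → 0 ≤ q → 0 ≤ r → p ≤ 3/2 → q ≤ 3/2 → r ≤ 3/2 →
      Q (a*p) (b*q) (c*r) ≤ Q' (a*p) (b*q) (c*r) := by
    intro p q r hp hq hr hp2 hq2 hr2
    refine hQ _ _ _ ⟨by positivity, by positivity, by positivity, ?_⟩
    have e1 := mul_le_mul_of_nonneg_left hp2 ha
    have e2 := mul_le_mul_of_nonneg_left hq2 hb
    have e3 := mul_le_mul_of_nonneg_left hr2 hc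
    linarith
  simp only [S6]
  have := key x y z hx hy hz hx2 hy2 hz2
  have := key x z y hx hz hy hx2 hz2 hy2
  have := key y x z hy hx hz hy2 hx2 hz2
  have := key y z x hy hz hx hy2 hz2 hx2
  have := key z x y hz hx hy hz2 hx2 hy2
  have := key z y x hz hy hx hz2 hy2 hx2
  linarith

/-- invariants of a message -/
lemma cham_msg {a b c : ℝ} (ha : a ≤ 3/2) (hb : b ≤ 3/2) (hc : c ≤ 3/2) (h : a + b + c = 3) :
    Cham (4 * i2 a b c) (-(8 * i3 a b c)) := by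
  have h1 := cham (a := 3 - 2*a) (b := 3 - 2*b) (c := 3 - 2*c) (by linarith) (by linarith)
    (by linarith) (by linarith)
  have e2 : i2 (3 - 2*a) (3 - 2*b) (3 - 2*c) = 4 * i2 a b c := by simp only [i2]; ring
  have e3 : i3 (3 - 2*a) (3 - 2*b) (3 - 2*c) = -(8 * i3 a b c) := by simp only [i3]; ring
  rwa [e2, e3] at h1

lemma c3_coord (v : Fin 3 → ℝ) : cub3 v = C3 (v 0) (v 1) (v 2) := by
  simp only [cub3, C3, avg3, Fin.prod_univ_three]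

lemma sq_coord (v : Fin 3 → ℝ) : sq v = SQ3 (v 0) (v 1) (v 2) := by
  simp only [sq, SQ3, chi3, avg3]

lemma chi_i2 {v : Fin 3 → ℝ} (h : avg v = 1) : chi v = i2 (v 0) (v 1) (v 2) := by
  rw [chi3, X3_norm (sum3_of_avg h)]

lemma c3_i3 {v : Fin 3 → ℝ} (h : avg v = 1) : cub3 v = i3 (v 0) (v 1) (v 2) := by
  rw [c3_norm h]; rfl

/-- all six pairwise inequalities -/
theorem pairRec : PairRec (5/8) (23/10) (73/100) (23/5) 4 where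
  K0 u v hu hv hv2 hu1 hv1 := by
    have hs := sum3_of_avg hu1
    have hs' := sum3_of_avg hv1
    have h1 := S6_le (fun _ _ _ h => X3_le_QK1 h) (hu 0) (hu 1) (hu 2) (hv 0) (hv 1) (hv 2)
      (hv2 0) (hv2 1) (hv2 2) hs
    rw [S6_QK1 _ _ _ _ _ _ hs hs'] at h1
    have h2 := K0.P_nonneg (cham (hu 0) (hu 1) (hu 2) hs) (cham_msg (hv2 0) (hv2 1) (hv2 2) hs')
    rw [orb_eq chi3, chi_i2 hu1, chi_i2 hv1]
    revert h1 h2
    generalize i2 (u 0) (u 1) (u 2) = s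
    generalize i3 (u 0) (u 1) (u 2) = c
    generalize i2 (v 0) (v 1) (v 2) = S
    generalize i3 (v 0) (v 1) (v 2) = C
    intro h1 h2
    have key : GK1 s c S C = 6 * (s + S + s * S - K0.P s c S C) := by
      simp only [GK1, K0.P]; ring
    rw [key] at h1
    linarith
  K1 u v hu hv hv2 hu1 hv1 := by
    have hs := sum3_of_avg hu1
    have hs' := sum3_of_avg hv1
    have h1 := S6_le (fun _ _ _ h => X3_le_QK1 h) (hu 0) (hu 1) (hu 2) (hv 0) (hv 1) (hv 2)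
      (hv2 0) (hv2 1) (hv2 2) hs
    rw [S6_QK1 _ _ _ _ _ _ hs hs'] at h1
    have h2 := K1.P_nonneg (cham (hu 0) (hu 1) (hu 2) hs) (cham_msg (hv2 0) (hv2 1) (hv2 2) hs')
    rw [orb_eq chi3, chi_i2 hu1, chi_i2 hv1, c3_i3 hu1, c3_i3 hv1]
    revert h1 h2
    generalize i2 (u 0) (u 1) (u 2) = s
    generalize i3 (u 0) (u 1) (u 2) = c
    generalize i2 (v 0) (v 1) (v 2) = S
    generalize i3 (v 0) (v 1) (v 2) = C
    intro h1 h2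
    have key : GK1 s c S C = 6 * (s + S - s * S / 2 - s * C - c * S + c * C
        + 5/8 * (s * S * (s + S)) - K1.P s c S C) := by
      simp only [GK1, K1.P]; ring
    rw [key] at h1
    linarith
  K2 u v hu hv hv2 hu1 hv1 := by
    have hs := sum3_of_avg hu1
    have hs' := sum3_of_avg hv1
    have h1 := S6_le (fun _ _ _ h => QK2_le_X3 h) (hu 0) (hu 1) (hu 2) (hv 0) (hv 1) (hv 2)
      (hv2 0) (hv2 1) (hv2 2) hs
    rw [S6_QK2 _ _ _ _ _ _ hs hs'] at h1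
    have h2 := K2.P_nonneg (cham (hu 0) (hu 1) (hu 2) hs) (cham_msg (hv2 0) (hv2 1) (hv2 2) hs')
    rw [orb_eq chi3, chi_i2 hu1, chi_i2 hv1, c3_i3 hu1, c3_i3 hv1]
    revert h1 h2
    generalize i2 (u 0) (u 1) (u 2) = s
    generalize i3 (u 0) (u 1) (u 2) = c
    generalize i2 (v 0) (v 1) (v 2) = S
    generalize i3 (v 0) (v 1) (v 2) = C
    intro h1 h2
    have key : GK2 s c S C = 6 * (s + S - s * S / 2 - s * C - c * S + c * C + K2.P s c S C) := by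
      simp only [GK2, K2.P]; ring
    rw [key] at h1
    linarith
  T1 u v hu hv hv2 hu1 hv1 := by
    have hs := sum3_of_avg hu1
    have hs' := sum3_of_avg hv1
    have h1 := S6_le (fun _ _ _ h => QT1_le_C3 h) (hu 0) (hu 1) (hu 2) (hv 0) (hv 1) (hv 2)
      (hv2 0) (hv2 1) (hv2 2) hs
    rw [S6_QT1 _ _ _ _ _ _ hs hs'] at h1
    have h2 := T1.P_nonneg (cham (hu 0) (hu 1) (hu 2) hs) (cham_msg (hv2 0) (hv2 1) (hv2 2) hs')
    rw [orb_eq c3_coord, chi_i2 hu1, chi_i2 hv1, c3_i3 hu1, c3_i3 hv1]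
    revert h1 h2
    generalize i2 (u 0) (u 1) (u 2) = s
    generalize i3 (u 0) (u 1) (u 2) = c
    generalize i2 (v 0) (v 1) (v 2) = S
    generalize i3 (v 0) (v 1) (v 2) = C
    intro h1 h2
    have key : GT1 s c S C = 6 * (c + C + 3 * (s * S) - 3 * (s * C + c * S)
        - 23/10 * (s * S * (s + S)) + T1.P s c S C) := by
      simp only [GT1, T1.P]; ring
    rw [key] at h1
    linarith
  T2 u v hu hv hv2 hu1 hv1 := by
    have hs := sum3_of_avg hu1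
    have hs' := sum3_of_avg hv1
    have h1 := S6_le (fun _ _ _ h => C3_le_QT2 h) (hu 0) (hu 1) (hu 2) (hv 0) (hv 1) (hv 2)
      (hv2 0) (hv2 1) (hv2 2) hs
    rw [S6_QT2 _ _ _ _ _ _ hs hs'] at h1
    have h2 := T2.P_nonneg (cham (hu 0) (hu 1) (hu 2) hs) (cham_msg (hv2 0) (hv2 1) (hv2 2) hs')
    rw [orb_eq c3_coord, chi_i2 hu1, chi_i2 hv1, c3_i3 hu1, c3_i3 hv1]
    revert h1 h2
    generalize i2 (u 0) (u 1) (u 2) = s
    generalize i3 (u 0) (u 1) (u 2) = c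
    generalize i2 (v 0) (v 1) (v 2) = S
    generalize i3 (v 0) (v 1) (v 2) = C
    intro h1 h2
    have key : GT2 s c S C = 6 * (c + C + 3 * (s * S) - 3 * (s * C + c * S)
        + 73/100 * (s * S * (s + S)) - T2.P s c S C) := by
      simp only [GT2, T2.P]; ring
    rw [key] at h1
    linarith
  MC u v hu hv hv2 hu1 hv1 := by
    have hs := sum3_of_avg hu1
    have hs' := sum3_of_avg hv1
    have h1 := S6_le (fun _ _ _ h => SQ3_le_QM1 h) (hu 0) (hu 1) (hu 2) (hv 0) (hv 1) (hv 2)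
      (hv2 0) (hv2 1) (hv2 2) hs
    rw [S6_QM1 _ _ _ _ _ _ hs hs'] at h1
    have h2 := M1.P_nonneg (cham (hu 0) (hu 1) (hu 2) hs) (cham_msg (hv2 0) (hv2 1) (hv2 2) hs')
    rw [orb_eq sq_coord, chi_i2 hu1, chi_i2 hv1]
    revert h1 h2
    generalize i2 (u 0) (u 1) (u 2) = s
    generalize i3 (u 0) (u 1) (u 2) = c
    generalize i2 (v 0) (v 1) (v 2) = S
    generalize i3 (v 0) (v 1) (v 2) = C
    intro h1 h2
    have key : GM1 s c S C = 6 * (s^2 + S^2 + 23/5 * (s * S) + 4 * (s * S^2) - M1.P s c S C) := by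
      simp only [GM1, M1.P]; ring
    rw [key] at h1
    linarith

end Crest.Agent.R163.Loc
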