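import Crest.Agent.R163.LocBox
import Crest.Agent.R163.LocBin
import Crest.Agent.R163.LocLim
import Crest.Agent.R163.LocPair
import Crest.Agent.R163.AntiMain

/-!
Row 163, q = 3: the antiferromagnetic local lemma at the critical parameters.
-/

set_option autoImplicit false

namespace Crest.Agent.R163

open Filter Topology Crest.ProbabilityR.Broadcast

/-- the end point facts for regular trees -/
theorem reg_facts {b : ℕ} (hb : 4 ≤ b) {κ ξ T M : ℝ} {X T' M' : ℕ → ℝ} (hκ0 : 0 < κ)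
    (hκ : κ ^ 2 * b = 1)
    (L : LocRec (5 / 8) (23 / 10) (73 / 100) (23 / 5) 4 (κ ^ 2 * ξ) (κ ^ 3 * T) (κ ^ 4 * M) X T' M')
    (hX : X b = ξ) (hT : T' b = T) (hM : M' b = M) (hξ0 : 0 < ξ) (hξ1 : ξ ≤ 1 / 5) :
    ∃ p q D2 D3 : ℝ, ∀ K w τ r1 : ℝ, 2 ≤ K → K ^ 2 ≤ b → τ ≤ b → ((b : ℝ) - 2) * ξ ≤ r1 * b →
      ((b : ℝ) - 1) ≤ w * b →
      LocEnd (5 / 8) (23 / 10) (73 / 100) (23 / 5) 4 p q (1 / 5) r1 ξ ξ T M D2 D3 ∧
      LocFacts p q ξ T M D2 D3 (1 / κ) K w τ (1 / 5) r1 := by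
  have hb0 : (4 : ℝ) ≤ b := by exact_mod_cast hb
  have hbp : (0 : ℝ) < b := by linarith
  have hk2 : κ ^ 2 = 1 / b := by field_simp; linarith
  obtain ⟨p, hp⟩ : ∃ p, p = κ * T / ξ := ⟨_, rfl⟩
  obtain ⟨q, hq⟩ : ∃ q, q = κ ^ 2 * M / ξ := ⟨_, rfl⟩
  have e1 : κ ^ 3 * T = p * (κ ^ 2 * ξ) := by rw [hp]; field_simp
  have e2 : κ ^ 4 * M = q * (κ ^ 2 * ξ) := by rw [hq]; field_simp
  rw [e1, e2] at L
  have hM0 : 0 ≤ M := by rw [← hM]; exact (sq_nonneg _).trans (L.XM b)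
  have hTX : T ≤ ξ := by rw [← hX, ← hT]; exact L.TX b
  have hXT : -ξ / 2 ≤ T := by rw [← hX, ← hT]; exact L.XT b
  have hTp : T = p * ξ * (1 / κ) := by rw [hp]; field_simp
  have hMq : M = q * ξ * (1 / κ) ^ 2 := by rw [hq]; field_simp
  have hq0 : 0 ≤ q := by rw [hq]; positivity
  have hκ1 : κ ≤ 1 / 2 := by
    have : κ ^ 2 ≤ (1 / 2) ^ 2 := by
      rw [hk2, div_le_iff₀ hbp]; linarith
    exact le_of_sq_le_sq this (by norm_num)
  have hp1 : -1 ≤ p := by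
    rw [hp, le_div_iff₀ hξ0]
    nlinarith
  clear e1 e2 hp hq
  obtain ⟨x, hx⟩ : ∃ x, x = κ ^ 2 * ξ := ⟨_, rfl⟩
  rw [← hx] at L
  have hx0 : 0 < x := by rw [hx]; positivity
  have hbx : (b : ℝ) * x = ξ := by rw [hx, ← mul_assoc, mul_comm (b : ℝ), hκ, one_mul]
  have hx4 : 4 * x ≤ ξ := by
    rw [← hbx]; exact mul_le_mul_of_nonneg_right hb0 hx0.le
  have hKi2 : (1 / κ) ^ 2 = b := by
    rw [one_div, inv_pow, hk2]
    field_simp
  clear hx hk2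
  have hD2 : 0 < (b : ℝ) * (b - 1) * x ^ 2 := by
    have : (0 : ℝ) < b - 1 := by linarith
    positivity
  have hD3 : 0 ≤ (b : ℝ) * (b - 1) * (b - 2) * x ^ 3 := by
    have h1 : (0 : ℝ) < b - 1 := by linarith
    have h2 : (0 : ℝ) < b - 2 := by linarith
    positivity
  refine ⟨p, q, (b : ℝ) * (b - 1) * x ^ 2, (b : ℝ) * (b - 1) * (b - 2) * x ^ 3, ?_⟩
  intro K w τ r1 hK2 hK hτ hr1' hw
  have hr1 : ((b : ℝ) - 2) * x ≤ r1 := by
    have : (b : ℝ) * (((b : ℝ) - 2) * x) ≤ b * r1 := by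
      calc (b : ℝ) * (((b : ℝ) - 2) * x) = ((b : ℝ) - 2) * ((b : ℝ) * x) := by ring
        _ = ((b : ℝ) - 2) * ξ := by rw [hbx]
        _ ≤ _ := by linarith
    exact le_of_mul_le_mul_left this hbp
  refine ⟨?_, ?_⟩
  · have := L.locEnd hx0.le (by linarith) (by norm_num) (by norm_num) (by norm_num) hq0 hp1
      (by positivity) (r := 1 / 5) (r1 := r1) b (by linarith) hr1
    rwa [hbx, hX, hT, hM] at this
  · have h1 : (b : ℝ) * (b - 1) * x ^ 2 = ((b : ℝ) - 1) * (ξ * x) := by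
      rw [← hbx]; ring
    have h2 : ξ ^ 2 = b * (ξ * x) := by
      calc ξ ^ 2 = ξ * ξ := by ring
        _ = ξ * ((b : ℝ) * x) := by rw [hbx]
        _ = _ := by ring
    have h3 : 0 ≤ ξ * x := by positivity
    refine ⟨hξ0, hξ1, hTp, hMq, ?_, hK2, hD2, hD3, ?_, ?_, ?_, hTX, hXT, hM0⟩
    · have h1 : K ^ 2 ≤ (1 / κ) ^ 2 := by rw [hKi2]; exact hK
      exact le_of_sq_le_sq h1 (by positivity)
    · have h1 := mul_le_mul_of_nonneg_right hr1 hD2.le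
      calc (b : ℝ) * (b - 1) * (b - 2) * x ^ 3 = ((b : ℝ) - 2) * x * ((b : ℝ) * (b - 1) * x ^ 2) := by
            ring
        _ ≤ _ := h1
    · rw [h1, h2]
      have := mul_le_mul_of_nonneg_right hw h3
      linarith
    · rw [hKi2, h1, h2]
      have h4 : 0 ≤ (((b : ℝ) - 1)) * (ξ * x) := by
        have : (0 : ℝ) < b - 1 := by linarith
        positivity
      have := mul_le_mul_of_nonneg_right hτ h4
      linarith

/-- no positive limit below the threshold, regular trees -/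
theorem reg_no_limit {b : ℕ} (hb : 4 ≤ b) {κ ξ T M : ℝ} {X T' M' : ℕ → ℝ} (hκ0 : 0 < κ)
    (hκ : κ ^ 2 * b = 1)
    (L : LocRec (5 / 8) (23 / 10) (73 / 100) (23 / 5) 4 (κ ^ 2 * ξ) (κ ^ 3 * T) (κ ^ 4 * M) X T' M')
    (hX : X b = ξ) (hT : T' b = T) (hM : M' b = M) (hξ0 : 0 < ξ) (hξ1 : ξ ≤ 1 / 5) : False := by
  obtain ⟨p, q, D2, D3, H⟩ := reg_facts hb hκ0 hκ L hX hT hM hξ0 hξ1
  rcases lt_or_ge b 7 with h7 | h7
  · rcases Nat.lt_or_ge b 5 with h5 | h5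
    · have hb4 : (b : ℝ) = 4 := by exact_mod_cast (by omega : b = 4)
      rw [hb4] at H
      obtain ⟨HE, HF⟩ := H 2 (3 / 4) 4 (1 / 10) (by norm_num) (by norm_num) (by norm_num)
        (by linarith) (by norm_num)
      exact loc_R4 HE HF
    · have hb5 : (5 : ℝ) ≤ b := by exact_mod_cast h5
      have hb7 : (b : ℝ) ≤ 6 := by exact_mod_cast (by omega : b ≤ 6)
      obtain ⟨HE, HF⟩ := H (223 / 100) (6 / 7) 5 (1 / 7) (by norm_num) (by norm_num; linarith)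
        hb5 (by nlinarith) (by linarith)
      exact loc_R5 HE HF
  · have hb7 : (7 : ℝ) ≤ b := by exact_mod_cast h7
    obtain ⟨HE, HF⟩ := H (264 / 100) 1 7 (1 / 5) (by norm_num) (by norm_num; linarith)
      hb7 (by nlinarith) (by linarith)
    exact loc_R7 HE HF

/-- the end point facts for Poisson trees -/
theorem gw_facts {d : ℝ} (hd : 4 ≤ d) {κ ξ T M : ℝ} {X T' M' : ℕ → ℝ} (hκ0 : 0 < κ)
    (hκ : κ ^ 2 * d = 1)
    (L : LocRec (5 / 8) (23 / 10) (73 / 100) (23 / 5) 4 (κ ^ 2 * ξ) (κ ^ 3 * T) (κ ^ 4 * M) X T' M')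
    (hX : ∑' k, pwt d k * X k = ξ) (hT : ∑' k, pwt d k * T' k = T)
    (hM : ∑' k, pwt d k * M' k = M) (hξ0 : 0 < ξ) (hξ1 : ξ ≤ 1 / 5) :
    ∃ p q : ℝ, ∀ K τ x0 r : ℝ, 2 ≤ K → K ^ 2 ≤ d → τ ≤ d - 1 → ξ ≤ x0 → x0 ≤ r →
      LocEnd (5 / 8) (23 / 10) (73 / 100) (23 / 5) 4 p q r x0 ξ ξ T M (ξ ^ 2) (ξ ^ 3) ∧
      LocFacts p q ξ T M (ξ ^ 2) (ξ ^ 3) (1 / κ) K 1 τ x0 x0 := by
  have hdp : (0 : ℝ) < d := by linarith
  have hk2 : κ ^ 2 = 1 / d := by field_simp; linarith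
  obtain ⟨p, hp⟩ : ∃ p, p = κ * T / ξ := ⟨_, rfl⟩
  obtain ⟨q, hq⟩ : ∃ q, q = κ ^ 2 * M / ξ := ⟨_, rfl⟩
  have e1 : κ ^ 3 * T = p * (κ ^ 2 * ξ) := by rw [hp]; field_simp
  have e2 : κ ^ 4 * M = q * (κ ^ 2 * ξ) := by rw [hq]; field_simp
  have hKi2 : (1 / κ) ^ 2 = d := by
    rw [one_div, inv_pow, hk2]
    field_simp
  have hκ1 : κ ≤ 1 / 2 := by
    have : κ ^ 2 ≤ (1 / 2) ^ 2 := by
      rw [hk2, div_le_iff₀ hdp]; linarith
    exact le_of_sq_le_sq this (by norm_num)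
  have hsX := L.pois hdp.le
  rw [hX, hT, hM] at hsX
  obtain ⟨tX, tT, tM⟩ := hsX
  have hev : ∀ᶠ N : ℕ in atTop, d ≤ N := by
    filter_upwards [eventually_ge_atTop ⌈d⌉₊] with N hN
    exact (Nat.le_ceil d).trans (Nat.cast_le.2 hN)
  have hbin : ∀ᶠ N : ℕ in atTop, LocRec (5 / 8) (23 / 10) (73 / 100) (23 / 5) 4 (ξ / N)
      (p * (ξ / N)) (q * (ξ / N)) (fun k => bav X k (d / N)) (fun k => bav T' k (d / N))
      (fun k => bav M' k (d / N)) := by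
    filter_upwards [hev] with N hN
    have hN0 : (0 : ℝ) < N := hdp.trans_le hN
    have h1 := L.bin (e := d / N) (by positivity) ((div_le_one hN0).2 hN)
    have f1 : d / N * (κ ^ 2 * ξ) = ξ / N := by rw [hk2]; field_simp
    have f2 : d / N * (κ ^ 3 * T) = p * (ξ / N) := by
      rw [e1, ← f1]; ring
    have f3 : d / N * (κ ^ 4 * M) = q * (ξ / N) := by
      rw [e2, ← f1]; ring
    rwa [f1, f2, f3] at h1
  have hM0 : 0 ≤ M := by
    refine ge_of_tendsto tM ?_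
    filter_upwards [hbin] with N hN
    exact (sq_nonneg _).trans (hN.XM N)
  have hTX : T ≤ ξ := by
    refine le_of_tendsto_of_tendsto tT tX ?_
    filter_upwards [hbin] with N hN
    exact hN.TX N
  have hXT : -ξ / 2 ≤ T := by
    have t1 : Tendsto (fun N : ℕ => -(bav X N (d / N)) / 2) atTop (𝓝 (-ξ / 2)) :=
      tX.neg.div_const 2
    refine le_of_tendsto_of_tendsto t1 tT ?_
    filter_upwards [hbin] with N hN
    exact hN.XT N
  have hTp : T = p * ξ * (1 / κ) := by rw [hp]; field_simp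
  have hMq : M = q * ξ * (1 / κ) ^ 2 := by rw [hq]; field_simp
  have hq0 : 0 ≤ q := by rw [hq]; positivity
  have hp1 : -1 ≤ p := by
    rw [hp, le_div_iff₀ hξ0]
    nlinarith
  refine ⟨p, q, fun K τ x0 r hK2 hK hτ hx0 hr => ⟨?_, ?_⟩⟩
  · have tN : Tendsto (fun N : ℕ => (1 : ℝ) / N) atTop (𝓝 0) := tendsto_one_div_atTop_nhds_zero_nat
    have t2 : Tendsto (fun N : ℕ => ξ ^ 2 * (1 - 1 / (N : ℝ))) atTop (𝓝 (ξ ^ 2)) := by
      have := (tendsto_const_nhds (x := (1 : ℝ))).sub tN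
      have := this.const_mul (ξ ^ 2)
      simpa using this
    have t3 : Tendsto (fun N : ℕ => ξ ^ 3 * ((1 - 1 / (N : ℝ)) * (1 - 2 * (1 / (N : ℝ))))) atTop
        (𝓝 (ξ ^ 3)) := by
      have h1 := (tendsto_const_nhds (x := (1 : ℝ))).sub tN
      have h2 := (tendsto_const_nhds (x := (1 : ℝ))).sub (tN.const_mul 2)
      have := (h1.mul h2).const_mul (ξ ^ 3)
      simpa using this
    refine LocEnd.lim ?_ tX tT tM t2 t3
    filter_upwards [hbin, hev] with N hN hdN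
    have hN0 : (0 : ℝ) < N := hdp.trans_le hdN
    have hN4 : (4 : ℝ) ≤ N := hd.trans hdN
    have g0 : 0 ≤ ξ / N := by positivity
    have g1 : (N : ℝ) * (ξ / N) = ξ := by field_simp
    have g3 : 3 * (ξ / N) ≤ 1 := by
      have : 4 * (ξ / N) ≤ N * (ξ / N) := mul_le_mul_of_nonneg_right hN4 g0
      rw [g1] at this
      linarith
    have g4 : ((N : ℝ) - 3) * (ξ / N) ≤ r := by
      have : ((N : ℝ) - 3) * (ξ / N) = N * (ξ / N) - 3 * (ξ / N) := by ring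
      rw [this, g1]; linarith
    have g5 : ((N : ℝ) - 2) * (ξ / N) ≤ x0 := by
      have : ((N : ℝ) - 2) * (ξ / N) = N * (ξ / N) - 2 * (ξ / N) := by ring
      rw [this, g1]; linarith
    have h1 := hN.locEnd g0 g3 (by norm_num) (by norm_num) (by norm_num) hq0 hp1
      (by positivity) (r := r) (r1 := x0) N g4 g5
    rw [g1] at h1
    have E2 : (N : ℝ) * (N - 1) * (ξ / N) ^ 2 = ξ ^ 2 * (1 - 1 / (N : ℝ)) := by
      field_simp
    have E3 : (N : ℝ) * (N - 1) * (N - 2) * (ξ / N) ^ 3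
        = ξ ^ 3 * ((1 - 1 / (N : ℝ)) * (1 - 2 * (1 / (N : ℝ)))) := by
      field_simp
    rwa [E2, E3] at h1
  · refine ⟨hξ0, hx0, hTp, hMq, ?_, hK2, by positivity, by positivity, ?_, ?_, ?_, hTX, hXT, hM0⟩
    · have h1 : K ^ 2 ≤ (1 / κ) ^ 2 := by rw [hKi2]; exact hK
      exact le_of_sq_le_sq h1 (by positivity)
    · have : ξ * ξ ^ 2 ≤ x0 * ξ ^ 2 := mul_le_mul_of_nonneg_right hx0 (by positivity)
      calc ξ ^ 3 = ξ * ξ ^ 2 := by ring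
        _ ≤ _ := this
    · linarith
    · rw [hKi2]
      exact mul_le_mul_of_nonneg_right hτ (by positivity)

/-- no positive limit below the threshold, Poisson trees, `d ≥ 4` -/
theorem gw_no_limit4 {d : ℝ} (hd : 4 ≤ d) {κ ξ T M : ℝ} {X T' M' : ℕ → ℝ} (hκ0 : 0 < κ)
    (hκ : κ ^ 2 * d = 1)
    (L : LocRec (5 / 8) (23 / 10) (73 / 100) (23 / 5) 4 (κ ^ 2 * ξ) (κ ^ 3 * T) (κ ^ 4 * M) X T' M')
    (hX : ∑' k, pwt d k * X k = ξ) (hT : ∑' k, pwt d k * T' k = T)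
    (hM : ∑' k, pwt d k * M' k = M) (hξ0 : 0 < ξ) (hξ1 : ξ ≤ 3 / 20) : False := by
  obtain ⟨p, q, H⟩ := gw_facts hd hκ0 hκ L hX hT hM hξ0 (by linarith)
  obtain ⟨HE, HF⟩ := H 2 3 (3 / 20) (1 / 5) le_rfl (by linarith) (by linarith) hξ1 (by norm_num)
  exact loc_P4 HE HF

/-- no positive limit below the threshold, Poisson trees, `d ≥ 5` -/
theorem gw_no_limit5 {d : ℝ} (hd : 5 ≤ d) {κ ξ T M : ℝ} {X T' M' : ℕ → ℝ} (hκ0 : 0 < κ)
    (hκ : κ ^ 2 * d = 1)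
    (L : LocRec (5 / 8) (23 / 10) (73 / 100) (23 / 5) 4 (κ ^ 2 * ξ) (κ ^ 3 * T) (κ ^ 4 * M) X T' M')
    (hX : ∑' k, pwt d k * X k = ξ) (hT : ∑' k, pwt d k * T' k = T)
    (hM : ∑' k, pwt d k * M' k = M) (hξ0 : 0 < ξ) (hξ1 : ξ ≤ 9 / 50) : False := by
  obtain ⟨p, q, H⟩ := gw_facts (by linarith) hκ0 hκ L hX hT hM hξ0 (by linarith)
  obtain ⟨HE, HF⟩ := H (2236 / 1000) 4 (9 / 50) (9 / 50) (by norm_num) (by norm_num; linarith)
    (by linarith) hξ1 le_rfl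
  exact loc_P5 HE HF

/-- no positive limit below the threshold, Poisson trees, `d ≥ 7` -/
theorem gw_no_limit7 {d : ℝ} (hd : 7 ≤ d) {κ ξ T M : ℝ} {X T' M' : ℕ → ℝ} (hκ0 : 0 < κ)
    (hκ : κ ^ 2 * d = 1)
    (L : LocRec (5 / 8) (23 / 10) (73 / 100) (23 / 5) 4 (κ ^ 2 * ξ) (κ ^ 3 * T) (κ ^ 4 * M) X T' M')
    (hX : ∑' k, pwt d k * X k = ξ) (hT : ∑' k, pwt d k * T' k = T)
    (hM : ∑' k, pwt d k * M' k = M) (hξ0 : 0 < ξ) (hξ1 : ξ ≤ 1 / 5) : False := by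
  obtain ⟨p, q, H⟩ := gw_facts (by linarith) hκ0 hκ L hX hT hM hξ0 (by linarith)
  obtain ⟨HE, HF⟩ := H (264 / 100) 6 (1 / 5) (1 / 5) (by norm_num) (by norm_num; linarith)
    (by linarith) hξ1 le_rfl
  exact loc_P7 HE HF

/-- **Local lemma, regular trees.** -/
theorem locR {b : ℕ} (hb : 4 ≤ b) : LocReg b (1 / 5) := by
  rintro ⟨n0, hn0⟩
  have hb0 : (4 : ℝ) ≤ b := by exact_mod_cast hb
  have hbp : (0 : ℝ) < b := by linarith
  obtain ⟨κ, hκdef⟩ : ∃ κ, κ = 1 / Real.sqrt b := ⟨_, rfl⟩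
  have hκ0 : 0 < κ := by rw [hκdef]; positivity
  have hκ : κ ^ 2 * b = 1 := by
    rw [hκdef, div_pow, Real.sq_sqrt hbp.le]; field_simp
  have hκ1 : κ ≤ 1 / 2 := by
    have : κ ^ 2 ≤ (1 / 2) ^ 2 := by
      have h2 : κ ^ 2 = 1 / b := by field_simp; linarith
      rw [h2, div_le_iff₀ hbp]; linarith
    exact le_of_sq_le_sq this (by norm_num)
  rw [← hκdef] at hn0 ⊢
  have hadm := adm3_neg hκ0.le hκ1
  obtain ⟨ξ, T, M, X, T', M', tξ, -, L, hX, hT, hM⟩ := reg_locRec Loc.pairRec hκ0.le hκ1 b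
  have hanti := chi_reg_anti b hadm
  have hξle : ξ ≤ 1 / 5 := (hanti.le_of_tendsto tξ n0).trans hn0.le
  have hξ0 : 0 ≤ ξ := ge_of_tendsto' tξ fun n => (reg_isChan b hadm n).X_nonneg
  have hξ : ξ = 0 := by
    rcases hξ0.eq_or_lt with h | h
    · exact h.symm
    · exact (reg_no_limit hb hκ0 hκ L hX hT hM h hξle).elim
  have hfun : advantage 3 b (-κ) = fun ℓ => J tv (reg 3 b (-κ) ℓ) := by
    funext ℓ; exact advantage_eq 3 b (-κ) ℓ
  rw [hfun]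
  refine tv_tendsto _ (fun ℓ => reg_isChan b hadm ℓ) ?_
  rw [hξ] at tξ
  exact tξ

/-- **Local lemma, Poisson trees.** -/
theorem locP {d : ℝ} (hd : 4 ≤ d) : LocGw d (xPs d) := by
  rintro ⟨n0, hn0⟩
  have hdp : (0 : ℝ) < d := by linarith
  obtain ⟨κ, hκdef⟩ : ∃ κ, κ = 1 / Real.sqrt d := ⟨_, rfl⟩
  have hκ0 : 0 < κ := by rw [hκdef]; positivity
  have hκ : κ ^ 2 * d = 1 := by
    rw [hκdef, div_pow, Real.sq_sqrt hdp.le]; field_simp
  have hκ1 : κ ≤ 1 / 2 := by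
    have : κ ^ 2 ≤ (1 / 2) ^ 2 := by
      have h2 : κ ^ 2 = 1 / d := by field_simp; linarith
      rw [h2, div_le_iff₀ hdp]; linarith
    exact le_of_sq_le_sq this (by norm_num)
  rw [← hκdef] at hn0 ⊢
  have hadm := adm3_neg hκ0.le hκ1
  obtain ⟨ξ, T, M, X, T', M', tξ, -, L, hX, hT, hM⟩ := gw_locRec Loc.pairRec hκ0.le hκ1 hdp.le
  have hanti := chi_gw_anti hadm hdp.le
  have hξle : ξ ≤ xPs d := (hanti.le_of_tendsto tξ n0).trans hn0.le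
  have hξ0 : 0 ≤ ξ := ge_of_tendsto' tξ fun n => (gw_isChan hadm hdp.le n).X_nonneg
  have hξ : ξ = 0 := by
    rcases hξ0.eq_or_lt with h | h
    · exact h.symm
    · exfalso
      unfold xPs at hξle
      split_ifs at hξle with h5 h7
      · exact gw_no_limit4 hd hκ0 hκ L hX hT hM h (by linarith)
      · exact gw_no_limit5 (not_lt.1 h5) hκ0 hκ L hX hT hM h (by linarith)
      · exact gw_no_limit7 (not_lt.1 h7) hκ0 hκ L hX hT hM h hξle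
  have hfun : gwAdvantage 3 (-κ) d = fun ℓ => J tv (gw 3 (-κ) d ℓ) := by
    funext ℓ; exact gwAdvantage_eq 3 (-κ) d ℓ
  rw [hfun]
  refine tv_tendsto _ (fun ℓ => gw_isChan hadm hdp.le ℓ) ?_
  rw [hξ] at tξ
  exact tξ

/-- S0244 from `χ < 1/5` (regular) and `χ < xPs d` (Poisson) at some level -/
theorem main244_of_lt
    (hR : ∀ b : ℕ, 4 ≤ b → RegLt b (1 / Real.sqrt b) (1 / 5))
    (hP : ∀ d : ℝ, 4 ≤ d → GwLt (1 / Real.sqrt d) d (xPs d)) :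
    (∀ b : ℕ, 2 ≤ b → ∀ lam : ℝ, -(1 / 2 : ℝ) ≤ lam → lam ≤ 1 → (b : ℝ) * lam ^ 2 ≤ 1 →
      Filter.Tendsto (advantage 3 b lam) Filter.atTop (nhds 0)) ∧
    (∀ d : ℝ, 1 < d → ∀ lam : ℝ, -(1 / 2 : ℝ) ≤ lam → lam ≤ 1 → d * lam ^ 2 ≤ 1 →
      Filter.Tendsto (gwAdvantage 3 lam d) Filter.atTop (nhds 0)) :=
  main244_anti (xR := fun _ => 1 / 5) (xP := xPs) (fun _ hb => locR hb) (fun _ hd => locP hd) hR hP

end Crest.Agent.R163
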