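import Crest.Agent.R163.LocRec

/-!
Row 163, q = 3 antiferromagnetic local lemma, scalar part: bounds of the moments of the `k`-fold
merges by quadratic and cubic falling sums, uniformly in the number of steps.
-/

set_option autoImplicit false

namespace Crest.Agent.R163

/-- the numerical conditions under which the cubic ansatz is an invariant of the recursion;
`G = C + D q` is the slope of the fourth moment -/
structure AnsC (al be be1 G p q r c1 c2 c3 c5 : ℝ) : Prop where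
  n1 : 0 ≤ c1
  n2 : 0 ≤ c2
  n3 : 0 ≤ c3
  n5 : 0 ≤ c5
  b0 : be * q ≤ 3 * (1 + p)
  e1 : -(1 / 2 - p - al * q) * (-1 / 2 + 2 * p + p ^ 2 + 2 * al * q)
      - (1 + p) * (3 + 6 * p - 2 * be * q) + al * G ≤ c1
  f1 : -(1 / 2 - p - al * q) * (-1 / 2 + 2 * p + p ^ 2 + 2 * al * q)
      - (1 + p) * (3 + 6 * p - 2 * be * q) + al * G
      + r / 3 * (-(1 / 2 - p - al * q) * c1 + (1 + p) * c3 + al * c5) ≤ c1
  e2 : -(1 / 2 - p) * (1 / 2 - 2 * p - p ^ 2) + (1 + p) * (3 + 6 * p + 2 * be1 * q) ≤ c2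
  f2 : -(1 / 2 - p) * (1 / 2 - 2 * p - p ^ 2) + (1 + p) * (3 + 6 * p + 2 * be1 * q)
      + r / 3 * (-(1 / 2 - p) * c2) ≤ c2
  e3 : (3 * (1 + p) - be * q) * (1 / 2 - 2 * p - p ^ 2) + 3 * (3 + 6 * p - 2 * be * q)
      + be * G ≤ c3
  f3 : (3 * (1 + p) - be * q) * (1 / 2 - 2 * p - p ^ 2) + 3 * (3 + 6 * p - 2 * be * q)
      + be * G + r / 3 * ((3 * (1 + p) - be * q) * c2 - 3 * c3 + be * c5) ≤ c3
  e4 : (3 * (1 + p) + be1 * q) * (-1 / 2 + 2 * p + p ^ 2 + 2 * al * q)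
      - 3 * (3 + 6 * p + 2 * be1 * q) + be1 * G ≤ 0
  f4 : (3 * (1 + p) + be1 * q) * (-1 / 2 + 2 * p + p ^ 2 + 2 * al * q)
      - 3 * (3 + 6 * p + 2 * be1 * q) + be1 * G
      + r / 3 * ((3 * (1 + p) + be1 * q) * c1 + be1 * c5) ≤ 0
  e5 : G * (-1 / 2 + 2 * p + p ^ 2 + 2 * al * q) ≤ c5
  f5 : G * (-1 / 2 + 2 * p + p ^ 2 + 2 * al * q) + r / 3 * (G * c1) ≤ c5

private lemma step_aux {A B c r D2 D3 : ℝ} (h1 : A ≤ c) (h2 : A + r / 3 * B ≤ c) (h2' : 0 ≤ D2)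
    (h3 : 0 ≤ D3) (h4 : D3 ≤ r * D2) : A * D2 / 2 + B * D3 / 6 ≤ c * D2 / 2 := by
  rcases le_total B 0 with hB | hB
  · have e1 : B * D3 ≤ 0 := mul_nonpos_of_nonpos_of_nonneg hB h3
    have e2 := mul_le_mul_of_nonneg_right h1 h2'
    linarith
  · have e1 := mul_le_mul_of_nonneg_left h4 hB
    have e2 := mul_le_mul_of_nonneg_right h2 h2'
    nlinarith

private lemma fall2 (k : ℕ) (x : ℝ) : 0 ≤ (k : ℝ) * (k - 1) * x ^ 2 := by
  rcases k with _ | k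
  · simp
  · push_cast
    have : (0 : ℝ) ≤ k := Nat.cast_nonneg k
    have e : ((k : ℝ) + 1) * (k + 1 - 1) * x ^ 2 = (k + 1) * k * x ^ 2 := by ring
    rw [e]
    positivity

private lemma fall3 (k : ℕ) {x : ℝ} (hx : 0 ≤ x) : 0 ≤ (k : ℝ) * (k - 1) * (k - 2) * x ^ 3 := by
  rcases k with _ | _ | k
  · simp
  · simp
  · push_cast
    have : (0 : ℝ) ≤ k := Nat.cast_nonneg k
    have e : ((k : ℝ) + 1 + 1) * (k + 1 + 1 - 1) * (k + 1 + 1 - 2) * x ^ 3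
        = (k + 2) * (k + 1) * k * x ^ 3 := by ring
    rw [e]
    positivity

private lemma fall32 (k : ℕ) {x r : ℝ} (hr : ((k : ℝ) - 2) * x ≤ r) :
    (k : ℝ) * (k - 1) * (k - 2) * x ^ 3 ≤ r * ((k : ℝ) * (k - 1) * x ^ 2) := by
  have h := mul_le_mul_of_nonneg_right hr (fall2 k x)
  calc (k : ℝ) * (k - 1) * (k - 2) * x ^ 3 = ((k : ℝ) - 2) * x * ((k : ℝ) * (k - 1) * x ^ 2) := by
        ring
    _ ≤ _ := h

variable {al be be1 C D x p q : ℝ} {X T M : ℕ → ℝ}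

/-- first crude bound of the fourth moment -/
theorem LocRec.crude {t : ℝ} (h : LocRec al be be1 C D x t (q * x) X T M)
    (hx : 0 ≤ x) (hG : 0 ≤ C + D * q) {e r : ℝ} (he0 : 0 ≤ e) (he : 1 + e / 2 * r ≤ e) (N : ℕ)
    (hr : ((N : ℝ) - 2) * x ≤ r) : ∀ k ≤ N,
      X k ≤ k * x + e / 2 * ((k : ℝ) * (k - 1) * x ^ 2) ∧
      M k ≤ q * (k * x) + (C + D * q) / 2 * ((k : ℝ) * (k - 1) * x ^ 2)
        + (C + D * q) * e / 6 * ((k : ℝ) * (k - 1) * (k - 2) * x ^ 3) := by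
  intro k
  induction k with
  | zero =>
    intro _
    simp [h.X0, h.M0]
  | succ k ih =>
    intro hk
    obtain ⟨i1, i2⟩ := ih (by omega)
    have hkN : (k : ℝ) ≤ N - 1 := by
      have : ((k + 1 : ℕ) : ℝ) ≤ N := Nat.cast_le.2 hk
      push_cast at this
      linarith
    have hk0 : (0 : ℝ) ≤ k := Nat.cast_nonneg k
    have hkr : ((k : ℝ) - 1) * x ≤ r := by
      refine le_trans ?_ hr
      exact mul_le_mul_of_nonneg_right (by linarith) hx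
    push_cast
    constructor
    · have h0 := h.K0 k
      have e1 := mul_le_mul_of_nonneg_left i1 hx
      have e2 : (k : ℝ) * x ^ 2 * (1 + e / 2 * (((k : ℝ) - 1) * x)) ≤ k * x ^ 2 * e := by
        apply mul_le_mul_of_nonneg_left _ (by positivity)
        have := mul_le_mul_of_nonneg_left hkr (by positivity : 0 ≤ e / 2)
        linarith
      nlinarith [h0, e1, e2]
    · have h0 := h.MC k
      have e1 := mul_le_mul_of_nonneg_left i1 (mul_nonneg hG hx)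
      nlinarith [h0, e1, i2]

/-- the cubic ansatz -/
theorem LocRec.ansatz (h : LocRec al be be1 C D x (p * x) (q * x) X T M)
    (hx : 0 ≤ x) (hx3 : 3 * x ≤ 1) (hal : 0 ≤ al) (hbe : 0 ≤ be) (hbe1 : 0 ≤ be1) (hq : 0 ≤ q)
    (hp1 : -1 ≤ p) (hG : 0 ≤ C + D * q)
    {r c1 c2 c3 c5 : ℝ} (hc : AnsC al be be1 (C + D * q) p q r c1 c2 c3 c5) (N : ℕ)
    (hr : ((N : ℝ) - 3) * x ≤ r) : ∀ k ≤ N,
      X k ≤ k * x + (-1 / 2 + 2 * p + p ^ 2 + 2 * al * q) / 2 * ((k : ℝ) * (k - 1) * x ^ 2)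
        + c1 / 6 * ((k : ℝ) * (k - 1) * (k - 2) * x ^ 3) ∧
      k * x - (1 / 2 - 2 * p - p ^ 2) / 2 * ((k : ℝ) * (k - 1) * x ^ 2)
        - c2 / 6 * ((k : ℝ) * (k - 1) * (k - 2) * x ^ 3) ≤ X k ∧
      -p * (k * x) + (3 + 6 * p - 2 * be * q) / 2 * ((k : ℝ) * (k - 1) * x ^ 2)
        - c3 / 6 * ((k : ℝ) * (k - 1) * (k - 2) * x ^ 3) ≤ T k ∧
      T k ≤ -p * (k * x) + (3 + 6 * p + 2 * be1 * q) / 2 * ((k : ℝ) * (k - 1) * x ^ 2) ∧
      M k ≤ q * (k * x) + (C + D * q) / 2 * ((k : ℝ) * (k - 1) * x ^ 2)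
        + c5 / 6 * ((k : ℝ) * (k - 1) * (k - 2) * x ^ 3) := by
  intro k
  induction k with
  | zero =>
    intro _
    simp [h.X0, h.M0, h.T0]
  | succ k ih =>
    intro hk
    obtain ⟨i1, i2, i3, i4, i5⟩ := ih (by omega)
    have hkN : (k : ℝ) ≤ N - 1 := by
      have : ((k + 1 : ℕ) : ℝ) ≤ N := Nat.cast_le.2 hk
      push_cast at this
      linarith
    have hk0 : (0 : ℝ) ≤ k := Nat.cast_nonneg k
    have hkr : ((k : ℝ) - 2) * x ≤ r := by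
      refine le_trans ?_ hr
      exact mul_le_mul_of_nonneg_right (by linarith) hx
    have d2 := fall2 k x
    have d3 := fall3 k hx
    have d32 := fall32 k hkr
    have E2 : ((k : ℝ) + 1) * (k + 1 - 1) * x ^ 2 = (k : ℝ) * (k - 1) * x ^ 2 + 2 * (k * x) * x := by
      ring
    have E3 : ((k : ℝ) + 1) * (k + 1 - 1) * (k + 1 - 2) * x ^ 3
        = (k : ℝ) * (k - 1) * (k - 2) * x ^ 3 + 3 * x * ((k : ℝ) * (k - 1) * x ^ 2) := by
      ring
    have E1 : ((k : ℝ) + 1) * x = k * x + x := by ring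
    push_cast
    rw [E1, E2, E3]
    generalize (k : ℝ) * (k - 1) * (k - 2) * x ^ 3 = D3 at *
    generalize (k : ℝ) * (k - 1) * x ^ 2 = D2 at *
    generalize (k : ℝ) * x = S at *
    have r5 : M (k + 1) ≤ M k + q * x + x * (C + D * q) * X k := by
      have := h.MC k
      linarith
    have hG' := hG
    generalize C + D * q = G at *
    have g1 := mul_le_mul_of_nonneg_left (step_aux hc.e1 hc.f1 d2 d3 d32) hx
    have g2 := mul_le_mul_of_nonneg_left (step_aux hc.e2 hc.f2 d2 d3 d32) hx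
    have g3 := mul_le_mul_of_nonneg_left (step_aux hc.e3 hc.f3 d2 d3 d32) hx
    have g4 := mul_le_mul_of_nonneg_left (step_aux hc.e4 hc.f4 d2 d3 d32) hx
    have g5 := mul_le_mul_of_nonneg_left (step_aux hc.e5 hc.f5 d2 d3 d32) hx
    have hpp : 0 ≤ 1 + p := by linarith
    have haq := mul_nonneg hal hq
    have hbq := mul_nonneg hbe1 hq
    have k1 : 0 ≤ 1 + x * (-1 / 2 + p + al * q) := by
      have : x * (-3 / 2) ≤ x * (-1 / 2 + p + al * q) :=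
        mul_le_mul_of_nonneg_left (by linarith) hx
      linarith
    have k2 : 0 ≤ 1 - x * (1 / 2 - p) := by
      have : x * (1 / 2 - p) ≤ x * (3 / 2) := mul_le_mul_of_nonneg_left (by linarith) hx
      linarith
    have k3 : 0 ≤ x * (1 + p) := mul_nonneg hx hpp
    have k4 : 0 ≤ 1 - 3 * x := by linarith
    have hb := hc.b0
    have k5 : 0 ≤ x * (3 * (1 + p) - be * q) := mul_nonneg hx (by linarith)
    have k6 : 0 ≤ x * (3 * (1 + p) + be1 * q) := mul_nonneg hx (by linarith)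
    have k7 : 0 ≤ x * G := mul_nonneg hx hG'
    have r1 := h.K1 k
    have r2 := h.K2 k
    have r3 := h.T1 k
    have r4 := h.T2 k
    refine ⟨?_, ?_, ?_, ?_, ?_⟩
    · have a1 := mul_le_mul_of_nonneg_left i1 k1
      have a2 := mul_le_mul_of_nonneg_left i3 k3
      have a3 := mul_le_mul_of_nonneg_left i5 (mul_nonneg hal hx)
      linarith
    · have a1 := mul_le_mul_of_nonneg_left i2 k2
      have a2 := mul_le_mul_of_nonneg_left i4 k3
      linarith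
    · have a1 := mul_le_mul_of_nonneg_left i3 k4
      have a2 := mul_le_mul_of_nonneg_left i2 k5
      have a3 := mul_le_mul_of_nonneg_left i5 (mul_nonneg hbe hx)
      linarith
    · have a1 := mul_le_mul_of_nonneg_left i4 k4
      have a2 := mul_le_mul_of_nonneg_left i1 k6
      have a3 := mul_le_mul_of_nonneg_left i5 (mul_nonneg hbe1 hx)
      linarith
    · have a1 := mul_le_mul_of_nonneg_left i1 k7
      linarith

/-- the inequalities at the end of the chain, in a form which is closed under limits -/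
structure LocEnd (al be be1 C D p q r r1 ξ X T M D2 D3 : ℝ) : Prop where
  crude : ∀ e, 0 ≤ e → 1 + e / 2 * r1 ≤ e →
    M ≤ q * ξ + (C + D * q) / 2 * D2 + (C + D * q) * e / 6 * D3
  main : ∀ c1 c2 c3 c5, AnsC al be be1 (C + D * q) p q r c1 c2 c3 c5 →
    X ≤ ξ + (-1 / 2 + 2 * p + p ^ 2 + 2 * al * q) / 2 * D2 + c1 / 6 * D3 ∧
    -p * ξ + (3 + 6 * p - 2 * be * q) / 2 * D2 - c3 / 6 * D3 ≤ T ∧
    T ≤ -p * ξ + (3 + 6 * p + 2 * be1 * q) / 2 * D2 ∧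
    M ≤ q * ξ + (C + D * q) / 2 * D2 + c5 / 6 * D3

/-- the end point of a finite chain -/
theorem LocRec.locEnd (h : LocRec al be be1 C D x (p * x) (q * x) X T M)
    (hx : 0 ≤ x) (hx3 : 3 * x ≤ 1) (hal : 0 ≤ al) (hbe : 0 ≤ be) (hbe1 : 0 ≤ be1) (hq : 0 ≤ q)
    (hp1 : -1 ≤ p) (hG : 0 ≤ C + D * q)
    {r r1 : ℝ} (N : ℕ) (hr : ((N : ℝ) - 3) * x ≤ r) (hr1 : ((N : ℝ) - 2) * x ≤ r1) :
    LocEnd al be be1 C D p q r r1 (N * x) (X N) (T N) (M N) ((N : ℝ) * (N - 1) * x ^ 2)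
      ((N : ℝ) * (N - 1) * (N - 2) * x ^ 3) where
  crude e he0 he := (h.crude hx hG he0 he N hr1 N le_rfl).2
  main c1 c2 c3 c5 hc := by
    obtain ⟨h1, -, h3, h4, h5⟩ := h.ansatz hx hx3 hal hbe hbe1 hq hp1 hG hc N hr N le_rfl
    exact ⟨h1, h3, h4, h5⟩

open Filter Topology in
/-- the end point inequalities are closed under limits -/
theorem LocEnd.lim {r r1 ξ X' T' M' D2' D3' : ℝ} {Xs Ts Ms D2s D3s : ℕ → ℝ}
    (h : ∀ᶠ N in atTop, LocEnd al be be1 C D p q r r1 ξ (Xs N) (Ts N) (Ms N) (D2s N) (D3s N))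
    (hX : Tendsto Xs atTop (𝓝 X')) (hT : Tendsto Ts atTop (𝓝 T')) (hM : Tendsto Ms atTop (𝓝 M'))
    (hD2 : Tendsto D2s atTop (𝓝 D2')) (hD3 : Tendsto D3s atTop (𝓝 D3')) :
    LocEnd al be be1 C D p q r r1 ξ X' T' M' D2' D3' where
  crude e he0 he := by
    refine le_of_tendsto_of_tendsto hM ?_ (h.mono fun N hN => hN.crude e he0 he)
    exact (tendsto_const_nhds.add (hD2.const_mul _)).add (hD3.const_mul _)
  main c1 c2 c3 c5 hc := by
    refine ⟨?_, ?_, ?_, ?_⟩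
    · refine le_of_tendsto_of_tendsto hX ?_ (h.mono fun N hN => (hN.main c1 c2 c3 c5 hc).1)
      exact (tendsto_const_nhds.add (hD2.const_mul _)).add (hD3.const_mul _)
    · refine le_of_tendsto_of_tendsto ?_ hT (h.mono fun N hN => (hN.main c1 c2 c3 c5 hc).2.1)
      exact (tendsto_const_nhds.add (hD2.const_mul _)).sub (hD3.const_mul _)
    · refine le_of_tendsto_of_tendsto hT ?_ (h.mono fun N hN => (hN.main c1 c2 c3 c5 hc).2.2.1)
      exact tendsto_const_nhds.add (hD2.const_mul _)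
    · refine le_of_tendsto_of_tendsto hM ?_ (h.mono fun N hN => (hN.main c1 c2 c3 c5 hc).2.2.2)
      exact (tendsto_const_nhds.add (hD2.const_mul _)).add (hD3.const_mul _)

/-! ### the numerical part -/

/-- the facts about the end point of the chain (`Ki = 1/κ`) -/
structure LocFacts (p q ξ T M D2 D3 Ki K w τ x0 r1 : ℝ) : Prop where
  ξ0 : 0 < ξ
  ξ1 : ξ ≤ x0
  hT : T = p * ξ * Ki
  hM : M = q * ξ * Ki ^ 2
  hK : K ≤ Ki
  K2 : 2 ≤ K
  D2p : 0 < D2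
  D3n : 0 ≤ D3
  D32 : D3 ≤ r1 * D2
  Dw : D2 ≤ w * ξ ^ 2
  Dτ : τ * D2 ≤ (Ki ^ 2 - 1) * ξ ^ 2
  TX : T ≤ ξ
  XT : -ξ / 2 ≤ T
  M0 : 0 ≤ M

namespace LocFacts

variable {ξ T M D2 D3 Ki K w τ x0 r1 : ℝ}

lemma Ki2 (F : LocFacts p q ξ T M D2 D3 Ki K w τ x0 r1) : 2 ≤ Ki := F.K2.trans F.hK

lemma x00 (F : LocFacts p q ξ T M D2 D3 Ki K w τ x0 r1) : 0 < x0 := F.ξ0.trans_le F.ξ1

lemma q0 (F : LocFacts p q ξ T M D2 D3 Ki K w τ x0 r1) : 0 ≤ q := by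
  have h1 := F.M0
  rw [F.hM] at h1
  have h2 := F.Ki2
  by_contra hq
  push Not at hq
  have : q * ξ * Ki ^ 2 < 0 := by
    have : 0 < ξ * Ki ^ 2 := mul_pos F.ξ0 (by positivity)
    nlinarith
  linarith

lemma p_le_half (F : LocFacts p q ξ T M D2 D3 Ki K w τ x0 r1) : p ≤ 1 / 2 := by
  have h1 := F.TX
  rw [F.hT] at h1
  have h2 := F.Ki2
  have h3 := F.ξ0
  by_contra hp
  push Not at hp
  have h4 : ξ * (p * Ki) ≤ ξ * 1 := by linarith
  have h5 := le_of_mul_le_mul_left h4 h3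
  nlinarith

lemma le_p (F : LocFacts p q ξ T M D2 D3 Ki K w τ x0 r1) : -1 / 4 ≤ p := by
  have h1 := F.XT
  rw [F.hT] at h1
  have h2 := F.Ki2
  have h3 := F.ξ0
  by_contra hp
  push Not at hp
  have h4 : ξ * (-1 / 2) ≤ ξ * (p * Ki) := by linarith
  have h5 := le_of_mul_le_mul_left h4 h3
  nlinarith

/-- upper bound of `q` -/
lemma q_step (F : LocFacts p q ξ T M D2 D3 Ki K w τ x0 r1) {a b : ℝ} (ha : 0 ≤ a) (hb : 0 ≤ b)
    (h : M ≤ q * ξ + (a + b * q) * D2) (hτ : 0 ≤ τ) : q * (τ - b * x0) ≤ a * x0 := by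
  have hq := F.q0
  have h2 := F.Ki2
  have h3 := F.ξ0
  have h4 := F.ξ1
  have hab : 0 ≤ a + b * q := by positivity
  rw [F.hM] at h
  have hk : 0 < Ki ^ 2 - 1 := by nlinarith
  have e1 : q * ξ * (Ki ^ 2 - 1) ≤ (a + b * q) * D2 := by linarith
  have e2 := mul_le_mul_of_nonneg_left e1 hτ
  have e3 := mul_le_mul_of_nonneg_left F.Dτ hab
  have e4 : (ξ * (Ki ^ 2 - 1)) * (q * τ) ≤ (ξ * (Ki ^ 2 - 1)) * ((a + b * q) * ξ) := by linarith
  have e5 := le_of_mul_le_mul_left e4 (mul_pos h3 hk)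
  have e6 := mul_le_mul_of_nonneg_left h4 hab
  linarith

lemma D3le (F : LocFacts p q ξ T M D2 D3 Ki K w τ x0 r1) {c : ℝ} (hc : 0 ≤ c) :
    c / 6 * D3 ≤ c * r1 / 6 * D2 := by
  have := mul_le_mul_of_nonneg_left F.D32 (by positivity : 0 ≤ c / 6)
  linarith

end LocFacts

/-- first bound of `q` -/
lemma LocEnd.q_crude {r r1 ξ X T M D2 D3 Ki K w τ x0 e : ℝ}
    (H : LocEnd al be be1 C D p q r r1 ξ X T M D2 D3)
    (F : LocFacts p q ξ T M D2 D3 Ki K w τ x0 r1) (hC : 0 ≤ C) (hD : 0 ≤ D) (he0 : 0 ≤ e)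
    (he : 1 + e / 2 * r1 ≤ e) (hr1 : 0 ≤ r1) (hτ : 0 ≤ τ) :
    q * (τ - D * (1 / 2 + e * r1 / 6) * x0) ≤ C * (1 / 2 + e * r1 / 6) * x0 := by
  have hq := F.q0
  have hG : 0 ≤ C + D * q := by positivity
  have h1 := H.crude e he0 he
  have h2 : (C + D * q) * e / 6 * D3 ≤ (C + D * q) * e * r1 / 6 * D2 :=
    F.D3le (mul_nonneg hG he0)
  have h3 : M ≤ q * ξ + (C * (1 / 2 + e * r1 / 6) + D * (1 / 2 + e * r1 / 6) * q) * D2 := by
    linarith
  exact F.q_step (by positivity) (by positivity) h3 hτ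

/-- refined bound of `q` -/
lemma LocEnd.q_ref {r r1 ξ X T M D2 D3 Ki K w τ x0 c1 c2 c3 c5 : ℝ}
    (H : LocEnd al be be1 C D p q r r1 ξ X T M D2 D3)
    (F : LocFacts p q ξ T M D2 D3 Ki K w τ x0 r1) (hC : 0 ≤ C) (hD : 0 ≤ D)
    (hc : AnsC al be be1 (C + D * q) p q r c1 c2 c3 c5) (hr1 : 0 ≤ r1) (hτ : 0 ≤ τ) :
    q * (τ - D / 2 * x0) ≤ (C / 2 + c5 * r1 / 6) * x0 := by
  have hq := F.q0
  obtain ⟨-, -, -, h1⟩ := H.main c1 c2 c3 c5 hc
  have h2 := F.D3le hc.n5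
  have h3 : M ≤ q * ξ + ((C / 2 + c5 * r1 / 6) + D / 2 * q) * D2 := by linarith
  have := hc.n5
  exact F.q_step (by positivity) (by positivity) h3 hτ

/-- `p ≥ 0` -/
lemma LocEnd.p_nonneg {r r1 ξ X T M D2 D3 Ki K w τ x0 c1 c2 c3 c5 : ℝ}
    (H : LocEnd al be be1 C D p q r r1 ξ X T M D2 D3)
    (F : LocFacts p q ξ T M D2 D3 Ki K w τ x0 r1)
    (hc : AnsC al be be1 (C + D * q) p q r c1 c2 c3 c5)
    (h0 : 0 < (3 - 2 * be * q) / 2 - c3 * r1 / 6) (hw : 3 * w * x0 < K + 1) (hw0 : 0 ≤ w) :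
    0 ≤ p := by
  obtain ⟨-, h1, -, -⟩ := H.main c1 c2 c3 c5 hc
  by_contra hp
  push Not at hp
  have h2 := F.D3le hc.n3
  rw [F.hT] at h1
  have h3 := mul_pos h0 F.D2p
  have h4 : 3 * p * (w * ξ ^ 2) ≤ 3 * p * D2 := mul_le_mul_of_nonpos_left F.Dw (by linarith)
  have h5 : 0 < p * ξ * (Ki + 1 - 3 * w * ξ) := by nlinarith
  have h6 : 3 * w * ξ ≤ 3 * w * x0 := mul_le_mul_of_nonneg_left F.ξ1 (by positivity)
  have h7 : 0 < Ki + 1 - 3 * w * ξ := by linarith [F.hK]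
  have h8 : p * ξ * (Ki + 1 - 3 * w * ξ) < 0 :=
    mul_neg_of_neg_of_pos (mul_neg_of_neg_of_pos hp F.ξ0) h7
  linarith

/-- upper bound of `p` -/
lemma LocEnd.p_le {r r1 ξ X T M D2 D3 Ki K w τ x0 c1 c2 c3 c5 : ℝ}
    (H : LocEnd al be be1 C D p q r r1 ξ X T M D2 D3)
    (F : LocFacts p q ξ T M D2 D3 Ki K w τ x0 r1) (hbe1 : 0 ≤ be1)
    (hc : AnsC al be be1 (C + D * q) p q r c1 c2 c3 c5) (hp : 0 ≤ p) (hw0 : 0 ≤ w) :
    p * (K + 1 - 3 * w * x0) ≤ (3 + 2 * be1 * q) / 2 * w * x0 := by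
  obtain ⟨-, -, h1, -⟩ := H.main c1 c2 c3 c5 hc
  have hq := F.q0
  rw [F.hT] at h1
  have ha : 0 ≤ (3 + 6 * p + 2 * be1 * q) / 2 := by positivity
  have h2 := mul_le_mul_of_nonneg_left F.Dw ha
  have h3 : ξ * (p * (Ki + 1)) ≤ ξ * ((3 + 6 * p + 2 * be1 * q) / 2 * w * ξ) := by nlinarith
  have h4 := le_of_mul_le_mul_left h3 F.ξ0
  have h5 := mul_le_mul_of_nonneg_left F.ξ1 (mul_nonneg ha hw0)
  have h6 := mul_le_mul_of_nonneg_left F.hK hp
  linarith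

/-- the final contradiction -/
lemma LocEnd.contra {r r1 ξ T M D2 D3 Ki K w τ x0 c1 c2 c3 c5 : ℝ}
    (H : LocEnd al be be1 C D p q r r1 ξ ξ T M D2 D3)
    (F : LocFacts p q ξ T M D2 D3 Ki K w τ x0 r1)
    (hc : AnsC al be be1 (C + D * q) p q r c1 c2 c3 c5)
    (h : (-1 / 2 + 2 * p + p ^ 2 + 2 * al * q) / 2 + c1 * r1 / 6 < 0) : False := by
  obtain ⟨h1, -, -, -⟩ := H.main c1 c2 c3 c5 hc
  have h2 := F.D3le hc.n1
  have h3 := mul_neg_of_neg_of_pos h F.D2p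
  linarith

end Crest.Agent.R163
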