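import Crest.Agent.R163.Class

/-!
Row 163: pointwise (orbit) inequalities ⇒ `LawHyp` for `0 ≤ lam ≤ 1`.
-/

set_option autoImplicit false

universe u

namespace Crest.Agent.R163

variable {q : ℕ}

/-- the pointwise hypotheses: closure (i) and subadditivity (ii) -/
structure PairHyp (q : ℕ) [NeZero q] (ψ θ B : (Fin q → ℝ) → ℝ) (δ C β : ℝ) : Prop where
  bψ : Bdd ψ
  bθ : Bdd θ
  bB : Bdd B
  hψ : Hom ψ
  δpos : 0 < δ
  Cnn : 0 ≤ C
  βpos : 0 < β
  one : 0 ≤ ψ (fun _ => 1)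
  perfect : 0 < ∑ o : Fin q, ψ (fun i => if o = i then 1 else 0)
  edge : ∀ lam : ℝ, 0 ≤ lam → lam ≤ 1 → ∀ v : Fin q → ℝ, (∀ i, 0 ≤ v i) →
    lam ^ 3 * ψ v ≤ ψ (W lam v)
  θ0 : ∀ v : Fin q → ℝ, (∀ i, 0 ≤ v i) → 0 ≤ θ v
  θ1 : ∀ v : Fin q → ℝ, (∀ i, 0 ≤ v i) → avg v - C * chi v ≤ θ v
  B1 : ∀ v : Fin q → ℝ, (∀ i, 0 ≤ v i) → β * chi v ≤ B v
  closure : ∀ u v : Fin q → ℝ, (∀ i, 0 ≤ u i) → (∀ i, 0 ≤ v i) →
    θ v * ψ u + θ u * ψ v + δ * chi u * chi v ≤ orb ψ u v
  chisub : ∀ u v : Fin q → ℝ, (∀ i, 0 ≤ u i) → (∀ i, 0 ≤ v i) →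
    orb chi u v ≤ avg v * chi u + avg u * chi v - B v * ψ u - B u * ψ v

variable [NeZero q] {ψ θ B : (Fin q → ℝ) → ℝ} {δ C β : ℝ}

lemma PairHyp.law_closure (H : PairHyp q ψ θ B δ C β) {Ω₁ Ω₂ : Type*} {L₁ : Ω₁ → Fin q → ℝ}
    {L₂ : Ω₂ → Fin q → ℝ} (h₁ : IsChan L₁) (h₂ : IsChan L₂) :
    J θ L₂ * J ψ L₁ + J θ L₁ * J ψ L₂ + δ * J chi L₁ * J chi L₂ ≤ J ψ (mrg L₁ L₂) := by
  have h := le_J_mrg h₁ h₂ H.bψ (Finset.univ : Finset (Fin 3))
    (α := ![ψ, θ, fun v => δ * chi v]) (β := ![θ, ψ, chi])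
    (fun k _ => by
      fin_cases k
      · exact H.bψ
      · exact H.bθ
      · exact bdd_chi.const_mul δ)
    (fun k _ => by
      fin_cases k
      · exact H.bθ
      · exact H.bψ
      · exact bdd_chi)
    (fun u v hu hv => by
      have := H.closure u v hu hv
      simp only [Fin.sum_univ_three, Matrix.cons_val_zero, Matrix.cons_val_one, Matrix.cons_val]
      linarith)
  simp only [Fin.sum_univ_three, Matrix.cons_val_zero, Matrix.cons_val_one, Matrix.cons_val,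
    J_const_mul] at h
  linarith

lemma PairHyp.law_chisub (H : PairHyp q ψ θ B δ C β) {Ω₁ Ω₂ : Type*} {L₁ : Ω₁ → Fin q → ℝ}
    {L₂ : Ω₂ → Fin q → ℝ} (h₁ : IsChan L₁) (h₂ : IsChan L₂) :
    J chi (mrg L₁ L₂) ≤ J chi L₁ + J chi L₂ - J B L₂ * J ψ L₁ - J B L₁ * J ψ L₂ := by
  have h := J_mrg_le h₁ h₂ bdd_chi (Finset.univ : Finset (Fin 4))
    (α := ![chi, avg, fun v => (-1) * ψ v, fun v => (-1) * B v]) (β := ![avg, chi, B, ψ])
    (fun k _ => by
      fin_cases k
      · exact bdd_chi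
      · exact bdd_avg
      · exact H.bψ.const_mul (-1)
      · exact H.bB.const_mul (-1))
    (fun k _ => by
      fin_cases k
      · exact bdd_avg
      · exact bdd_chi
      · exact H.bB
      · exact H.bψ)
    (fun u v hu hv => by
      have := H.chisub u v hu hv
      simp only [Fin.sum_univ_four, Matrix.cons_val_zero, Matrix.cons_val_one, Matrix.cons_val]
      linarith)
  simp only [Fin.sum_univ_four, Matrix.cons_val_zero, Matrix.cons_val_one, Matrix.cons_val,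
    J_const_mul, h₁.J_avg, h₂.J_avg] at h
  linarith

/-- pointwise inequalities imply the law-level hypotheses -/
theorem PairHyp.law (H : PairHyp q ψ θ B δ C β) :
    ∃ c κ : ℝ, LawHyp.{u} q ψ c κ (Set.Icc 0 1) := by
  have hq : (1 : ℝ) ≤ q := by exact_mod_cast Nat.pos_of_ne_zero (NeZero.ne q)
  set P := ∑ o : Fin q, ψ (fun i => if o = i then 1 else 0) with hP
  set M : ℝ := q - 1 with hM
  have hM0 : 0 ≤ M := by simp only [hM]; linarith
  have hδ := H.δpos
  have hC := H.Cnn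
  have hβ := H.βpos
  have hPpos := H.perfect
  set c : ℝ := min (P / (M ^ 2 + 1)) (δ / (2 + 2 * C * M)) with hc
  have hc0 : 0 < c := lt_min (by positivity) (by positivity)
  have hc1 : c * M ^ 2 ≤ P := by
    have : c ≤ P / (M ^ 2 + 1) := min_le_left _ _
    calc c * M ^ 2 ≤ c * (M ^ 2 + 1) := by nlinarith
      _ ≤ P / (M ^ 2 + 1) * (M ^ 2 + 1) := mul_le_mul_of_nonneg_right this (by positivity)
      _ = P := by field_simp
  have hc2 : c * (2 + 2 * C * M) ≤ δ := by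
    have : c ≤ δ / (2 + 2 * C * M) := min_le_right _ _
    calc c * (2 + 2 * C * M) ≤ δ / (2 + 2 * C * M) * (2 + 2 * C * M) :=
          mul_le_mul_of_nonneg_right this (by positivity)
      _ = δ := by
          have : (2 + 2 * C * M) ≠ 0 := by positivity
          field_simp
  refine ⟨c, β * c, ?_⟩
  refine
    { bdd := H.bψ
      hom := H.hψ
      cpos := hc0
      κpos := mul_pos hβ hc0
      adm := ?_
      unit := H.one
      perfect := hc1
      edge := ?_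
      merge := ?_ }
  · intro lam hlam
    refine ⟨hlam.2, ?_⟩
    have h1 : 0 ≤ 1 - lam := by linarith [hlam.2]
    have h2 := hlam.1
    positivity
  · intro lam hlam Ω L hL hcl
    obtain ⟨h0, h1⟩ := hlam
    have h2 : J (fun v => lam ^ 3 * ψ v) L ≤ J (fun v => ψ (W lam v)) L := by
      refine Summable.tsum_le_tsum (fun o => H.edge lam h0 h1 _ (hL.nonneg o))
        (hL.summable (H.bψ.const_mul _)) ?_
      have hadm : Adm q lam := ⟨h1, by
        have h1 : 0 ≤ 1 - lam := by linarith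
        positivity⟩
      exact (hL.edge hadm).summable H.bψ
    rw [J_const_mul] at h2
    have h3 : J (fun v => ψ (W lam v)) L = J ψ (fun o => W lam (L o)) := rfl
    rw [← h3]
    refine le_trans ?_ h2
    have hX := hL.X_nonneg
    calc c * (lam ^ 2 * J chi L) ^ 2 = lam ^ 4 * (c * J chi L ^ 2) := by ring
      _ ≤ lam ^ 3 * (c * J chi L ^ 2) := by
          apply mul_le_mul_of_nonneg_right _ (by positivity)
          exact pow_le_pow_of_le_one h0 h1 (by norm_num)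
      _ ≤ lam ^ 3 * J ψ L := mul_le_mul_of_nonneg_left hcl (by positivity)
  · intro Ω₁ Ω₂ L₁ L₂ h₁ h₂ g₁ g₂
    have hX1 := h₁.X_nonneg
    have hX2 := h₂.X_nonneg
    have hX1' : J chi L₁ ≤ M := h₁.X_le
    have hX2' : J chi L₂ ≤ M := h₂.X_le
    have hX := (h₁.mrg h₂).X_nonneg
    have hψ1 : 0 ≤ J ψ L₁ := le_trans (by positivity) g₁
    have hψ2 : 0 ≤ J ψ L₂ := le_trans (by positivity) g₂
    have hB1 : β * J chi L₁ ≤ J B L₁ := by
      have := h₁.J_mono (bdd_chi.const_mul β) H.bB fun v hv => H.B1 v hv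
      rwa [J_const_mul] at this
    have hB2 : β * J chi L₂ ≤ J B L₂ := by
      have := h₂.J_mono (bdd_chi.const_mul β) H.bB fun v hv => H.B1 v hv
      rwa [J_const_mul] at this
    have hθ1 : 1 - C * J chi L₁ ≤ J θ L₁ := by
      have := h₁.J_mono (bdd_avg.sub (bdd_chi.const_mul C)) H.bθ fun v hv => H.θ1 v hv
      rwa [h₁.J_sub bdd_avg (bdd_chi.const_mul C), J_const_mul, h₁.J_avg] at this
    have hθ2 : 1 - C * J chi L₂ ≤ J θ L₂ := by
      have := h₂.J_mono (bdd_avg.sub (bdd_chi.const_mul C)) H.bθ fun v hv => H.θ1 v hv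
      rwa [h₂.J_sub bdd_avg (bdd_chi.const_mul C), J_const_mul, h₂.J_avg] at this
    have hθ10 : 0 ≤ J θ L₁ := h₁.J_nonneg fun v hv => H.θ0 v hv
    have hθ20 : 0 ≤ J θ L₂ := h₂.J_nonneg fun v hv => H.θ0 v hv
    have k1 := H.law_closure h₁ h₂
    have k2 := H.law_chisub h₁ h₂
    set x := J chi L₁
    set y := J chi L₂
    set w := J chi (mrg L₁ L₂)
    set a := J ψ L₁
    set b := J ψ L₂
    have e1 : c * x ^ 2 * (1 - C * y) ≤ J θ L₂ * a := by
      rcases le_total 0 (1 - C * y) with h | h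
      · calc c * x ^ 2 * (1 - C * y) ≤ a * (1 - C * y) := mul_le_mul_of_nonneg_right g₁ h
          _ ≤ a * J θ L₂ := mul_le_mul_of_nonneg_left hθ2 hψ1
          _ = _ := mul_comm _ _
      · have h' : c * x ^ 2 * (1 - C * y) ≤ 0 :=
          mul_nonpos_of_nonneg_of_nonpos (by positivity) h
        exact h'.trans (mul_nonneg hθ20 hψ1)
    have e2 : c * y ^ 2 * (1 - C * x) ≤ J θ L₁ * b := by
      rcases le_total 0 (1 - C * x) with h | h
      · calc c * y ^ 2 * (1 - C * x) ≤ b * (1 - C * x) := mul_le_mul_of_nonneg_right g₂ h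
          _ ≤ b * J θ L₁ := mul_le_mul_of_nonneg_left hθ1 hψ2
          _ = _ := mul_comm _ _
      · have h' : c * y ^ 2 * (1 - C * x) ≤ 0 :=
          mul_nonpos_of_nonneg_of_nonpos (by positivity) h
        exact h'.trans (mul_nonneg hθ10 hψ2)
    have f1 : β * y * (c * x ^ 2) ≤ J B L₂ * a :=
      mul_le_mul hB2 g₁ (by positivity) (le_trans (by positivity) hB2)
    have f2 : β * x * (c * y ^ 2) ≤ J B L₁ * b :=
      mul_le_mul hB1 g₂ (by positivity) (le_trans (by positivity) hB1)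
    have hw : w ≤ x + y := by
      have p1 : 0 ≤ β * y * (c * x ^ 2) := by positivity
      have p2 : 0 ≤ β * x * (c * y ^ 2) := by positivity
      linarith
    refine ⟨?_, ?_⟩
    · have hw2 : c * w ^ 2 ≤ c * (x + y) ^ 2 :=
        mul_le_mul_of_nonneg_left (pow_le_pow_left₀ hX hw 2) hc0.le
      have hxy : 0 ≤ x * y := mul_nonneg hX1 hX2
      have h3 : c * (x + y) ^ 2 ≤ c * x ^ 2 * (1 - C * y) + c * y ^ 2 * (1 - C * x) + δ * x * y := by
        have h4 : c * (2 + 2 * C * M) * (x * y) ≤ δ * (x * y) := mul_le_mul_of_nonneg_right hc2 hxy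
        have h5 : c * C * (x * y) * (x + y) ≤ c * C * (x * y) * (2 * M) :=
          mul_le_mul_of_nonneg_left (by linarith) (by positivity)
        nlinarith
      linarith
    · nlinarith

/-- the two non-reconstruction statements for `0 ≤ lam ≤ 1` -/
theorem PairHyp.nonreconstruction (H : PairHyp q ψ θ B δ C β) :
    (∀ b : ℕ, 2 ≤ b → ∀ lam : ℝ, 0 ≤ lam → lam ≤ 1 → (b : ℝ) * lam ^ 2 ≤ 1 →
      Filter.Tendsto (Crest.ProbabilityR.Broadcast.advantage q b lam) Filter.atTop (nhds 0)) ∧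
    (∀ d : ℝ, 0 < d → ∀ lam : ℝ, 0 ≤ lam → lam ≤ 1 → d * lam ^ 2 ≤ 1 →
      Filter.Tendsto (Crest.ProbabilityR.Broadcast.gwAdvantage q lam d) Filter.atTop (nhds 0)) := by
  obtain ⟨c, κ, hL⟩ := PairHyp.law.{0} H
  exact ⟨fun b hb lam h0 h1 h2 => hL.regular hb ⟨h0, h1⟩ h2,
    fun d hd lam h0 h1 h2 => hL.poisson ⟨h0, h1⟩ hd h2⟩

end Crest.Agent.R163
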