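import Crest.Agent.R163.Forward
import Crest.Agent.R163.Pair
import Crest.Agent.R163.Mono
import Crest.Agent.R163.Back9

/-!
Row 163: assembly of the statements from the pointwise hypotheses.
-/

set_option autoImplicit false

universe u

namespace Crest.Agent.R163

open Crest.ProbabilityR.Broadcast Crest.ProbabilityR.TreeBroadcast

/-- S0245 from `PairHyp 4` -/
theorem main245 {ψ θ B : (Fin 4 → ℝ) → ℝ} {δ C β : ℝ} (H : PairHyp 4 ψ θ B δ C β) :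
    (∀ b : ℕ, 2 ≤ b → ∀ lam : ℝ, 0 ≤ lam → lam ≤ 1 → (b : ℝ) * lam ^ 2 ≤ 1 →
      Filter.Tendsto (advantage 4 b lam) Filter.atTop (nhds 0)) ∧
    (∀ d : ℝ, 0 < d → ∀ lam : ℝ, 0 ≤ lam → lam ≤ 1 → d * lam ^ 2 ≤ 1 →
      Filter.Tendsto (gwAdvantage 4 lam d) Filter.atTop (nhds 0)) :=
  H.nonreconstruction

/-- S0246 from `PairHyp 4` -/
theorem main246 {ψ θ B : (Fin 4 → ℝ) → ℝ} {δ C β : ℝ} (H : PairHyp 4 ψ θ B δ C β)
    {V : Type u} [DecidableEq V] (T : LocFinTree V) (b : ℕ)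
    (hb : ∀ v, (T.children v).card ≤ b) (lam : ℝ) (h0 : 0 < lam) (h1 : lam < 1) :
    (∃ ε : ℝ, 0 < ε ∧ ∀ n, ε ≤ treeAdvantage 4 T lam n) ↔
    (∃ θ : V → ℝ, IsFlow T θ ∧ 0 < flowMass T θ ∧
      ∀ ξ : ℕ → V, T.IsRay ξ → rayPotential lam θ ξ ≤ 1) := by
  constructor
  · rintro ⟨ε, hε, h⟩
    obtain ⟨c, κ, hL⟩ := PairHyp.law.{u} H
    exact hL.forward T b hb (Set.mem_Icc.2 ⟨h0.le, h1.le⟩) h0 h1 hε h
  · rintro ⟨θ, hθ, hM, hray⟩
    exact Bk.backward T hb h0 h1 hθ hM hray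

/-- S0244 from `PairHyp 3` and the critical antiferromagnetic cases -/
theorem main244 {ψ θ B : (Fin 3 → ℝ) → ℝ} {δ C β : ℝ} (H : PairHyp 3 ψ θ B δ C β)
    (h4 : Filter.Tendsto (advantage 3 4 (-(1 / 2))) Filter.atTop (nhds 0))
    (h5 : ∀ b : ℕ, 5 ≤ b →
      Filter.Tendsto (advantage 3 b (-(1 / Real.sqrt b))) Filter.atTop (nhds 0))
    (hP : ∀ d : ℝ, 4 ≤ d →
      Filter.Tendsto (gwAdvantage 3 (-(1 / Real.sqrt d)) d) Filter.atTop (nhds 0)) :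
    (∀ b : ℕ, 2 ≤ b → ∀ lam : ℝ, -(1 / 2 : ℝ) ≤ lam → lam ≤ 1 → (b : ℝ) * lam ^ 2 ≤ 1 →
      Filter.Tendsto (advantage 3 b lam) Filter.atTop (nhds 0)) ∧
    (∀ d : ℝ, 1 < d → ∀ lam : ℝ, -(1 / 2 : ℝ) ≤ lam → lam ≤ 1 → d * lam ^ 2 ≤ 1 →
      Filter.Tendsto (gwAdvantage 3 lam d) Filter.atTop (nhds 0)) := by
  refine ⟨fun b hb lam hl hl1 hks => ?_, fun d hd lam hl hl1 hks => ?_⟩
  · rcases le_total 0 lam with h | h
    · exact H.nonreconstruction.1 b hb lam h hl1 hks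
    · exact anti_regular h4 h5 b hl h hks
  · rcases le_total 0 lam with h | h
    · exact H.nonreconstruction.2 d (by linarith) lam h hl1 hks
    · exact anti_poisson hP (by linarith) hl h hks

end Crest.Agent.R163
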