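import Crest.Agent.R163.Mono

/-!
Row 163: derivative in `t` of `J φ (pois t L)`.
-/

set_option autoImplicit false

namespace Crest.Agent.R163

/-- Poisson average of a sequence -/
noncomputable def pav' (a : ℕ → ℝ) (t : ℝ) : ℝ := ∑' n, pwt t n * a n

lemma summable_pwt_mul {a : ℕ → ℝ} {K : ℝ} (ha : ∀ n, |a n| ≤ K) (t : ℝ) :
    Summable (fun n => pwt t n * a n) := by
  have h1 : Summable (fun n => |pwt t n| * K) := by
    have := ((pwt_hasSum t).summable.norm).mul_right K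
    simpa [Real.norm_eq_abs] using this
  refine Summable.of_norm_bounded h1 fun n => ?_
  rw [Real.norm_eq_abs, abs_mul]
  exact mul_le_mul_of_nonneg_left (ha n) (abs_nonneg _)

lemma hasDerivAt_pow_tsum {a : ℕ → ℝ} {K : ℝ} (ha : ∀ n, |a n| ≤ K) (t : ℝ) :
    HasDerivAt (fun s : ℝ => ∑' n, s ^ n / (n.factorial : ℝ) * a n)
      (∑' n, t ^ n / (n.factorial : ℝ) * a (n + 1)) t := by
  have hK : 0 ≤ K := (abs_nonneg _).trans (ha 0)
  set R : ℝ := |t| + 1 with hR
  have hR0 : 0 ≤ R := by positivity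
  have hsR : Summable (fun n : ℕ => R ^ n / (n.factorial : ℝ)) := Real.summable_pow_div_factorial R
  -- the derivative series
  have hder : ∀ (n : ℕ) (y : ℝ), HasDerivAt (fun s : ℝ => s ^ n / (n.factorial : ℝ) * a n)
      ((n : ℝ) * y ^ (n - 1) / (n.factorial : ℝ) * a n) y := fun n y =>
    ((hasDerivAt_pow n y).div_const _).mul_const _
  have hshift : ∀ y : ℝ, ∀ n : ℕ, ((n + 1 : ℕ) : ℝ) * y ^ (n + 1 - 1) / ((n + 1).factorial : ℝ) =
      y ^ n / (n.factorial : ℝ) := by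
    intro y n
    rw [Nat.factorial_succ, Nat.add_sub_cancel]
    push_cast
    have h2 : (n : ℝ) + 1 ≠ 0 := by positivity
    have h3 : (n.factorial : ℝ) ≠ 0 := by exact_mod_cast Nat.factorial_ne_zero n
    field_simp
  have hu : Summable (fun n : ℕ => (n : ℝ) * R ^ (n - 1) / (n.factorial : ℝ) * K) := by
    refine Summable.mul_right K ?_
    rw [← summable_nat_add_iff 1]
    simp only [hshift]
    exact hsR
  have hbd : ∀ (n : ℕ) (y : ℝ), y ∈ Metric.ball (0 : ℝ) R →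
      ‖(n : ℝ) * y ^ (n - 1) / (n.factorial : ℝ) * a n‖ ≤
        (n : ℝ) * R ^ (n - 1) / (n.factorial : ℝ) * K := by
    intro n y hy
    rw [Metric.mem_ball, dist_zero_right, Real.norm_eq_abs] at hy
    rw [Real.norm_eq_abs, abs_mul, abs_div, abs_mul, abs_pow, Nat.abs_cast, Nat.abs_cast]
    have h1 : |y| ^ (n - 1) ≤ R ^ (n - 1) := pow_le_pow_left₀ (abs_nonneg _) hy.le _
    exact mul_le_mul (div_le_div_of_nonneg_right (mul_le_mul_of_nonneg_left h1 (Nat.cast_nonneg _))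
      (Nat.cast_nonneg _)) (ha n) (abs_nonneg _) (by positivity)
  have ht : t ∈ Metric.ball (0 : ℝ) R := by
    rw [Metric.mem_ball, dist_zero_right, Real.norm_eq_abs, hR]; linarith
  have h0 : (0 : ℝ) ∈ Metric.ball (0 : ℝ) R := by
    rw [Metric.mem_ball, dist_zero_right, norm_zero, hR]; positivity
  have hs0 : Summable (fun n : ℕ => (0 : ℝ) ^ n / (n.factorial : ℝ) * a n) := by
    refine summable_of_ne_finset_zero (s := {0}) fun n hn => ?_
    have : n ≠ 0 := by simpa using hn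
    simp [this]
  have key := hasDerivAt_tsum_of_isPreconnected hu Metric.isOpen_ball
    (convex_ball (0 : ℝ) R).isPreconnected (fun n y _ => hder n y) hbd h0 hs0 ht
  have e : ∑' n : ℕ, (n : ℝ) * t ^ (n - 1) / (n.factorial : ℝ) * a n =
      ∑' n, t ^ n / (n.factorial : ℝ) * a (n + 1) := by
    have hs : Summable (fun n : ℕ => (n : ℝ) * t ^ (n - 1) / (n.factorial : ℝ) * a n) :=
      Summable.of_norm_bounded hu fun n => hbd n t ht
    rw [hs.tsum_eq_zero_add]
    simp only [hshift, Nat.cast_zero, zero_mul, zero_div, zero_add]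
  rw [e] at key
  exact key

lemma pav'_eq (a : ℕ → ℝ) (t : ℝ) :
    pav' a t = Real.exp (-t) * ∑' n, t ^ n / (n.factorial : ℝ) * a n := by
  unfold pav'
  rw [← tsum_mul_left]
  refine tsum_congr fun n => ?_
  unfold pwt
  ring

/-- the Poisson average of a bounded sequence is differentiable -/
theorem hasDerivAt_pav' {a : ℕ → ℝ} {K : ℝ} (ha : ∀ n, |a n| ≤ K) (t : ℝ) :
    HasDerivAt (pav' a) (pav' (fun n => a (n + 1)) t - pav' a t) t := by
  have h1 := hasDerivAt_pow_tsum ha t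
  have h2 : HasDerivAt (fun s : ℝ => Real.exp (-s)) (-Real.exp (-t)) t := by
    have := (hasDerivAt_neg t).exp
    rwa [mul_neg_one] at this
  have h3 := h2.mul h1
  have h4 : pav' a = fun s => Real.exp (-s) * ∑' n, s ^ n / (n.factorial : ℝ) * a n := by
    funext s; exact pav'_eq a s
  rw [pav'_eq (fun n => a (n + 1)) t, pav'_eq a t]
  rw [h4]
  have e : ∀ A B C : ℝ, A * B - A * C = -A * C + A * B := fun A B C => by ring
  rw [e]
  exact h3

variable {q : ℕ}

lemma IsChan.abs_J_le [NeZero q] {Ω : Type*} {L : Ω → Fin q → ℝ} (h : IsChan L)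
    {φ : (Fin q → ℝ) → ℝ} {K : ℝ} (hφ : Bdd φ)
    (hK : ∀ v : Fin q → ℝ, (∀ i, 0 ≤ v i) → |φ v| ≤ K * avg v) : |J φ L| ≤ K := by
  have e1 : |J φ L| ≤ ∑' o, |φ (L o)| := by
    have := norm_tsum_le_tsum_norm (h.summable hφ).norm
    simpa [Real.norm_eq_abs, J] using this
  have e2 : ∑' o, |φ (L o)| ≤ J (fun v => K * avg v) L :=
    Summable.tsum_le_tsum (fun o => hK _ (h.nonneg o)) (h.summable_abs hφ)
      (h.summable (bdd_avg.const_mul K))
  rw [J_const_mul, h.J_avg, mul_one] at e2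
  exact e1.trans e2

/-- integrating out an independent channel preserves `Bdd` and `Hom` -/
lemma Bdd.integrate [NeZero q] {φ : (Fin q → ℝ) → ℝ} (h : Bdd φ) {Ω : Type*} {L : Ω → Fin q → ℝ}
    (hL : IsChan L) : Bdd (fun u => ∑' o, φ (fun i => u i * L o i)) := by
  obtain ⟨K, hK, hb⟩ := h
  have hs : ∀ u : Fin q → ℝ, Summable (fun o => avg (fun i => u i * L o i)) := fun u => by
    unfold avg
    exact (summable_sum fun i _ => (hL.hasSum i).summable.mul_left _).div_const _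
  have hsum : ∀ u : Fin q → ℝ, ∑' o, avg (fun i => u i * L o i) = avg u := fun u => by
    unfold avg
    rw [tsum_div_const, Summable.tsum_finsetSum fun i _ => (hL.hasSum i).summable.mul_left _]
    congr 1
    refine Finset.sum_congr rfl fun i _ => ?_
    rw [tsum_mul_left, (hL.hasSum i).tsum_eq, mul_one]
  have hsφ : ∀ u : Fin q → ℝ, (∀ i, 0 ≤ u i) → Summable (fun o => φ (fun i => u i * L o i)) :=
    fun u hu => by
      refine Summable.of_norm_bounded ((hs u).mul_left K) fun o => ?_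
      rw [Real.norm_eq_abs]
      exact hb _ fun i => mul_nonneg (hu i) (hL.nonneg _ _)
  refine ⟨K, hK, fun u hu => ?_⟩
  have h1 : |∑' o, φ (fun i => u i * L o i)| ≤ ∑' o, |φ (fun i => u i * L o i)| := by
    have := norm_tsum_le_tsum_norm (hsφ u hu).norm
    simpa [Real.norm_eq_abs] using this
  refine h1.trans ?_
  calc ∑' o, |φ (fun i => u i * L o i)| ≤ ∑' o, K * avg (fun i => u i * L o i) := by
        refine Summable.tsum_le_tsum (fun o => hb _ fun i => mul_nonneg (hu i) (hL.nonneg _ _))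
          ?_ ((hs u).mul_left K)
        simpa [Real.norm_eq_abs] using (hsφ u hu).norm
    _ = K * avg u := by rw [tsum_mul_left, hsum]

lemma Hom.integrate {φ : (Fin q → ℝ) → ℝ} (h : Hom φ) {Ω : Type*} {L : Ω → Fin q → ℝ}
    (hL : ∀ o i, 0 ≤ L o i) : Hom (fun u => ∑' o, φ (fun i => u i * L o i)) := by
  intro c u hc hu
  change ∑' o, φ (fun i => (c * u i) * L o i) = c * ∑' o, φ (fun i => u i * L o i)
  rw [← tsum_mul_left]
  refine tsum_congr fun o => ?_
  rw [← h c (fun i => u i * L o i) hc fun i => mul_nonneg (hu i) (hL _ _)]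
  congr 1
  funext i; ring

/-- merging a Poisson number of copies with one more copy -/
theorem J_mrg_pois [NeZero q] {t : ℝ} (ht : 0 ≤ t) {Ω Ω' : Type*} {L : Ω → Fin q → ℝ}
    (hL : IsChan L) {L' : Ω' → Fin q → ℝ} (hL' : IsChan L') {φ : (Fin q → ℝ) → ℝ} (hφ : Bdd φ)
    (hh : Hom φ) :
    HasSum (fun n => pwt t n * J φ (mrg (pw L n) L')) (J φ (mrg (pois t L) L')) := by
  rw [J_mrg_iter (pois_isChan ht hL) hL' hφ]
  have h1 := J_pois ht hL (hφ.integrate hL') (hh.integrate hL'.nonneg)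
  refine hasSum_cast h1 fun n => ?_
  rw [J_mrg_iter (hL.pw n) hL' hφ]

theorem J_mrg_pois_self [NeZero q] {t : ℝ} (ht : 0 ≤ t) {Ω : Type*} {L : Ω → Fin q → ℝ}
    (hL : IsChan L) {φ : (Fin q → ℝ) → ℝ} (hφ : Bdd φ) (hh : Hom φ) :
    J φ (mrg (pois t L) L) = pav' (fun n => J φ (pw L (n + 1))) t := by
  have h := J_mrg_pois ht hL hL hφ hh
  unfold pav'
  rw [← h.tsum_eq]
  refine tsum_congr fun n => ?_
  rw [J_mrg_comm, ← J_pw_succ]

theorem J_pois_eq_pav' [NeZero q] {t : ℝ} (ht : 0 ≤ t) {Ω : Type*} {L : Ω → Fin q → ℝ}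
    (hL : IsChan L) {φ : (Fin q → ℝ) → ℝ} (hφ : Bdd φ) (hh : Hom φ) :
    J φ (pois t L) = pav' (fun n => J φ (pw L n)) t :=
  (J_pois ht hL hφ hh).tsum_eq.symm

lemma exists_bound_pw [NeZero q] {Ω : Type*} {L : Ω → Fin q → ℝ}
    (hL : IsChan L) {φ : (Fin q → ℝ) → ℝ} (hφ : Bdd φ) : ∃ K, ∀ n, |J φ (pw L n)| ≤ K := by
  obtain ⟨K, hK, hb⟩ := hφ
  exact ⟨K, fun n => (hL.pw n).abs_J_le ⟨K, hK, hb⟩ hb⟩

/-- the smooth extension to all real `t` of `t ↦ J φ (pois t L)` -/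
noncomputable def jp {Ω : Type*} (φ : (Fin q → ℝ) → ℝ) (L : Ω → Fin q → ℝ) (t : ℝ) : ℝ :=
  pav' (fun n => J φ (pw L n)) t

lemma jp_eq [NeZero q] {t : ℝ} (ht : 0 ≤ t) {Ω : Type*} {L : Ω → Fin q → ℝ}
    (hL : IsChan L) {φ : (Fin q → ℝ) → ℝ} (hφ : Bdd φ) (hh : Hom φ) :
    jp φ L t = J φ (pois t L) := (J_pois_eq_pav' ht hL hφ hh).symm

lemma pois_unit_zero : pwt 0 0 = 1 := by simp [pwt]

lemma pav'_zero (a : ℕ → ℝ) : pav' a 0 = a 0 := by
  unfold pav'
  rw [tsum_eq_single 0 fun n hn => by simp [pwt, hn], pois_unit_zero, one_mul]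

lemma jp_zero {Ω : Type*} (φ : (Fin q → ℝ) → ℝ) (L : Ω → Fin q → ℝ) :
    jp φ L 0 = φ (fun _ => 1) := by
  unfold jp
  rw [pav'_zero, J_pw_zero]

/-- derivative of `t ↦ J φ (pois t L)` -/
theorem hasDerivAt_jp [NeZero q] {t : ℝ} (ht : 0 ≤ t) {Ω : Type*} {L : Ω → Fin q → ℝ}
    (hL : IsChan L) {φ : (Fin q → ℝ) → ℝ} (hφ : Bdd φ) (hh : Hom φ) :
    HasDerivAt (jp φ L) (J φ (mrg (pois t L) L) - J φ (pois t L)) t := by
  obtain ⟨K, hK⟩ := exists_bound_pw hL hφ
  have h := hasDerivAt_pav' (a := fun n => J φ (pw L n)) hK t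
  rw [J_mrg_pois_self ht hL hφ hh, J_pois_eq_pav' ht hL hφ hh]
  exact h

/-- comparison: if along the Poisson path the increment of `φ` is at most `g`, then ... -/
theorem jp_sub_le [NeZero q] {T : ℝ} (hT : 0 ≤ T) {Ω : Type*} {L : Ω → Fin q → ℝ}
    (hL : IsChan L) {φ : (Fin q → ℝ) → ℝ} (hφ : Bdd φ) (hh : Hom φ) {G g : ℝ → ℝ}
    (hG : ∀ t ∈ Set.Icc 0 T, HasDerivAt G (g t) t)
    (hb : ∀ t ∈ Set.Icc 0 T, J φ (mrg (pois t L) L) - J φ (pois t L) ≤ g t) :
    J φ (pois T L) - φ (fun _ => 1) ≤ G T - G 0 := by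
  have hder : ∀ t ∈ Set.Icc (0 : ℝ) T, HasDerivAt (fun s => G s - jp φ L s)
      (g t - (J φ (mrg (pois t L) L) - J φ (pois t L))) t := fun t ht =>
    (hG t ht).sub (hasDerivAt_jp ht.1 hL hφ hh)
  have hmono : MonotoneOn (fun s => G s - jp φ L s) (Set.Icc 0 T) := by
    refine monotoneOn_of_deriv_nonneg (convex_Icc _ _) ?_ ?_ ?_
    · exact fun t ht => (hder t ht).continuousAt.continuousWithinAt
    · intro t ht
      rw [interior_Icc] at ht
      exact (hder t ⟨ht.1.le, ht.2.le⟩).differentiableAt.differentiableWithinAt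
    · intro t ht
      rw [interior_Icc] at ht
      rw [(hder t ⟨ht.1.le, ht.2.le⟩).deriv]
      have := hb t ⟨ht.1.le, ht.2.le⟩
      linarith
  have h := hmono (Set.left_mem_Icc.2 hT) (Set.right_mem_Icc.2 hT) hT
  simp only at h
  rw [jp_zero, jp_eq hT hL hφ hh] at h
  linarith

end Crest.Agent.R163
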