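import Crest.Agent.R163.Edge

/-!
Row 163: `c`-fold powers of a channel, the regular tree and the Poisson tree.
-/

set_option autoImplicit false

namespace Crest.Agent.R163

variable {q : ℕ}

section pow

variable {Ω : Type*}

/-- `c` conditionally independent copies -/
def pw (L : Ω → Fin q → ℝ) (c : ℕ) : (Fin c → Ω) → Fin q → ℝ :=
  fun o i => ∏ m, L (o m) i

lemma pw_cons (L : Ω → Fin q → ℝ) (c : ℕ) (p : Ω × (Fin c → Ω)) :
    pw L (c + 1) (Fin.consEquiv (fun _ => Ω) p) = mrg L (pw L c) p := by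
  funext i
  simp [pw, mrg, Fin.prod_univ_succ, Fin.consEquiv]

lemma J_pw_succ (φ : (Fin q → ℝ) → ℝ) (L : Ω → Fin q → ℝ) (c : ℕ) :
    J φ (pw L (c + 1)) = J φ (mrg L (pw L c)) := by
  rw [← J_equiv (Fin.consEquiv (fun _ => Ω))]
  unfold J
  exact tsum_congr fun p => by rw [← pw_cons]

lemma isChan_unit {Ω : Type*} [Unique Ω] : IsChan (fun (_ : Ω) (_ : Fin q) => (1 : ℝ)) where
  nonneg _ _ := zero_le_one
  hasSum _ := hasSum_unique (fun _ : Ω => (1 : ℝ))
  symm _ := ⟨Equiv.refl _, fun _ _ => rfl⟩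

lemma J_unit {Ω : Type*} [Unique Ω] (φ : (Fin q → ℝ) → ℝ) :
    J φ (fun (_ : Ω) (_ : Fin q) => (1 : ℝ)) = φ (fun _ => 1) := by
  unfold J
  simp

lemma J_pw_zero (φ : (Fin q → ℝ) → ℝ) (L : Ω → Fin q → ℝ) :
    J φ (pw L 0) = φ (fun _ => 1) := by
  have : pw L 0 = fun _ _ => 1 := by
    funext o i; simp [pw]
  rw [this, J_unit]

lemma IsChan.pw {L : Ω → Fin q → ℝ} (h : IsChan L) (c : ℕ) : IsChan (pw L c) := by
  induction c with
  | zero =>
    have : R163.pw L 0 = fun _ _ => 1 := by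
      funext o i; simp [R163.pw]
    rw [this]
    exact isChan_unit
  | succ c ih =>
    have h2 := (h.mrg ih).reindex (Fin.consEquiv (fun _ => Ω)).symm
    have h3 : (fun o => R163.mrg L (R163.pw L c) ((Fin.consEquiv (fun _ => Ω)).symm o)) =
        R163.pw L (c + 1) := by
      funext o
      rw [← pw_cons, Equiv.apply_symm_apply]
    rwa [h3] at h2

end pow

/-! ### regular tree -/

/-- likelihood table of the `b`-ary tree -/
noncomputable def reg (q b : ℕ) (lam : ℝ) (ℓ : ℕ) : ((Fin ℓ → Fin b) → Fin q) → Fin q → ℝ :=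
  fun τ i => Crest.ProbabilityR.Broadcast.leafLaw q b lam ℓ i τ

/-- words of length `ℓ+1` versus first letter and the rest -/
def regEquiv (q b ℓ : ℕ) : ((Fin (ℓ + 1) → Fin b) → Fin q) ≃ (Fin b → ((Fin ℓ → Fin b) → Fin q)) :=
  ((Fin.consEquiv (fun _ => Fin b)).symm.arrowCongr (Equiv.refl (Fin q))).trans
    (Equiv.curry (Fin b) (Fin ℓ → Fin b) (Fin q))

lemma reg_succ (q b : ℕ) (lam : ℝ) (ℓ : ℕ) (τ : (Fin (ℓ + 1) → Fin b) → Fin q) :
    reg q b lam (ℓ + 1) τ = pw (fun o => W lam (reg q b lam ℓ o)) b (regEquiv q b ℓ τ) := by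
  funext i
  simp only [reg, Crest.ProbabilityR.Broadcast.leafLaw, pw]
  refine Finset.prod_congr rfl fun m _ => ?_
  rw [← channel_sum]
  rfl

lemma reg_isChan [NeZero q] (b : ℕ) {lam : ℝ} (hl : Adm q lam) (ℓ : ℕ) : IsChan (reg q b lam ℓ) := by
  induction ℓ with
  | zero =>
    have e : ((Fin 0 → Fin b) → Fin q) ≃ Fin q := Equiv.funUnique _ _
    refine ⟨fun o i => ?_, fun i => ?_, fun σ => ?_⟩
    · simp only [reg, Crest.ProbabilityR.Broadcast.leafLaw]
      split_ifs <;> norm_num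
    · have h1 : HasSum (fun j : Fin q => if j = i then (1 : ℝ) else 0) 1 := by
        have := hasSum_ite_eq i (1 : ℝ)
        simpa using this
      have h2 := ((Equiv.funUnique (Fin 0 → Fin b) (Fin q)).hasSum_iff
        (f := fun j : Fin q => if j = i then (1 : ℝ) else 0)).2 h1
      convert h2 using 1
      funext o
      simp only [reg, Crest.ProbabilityR.Broadcast.leafLaw, Function.comp, Equiv.funUnique_apply]
      congr!
    · refine ⟨(Equiv.refl _).arrowCongr σ, fun o i => ?_⟩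
      simp [reg, Crest.ProbabilityR.Broadcast.leafLaw, Equiv.arrowCongr]
  | succ ℓ ih =>
    have h := ((ih.edge hl).pw b).reindex (regEquiv q b ℓ)
    have : (fun o => R163.pw (fun o => W lam (reg q b lam ℓ o)) b (regEquiv q b ℓ o)) =
        reg q b lam (ℓ + 1) := by
      funext o
      rw [reg_succ]
    rwa [this] at h

lemma J_reg_succ (φ : (Fin q → ℝ) → ℝ) (b : ℕ) (lam : ℝ) (ℓ : ℕ) :
    J φ (reg q b lam (ℓ + 1)) = J φ (pw (fun o => W lam (reg q b lam ℓ o)) b) := by
  rw [← J_equiv (regEquiv q b ℓ) φ (pw (fun o => W lam (reg q b lam ℓ o)) b)]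
  unfold J
  exact tsum_congr fun o => by rw [reg_succ]

lemma advantage_eq (q b : ℕ) (lam : ℝ) (ℓ : ℕ) :
    Crest.ProbabilityR.Broadcast.advantage q b lam ℓ = J tv (reg q b lam ℓ) := by
  unfold Crest.ProbabilityR.Broadcast.advantage J
  rw [tsum_fintype, Finset.mul_sum]
  refine Finset.sum_congr rfl fun τ _ => ?_
  unfold tv
  have h1 : ∀ i, reg q b lam ℓ τ i - avg (reg q b lam ℓ τ) =
      Crest.ProbabilityR.Broadcast.leafLaw q b lam ℓ i τ -
        1 / q * ∑ j : Fin q, Crest.ProbabilityR.Broadcast.leafLaw q b lam ℓ j τ := by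
    intro i
    simp only [avg, reg]
    ring
  simp only [h1]
  unfold avg
  field_simp

/-! ### Poisson tree -/

/-- homogeneity -/
def Hom (φ : (Fin q → ℝ) → ℝ) : Prop :=
  ∀ (c : ℝ) (v : Fin q → ℝ), 0 ≤ c → (∀ i, 0 ≤ v i) → φ (fun i => c * v i) = c * φ v

/-- Poisson weight -/
noncomputable def pwt (d : ℝ) (n : ℕ) : ℝ := Real.exp (-d) * d ^ n / Nat.factorial n

lemma pwt_nonneg {d : ℝ} (hd : 0 ≤ d) (n : ℕ) : 0 ≤ pwt d n := by
  unfold pwt; positivity

lemma pwt_hasSum_pow (d x : ℝ) : HasSum (fun n => pwt d n * x ^ n) (Real.exp (-d * (1 - x))) := by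
  have h := (NormedSpace.expSeries_div_hasSum_exp (𝔸 := ℝ) (d * x)).mul_left (Real.exp (-d))
  have h2 : Real.exp (-d) * NormedSpace.exp (d * x) = Real.exp (-d * (1 - x)) := by
    rw [← Real.exp_eq_exp_ℝ, ← Real.exp_add]; congr 1; ring
  rw [h2] at h
  have h3 : (fun n => pwt d n * x ^ n) =
      fun n => Real.exp (-d) * ((d * x) ^ n / (Nat.factorial n : ℝ)) := by
    funext n
    unfold pwt
    rw [mul_pow]; ring
  rw [h3]
  exact h

lemma pwt_hasSum (d : ℝ) : HasSum (pwt d) 1 := by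
  have := pwt_hasSum_pow d 1
  simpa using this

section pois

variable {Ω : Type*}

/-- a Poisson number of conditionally independent copies, observed as a list -/
noncomputable def pois (d : ℝ) (L : Ω → Fin q → ℝ) : List Ω → Fin q → ℝ :=
  fun o i => Real.exp (-d) * d ^ o.length / Nat.factorial o.length *
    (o.map (fun o' => L o' i)).prod

lemma pois_equiv (d : ℝ) (L : Ω → Fin q → ℝ) (s : (n : ℕ) × (Fin n → Ω)) :
    pois d L ((List.equivSigmaTuple (α := Ω)).symm s) = fun i => pwt d s.1 * pw L s.1 s.2 i := by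
  obtain ⟨n, f⟩ := s
  funext i
  simp [pois, List.equivSigmaTuple, pwt, pw, List.prod_ofFn, List.map_ofFn]

lemma pois_isChan [NeZero q] {d : ℝ} (hd : 0 ≤ d) {L : Ω → Fin q → ℝ} (h : IsChan L) :
    IsChan (pois d L) where
  nonneg o i := by
    unfold pois
    have : 0 ≤ (o.map (fun o' => L o' i)).prod :=
      List.prod_nonneg fun x hx => by
        obtain ⟨o', _, rfl⟩ := List.mem_map.1 hx
        exact h.nonneg _ _
    positivity
  hasSum i := by
    have hs : ∀ n, HasSum (fun f : Fin n → Ω => pwt d n * pw L n f i) (pwt d n) := fun n => by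
      simpa using ((h.pw n).hasSum i).mul_left (pwt d n)
    have hnn : ∀ s : (n : ℕ) × (Fin n → Ω), 0 ≤ pwt d s.1 * pw L s.1 s.2 i := fun s =>
      mul_nonneg (pwt_nonneg hd _) ((h.pw s.1).nonneg _ _)
    have hsum : Summable (fun s : (n : ℕ) × (Fin n → Ω) => pwt d s.1 * pw L s.1 s.2 i) := by
      rw [summable_sigma_of_nonneg hnn]
      refine ⟨fun n => (hs n).summable, ?_⟩
      refine (pwt_hasSum d).summable.congr fun n => ((hs n).tsum_eq).symm
    have h2 : HasSum (fun s : (n : ℕ) × (Fin n → Ω) => pwt d s.1 * pw L s.1 s.2 i) 1 := by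
      have h3 := hsum.hasSum
      have h4 := h3.sigma hs
      rwa [h4.unique (pwt_hasSum d)] at h3
    refine ((List.equivSigmaTuple (α := Ω)).symm.hasSum_iff (f := fun o => pois d L o i)).1 ?_
    have h5 : (fun o => pois d L o i) ∘ (List.equivSigmaTuple (α := Ω)).symm =
        fun s : (n : ℕ) × (Fin n → Ω) => pwt d s.1 * pw L s.1 s.2 i := by
      funext s
      simp only [Function.comp]
      rw [pois_equiv]
    rw [h5]
    exact h2
  symm σ := by
    obtain ⟨e, he⟩ := h.symm σ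
    refine ⟨Equiv.listEquivOfEquiv e, fun o i => ?_⟩
    simp only [pois, Equiv.listEquivOfEquiv, Equiv.coe_fn_mk, List.length_map, List.map_map]
    congr 2
    refine List.map_congr_left fun o' _ => ?_
    simp [he]

lemma J_pois [NeZero q] {d : ℝ} (hd : 0 ≤ d) {L : Ω → Fin q → ℝ} (h : IsChan L)
    {φ : (Fin q → ℝ) → ℝ} (hφ : Bdd φ) (hh : Hom φ) :
    HasSum (fun n => pwt d n * J φ (pw L n)) (J φ (pois d L)) := by
  have hs : Summable (fun o => φ (pois d L o)) := (pois_isChan hd h).summable hφ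
  have h1 : HasSum (fun s : (n : ℕ) × (Fin n → Ω) => φ (fun i => pwt d s.1 * pw L s.1 s.2 i))
      (J φ (pois d L)) := by
    have h2 := ((List.equivSigmaTuple (α := Ω)).symm.hasSum_iff
      (f := fun o => φ (pois d L o))).2 hs.hasSum
    have h5 : (fun o => φ (pois d L o)) ∘ (List.equivSigmaTuple (α := Ω)).symm =
        fun s : (n : ℕ) × (Fin n → Ω) => φ (fun i => pwt d s.1 * pw L s.1 s.2 i) := by
      funext s
      simp only [Function.comp]
      rw [pois_equiv]
    rw [h5] at h2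
    exact h2
  refine h1.sigma fun n => ?_
  have h3 : ∀ f : Fin n → Ω, φ (fun i => pwt d n * pw L n f i) = pwt d n * φ (pw L n f) :=
    fun f => hh _ _ (pwt_nonneg hd n) ((h.pw n).nonneg f)
  simp only [h3]
  exact ((h.pw n).summable hφ).hasSum.mul_left _

end pois

/-- likelihood table of the Poisson tree -/
noncomputable def gw (q : ℕ) (lam d : ℝ) (ℓ : ℕ) :
    Crest.ProbabilityR.Broadcast.PObs q ℓ → Fin q → ℝ :=
  fun o i => Crest.ProbabilityR.Broadcast.gwLaw q lam d ℓ i o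

lemma gw_succ (q : ℕ) (lam d : ℝ) (ℓ : ℕ) :
    gw q lam d (ℓ + 1) = pois d (fun o => W lam (gw q lam d ℓ o)) := by
  funext o i
  simp only [gw, Crest.ProbabilityR.Broadcast.gwLaw, pois, ← channel_sum]

lemma gw_isChan [NeZero q] {lam d : ℝ} (hl : Adm q lam) (hd : 0 ≤ d) (ℓ : ℕ) :
    IsChan (gw q lam d ℓ) := by
  induction ℓ with
  | zero =>
    refine ⟨fun o i => ?_, fun i => ?_, fun σ => ?_⟩
    · simp only [gw, Crest.ProbabilityR.Broadcast.gwLaw]
      split_ifs <;> norm_num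
    · exact hasSum_ite_eq (β := Fin q) i (1 : ℝ)
    · refine ⟨σ, fun o i => ?_⟩
      simp [gw, Crest.ProbabilityR.Broadcast.gwLaw]
  | succ ℓ ih =>
    rw [gw_succ]
    exact pois_isChan hd (ih.edge hl)

lemma gwAdvantage_eq (q : ℕ) (lam d : ℝ) (ℓ : ℕ) :
    Crest.ProbabilityR.Broadcast.gwAdvantage q lam d ℓ = J tv (gw q lam d ℓ) := by
  unfold Crest.ProbabilityR.Broadcast.gwAdvantage J
  rw [← tsum_mul_left]
  refine tsum_congr fun o => ?_
  unfold tv
  have h1 : ∀ i, gw q lam d ℓ o i - avg (gw q lam d ℓ o) =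
      Crest.ProbabilityR.Broadcast.gwLaw q lam d ℓ i o -
        1 / q * ∑ j : Fin q, Crest.ProbabilityR.Broadcast.gwLaw q lam d ℓ j o := by
    intro i
    simp only [avg, gw]
    ring
  simp only [h1]
  unfold avg
  field_simp

end Crest.Agent.R163
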