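import Crest.Agent.R163.Norm
import Crest.Agent.R163.Bern2

/-! Row 163: two-point averages of bilinear forms. -/

set_option autoImplicit false

namespace Crest.Agent.R163

open Bern

variable {q : ℕ}

lemma pr_zero (v : Fin q → ℝ) : pr (fun _ _ => 0) v = 0 := by simp [pr]

lemma pr2_zero (u v : Fin q → ℝ) : pr2 (fun _ _ _ _ => 0) u v = 0 := by simp [pr2]

lemma pr_dotR (c : List Int) (Gs : List (ℝ → ℝ → ℝ)) (v : Fin q → ℝ) :
    pr (fun a b => dotR c (Gs.map fun g => g a b)) v = dotR c (Gs.map fun g => pr g v) := by
  induction c generalizing Gs with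
  | nil => simp only [dotR]; exact pr_zero v
  | cons x xs ih =>
    cases Gs with
    | nil => simp only [List.map_nil, dotR]; exact pr_zero v
    | cons g gs =>
      simp only [List.map_cons, dotR]
      rw [pr_add, pr_const_mul, ih]

lemma pr2_bil (C : List (List Int)) (Fs Gs : List (ℝ → ℝ → ℝ)) (u v : Fin q → ℝ) :
    pr2 (fun a b c d => bil C (Fs.map fun f => f a b) (Gs.map fun g => g c d)) u v =
      bil C (Fs.map fun f => pr f u) (Gs.map fun g => pr g v) := by
  induction C generalizing Fs with
  | nil => simp only [bil]; exact pr2_zero u v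
  | cons x xs ih =>
    cases Fs with
    | nil => simp only [List.map_nil, bil]; exact pr2_zero u v
    | cons f fs =>
      simp only [List.map_cons, bil]
      rw [pr2_add, pr2_mul, ih, pr_dotR]

end Crest.Agent.R163
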