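import Crest.Agent.R163.Q3Mono

/-!
Row 163, three states, ferromagnetic case: generated positivity certificate `PosI`.
-/

set_option autoImplicit false
set_option linter.unusedSimpArgs false
set_option maxHeartbeats 4000000
set_option maxRecDepth 100000

namespace Crest.Agent.R163.Q3


noncomputable def PosI_L0 (Y : Fin 33 → ℝ) : ℝ := (-3200)*Y 0 + (-20848)*Y 1 + (-31536)*Y 2 + 31168*Y 3 + 70368*Y 4 + (-6976)*Y 5 + (-3200)*Y 6 + (-31272)*Y 7 + (-63072)*Y 8 + 77920*Y 9 + 211104*Y 10 + (-24416)*Y 11 + (-3200)*Y 12 + (-64728)*Y 13 + (-333168)*Y 14 + (-615104)*Y 15 + (-429792)*Y 16 + (-228672)*Y 17 + (-27152)*Y 18 + (-301632)*Y 19 + (-1000576)*Y 20 + (-1211424)*Y 21 + (-510640)*Y 22 + (-69360)*Y 23 + (-445120)*Y 24 + (-838080)*Y 25 + (-444080)*Y 26 + (-53200)*Y 27 + (-197184)*Y 28 + (-167688)*Y 29 + (-12528)*Y 30 + (-28648)*Y 31 + (-2816)*Y 32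

noncomputable def PosI_L1 (Y : Fin 33 → ℝ) : ℝ := 5600*Y 1 + 41200*Y 2 + 100400*Y 3 + 83520*Y 4 + 7360*Y 5 + 8400*Y 7 + 82400*Y 8 + 251000*Y 9 + 250560*Y 10 + 25760*Y 11 + (-8400)*Y 13 + (-44400)*Y 14 + (-65200)*Y 15 + (-28560)*Y 16 + (-29520)*Y 17 + (-5600)*Y 18 + (-85600)*Y 19 + (-348800)*Y 20 + (-474720)*Y 21 + (-138200)*Y 22 + (-26000)*Y 23 + (-197000)*Y 24 + (-408960)*Y 25 + (-160240)*Y 26 + (-32000)*Y 27 + (-129840)*Y 28 + (-89280)*Y 29 + (-11280)*Y 30 + (-22520)*Y 31 + (-1600)*Y 32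

noncomputable def PosI_L2 (Y : Fin 33 → ℝ) : ℝ := 5568*Y 0 + 58880*Y 1 + 237168*Y 2 + 437728*Y 3 + 338416*Y 4 + 59360*Y 5 + 5568*Y 6 + 88320*Y 7 + 474336*Y 8 + 1094320*Y 9 + 1015248*Y 10 + 207760*Y 11 + 5568*Y 12 + 78720*Y 13 + 448464*Y 14 + 1181632*Y 15 + 1265904*Y 16 + 278448*Y 17 + 24640*Y 18 + 211296*Y 19 + 678128*Y 20 + 839728*Y 21 + 176720*Y 22 + 31728*Y 23 + 194336*Y 24 + 347280*Y 25 + 97936*Y 26 + 20624*Y 27 + 96624*Y 28 + 74064*Y 29 + 11584*Y 30 + 30032*Y 31 + 3616*Y 32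

noncomputable def PosI_L3 (Y : Fin 33 → ℝ) : ℝ := 8800*Y 0 + 76016*Y 1 + 228080*Y 2 + 259992*Y 3 + 52280*Y 4 + (-47344)*Y 5 + 8800*Y 6 + 114024*Y 7 + 456160*Y 8 + 649980*Y 9 + 156840*Y 10 + (-165704)*Y 11 + 8800*Y 12 + 149976*Y 13 + 779760*Y 14 + 1554840*Y 15 + 973668*Y 16 + (-86424)*Y 17 + 55984*Y 18 + 551680*Y 19 + 1682280*Y 20 + 1685936*Y 21 + 198200*Y 22 + 107888*Y 23 + 645156*Y 24 + 1022700*Y 25 + 254416*Y 26 + 63864*Y 27 + 205872*Y 28 + 100572*Y 29 + 4760*Y 30 + 19460*Y 31 + 3520*Y 32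

noncomputable def PosI_L4 (Y : Fin 33 → ℝ) : ℝ := (-5576)*Y 0 + (-59384)*Y 1 + (-226256)*Y 2 + (-350352)*Y 3 + (-144144)*Y 4 + 69024*Y 5 + (-5576)*Y 6 + (-89076)*Y 7 + (-452512)*Y 8 + (-875880)*Y 9 + (-432432)*Y 10 + 241584*Y 11 + (-5576)*Y 12 + (-78204)*Y 13 + (-402768)*Y 14 + (-824832)*Y 15 + (-302292)*Y 16 + 536760*Y 17 + (-24256)*Y 18 + (-176512)*Y 19 + (-361368)*Y 20 + 116136*Y 21 + 737940*Y 22 + (-15488)*Y 23 + (-31536)*Y 24 + 188676*Y 25 + 493368*Y 26 + 15264*Y 27 + 58536*Y 28 + 122904*Y 29 + 4248*Y 30 + (-852)*Y 31 + (-2064)*Y 32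

noncomputable def PosI_L5 (Y : Fin 33 → ℝ) : ℝ := (-480)*Y 1 + (-960)*Y 2 + 4800*Y 3 + 12960*Y 4 + 8640*Y 5 + (-720)*Y 7 + (-1920)*Y 8 + 12000*Y 9 + 38880*Y 10 + 30240*Y 11 + 720*Y 13 + 11520*Y 14 + 65280*Y 15 + 141840*Y 16 + 103680*Y 17 + 480*Y 18 + 12480*Y 19 + 85920*Y 20 + 218880*Y 21 + 183600*Y 22 + 4800*Y 23 + 52800*Y 24 + 170640*Y 25 + 164160*Y 26 + 12480*Y 27 + 67680*Y 28 + 77760*Y 29 + 10080*Y 30 + 15120*Y 31

noncomputable def PosI_L6 (Y : Fin 33 → ℝ) : ℝ := (-1300)*Y 0 + (-10400)*Y 1 + (-31200)*Y 2 + (-45780)*Y 3 + (-36360)*Y 4 + (-12960)*Y 5 + (-1300)*Y 6 + (-15600)*Y 7 + (-62400)*Y 8 + (-114450)*Y 9 + (-109080)*Y 10 + (-45360)*Y 11 + (-1300)*Y 12 + (-23400)*Y 13 + (-132600)*Y 14 + (-326580)*Y 15 + (-393300)*Y 16 + (-202500)*Y 17 + (-9100)*Y 18 + (-101400)*Y 19 + (-375420)*Y 20 + (-604800)*Y 21 + (-392850)*Y 22 + (-23400)*Y 23 + (-166350)*Y 24 + (-379620)*Y 25 + (-316980)*Y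 26 + (-24420)*Y 27 + (-95400)*Y 28 + (-105300)*Y 29 + (-7380)*Y 30 + (-11070)*Y 31

lemma PosI_L0_eq (Y : Fin 33 → ℝ) : (-5576)*F0 Y + (-2800)*F1 Y + (-1600)*F2 Y + 5992*F3 Y + 1812*F4 Y + 240*F5 Y + (-1300)*F6 Y = PosI_L0 Y := by
  simp only [PosI_L0, F0, F1, F2, F3, F4, F5, F6]; ring

lemma PosI_L1_eq (Y : Fin 33 → ℝ) : (-2800)*F0 Y + (-2160)*F1 Y + 3100*F3 Y + (-900)*F4 Y + (-240)*F5 Y + 720*F6 Y = PosI_L1 Y := by
  simp only [PosI_L1, F0, F1, F2, F3, F4, F5, F6]; ring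

lemma PosI_L2_eq (Y : Fin 33 → ℝ) : (-1600)*F0 Y + 2784*F2 Y + 4400*F3 Y + (-2788)*F4 Y + (-650)*F6 Y = PosI_L2 Y := by
  simp only [PosI_L2, F0, F1, F2, F3, F4, F5, F6]; ring

lemma PosI_L3_eq (Y : Fin 33 → ℝ) : 5992*F0 Y + 3100*F1 Y + 4400*F2 Y + (-2974)*F3 Y + (-7012)*F4 Y + 240*F5 Y + 1045*F6 Y = PosI_L3 Y := by
  simp only [PosI_L3, F0, F1, F2, F3, F4, F5, F6]; ring

lemma PosI_L4_eq (Y : Fin 33 → ℝ) : 1812*F0 Y + (-900)*F1 Y + (-2788)*F2 Y + (-7012)*F3 Y + 6444*F4 Y + 720*F5 Y = PosI_L4 Y := by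
  simp only [PosI_L4, F0, F1, F2, F3, F4, F5, F6]; ring

lemma PosI_L5_eq (Y : Fin 33 → ℝ) : 240*F0 Y + (-240)*F1 Y + 240*F3 Y + 720*F4 Y + (-240)*F5 Y + (-180)*F6 Y = PosI_L5 Y := by
  simp only [PosI_L5, F0, F1, F2, F3, F4, F5, F6]; ring

lemma PosI_L6_eq (Y : Fin 33 → ℝ) : (-1300)*F0 Y + 720*F1 Y + (-650)*F2 Y + 1045*F3 Y + (-180)*F5 Y + (-215)*F6 Y = PosI_L6 Y := by
  simp only [PosI_L6, F0, F1, F2, F3, F4, F5, F6]; ring

lemma PosI_R0 (Y : Fin 33 → ℝ) (hY : ∀ i, 0 ≤ Y i) :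
    0 ≤ 2*PosI_L2 Y := by
  have key : 2*PosI_L2 Y = 11136*Y 0 + 117760*Y 1 + 474336*Y 2 + 875456*Y 3 + 676832*Y 4 + 118720*Y 5 + 11136*Y 6 + 176640*Y 7 + 948672*Y 8 + 2188640*Y 9 + 2030496*Y 10 + 415520*Y 11 + 11136*Y 12 + 157440*Y 13 + 896928*Y 14 + 2363264*Y 15 + 2531808*Y 16 + 556896*Y 17 + 49280*Y 18 + 422592*Y 19 + 1356256*Y 20 + 1679456*Y 21 + 353440*Y 22 + 63456*Y 23 + 388672*Y 24 + 694560*Y 25 + 195872*Y 26 + 41248*Y 27 + 193248*Y 28 + 148128*Y 29 + 23168*Y 30 + 60064*Y 31 + 7232*Y 32 := by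
    simp only [PosI_L2]; ring
  rw [key]
  have h0 := hY 0
  have h1 := hY 1
  have h2 := hY 2
  have h3 := hY 3
  have h4 := hY 4
  have h5 := hY 5
  have h6 := hY 6
  have h7 := hY 7
  have h8 := hY 8
  have h9 := hY 9
  have h10 := hY 10
  have h11 := hY 11
  have h12 := hY 12
  have h13 := hY 13
  have h14 := hY 14
  have h15 := hY 15
  have h16 := hY 16
  have h17 := hY 17
  have h18 := hY 18
  have h19 := hY 19
  have h20 := hY 20
  have h21 := hY 21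
  have h22 := hY 22
  have h23 := hY 23
  have h24 := hY 24
  have h25 := hY 25
  have h26 := hY 26
  have h27 := hY 27
  have h28 := hY 28
  have h29 := hY 29
  have h30 := hY 30
  have h31 := hY 31
  have h32 := hY 32
  positivity

lemma PosI_R1 (Y : Fin 33 → ℝ) (hY : ∀ i, 0 ≤ Y i) :
    0 ≤ (-2)*PosI_L0 Y + 20*PosI_L2 Y := by
  have key : (-2)*PosI_L0 Y + 20*PosI_L2 Y = 117760*Y 0 + 1219296*Y 1 + 4806432*Y 2 + 8692224*Y 3 + 6627584*Y 4 + 1201152*Y 5 + 117760*Y 6 + 1828944*Y 7 + 9612864*Y 8 + 21730560*Y 9 + 19882752*Y 10 + 4204032*Y 11 + 117760*Y 12 + 1703856*Y 13 + 9635616*Y 14 + 24862848*Y 15 + 26177664*Y 16 + 6026304*Y 17 + 547104*Y 18 + 4829184*Y 19 + 15563712*Y 20 + 19217408*Y 21 + 4555680*Y 22 + 773280*Y 23 + 4776960*Y 24 + 8621760*Y 25 + 2846880*Y 26 + 518880*Y 27 + 2326848*Y 28 + 1816656*Y 29 + 256736*Y 30 + 657936*Y 31 + 77952*Y 32 := by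
    simp only [PosI_L0, PosI_L2]; ring
  rw [key]
  have h0 := hY 0
  have h1 := hY 1
  have h2 := hY 2
  have h3 := hY 3
  have h4 := hY 4
  have h5 := hY 5
  have h6 := hY 6
  have h7 := hY 7
  have h8 := hY 8
  have h9 := hY 9
  have h10 := hY 10
  have h11 := hY 11
  have h12 := hY 12
  have h13 := hY 13
  have h14 := hY 14
  have h15 := hY 15
  have h16 := hY 16
  have h17 := hY 17
  have h18 := hY 18
  have h19 := hY 19
  have h20 := hY 20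
  have h21 := hY 21
  have h22 := hY 22
  have h23 := hY 23
  have h24 := hY 24
  have h25 := hY 25
  have h26 := hY 26
  have h27 := hY 27
  have h28 := hY 28
  have h29 := hY 29
  have h30 := hY 30
  have h31 := hY 31
  have h32 := hY 32
  positivity

lemma PosI_R2 (Y : Fin 33 → ℝ) (hY : ∀ i, 0 ≤ Y i) :
    0 ≤ (-16)*PosI_L0 Y + 80*PosI_L2 Y + 4*PosI_L4 Y := by
  have key : (-16)*PosI_L0 Y + 80*PosI_L2 Y + 4*PosI_L4 Y = 474336*Y 0 + 4806432*Y 1 + 18572992*Y 2 + 33118144*Y 3 + 25370816*Y 4 + 5136512*Y 5 + 474336*Y 6 + 7209648*Y 7 + 37145984*Y 8 + 82795360*Y 9 + 76112448*Y 10 + 17977792*Y 11 + 474336*Y 12 + 7020432*Y 13 + 39596736*Y 14 + 101072896*Y 15 + 106939824*Y 16 + 28081632*Y 17 + 2308608*Y 18 + 21023744*Y 19 + 68813984*Y 20 + 87025568*Y 21 + 25259600*Y 22 + 3586048*Y 23 + 22542656*Y 24 + 41946384*Y 25 + 16913632*Y 26 + 2562176*Y 27 + 11119008*Y 28 + 9099744*Y 29 + 1144160*Y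 30 + 2857520*Y 31 + 326080*Y 32 := by
    simp only [PosI_L0, PosI_L2, PosI_L4]; ring
  rw [key]
  have h0 := hY 0
  have h1 := hY 1
  have h2 := hY 2
  have h3 := hY 3
  have h4 := hY 4
  have h5 := hY 5
  have h6 := hY 6
  have h7 := hY 7
  have h8 := hY 8
  have h9 := hY 9
  have h10 := hY 10
  have h11 := hY 11
  have h12 := hY 12
  have h13 := hY 13
  have h14 := hY 14
  have h15 := hY 15
  have h16 := hY 16
  have h17 := hY 17
  have h18 := hY 18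
  have h19 := hY 19
  have h20 := hY 20
  have h21 := hY 21
  have h22 := hY 22
  have h23 := hY 23
  have h24 := hY 24
  have h25 := hY 25
  have h26 := hY 26
  have h27 := hY 27
  have h28 := hY 28
  have h29 := hY 29
  have h30 := hY 30
  have h31 := hY 31
  have h32 := hY 32
  positivity

lemma PosI_R3 (Y : Fin 33 → ℝ) (hY : ∀ i, 0 ≤ Y i) :
    0 ≤ (-48)*PosI_L0 Y + 160*PosI_L2 Y + (-4)*PosI_L3 Y + 24*PosI_L4 Y := by
  have key : (-48)*PosI_L0 Y + 160*PosI_L2 Y + (-4)*PosI_L3 Y + 24*PosI_L4 Y = 875456*Y 0 + 8692224*Y 1 + 33118144*Y 2 + 59092000*Y 3 + 47100320*Y 4 + 11678400*Y 5 + 875456*Y 6 + 13038336*Y 7 + 66236288*Y 8 + 147730000*Y 9 + 141300960*Y 10 + 40874400*Y 11 + 875456*Y 12 + 13225344*Y 13 + 74960832*Y 14 + 192570784*Y 15 + 212024976*Y 16 + 68755872*Y 17 + 4439616*Y 18 + 41842688*Y 19 + 141126176*Y 20 + 188548352*Y 21 + 69703680*Y 22 + 7602496*Y 23 + 49122032*Y 24 +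 96230064*Y 25 + 47808768*Y 26 + 5964320*Y 27 + 25506048*Y 28 + 22446672*Y 29 + 2537696*Y 30 + 6081936*Y 31 + 650112*Y 32 := by
    simp only [PosI_L0, PosI_L2, PosI_L3, PosI_L4]; ring
  rw [key]
  have h0 := hY 0
  have h1 := hY 1
  have h2 := hY 2
  have h3 := hY 3
  have h4 := hY 4
  have h5 := hY 5
  have h6 := hY 6
  have h7 := hY 7
  have h8 := hY 8
  have h9 := hY 9
  have h10 := hY 10
  have h11 := hY 11
  have h12 := hY 12
  have h13 := hY 13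
  have h14 := hY 14
  have h15 := hY 15
  have h16 := hY 16
  have h17 := hY 17
  have h18 := hY 18
  have h19 := hY 19
  have h20 := hY 20
  have h21 := hY 21
  have h22 := hY 22
  have h23 := hY 23
  have h24 := hY 24
  have h25 := hY 25
  have h26 := hY 26
  have h27 := hY 27
  have h28 := hY 28
  have h29 := hY 29
  have h30 := hY 30
  have h31 := hY 31
  have h32 := hY 32
  positivity

lemma PosI_R4 (Y : Fin 33 → ℝ) (hY : ∀ i, 0 ≤ Y i) :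
    0 ≤ (-64)*PosI_L0 Y + 4*PosI_L1 Y + 160*PosI_L2 Y + (-16)*PosI_L3 Y + 48*PosI_L4 Y + 8*PosI_L6 Y := by
  have key : (-64)*PosI_L0 Y + 4*PosI_L1 Y + 160*PosI_L2 Y + (-16)*PosI_L3 Y + 48*PosI_L4 Y + 8*PosI_L6 Y = 676832*Y 0 + 6627584*Y 1 + 25370816*Y 2 + 47100320*Y 3 + 41930816*Y 4 + 13940480*Y 5 + 676832*Y 6 + 9941376*Y 7 + 50741632*Y 8 + 117750800*Y 9 + 125792448*Y 10 + 48791680*Y 11 + 676832*Y 12 + 10363584*Y 13 + 60029568*Y 14 + 161084960*Y 15 + 196701984*Y 16 + 84595872*Y 17 + 3524896*Y 18 + 34658752*Y 19 + 123876640*Y 20 + 183749888*Y 21 + 89510480*Y 22 + 6754688*Y 23 + 45626416*Y 24 + 97222368*Y 25 + 60525088*Y 26 + 6092128*Y 27 + 26312832*Y 28 + 25672992*Y 29 + 2678816*Y 30 + 6107696*Y 31 + 596992*Y 32 := by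
    simp only [PosI_L0, PosI_L1, PosI_L2, PosI_L3, PosI_L4, PosI_L6]; ring
  rw [key]
  have h0 := hY 0
  have h1 := hY 1
  have h2 := hY 2
  have h3 := hY 3
  have h4 := hY 4
  have h5 := hY 5
  have h6 := hY 6
  have h7 := hY 7
  have h8 := hY 8
  have h9 := hY 9
  have h10 := hY 10
  have h11 := hY 11
  have h12 := hY 12
  have h13 := hY 13
  have h14 := hY 14
  have h15 := hY 15
  have h16 := hY 16
  have h17 := hY 17
  have h18 := hY 18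
  have h19 := hY 19
  have h20 := hY 20
  have h21 := hY 21
  have h22 := hY 22
  have h23 := hY 23
  have h24 := hY 24
  have h25 := hY 25
  have h26 := hY 26
  have h27 := hY 27
  have h28 := hY 28
  have h29 := hY 29
  have h30 := hY 30
  have h31 := hY 31
  have h32 := hY 32
  positivity

lemma PosI_R5 (Y : Fin 33 → ℝ) (hY : ∀ i, 0 ≤ Y i) :
    0 ≤ (-32)*PosI_L0 Y + 8*PosI_L1 Y + 64*PosI_L2 Y + (-16)*PosI_L3 Y + 32*PosI_L4 Y + (-8)*PosI_L5 Y + 16*PosI_L6 Y := by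
  have key : (-32)*PosI_L0 Y + 8*PosI_L1 Y + 64*PosI_L2 Y + (-16)*PosI_L3 Y + 32*PosI_L4 Y + (-8)*PosI_L5 Y + 16*PosI_L6 Y = 118720*Y 0 + 1201152*Y 1 + 5136512*Y 2 + 11678400*Y 3 + 13940480*Y 4 + 6770944*Y 5 + 118720*Y 6 + 1801728*Y 7 + 10273024*Y 8 + 29196000*Y 9 + 41821440*Y 10 + 23698304*Y 11 + 118720*Y 12 + 1759872*Y 13 + 11429376*Y 14 + 37766592*Y 15 + 61863168*Y 16 + 39391680*Y 17 + 579648*Y 18 + 6292864*Y 19 + 27453888*Y 20 + 54023936*Y 21 + 39233440*Y 22 + 1407488*Y 23 + 10689696*Y 24 + 28008192*Y 25 + 24528704*Y 26 + 1742400*Y 27 + 7966464*Y 28 + 9408768*Y 29 + 913088*Y 30 + 2021920*Y 31 + 186368*Y 32 := by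
    simp only [PosI_L0, PosI_L1, PosI_L2, PosI_L3, PosI_L4, PosI_L5, PosI_L6]; ring
  rw [key]
  have h0 := hY 0
  have h1 := hY 1
  have h2 := hY 2
  have h3 := hY 3
  have h4 := hY 4
  have h5 := hY 5
  have h6 := hY 6
  have h7 := hY 7
  have h8 := hY 8
  have h9 := hY 9
  have h10 := hY 10
  have h11 := hY 11
  have h12 := hY 12
  have h13 := hY 13
  have h14 := hY 14
  have h15 := hY 15
  have h16 := hY 16
  have h17 := hY 17
  have h18 := hY 18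
  have h19 := hY 19
  have h20 := hY 20
  have h21 := hY 21
  have h22 := hY 22
  have h23 := hY 23
  have h24 := hY 24
  have h25 := hY 25
  have h26 := hY 26
  have h27 := hY 27
  have h28 := hY 28
  have h29 := hY 29
  have h30 := hY 30
  have h31 := hY 31
  have h32 := hY 32
  positivity

lemma PosI_R6 (Y : Fin 33 → ℝ) (hY : ∀ i, 0 ≤ Y i) :
    0 ≤ 2*PosI_L2 Y := by
  have key : 2*PosI_L2 Y = 11136*Y 0 + 117760*Y 1 + 474336*Y 2 + 875456*Y 3 + 676832*Y 4 + 118720*Y 5 + 11136*Y 6 + 176640*Y 7 + 948672*Y 8 + 2188640*Y 9 + 2030496*Y 10 + 415520*Y 11 + 11136*Y 12 + 157440*Y 13 + 896928*Y 14 + 2363264*Y 15 + 2531808*Y 16 + 556896*Y 17 + 49280*Y 18 + 422592*Y 19 + 1356256*Y 20 + 1679456*Y 21 + 353440*Y 22 + 63456*Y 23 + 388672*Y 24 + 694560*Y 25 + 195872*Y 26 + 41248*Y 27 + 193248*Y 28 + 148128*Y 29 + 23168*Y 30 + 60064*Y 31 + 7232*Y 32 := by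
    simp only [PosI_L2]; ring
  rw [key]
  have h0 := hY 0
  have h1 := hY 1
  have h2 := hY 2
  have h3 := hY 3
  have h4 := hY 4
  have h5 := hY 5
  have h6 := hY 6
  have h7 := hY 7
  have h8 := hY 8
  have h9 := hY 9
  have h10 := hY 10
  have h11 := hY 11
  have h12 := hY 12
  have h13 := hY 13
  have h14 := hY 14
  have h15 := hY 15
  have h16 := hY 16
  have h17 := hY 17
  have h18 := hY 18
  have h19 := hY 19
  have h20 := hY 20
  have h21 := hY 21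
  have h22 := hY 22
  have h23 := hY 23
  have h24 := hY 24
  have h25 := hY 25
  have h26 := hY 26
  have h27 := hY 27
  have h28 := hY 28
  have h29 := hY 29
  have h30 := hY 30
  have h31 := hY 31
  have h32 := hY 32
  positivity

lemma PosI_R7 (Y : Fin 33 → ℝ) (hY : ∀ i, 0 ≤ Y i) :
    0 ≤ (-3)*PosI_L0 Y + 30*PosI_L2 Y := by
  have key : (-3)*PosI_L0 Y + 30*PosI_L2 Y = 176640*Y 0 + 1828944*Y 1 + 7209648*Y 2 + 13038336*Y 3 + 9941376*Y 4 + 1801728*Y 5 + 176640*Y 6 + 2743416*Y 7 + 14419296*Y 8 + 32595840*Y 9 + 29824128*Y 10 + 6306048*Y 11 + 176640*Y 12 + 2555784*Y 13 + 14453424*Y 14 + 37294272*Y 15 + 39266496*Y 16 + 9039456*Y 17 + 820656*Y 18 + 7243776*Y 19 + 23345568*Y 20 + 28826112*Y 21 + 6833520*Y 22 + 1159920*Y 23 + 7165440*Y 24 + 12932640*Y 25 + 4270320*Y 26 + 778320*Y 27 + 3490272*Y 28 + 2724984*Y 29 + 385104*Y 30 + 986904*Y 31 + 116928*Y 32 := by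
    simp only [PosI_L0, PosI_L2]; ring
  rw [key]
  have h0 := hY 0
  have h1 := hY 1
  have h2 := hY 2
  have h3 := hY 3
  have h4 := hY 4
  have h5 := hY 5
  have h6 := hY 6
  have h7 := hY 7
  have h8 := hY 8
  have h9 := hY 9
  have h10 := hY 10
  have h11 := hY 11
  have h12 := hY 12
  have h13 := hY 13
  have h14 := hY 14
  have h15 := hY 15
  have h16 := hY 16
  have h17 := hY 17
  have h18 := hY 18
  have h19 := hY 19
  have h20 := hY 20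
  have h21 := hY 21
  have h22 := hY 22
  have h23 := hY 23
  have h24 := hY 24
  have h25 := hY 25
  have h26 := hY 26
  have h27 := hY 27
  have h28 := hY 28
  have h29 := hY 29
  have h30 := hY 30
  have h31 := hY 31
  have h32 := hY 32
  positivity

lemma PosI_R8 (Y : Fin 33 → ℝ) (hY : ∀ i, 0 ≤ Y i) :
    0 ≤ (-32)*PosI_L0 Y + 160*PosI_L2 Y + 8*PosI_L4 Y := by
  have key : (-32)*PosI_L0 Y + 160*PosI_L2 Y + 8*PosI_L4 Y = 948672*Y 0 + 9612864*Y 1 + 37145984*Y 2 + 66236288*Y 3 + 50741632*Y 4 + 10273024*Y 5 + 948672*Y 6 + 14419296*Y 7 + 74291968*Y 8 + 165590720*Y 9 + 152224896*Y 10 + 35955584*Y 11 + 948672*Y 12 + 14040864*Y 13 + 79193472*Y 14 + 202145792*Y 15 + 213879648*Y 16 + 56163264*Y 17 + 4617216*Y 18 + 42047488*Y 19 + 137627968*Y 20 + 174051136*Y 21 + 50519200*Y 22 + 7172096*Y 23 + 45085312*Y 24 + 83892768*Y 25 + 33827264*Y 26 + 5124352*Y 27 + 22238016*Y 28 + 18199488*Y 29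 + 2288320*Y 30 + 5715040*Y 31 + 652160*Y 32 := by
    simp only [PosI_L0, PosI_L2, PosI_L4]; ring
  rw [key]
  have h0 := hY 0
  have h1 := hY 1
  have h2 := hY 2
  have h3 := hY 3
  have h4 := hY 4
  have h5 := hY 5
  have h6 := hY 6
  have h7 := hY 7
  have h8 := hY 8
  have h9 := hY 9
  have h10 := hY 10
  have h11 := hY 11
  have h12 := hY 12
  have h13 := hY 13
  have h14 := hY 14
  have h15 := hY 15
  have h16 := hY 16
  have h17 := hY 17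
  have h18 := hY 18
  have h19 := hY 19
  have h20 := hY 20
  have h21 := hY 21
  have h22 := hY 22
  have h23 := hY 23
  have h24 := hY 24
  have h25 := hY 25
  have h26 := hY 26
  have h27 := hY 27
  have h28 := hY 28
  have h29 := hY 29
  have h30 := hY 30
  have h31 := hY 31
  have h32 := hY 32
  positivity

lemma PosI_R9 (Y : Fin 33 → ℝ) (hY : ∀ i, 0 ≤ Y i) :
    0 ≤ (-120)*PosI_L0 Y + 400*PosI_L2 Y + (-10)*PosI_L3 Y + 60*PosI_L4 Y := by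
  have key : (-120)*PosI_L0 Y + 400*PosI_L2 Y + (-10)*PosI_L3 Y + 60*PosI_L4 Y = 2188640*Y 0 + 21730560*Y 1 + 82795360*Y 2 + 147730000*Y 3 + 117750800*Y 4 + 29196000*Y 5 + 2188640*Y 6 + 32595840*Y 7 + 165590720*Y 8 + 369325000*Y 9 + 353252400*Y 10 + 102186000*Y 11 + 2188640*Y 12 + 33063360*Y 13 + 187402080*Y 14 + 481426960*Y 15 + 530062440*Y 16 + 171889680*Y 17 + 11099040*Y 18 + 104606720*Y 19 + 352815440*Y 20 + 471370880*Y 21 + 174259200*Y 22 + 19006240*Y 23 + 122805080*Y 24 + 240575160*Y 25 + 119521920*Y 26 + 14910800*Y 27 + 63765120*Y 28 + 56116680*Y 29 + 6344240*Y 30 + 15204840*Y 31 + 1625280*Y 32 := by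
    simp only [PosI_L0, PosI_L2, PosI_L3, PosI_L4]; ring
  rw [key]
  have h0 := hY 0
  have h1 := hY 1
  have h2 := hY 2
  have h3 := hY 3
  have h4 := hY 4
  have h5 := hY 5
  have h6 := hY 6
  have h7 := hY 7
  have h8 := hY 8
  have h9 := hY 9
  have h10 := hY 10
  have h11 := hY 11
  have h12 := hY 12
  have h13 := hY 13
  have h14 := hY 14
  have h15 := hY 15
  have h16 := hY 16
  have h17 := hY 17
  have h18 := hY 18
  have h19 := hY 19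
  have h20 := hY 20
  have h21 := hY 21
  have h22 := hY 22
  have h23 := hY 23
  have h24 := hY 24
  have h25 := hY 25
  have h26 := hY 26
  have h27 := hY 27
  have h28 := hY 28
  have h29 := hY 29
  have h30 := hY 30
  have h31 := hY 31
  have h32 := hY 32
  positivity

lemma PosI_R10 (Y : Fin 33 → ℝ) (hY : ∀ i, 0 ≤ Y i) :
    0 ≤ (-192)*PosI_L0 Y + 12*PosI_L1 Y + 480*PosI_L2 Y + (-48)*PosI_L3 Y + 144*PosI_L4 Y + 24*PosI_L6 Y := by
  have key : (-192)*PosI_L0 Y + 12*PosI_L1 Y + 480*PosI_L2 Y + (-48)*PosI_L3 Y + 144*PosI_L4 Y + 24*PosI_L6 Y = 2030496*Y 0 + 19882752*Y 1 + 76112448*Y 2 + 141300960*Y 3 + 125792448*Y 4 + 41821440*Y 5 + 2030496*Y 6 + 29824128*Y 7 + 152224896*Y 8 + 353252400*Y 9 + 377377344*Y 10 + 146375040*Y 11 + 2030496*Y 12 + 31090752*Y 13 + 180088704*Y 14 + 483254880*Y 15 + 590105952*Y 16 + 253787616*Y 17 + 10574688*Y 18 + 103976256*Y 19 + 371629920*Y 20 + 551249664*Y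 21 + 268531440*Y 22 + 20264064*Y 23 + 136879248*Y 24 + 291667104*Y 25 + 181575264*Y 26 + 18276384*Y 27 + 78938496*Y 28 + 77018976*Y 29 + 8036448*Y 30 + 18323088*Y 31 + 1790976*Y 32 := by
    simp only [PosI_L0, PosI_L1, PosI_L2, PosI_L3, PosI_L4, PosI_L6]; ring
  rw [key]
  have h0 := hY 0
  have h1 := hY 1
  have h2 := hY 2
  have h3 := hY 3
  have h4 := hY 4
  have h5 := hY 5
  have h6 := hY 6
  have h7 := hY 7
  have h8 := hY 8
  have h9 := hY 9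
  have h10 := hY 10
  have h11 := hY 11
  have h12 := hY 12
  have h13 := hY 13
  have h14 := hY 14
  have h15 := hY 15
  have h16 := hY 16
  have h17 := hY 17
  have h18 := hY 18
  have h19 := hY 19
  have h20 := hY 20
  have h21 := hY 21
  have h22 := hY 22
  have h23 := hY 23
  have h24 := hY 24
  have h25 := hY 25
  have h26 := hY 26
  have h27 := hY 27
  have h28 := hY 28
  have h29 := hY 29
  have h30 := hY 30
  have h31 := hY 31
  have h32 := hY 32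
  positivity

lemma PosI_R11 (Y : Fin 33 → ℝ) (hY : ∀ i, 0 ≤ Y i) :
    0 ≤ (-112)*PosI_L0 Y + 28*PosI_L1 Y + 224*PosI_L2 Y + (-56)*PosI_L3 Y + 112*PosI_L4 Y + (-28)*PosI_L5 Y + 56*PosI_L6 Y := by
  have key : (-112)*PosI_L0 Y + 28*PosI_L1 Y + 224*PosI_L2 Y + (-56)*PosI_L3 Y + 112*PosI_L4 Y + (-28)*PosI_L5 Y + 56*PosI_L6 Y = 415520*Y 0 + 4204032*Y 1 + 17977792*Y 2 + 40874400*Y 3 + 48791680*Y 4 + 23698304*Y 5 + 415520*Y 6 + 6306048*Y 7 + 35955584*Y 8 + 102186000*Y 9 + 146375040*Y 10 + 82944064*Y 11 + 415520*Y 12 + 6159552*Y 13 + 40002816*Y 14 + 132183072*Y 15 + 216521088*Y 16 + 137870880*Y 17 + 2028768*Y 18 + 22025024*Y 19 + 96088608*Y 20 + 189083776*Y 21 + 137317040*Y 22 + 4926208*Y 23 + 37413936*Y 24 + 98028672*Y 25 + 85850464*Y 26 + 6098400*Y 27 + 27882624*Y 28 + 32930688*Y 29 + 3195808*Y 30 + 7076720*Y 31 + 652288*Y 32 := by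
    simp only [PosI_L0, PosI_L1, PosI_L2, PosI_L3, PosI_L4, PosI_L5, PosI_L6]; ring
  rw [key]
  have h0 := hY 0
  have h1 := hY 1
  have h2 := hY 2
  have h3 := hY 3
  have h4 := hY 4
  have h5 := hY 5
  have h6 := hY 6
  have h7 := hY 7
  have h8 := hY 8
  have h9 := hY 9
  have h10 := hY 10
  have h11 := hY 11
  have h12 := hY 12
  have h13 := hY 13
  have h14 := hY 14
  have h15 := hY 15
  have h16 := hY 16
  have h17 := hY 17
  have h18 := hY 18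
  have h19 := hY 19
  have h20 := hY 20
  have h21 := hY 21
  have h22 := hY 22
  have h23 := hY 23
  have h24 := hY 24
  have h25 := hY 25
  have h26 := hY 26
  have h27 := hY 27
  have h28 := hY 28
  have h29 := hY 29
  have h30 := hY 30
  have h31 := hY 31
  have h32 := hY 32
  positivity

lemma PosI_R12 (Y : Fin 33 → ℝ) (hY : ∀ i, 0 ≤ Y i) :
    0 ≤ 2*PosI_L2 Y := by
  have key : 2*PosI_L2 Y = 11136*Y 0 + 117760*Y 1 + 474336*Y 2 + 875456*Y 3 + 676832*Y 4 + 118720*Y 5 + 11136*Y 6 + 176640*Y 7 + 948672*Y 8 + 2188640*Y 9 + 2030496*Y 10 + 415520*Y 11 + 11136*Y 12 + 157440*Y 13 + 896928*Y 14 + 2363264*Y 15 + 2531808*Y 16 + 556896*Y 17 + 49280*Y 18 + 422592*Y 19 + 1356256*Y 20 + 1679456*Y 21 + 353440*Y 22 + 63456*Y 23 + 388672*Y 24 + 694560*Y 25 + 195872*Y 26 + 41248*Y 27 + 193248*Y 28 + 148128*Y 29 + 23168*Y 30 + 60064*Y 31 + 7232*Y 32 := by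
    simp only [PosI_L2]; ring
  rw [key]
  have h0 := hY 0
  have h1 := hY 1
  have h2 := hY 2
  have h3 := hY 3
  have h4 := hY 4
  have h5 := hY 5
  have h6 := hY 6
  have h7 := hY 7
  have h8 := hY 8
  have h9 := hY 9
  have h10 := hY 10
  have h11 := hY 11
  have h12 := hY 12
  have h13 := hY 13
  have h14 := hY 14
  have h15 := hY 15
  have h16 := hY 16
  have h17 := hY 17
  have h18 := hY 18
  have h19 := hY 19
  have h20 := hY 20
  have h21 := hY 21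
  have h22 := hY 22
  have h23 := hY 23
  have h24 := hY 24
  have h25 := hY 25
  have h26 := hY 26
  have h27 := hY 27
  have h28 := hY 28
  have h29 := hY 29
  have h30 := hY 30
  have h31 := hY 31
  have h32 := hY 32
  positivity

lemma PosI_R13 (Y : Fin 33 → ℝ) (hY : ∀ i, 0 ≤ Y i) :
    0 ≤ 3*PosI_L0 Y + 30*PosI_L2 Y := by
  have key : 3*PosI_L0 Y + 30*PosI_L2 Y = 157440*Y 0 + 1703856*Y 1 + 7020432*Y 2 + 13225344*Y 3 + 10363584*Y 4 + 1759872*Y 5 + 157440*Y 6 + 2555784*Y 7 + 14040864*Y 8 + 33063360*Y 9 + 31090752*Y 10 + 6159552*Y 11 + 157440*Y 12 + 2167416*Y 13 + 12454416*Y 14 + 33603648*Y 15 + 36687744*Y 16 + 7667424*Y 17 + 657744*Y 18 + 5433984*Y 19 + 17342112*Y 20 + 21557568*Y 21 + 3769680*Y 22 + 743760*Y 23 + 4494720*Y 24 + 7904160*Y 25 + 1605840*Y 26 + 459120*Y 27 + 2307168*Y 28 + 1718856*Y 29 + 309936*Y 30 + 815016*Y 31 + 100032*Y 32 := by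
    simp only [PosI_L0, PosI_L2]; ring
  rw [key]
  have h0 := hY 0
  have h1 := hY 1
  have h2 := hY 2
  have h3 := hY 3
  have h4 := hY 4
  have h5 := hY 5
  have h6 := hY 6
  have h7 := hY 7
  have h8 := hY 8
  have h9 := hY 9
  have h10 := hY 10
  have h11 := hY 11
  have h12 := hY 12
  have h13 := hY 13
  have h14 := hY 14
  have h15 := hY 15
  have h16 := hY 16
  have h17 := hY 17
  have h18 := hY 18
  have h19 := hY 19
  have h20 := hY 20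
  have h21 := hY 21
  have h22 := hY 22
  have h23 := hY 23
  have h24 := hY 24
  have h25 := hY 25
  have h26 := hY 26
  have h27 := hY 27
  have h28 := hY 28
  have h29 := hY 29
  have h30 := hY 30
  have h31 := hY 31
  have h32 := hY 32
  positivity

lemma PosI_R14 (Y : Fin 33 → ℝ) (hY : ∀ i, 0 ≤ Y i) :
    0 ≤ 12*PosI_L0 Y + 180*PosI_L2 Y + 12*PosI_L4 Y := by
  have key : 12*PosI_L0 Y + 180*PosI_L2 Y + 12*PosI_L4 Y = 896928*Y 0 + 9635616*Y 1 + 39596736*Y 2 + 74960832*Y 3 + 60029568*Y 4 + 11429376*Y 5 + 896928*Y 6 + 14453424*Y 7 + 79193472*Y 8 + 187402080*Y 9 + 180088704*Y 10 + 40002816*Y 11 + 896928*Y 12 + 12454416*Y 13 + 71892288*Y 14 + 195414528*Y 15 + 219077712*Y 16 + 53817696*Y 17 + 3818304*Y 18 + 32295552*Y 19 + 105719712*Y 20 + 138007584*Y 21 + 34537200*Y 22 + 4692864*Y 23 + 29260608*Y 24 + 54717552*Y 25 + 18219936*Y 26 + 3257088*Y 27 + 15728544*Y 28 + 12794112*Y 29 +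 1985760*Y 30 + 5051760*Y 31 + 592320*Y 32 := by
    simp only [PosI_L0, PosI_L2, PosI_L4]; ring
  rw [key]
  have h0 := hY 0
  have h1 := hY 1
  have h2 := hY 2
  have h3 := hY 3
  have h4 := hY 4
  have h5 := hY 5
  have h6 := hY 6
  have h7 := hY 7
  have h8 := hY 8
  have h9 := hY 9
  have h10 := hY 10
  have h11 := hY 11
  have h12 := hY 12
  have h13 := hY 13
  have h14 := hY 14
  have h15 := hY 15
  have h16 := hY 16
  have h17 := hY 17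
  have h18 := hY 18
  have h19 := hY 19
  have h20 := hY 20
  have h21 := hY 21
  have h22 := hY 22
  have h23 := hY 23
  have h24 := hY 24
  have h25 := hY 25
  have h26 := hY 26
  have h27 := hY 27
  have h28 := hY 28
  have h29 := hY 29
  have h30 := hY 30
  have h31 := hY 31
  have h32 := hY 32
  positivity

lemma PosI_R15 (Y : Fin 33 → ℝ) (hY : ∀ i, 0 ≤ Y i) :
    0 ≤ (-12)*PosI_L0 Y + 520*PosI_L2 Y + (-4)*PosI_L3 Y + 96*PosI_L4 Y := by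
  have key : (-12)*PosI_L0 Y + 520*PosI_L2 Y + (-4)*PosI_L3 Y + 96*PosI_L4 Y = 2363264*Y 0 + 24862848*Y 1 + 101072896*Y 2 + 192570784*Y 3 + 161084960*Y 4 + 37766592*Y 5 + 2363264*Y 6 + 37294272*Y 7 + 202145792*Y 8 + 481426960*Y 9 + 483254880*Y 10 + 132183072*Y 11 + 2363264*Y 12 + 33603648*Y 13 + 195414528*Y 14 + 536426656*Y 15 + 630512880*Y 16 + 199411680*Y 17 + 10586112*Y 18 + 94341632*Y 19 + 323213024*Y 20 + 455600960*Y 21 + 168071520*Y 22 + 15412480*Y 23 + 100788080*Y 24 + 204664656*Y 25 + 102601344*Y 26 + 12572768*Y 27 + 57406656*Y 28 + 51922032*Y 29 + 6562784*Y 30 + 15800784*Y 31 + 1701888*Y 32 := by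
    simp only [PosI_L0, PosI_L2, PosI_L3, PosI_L4]; ring
  rw [key]
  have h0 := hY 0
  have h1 := hY 1
  have h2 := hY 2
  have h3 := hY 3
  have h4 := hY 4
  have h5 := hY 5
  have h6 := hY 6
  have h7 := hY 7
  have h8 := hY 8
  have h9 := hY 9
  have h10 := hY 10
  have h11 := hY 11
  have h12 := hY 12
  have h13 := hY 13
  have h14 := hY 14
  have h15 := hY 15
  have h16 := hY 16
  have h17 := hY 17
  have h18 := hY 18
  have h19 := hY 19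
  have h20 := hY 20
  have h21 := hY 21
  have h22 := hY 22
  have h23 := hY 23
  have h24 := hY 24
  have h25 := hY 25
  have h26 := hY 26
  have h27 := hY 27
  have h28 := hY 28
  have h29 := hY 29
  have h30 := hY 30
  have h31 := hY 31
  have h32 := hY 32
  positivity

lemma PosI_R16 (Y : Fin 33 → ℝ) (hY : ∀ i, 0 ≤ Y i) :
    0 ≤ (-96)*PosI_L0 Y + (-3)*PosI_L1 Y + 720*PosI_L2 Y + (-36)*PosI_L3 Y + 252*PosI_L4 Y + 48*PosI_L6 Y := by
  have key : (-96)*PosI_L0 Y + (-3)*PosI_L1 Y + 720*PosI_L2 Y + (-36)*PosI_L3 Y + 252*PosI_L4 Y + 48*PosI_L6 Y = 2531808*Y 0 + 26177664*Y 1 + 106939824*Y 2 + 212024976*Y 3 + 196701984*Y 4 + 61863168*Y 5 + 2531808*Y 6 + 39266496*Y 7 + 213879648*Y 8 + 530062440*Y 9 + 590105952*Y 10 + 216521088*Y 11 + 2531808*Y 12 + 36687744*Y 13 + 219077712*Y 14 + 630512880*Y 15 + 822688560*Y 16 + 351178416*Y 17 + 11799456*Y 18 + 112137888*Y 19 + 415706880*Y 20 + 661867200*Y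 21 + 336643320*Y 22 + 20670576*Y 23 + 144086952*Y 24 + 324231552*Y 25 + 213581040*Y 26 + 20427744*Y 27 + 91648944*Y 28 + 91988784*Y 29 + 10121904*Y 30 + 22994184*Y 31 + 2231808*Y 32 := by
    simp only [PosI_L0, PosI_L1, PosI_L2, PosI_L3, PosI_L4, PosI_L6]; ring
  rw [key]
  have h0 := hY 0
  have h1 := hY 1
  have h2 := hY 2
  have h3 := hY 3
  have h4 := hY 4
  have h5 := hY 5
  have h6 := hY 6
  have h7 := hY 7
  have h8 := hY 8
  have h9 := hY 9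
  have h10 := hY 10
  have h11 := hY 11
  have h12 := hY 12
  have h13 := hY 13
  have h14 := hY 14
  have h15 := hY 15
  have h16 := hY 16
  have h17 := hY 17
  have h18 := hY 18
  have h19 := hY 19
  have h20 := hY 20
  have h21 := hY 21
  have h22 := hY 22
  have h23 := hY 23
  have h24 := hY 24
  have h25 := hY 25
  have h26 := hY 26
  have h27 := hY 27
  have h28 := hY 28
  have h29 := hY 29
  have h30 := hY 30
  have h31 := hY 31
  have h32 := hY 32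
  positivity

lemma PosI_R17 (Y : Fin 33 → ℝ) (hY : ∀ i, 0 ≤ Y i) :
    0 ≤ (-96)*PosI_L0 Y + 6*PosI_L1 Y + 384*PosI_L2 Y + (-60)*PosI_L3 Y + 216*PosI_L4 Y + (-36)*PosI_L5 Y + 120*PosI_L6 Y := by
  have key : (-96)*PosI_L0 Y + 6*PosI_L1 Y + 384*PosI_L2 Y + (-60)*PosI_L3 Y + 216*PosI_L4 Y + (-36)*PosI_L5 Y + 120*PosI_L6 Y = 556896*Y 0 + 6026304*Y 1 + 28081632*Y 2 + 68755872*Y 3 + 84595872*Y 4 + 39391680*Y 5 + 556896*Y 6 + 9039456*Y 7 + 56163264*Y 8 + 171889680*Y 9 + 253787616*Y 10 + 137870880*Y 11 + 556896*Y 12 + 7667424*Y 13 + 53817696*Y 14 + 199411680*Y 15 + 351178416*Y 16 + 221792544*Y 17 + 2327136*Y 18 + 25736064*Y 19 + 127227840*Y 20 + 279377472*Y 21 + 209804160*Y 22 + 5886624*Y 23 + 48790608*Y 24 + 139052016*Y 25 + 126632832*Y 26 + 8920320*Y 27 + 41661216*Y 28 + 49080528*Y 29 + 4966752*Y 30 + 10923024*Y 31 + 992256*Y 32 := by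
    simp only [PosI_L0, PosI_L1, PosI_L2, PosI_L3, PosI_L4, PosI_L5, PosI_L6]; ring
  rw [key]
  have h0 := hY 0
  have h1 := hY 1
  have h2 := hY 2
  have h3 := hY 3
  have h4 := hY 4
  have h5 := hY 5
  have h6 := hY 6
  have h7 := hY 7
  have h8 := hY 8
  have h9 := hY 9
  have h10 := hY 10
  have h11 := hY 11
  have h12 := hY 12
  have h13 := hY 13
  have h14 := hY 14
  have h15 := hY 15
  have h16 := hY 16
  have h17 := hY 17
  have h18 := hY 18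
  have h19 := hY 19
  have h20 := hY 20
  have h21 := hY 21
  have h22 := hY 22
  have h23 := hY 23
  have h24 := hY 24
  have h25 := hY 25
  have h26 := hY 26
  have h27 := hY 27
  have h28 := hY 28
  have h29 := hY 29
  have h30 := hY 30
  have h31 := hY 31
  have h32 := hY 32
  positivity

lemma PosI_R18 (Y : Fin 33 → ℝ) (hY : ∀ i, 0 ≤ Y i) :
    0 ≤ 2*PosI_L0 Y + 10*PosI_L2 Y := by
  have key : 2*PosI_L0 Y + 10*PosI_L2 Y = 49280*Y 0 + 547104*Y 1 + 2308608*Y 2 + 4439616*Y 3 + 3524896*Y 4 + 579648*Y 5 + 49280*Y 6 + 820656*Y 7 + 4617216*Y 8 + 11099040*Y 9 + 10574688*Y 10 + 2028768*Y 11 + 49280*Y 12 + 657744*Y 13 + 3818304*Y 14 + 10586112*Y 15 + 11799456*Y 16 + 2327136*Y 17 + 192096*Y 18 + 1509696*Y 19 + 4780128*Y 20 + 5974432*Y 21 + 745920*Y 22 + 178560*Y 23 + 1053120*Y 24 + 1796640*Y 25 + 91200*Y 26 + 99840*Y 27 + 571872*Y 28 + 405264*Y 29 + 90784*Y 30 + 243024*Y 31 + 30528*Y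 32 := by
    simp only [PosI_L0, PosI_L2]; ring
  rw [key]
  have h0 := hY 0
  have h1 := hY 1
  have h2 := hY 2
  have h3 := hY 3
  have h4 := hY 4
  have h5 := hY 5
  have h6 := hY 6
  have h7 := hY 7
  have h8 := hY 8
  have h9 := hY 9
  have h10 := hY 10
  have h11 := hY 11
  have h12 := hY 12
  have h13 := hY 13
  have h14 := hY 14
  have h15 := hY 15
  have h16 := hY 16
  have h17 := hY 17
  have h18 := hY 18
  have h19 := hY 19
  have h20 := hY 20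
  have h21 := hY 21
  have h22 := hY 22
  have h23 := hY 23
  have h24 := hY 24
  have h25 := hY 25
  have h26 := hY 26
  have h27 := hY 27
  have h28 := hY 28
  have h29 := hY 29
  have h30 := hY 30
  have h31 := hY 31
  have h32 := hY 32
  positivity

lemma PosI_R19 (Y : Fin 33 → ℝ) (hY : ∀ i, 0 ≤ Y i) :
    0 ≤ 28*PosI_L0 Y + 100*PosI_L2 Y + 8*PosI_L4 Y := by
  have key : 28*PosI_L0 Y + 100*PosI_L2 Y + 8*PosI_L4 Y = 422592*Y 0 + 4829184*Y 1 + 21023744*Y 2 + 41842688*Y 3 + 34658752*Y 4 + 6292864*Y 5 + 422592*Y 6 + 7243776*Y 7 + 42047488*Y 8 + 104606720*Y 9 + 103976256*Y 10 + 22025024*Y 11 + 422592*Y 12 + 5433984*Y 13 + 32295552*Y 14 + 94341632*Y 15 + 112137888*Y 16 + 25736064*Y 17 + 1509696*Y 18 + 11271808*Y 19 + 36905728*Y 20 + 50982016*Y 21 + 9277600*Y 22 + 1106816*Y 23 + 6717952*Y 24 + 12771168*Y 25 + 1306304*Y 26 + 694912*Y 27 + 4609536*Y 28 + 3694368*Y 29 + 841600*Y 30 +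 2194240*Y 31 + 266240*Y 32 := by
    simp only [PosI_L0, PosI_L2, PosI_L4]; ring
  rw [key]
  have h0 := hY 0
  have h1 := hY 1
  have h2 := hY 2
  have h3 := hY 3
  have h4 := hY 4
  have h5 := hY 5
  have h6 := hY 6
  have h7 := hY 7
  have h8 := hY 8
  have h9 := hY 9
  have h10 := hY 10
  have h11 := hY 11
  have h12 := hY 12
  have h13 := hY 13
  have h14 := hY 14
  have h15 := hY 15
  have h16 := hY 16
  have h17 := hY 17
  have h18 := hY 18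
  have h19 := hY 19
  have h20 := hY 20
  have h21 := hY 21
  have h22 := hY 22
  have h23 := hY 23
  have h24 := hY 24
  have h25 := hY 25
  have h26 := hY 26
  have h27 := hY 27
  have h28 := hY 28
  have h29 := hY 29
  have h30 := hY 30
  have h31 := hY 31
  have h32 := hY 32
  positivity

lemma PosI_R20 (Y : Fin 33 → ℝ) (hY : ∀ i, 0 ≤ Y i) :
    0 ≤ 102*PosI_L0 Y + 380*PosI_L2 Y + 4*PosI_L3 Y + 84*PosI_L4 Y := by
  have key : 102*PosI_L0 Y + 380*PosI_L2 Y + 4*PosI_L3 Y + 84*PosI_L4 Y = 1356256*Y 0 + 15563712*Y 1 + 68813984*Y 2 + 141126176*Y 3 + 123876640*Y 4 + 27453888*Y 5 + 1356256*Y 6 + 23345568*Y 7 + 137627968*Y 8 + 352815440*Y 9 + 371629920*Y 10 + 96088608*Y 11 + 1356256*Y 12 + 17342112*Y 13 + 105719712*Y 14 + 323213024*Y 15 + 415706880*Y 16 + 127227840*Y 17 + 4780128*Y 18 + 36905728*Y 19 + 132004096*Y 20 + 212030560*Y 21 + 77848080*Y 22 + 4112480*Y 23 + 28377040*Y 24 +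 66421824*Y 25 + 34380096*Y 26 + 3948352*Y 27 + 22344864*Y 28 + 21766368*Y 29 + 3499936*Y 30 + 8496336*Y 31 + 927552*Y 32 := by
    simp only [PosI_L0, PosI_L2, PosI_L3, PosI_L4]; ring
  rw [key]
  have h0 := hY 0
  have h1 := hY 1
  have h2 := hY 2
  have h3 := hY 3
  have h4 := hY 4
  have h5 := hY 5
  have h6 := hY 6
  have h7 := hY 7
  have h8 := hY 8
  have h9 := hY 9
  have h10 := hY 10
  have h11 := hY 11
  have h12 := hY 12
  have h13 := hY 13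
  have h14 := hY 14
  have h15 := hY 15
  have h16 := hY 16
  have h17 := hY 17
  have h18 := hY 18
  have h19 := hY 19
  have h20 := hY 20
  have h21 := hY 21
  have h22 := hY 22
  have h23 := hY 23
  have h24 := hY 24
  have h25 := hY 25
  have h26 := hY 26
  have h27 := hY 27
  have h28 := hY 28
  have h29 := hY 29
  have h30 := hY 30
  have h31 := hY 31
  have h32 := hY 32
  positivity

lemma PosI_R21 (Y : Fin 33 → ℝ) (hY : ∀ i, 0 ≤ Y i) :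
    0 ≤ 128*PosI_L0 Y + (-26)*PosI_L1 Y + 640*PosI_L2 Y + 8*PosI_L3 Y + 264*PosI_L4 Y + 56*PosI_L6 Y := by
  have key : 128*PosI_L0 Y + (-26)*PosI_L1 Y + 640*PosI_L2 Y + 8*PosI_L3 Y + 264*PosI_L4 Y + 56*PosI_L6 Y = 1679456*Y 0 + 19217408*Y 1 + 87025568*Y 2 + 188548352*Y 3 + 183749888*Y 4 + 54023936*Y 5 + 1679456*Y 6 + 28826112*Y 7 + 174051136*Y 8 + 471370880*Y 9 + 551249664*Y 10 + 189083776*Y 11 + 1679456*Y 12 + 21557568*Y 13 + 138007584*Y 14 + 455600960*Y 15 + 661867200*Y 16 + 279377472*Y 17 + 5974432*Y 18 + 50982016*Y 19 + 212030560*Y 20 + 404984960*Y 21 + 225734240*Y 22 + 7567712*Y 23 + 60041824*Y 24 + 162351264*Y 25 + 124536640*Y 26 + 10394848*Y 27 + 51733728*Y 28 + 55612608*Y 29 + 6849728*Y 30 + 15449888*Y 31 + 1478656*Y 32 := by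
    simp only [PosI_L0, PosI_L1, PosI_L2, PosI_L3, PosI_L4, PosI_L6]; ring
  rw [key]
  have h0 := hY 0
  have h1 := hY 1
  have h2 := hY 2
  have h3 := hY 3
  have h4 := hY 4
  have h5 := hY 5
  have h6 := hY 6
  have h7 := hY 7
  have h8 := hY 8
  have h9 := hY 9
  have h10 := hY 10
  have h11 := hY 11
  have h12 := hY 12
  have h13 := hY 13
  have h14 := hY 14
  have h15 := hY 15
  have h16 := hY 16
  have h17 := hY 17
  have h18 := hY 18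
  have h19 := hY 19
  have h20 := hY 20
  have h21 := hY 21
  have h22 := hY 22
  have h23 := hY 23
  have h24 := hY 24
  have h25 := hY 25
  have h26 := hY 26
  have h27 := hY 27
  have h28 := hY 28
  have h29 := hY 29
  have h30 := hY 30
  have h31 := hY 31
  have h32 := hY 32
  positivity

lemma PosI_R22 (Y : Fin 33 → ℝ) (hY : ∀ i, 0 ≤ Y i) :
    0 ≤ 40*PosI_L0 Y + (-55)*PosI_L1 Y + 400*PosI_L2 Y + (-10)*PosI_L3 Y + 260*PosI_L4 Y + (-20)*PosI_L5 Y + 160*PosI_L6 Y := by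
  have key : 40*PosI_L0 Y + (-55)*PosI_L1 Y + 400*PosI_L2 Y + (-10)*PosI_L3 Y + 260*PosI_L4 Y + (-20)*PosI_L5 Y + 160*PosI_L6 Y = 353440*Y 0 + 4555680*Y 1 + 25259600*Y 2 + 69703680*Y 3 + 89510480*Y 4 + 39233440*Y 5 + 353440*Y 6 + 6833520*Y 7 + 50519200*Y 8 + 174259200*Y 9 + 268531440*Y 10 + 137317040*Y 11 + 353440*Y 12 + 3769680*Y 13 + 34537200*Y 14 + 168071520*Y 15 + 336643320*Y 16 + 209804160*Y 17 + 745920*Y 18 + 9277600*Y 19 + 77848080*Y 20 + 225734240*Y 21 + 181217800*Y 22 + 2401040*Y 23 + 28441680*Y 24 + 102558360*Y 25 + 101955920*Y 26 + 7054800*Y 27 + 34446480*Y 28 + 40374600*Y 29 + 4427360*Y 30 + 9615760*Y 31 + 849920*Y 32 := by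
    simp only [PosI_L0, PosI_L1, PosI_L2, PosI_L3, PosI_L4, PosI_L5, PosI_L6]; ring
  rw [key]
  have h0 := hY 0
  have h1 := hY 1
  have h2 := hY 2
  have h3 := hY 3
  have h4 := hY 4
  have h5 := hY 5
  have h6 := hY 6
  have h7 := hY 7
  have h8 := hY 8
  have h9 := hY 9
  have h10 := hY 10
  have h11 := hY 11
  have h12 := hY 12
  have h13 := hY 13
  have h14 := hY 14
  have h15 := hY 15
  have h16 := hY 16
  have h17 := hY 17
  have h18 := hY 18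
  have h19 := hY 19
  have h20 := hY 20
  have h21 := hY 21
  have h22 := hY 22
  have h23 := hY 23
  have h24 := hY 24
  have h25 := hY 25
  have h26 := hY 26
  have h27 := hY 27
  have h28 := hY 28
  have h29 := hY 29
  have h30 := hY 30
  have h31 := hY 31
  have h32 := hY 32
  positivity

lemma PosI_R23 (Y : Fin 33 → ℝ) (hY : ∀ i, 0 ≤ Y i) :
    0 ≤ 8*PosI_L0 Y + 20*PosI_L2 Y + 4*PosI_L4 Y := by
  have key : 8*PosI_L0 Y + 20*PosI_L2 Y + 4*PosI_L4 Y = 63456*Y 0 + 773280*Y 1 + 3586048*Y 2 + 7602496*Y 3 + 6754688*Y 4 + 1407488*Y 5 + 63456*Y 6 + 1159920*Y 7 + 7172096*Y 8 + 19006240*Y 9 + 20264064*Y 10 + 4926208*Y 11 + 63456*Y 12 + 743760*Y 13 + 4692864*Y 14 + 15412480*Y 15 + 20670576*Y 16 + 5886624*Y 17 + 178560*Y 18 + 1106816*Y 19 + 4112480*Y 20 + 7567712*Y 21 + 2401040*Y 22 + 17728*Y 23 + 199616*Y 24 + 995664*Y 25 + 379552*Y 26 + 47936*Y 27 + 589152*Y 28 + 631392*Y 29 + 148448*Y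 30 + 368048*Y 31 + 41536*Y 32 := by
    simp only [PosI_L0, PosI_L2, PosI_L4]; ring
  rw [key]
  have h0 := hY 0
  have h1 := hY 1
  have h2 := hY 2
  have h3 := hY 3
  have h4 := hY 4
  have h5 := hY 5
  have h6 := hY 6
  have h7 := hY 7
  have h8 := hY 8
  have h9 := hY 9
  have h10 := hY 10
  have h11 := hY 11
  have h12 := hY 12
  have h13 := hY 13
  have h14 := hY 14
  have h15 := hY 15
  have h16 := hY 16
  have h17 := hY 17
  have h18 := hY 18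
  have h19 := hY 19
  have h20 := hY 20
  have h21 := hY 21
  have h22 := hY 22
  have h23 := hY 23
  have h24 := hY 24
  have h25 := hY 25
  have h26 := hY 26
  have h27 := hY 27
  have h28 := hY 28
  have h29 := hY 29
  have h30 := hY 30
  have h31 := hY 31
  have h32 := hY 32
  positivity

lemma PosI_R24 (Y : Fin 33 → ℝ) (hY : ∀ i, 0 ≤ Y i) :
    0 ≤ 66*PosI_L0 Y + 140*PosI_L2 Y + 10*PosI_L3 Y + 48*PosI_L4 Y := by
  have key : 66*PosI_L0 Y + 140*PosI_L2 Y + 10*PosI_L3 Y + 48*PosI_L4 Y = 388672*Y 0 + 4776960*Y 1 + 22542656*Y 2 + 49122032*Y 3 + 45626416*Y 4 + 10689696*Y 5 + 388672*Y 6 + 7165440*Y 7 + 45085312*Y 8 + 122805080*Y 9 + 136879248*Y 10 + 37413936*Y 11 + 388672*Y 12 + 4494720*Y 13 + 29260608*Y 14 + 100788080*Y 15 + 144086952*Y 16 + 48790608*Y 17 + 1053120*Y 18 + 6717952*Y 19 + 28377040*Y 20 + 60041824*Y 21 + 28441680*Y 22 + 199616*Y 23 + 2766952*Y 24 + 12589368*Y 25 +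 10627584*Y 26 + 747472*Y 27 + 5381664*Y 28 + 6206664*Y 29 + 1046416*Y 30 + 2467416*Y 31 + 256512*Y 32 := by
    simp only [PosI_L0, PosI_L2, PosI_L3, PosI_L4]; ring
  rw [key]
  have h0 := hY 0
  have h1 := hY 1
  have h2 := hY 2
  have h3 := hY 3
  have h4 := hY 4
  have h5 := hY 5
  have h6 := hY 6
  have h7 := hY 7
  have h8 := hY 8
  have h9 := hY 9
  have h10 := hY 10
  have h11 := hY 11
  have h12 := hY 12
  have h13 := hY 13
  have h14 := hY 14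
  have h15 := hY 15
  have h16 := hY 16
  have h17 := hY 17
  have h18 := hY 18
  have h19 := hY 19
  have h20 := hY 20
  have h21 := hY 21
  have h22 := hY 22
  have h23 := hY 23
  have h24 := hY 24
  have h25 := hY 25
  have h26 := hY 26
  have h27 := hY 27
  have h28 := hY 28
  have h29 := hY 29
  have h30 := hY 30
  have h31 := hY 31
  have h32 := hY 32
  positivity

lemma PosI_R25 (Y : Fin 33 → ℝ) (hY : ∀ i, 0 ≤ Y i) :
    0 ≤ 156*PosI_L0 Y + (-3)*PosI_L1 Y + 330*PosI_L2 Y + 48*PosI_L3 Y + 180*PosI_L4 Y + 48*PosI_L6 Y := by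
  have key : 156*PosI_L0 Y + (-3)*PosI_L1 Y + 330*PosI_L2 Y + 48*PosI_L3 Y + 180*PosI_L4 Y + 48*PosI_L6 Y = 694560*Y 0 + 8621760*Y 1 + 41946384*Y 2 + 96230064*Y 3 + 97222368*Y 4 + 28008192*Y 5 + 694560*Y 6 + 12932640*Y 7 + 83892768*Y 8 + 240575160*Y 9 + 291667104*Y 10 + 98028672*Y 11 + 694560*Y 12 + 7904160*Y 13 + 54717552*Y 14 + 204664656*Y 15 + 324231552*Y 16 + 139052016*Y 17 + 1796640*Y 18 + 12771168*Y 19 + 66421824*Y 20 + 162351264*Y 21 + 102558360*Y 22 + 995664*Y 23 + 12589368*Y 24 + 49918320*Y 25 + 49326288*Y 26 + 3243552*Y 27 + 17353872*Y 28 + 20445408*Y 29 + 2541072*Y 30 + 5758392*Y 31 + 556224*Y 32 := by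
    simp only [PosI_L0, PosI_L1, PosI_L2, PosI_L3, PosI_L4, PosI_L6]; ring
  rw [key]
  have h0 := hY 0
  have h1 := hY 1
  have h2 := hY 2
  have h3 := hY 3
  have h4 := hY 4
  have h5 := hY 5
  have h6 := hY 6
  have h7 := hY 7
  have h8 := hY 8
  have h9 := hY 9
  have h10 := hY 10
  have h11 := hY 11
  have h12 := hY 12
  have h13 := hY 13
  have h14 := hY 14
  have h15 := hY 15
  have h16 := hY 16
  have h17 := hY 17
  have h18 := hY 18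
  have h19 := hY 19
  have h20 := hY 20
  have h21 := hY 21
  have h22 := hY 22
  have h23 := hY 23
  have h24 := hY 24
  have h25 := hY 25
  have h26 := hY 26
  have h27 := hY 27
  have h28 := hY 28
  have h29 := hY 29
  have h30 := hY 30
  have h31 := hY 31
  have h32 := hY 32
  positivity

lemma PosI_R26 (Y : Fin 33 → ℝ) (hY : ∀ i, 0 ≤ Y i) :
    0 ≤ 110*PosI_L0 Y + (-32)*PosI_L1 Y + 260*PosI_L2 Y + 52*PosI_L3 Y + 208*PosI_L4 Y + 20*PosI_L5 Y + 152*PosI_L6 Y := by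
  have key : 110*PosI_L0 Y + (-32)*PosI_L1 Y + 260*PosI_L2 Y + 52*PosI_L3 Y + 208*PosI_L4 Y + 20*PosI_L5 Y + 152*PosI_L6 Y = 195872*Y 0 + 2846880*Y 1 + 16913632*Y 2 + 47808768*Y 3 + 60525088*Y 4 + 24528704*Y 5 + 195872*Y 6 + 4270320*Y 7 + 33827264*Y 8 + 119521920*Y 9 + 181575264*Y 10 + 85850464*Y 11 + 195872*Y 12 + 1605840*Y 13 + 18219936*Y 14 + 102601344*Y 15 + 213581040*Y 16 + 126632832*Y 17 + 91200*Y 18 + 1306304*Y 19 + 34380096*Y 20 + 124536640*Y 21 + 101955920*Y 22 + 379552*Y 23 + 10627584*Y 24 + 49326288*Y 25 + 52694656*Y 26 + 3567840*Y 27 + 17320512*Y 28 + 20011296*Y 29 + 2205664*Y 30 + 4832144*Y 31 + 435328*Y 32 := by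
    simp only [PosI_L0, PosI_L1, PosI_L2, PosI_L3, PosI_L4, PosI_L5, PosI_L6]; ring
  rw [key]
  have h0 := hY 0
  have h1 := hY 1
  have h2 := hY 2
  have h3 := hY 3
  have h4 := hY 4
  have h5 := hY 5
  have h6 := hY 6
  have h7 := hY 7
  have h8 := hY 8
  have h9 := hY 9
  have h10 := hY 10
  have h11 := hY 11
  have h12 := hY 12
  have h13 := hY 13
  have h14 := hY 14
  have h15 := hY 15
  have h16 := hY 16
  have h17 := hY 17
  have h18 := hY 18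
  have h19 := hY 19
  have h20 := hY 20
  have h21 := hY 21
  have h22 := hY 22
  have h23 := hY 23
  have h24 := hY 24
  have h25 := hY 25
  have h26 := hY 26
  have h27 := hY 27
  have h28 := hY 28
  have h29 := hY 29
  have h30 := hY 30
  have h31 := hY 31
  have h32 := hY 32
  positivity

lemma PosI_R27 (Y : Fin 33 → ℝ) (hY : ∀ i, 0 ≤ Y i) :
    0 ≤ 12*PosI_L0 Y + 20*PosI_L2 Y + 4*PosI_L3 Y + 12*PosI_L4 Y := by
  have key : 12*PosI_L0 Y + 20*PosI_L2 Y + 4*PosI_L3 Y + 12*PosI_L4 Y = 41248*Y 0 + 518880*Y 1 + 2562176*Y 2 + 5964320*Y 3 + 6092128*Y 4 + 1742400*Y 5 + 41248*Y 6 + 778320*Y 7 + 5124352*Y 8 + 14910800*Y 9 + 18276384*Y 10 + 6098400*Y 11 + 41248*Y 12 + 459120*Y 13 + 3257088*Y 14 + 12572768*Y 15 + 20427744*Y 16 + 8920320*Y 17 + 99840*Y 18 + 694912*Y 19 + 3948352*Y 20 + 10394848*Y 21 + 7054800*Y 22 + 47936*Y 23 + 747472*Y 24 + 3243552*Y 25 + 3567840*Y 26 + 212704*Y 27 +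 1092192*Y 28 + 1346160*Y 29 + 151360*Y 30 + 324480*Y 31 + 27840*Y 32 := by
    simp only [PosI_L0, PosI_L2, PosI_L3, PosI_L4]; ring
  rw [key]
  have h0 := hY 0
  have h1 := hY 1
  have h2 := hY 2
  have h3 := hY 3
  have h4 := hY 4
  have h5 := hY 5
  have h6 := hY 6
  have h7 := hY 7
  have h8 := hY 8
  have h9 := hY 9
  have h10 := hY 10
  have h11 := hY 11
  have h12 := hY 12
  have h13 := hY 13
  have h14 := hY 14
  have h15 := hY 15
  have h16 := hY 16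
  have h17 := hY 17
  have h18 := hY 18
  have h19 := hY 19
  have h20 := hY 20
  have h21 := hY 21
  have h22 := hY 22
  have h23 := hY 23
  have h24 := hY 24
  have h25 := hY 25
  have h26 := hY 26
  have h27 := hY 27
  have h28 := hY 28
  have h29 := hY 29
  have h30 := hY 30
  have h31 := hY 31
  have h32 := hY 32
  positivity

lemma PosI_R28 (Y : Fin 33 → ℝ) (hY : ∀ i, 0 ≤ Y i) :
    0 ≤ 60*PosI_L0 Y + 12*PosI_L1 Y + 90*PosI_L2 Y + 36*PosI_L3 Y + 72*PosI_L4 Y + 24*PosI_L6 Y := by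
  have key : 60*PosI_L0 Y + 12*PosI_L1 Y + 90*PosI_L2 Y + 36*PosI_L3 Y + 72*PosI_L4 Y + 24*PosI_L6 Y = 193248*Y 0 + 2326848*Y 1 + 11119008*Y 2 + 25506048*Y 3 + 26312832*Y 4 + 7966464*Y 5 + 193248*Y 6 + 3490272*Y 7 + 22238016*Y 8 + 63765120*Y 9 + 78938496*Y 10 + 27882624*Y 11 + 193248*Y 12 + 2307168*Y 13 + 15728544*Y 14 + 57406656*Y 15 + 91648944*Y 16 + 41661216*Y 17 + 571872*Y 18 + 4609536*Y 19 + 22344864*Y 20 + 51733728*Y 21 + 34446480*Y 22 + 589152*Y 23 + 5381664*Y 24 + 17353872*Y 25 + 17320512*Y 26 + 1092192*Y 27 + 4643424*Y 28 + 5475600*Y 29 + 455616*Y 30 + 1087296*Y 31 + 115392*Y 32 := by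
    simp only [PosI_L0, PosI_L1, PosI_L2, PosI_L3, PosI_L4, PosI_L6]; ring
  rw [key]
  have h0 := hY 0
  have h1 := hY 1
  have h2 := hY 2
  have h3 := hY 3
  have h4 := hY 4
  have h5 := hY 5
  have h6 := hY 6
  have h7 := hY 7
  have h8 := hY 8
  have h9 := hY 9
  have h10 := hY 10
  have h11 := hY 11
  have h12 := hY 12
  have h13 := hY 13
  have h14 := hY 14
  have h15 := hY 15
  have h16 := hY 16
  have h17 := hY 17
  have h18 := hY 18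
  have h19 := hY 19
  have h20 := hY 20
  have h21 := hY 21
  have h22 := hY 22
  have h23 := hY 23
  have h24 := hY 24
  have h25 := hY 25
  have h26 := hY 26
  have h27 := hY 27
  have h28 := hY 28
  have h29 := hY 29
  have h30 := hY 30
  have h31 := hY 31
  have h32 := hY 32
  positivity

lemma PosI_R29 (Y : Fin 33 → ℝ) (hY : ∀ i, 0 ≤ Y i) :
    0 ≤ 69*PosI_L0 Y + 21*PosI_L1 Y + 102*PosI_L2 Y + 60*PosI_L3 Y + 108*PosI_L4 Y + 36*PosI_L5 Y + 96*PosI_L6 Y := by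
  have key : 69*PosI_L0 Y + 21*PosI_L1 Y + 102*PosI_L2 Y + 60*PosI_L3 Y + 108*PosI_L4 Y + 36*PosI_L5 Y + 96*PosI_L6 Y = 148128*Y 0 + 1816656*Y 1 + 9099744*Y 2 + 22446672*Y 3 + 25672992*Y 4 + 9408768*Y 5 + 148128*Y 6 + 2724984*Y 7 + 18199488*Y 8 + 56116680*Y 9 + 77018976*Y 10 + 32930688*Y 11 + 148128*Y 12 + 1718856*Y 13 + 12794112*Y 14 + 51922032*Y 15 + 91988784*Y 16 + 49080528*Y 17 + 405264*Y 18 + 3694368*Y 19 + 21766368*Y 20 + 55612608*Y 21 + 40374600*Y 22 + 631392*Y 23 + 6206664*Y 24 + 20445408*Y 25 + 20011296*Y 26 + 1346160*Y 27 + 5475600*Y 28 + 6107688*Y 29 + 479040*Y 30 + 1170816*Y 31 + 129216*Y 32 := by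
    simp only [PosI_L0, PosI_L1, PosI_L2, PosI_L3, PosI_L4, PosI_L5, PosI_L6]; ring
  rw [key]
  have h0 := hY 0
  have h1 := hY 1
  have h2 := hY 2
  have h3 := hY 3
  have h4 := hY 4
  have h5 := hY 5
  have h6 := hY 6
  have h7 := hY 7
  have h8 := hY 8
  have h9 := hY 9
  have h10 := hY 10
  have h11 := hY 11
  have h12 := hY 12
  have h13 := hY 13
  have h14 := hY 14
  have h15 := hY 15
  have h16 := hY 16
  have h17 := hY 17
  have h18 := hY 18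
  have h19 := hY 19
  have h20 := hY 20
  have h21 := hY 21
  have h22 := hY 22
  have h23 := hY 23
  have h24 := hY 24
  have h25 := hY 25
  have h26 := hY 26
  have h27 := hY 27
  have h28 := hY 28
  have h29 := hY 29
  have h30 := hY 30
  have h31 := hY 31
  have h32 := hY 32
  positivity

lemma PosI_R30 (Y : Fin 33 → ℝ) (hY : ∀ i, 0 ≤ Y i) :
    0 ≤ 8*PosI_L0 Y + 4*PosI_L1 Y + 10*PosI_L2 Y + 8*PosI_L3 Y + 12*PosI_L4 Y + 8*PosI_L6 Y := by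
  have key : 8*PosI_L0 Y + 4*PosI_L1 Y + 10*PosI_L2 Y + 8*PosI_L3 Y + 12*PosI_L4 Y + 8*PosI_L6 Y = 23168*Y 0 + 256736*Y 1 + 1144160*Y 2 + 2537696*Y 3 + 2678816*Y 4 + 913088*Y 5 + 23168*Y 6 + 385104*Y 7 + 2288320*Y 8 + 6344240*Y 9 + 8036448*Y 10 + 3195808*Y 11 + 23168*Y 12 + 309936*Y 13 + 1985760*Y 14 + 6562784*Y 15 + 10121904*Y 16 + 4966752*Y 17 + 90784*Y 18 + 841600*Y 19 + 3499936*Y 20 + 6849728*Y 21 + 4427360*Y 22 + 148448*Y 23 + 1046416*Y 24 + 2541072*Y 25 + 2205664*Y 26 + 151360*Y 27 + 455616*Y 28 + 479040*Y 29 + 512*Y 30 + 37952*Y 31 + 10624*Y 32 := by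
    simp only [PosI_L0, PosI_L1, PosI_L2, PosI_L3, PosI_L4, PosI_L6]; ring
  rw [key]
  have h0 := hY 0
  have h1 := hY 1
  have h2 := hY 2
  have h3 := hY 3
  have h4 := hY 4
  have h5 := hY 5
  have h6 := hY 6
  have h7 := hY 7
  have h8 := hY 8
  have h9 := hY 9
  have h10 := hY 10
  have h11 := hY 11
  have h12 := hY 12
  have h13 := hY 13
  have h14 := hY 14
  have h15 := hY 15
  have h16 := hY 16
  have h17 := hY 17
  have h18 := hY 18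
  have h19 := hY 19
  have h20 := hY 20
  have h21 := hY 21
  have h22 := hY 22
  have h23 := hY 23
  have h24 := hY 24
  have h25 := hY 25
  have h26 := hY 26
  have h27 := hY 27
  have h28 := hY 28
  have h29 := hY 29
  have h30 := hY 30
  have h31 := hY 31
  have h32 := hY 32
  positivity

lemma PosI_R31 (Y : Fin 33 → ℝ) (hY : ∀ i, 0 ≤ Y i) :
    0 ≤ 19*PosI_L0 Y + 20*PosI_L1 Y + 22*PosI_L2 Y + 26*PosI_L3 Y + 32*PosI_L4 Y + 28*PosI_L5 Y + 40*PosI_L6 Y := by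
  have key : 19*PosI_L0 Y + 20*PosI_L1 Y + 22*PosI_L2 Y + 26*PosI_L3 Y + 32*PosI_L4 Y + 28*PosI_L5 Y + 40*PosI_L6 Y = 60064*Y 0 + 657936*Y 1 + 2857520*Y 2 + 6081936*Y 3 + 6107696*Y 4 + 2021920*Y 5 + 60064*Y 6 + 986904*Y 7 + 5715040*Y 8 + 15204840*Y 9 + 18323088*Y 10 + 7076720*Y 11 + 60064*Y 12 + 815016*Y 13 + 5051760*Y 14 + 15800784*Y 15 + 22994184*Y 16 + 10923024*Y 17 + 243024*Y 18 + 2194240*Y 19 + 8496336*Y 20 + 15449888*Y 21 + 9615760*Y 22 + 368048*Y 23 + 2467416*Y 24 + 5758392*Y 25 + 4832144*Y 26 + 324480*Y 27 + 1087296*Y 28 + 1170816*Y 29 + 37952*Y 30 + 125248*Y 31 + 19520*Y 32 := by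
    simp only [PosI_L0, PosI_L1, PosI_L2, PosI_L3, PosI_L4, PosI_L5, PosI_L6]; ring
  rw [key]
  have h0 := hY 0
  have h1 := hY 1
  have h2 := hY 2
  have h3 := hY 3
  have h4 := hY 4
  have h5 := hY 5
  have h6 := hY 6
  have h7 := hY 7
  have h8 := hY 8
  have h9 := hY 9
  have h10 := hY 10
  have h11 := hY 11
  have h12 := hY 12
  have h13 := hY 13
  have h14 := hY 14
  have h15 := hY 15
  have h16 := hY 16
  have h17 := hY 17
  have h18 := hY 18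
  have h19 := hY 19
  have h20 := hY 20
  have h21 := hY 21
  have h22 := hY 22
  have h23 := hY 23
  have h24 := hY 24
  have h25 := hY 25
  have h26 := hY 26
  have h27 := hY 27
  have h28 := hY 28
  have h29 := hY 29
  have h30 := hY 30
  have h31 := hY 31
  have h32 := hY 32
  positivity

lemma PosI_R32 (Y : Fin 33 → ℝ) (hY : ∀ i, 0 ≤ Y i) :
    0 ≤ 2*PosI_L0 Y + 4*PosI_L1 Y + 2*PosI_L2 Y + 4*PosI_L3 Y + 4*PosI_L4 Y + 8*PosI_L5 Y + 8*PosI_L6 Y := by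
  have key : 2*PosI_L0 Y + 4*PosI_L1 Y + 2*PosI_L2 Y + 4*PosI_L3 Y + 4*PosI_L4 Y + 8*PosI_L5 Y + 8*PosI_L6 Y = 7232*Y 0 + 77952*Y 1 + 326080*Y 2 + 650112*Y 3 + 596992*Y 4 + 186368*Y 5 + 7232*Y 6 + 116928*Y 7 + 652160*Y 8 + 1625280*Y 9 + 1790976*Y 10 + 652288*Y 11 + 7232*Y 12 + 100032*Y 13 + 592320*Y 14 + 1701888*Y 15 + 2231808*Y 16 + 992256*Y 17 + 30528*Y 18 + 266240*Y 19 + 927552*Y 20 + 1478656*Y 21 + 849920*Y 22 + 41536*Y 23 + 256512*Y 24 + 556224*Y 25 + 435328*Y 26 + 27840*Y 27 + 115392*Y 28 + 129216*Y 29 + 10624*Y 30 + 19520*Y 31 + 1024*Y 32 := by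
    simp only [PosI_L0, PosI_L1, PosI_L2, PosI_L3, PosI_L4, PosI_L5, PosI_L6]; ring
  rw [key]
  have h0 := hY 0
  have h1 := hY 1
  have h2 := hY 2
  have h3 := hY 3
  have h4 := hY 4
  have h5 := hY 5
  have h6 := hY 6
  have h7 := hY 7
  have h8 := hY 8
  have h9 := hY 9
  have h10 := hY 10
  have h11 := hY 11
  have h12 := hY 12
  have h13 := hY 13
  have h14 := hY 14
  have h15 := hY 15
  have h16 := hY 16
  have h17 := hY 17
  have h18 := hY 18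
  have h19 := hY 19
  have h20 := hY 20
  have h21 := hY 21
  have h22 := hY 22
  have h23 := hY 23
  have h24 := hY 24
  have h25 := hY 25
  have h26 := hY 26
  have h27 := hY 27
  have h28 := hY 28
  have h29 := hY 29
  have h30 := hY 30
  have h31 := hY 31
  have h32 := hY 32
  positivity

/-- the certified polynomial -/
noncomputable def PosI (s c S C : ℝ) : ℝ := (-697/200)*(c*C) + (-1)*(c*S) + (-1)*(s*C) + (87/50)*(s*S) + (-7/4)*(c*C^2) + (749/200)*(c*S*C) + (453/400)*(c*S^2) + (-7/4)*(c^2*C) + (11/4)*(s*S*C) + (-697/400)*(s*S^2) + (749/200)*(s*c*C) + (11/4)*(s*c*S) + (453/400)*(s^2*C) + (-697/400)*(s^2*S) + (3/20)*(c*S^2*C) + (-13/16)*(c*S^3) + (-27/20)*(c^2*C^2) + (31/16)*(c^2*S*C) + (-9/16)*(c^2*S^2) + (-13/32)*(s*S^3) + (31/16)*(s*c*C^2) + (-1487/800)*(s*c*S*C) + (-1753/400)*(s*c*S^2) + (-9/16)*(s^2*C^2) + (-1753/400)*(s^2*S*C) + (1611/400)*(s^2*S^2) + (3/20)*(s^2*c*C)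 + (-13/16)*(s^3*C) + (-13/32)*(s^3*S) + (-3/20)*(c^2*S^2*C) + (9/20)*(c^2*S^3) + (3/20)*(s*c*S^2*C) + (209/320)*(s*c*S^3) + (9/20)*(s^2*S^2*C) + (-3/20)*(s^2*c*C^2) + (3/20)*(s^2*c*S*C) + (9/20)*(s^2*c*S^2) + (9/20)*(s^3*C^2) + (209/320)*(s^3*S*C) + (-3/20)*(s^2*c*S^2*C) + (-9/80)*(s^2*c*S^3) + (-9/80)*(s^3*S^2*C) + (-43/320)*(s^3*S^3)

theorem PosI_nonneg' (X Y : Fin 33 → ℝ) (hX : ∀ i, 0 ≤ X i) (hY : ∀ i, 0 ≤ Y i) :
    0 ≤ F0 X * ((-5576)*F0 Y + (-2800)*F1 Y + (-1600)*F2 Y + 5992*F3 Y + 1812*F4 Y + 240*F5 Y + (-1300)*F6 Y) + F1 X * ((-2800)*F0 Y + (-2160)*F1 Y + 3100*F3 Y + (-900)*F4 Y + (-240)*F5 Y + 720*F6 Y) + F2 X * ((-1600)*F0 Y + 2784*F2 Y + 4400*F3 Y + (-2788)*F4 Y + (-650)*F6 Y) + F3 X * (5992*F0 Y + 3100*F1 Y + 4400*F2 Y + (-2974)*F3 Y + (-7012)*F4 Y + 240*F5 Y + 1045*F6 Y) + F4 X * (1812*F0 Y + (-900)*F1 Y + (-2788)*F2 Y + (-7012)*F3 Y + 6444*F4 Y + 720*F5 Y) + F5 X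 * (240*F0 Y + (-240)*F1 Y + 240*F3 Y + 720*F4 Y + (-240)*F5 Y + (-180)*F6 Y) + F6 X * ((-1300)*F0 Y + 720*F1 Y + (-650)*F2 Y + 1045*F3 Y + (-180)*F5 Y + (-215)*F6 Y) := by
  rw [PosI_L0_eq, PosI_L1_eq, PosI_L2_eq, PosI_L3_eq, PosI_L4_eq, PosI_L5_eq, PosI_L6_eq]
  rw [swapT]

  exact add33 hX
    (PosI_R0 Y hY)
    (PosI_R1 Y hY)
    (PosI_R2 Y hY)
    (PosI_R3 Y hY)
    (PosI_R4 Y hY)
    (PosI_R5 Y hY)
    (PosI_R6 Y hY)
    (PosI_R7 Y hY)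
    (PosI_R8 Y hY)
    (PosI_R9 Y hY)
    (PosI_R10 Y hY)
    (PosI_R11 Y hY)
    (PosI_R12 Y hY)
    (PosI_R13 Y hY)
    (PosI_R14 Y hY)
    (PosI_R15 Y hY)
    (PosI_R16 Y hY)
    (PosI_R17 Y hY)
    (PosI_R18 Y hY)
    (PosI_R19 Y hY)
    (PosI_R20 Y hY)
    (PosI_R21 Y hY)
    (PosI_R22 Y hY)
    (PosI_R23 Y hY)
    (PosI_R24 Y hY)
    (PosI_R25 Y hY)
    (PosI_R26 Y hY)
    (PosI_R27 Y hY)
    (PosI_R28 Y hY)
    (PosI_R29 Y hY)
    (PosI_R30 Y hY)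
    (PosI_R31 Y hY)
    (PosI_R32 Y hY)

theorem PosI_nonneg (s c S C : ℝ) (h : Cham s c) (h' : Cham S C) : 0 ≤ PosI s c S C := by
  obtain ⟨X, hX, hs⟩ := h.mono
  obtain ⟨Y, hY, hS⟩ := h'.mono
  have := PosI_nonneg' X Y hX hY
  obtain ⟨a0, a1, a2, a3, a4, a5, a6⟩ := hs
  obtain ⟨b0, b1, b2, b3, b4, b5, b6⟩ := hS
  rw [← a0, ← a1, ← a2, ← a3, ← a4, ← a5, ← a6, ← b0, ← b1, ← b2, ← b3, ← b4, ← b5, ← b6] at this
  have key : (1600 : ℝ) * PosI s c S C = (c) * ((-5576)*(C) + (-2800)*(C^2) + (-1600)*(S) + 5992*(S*C) + 1812*(S^2) + 240*(S^2*C) + (-1300)*(S^3)) + (c^2) * ((-2800)*(C) + (-2160)*(C^2) + 3100*(S*C) + (-900)*(S^2) + (-240)*(S^2*C) + 720*(S^3)) + (s) * ((-1600)*(C) + 2784*(S) + 4400*(S*C) + (-2788)*(S^2) + (-650)*(S^3)) + (s*c) * (5992*(C) + 3100*(C^2) + 4400*(S) + (-2974)*(S*C) + (-7012)*(S^2) + 240*(S^2*C) + 1045*(S^3)) + (s^2) * (1812*(C) + (-900)*(C^2) + (-2788)*(S) + (-7012)*(S*C)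 + 6444*(S^2) + 720*(S^2*C)) + (s^2*c) * (240*(C) + (-240)*(C^2) + 240*(S*C) + 720*(S^2) + (-240)*(S^2*C) + (-180)*(S^3)) + (s^3) * ((-1300)*(C) + 720*(C^2) + (-650)*(S) + 1045*(S*C) + (-180)*(S^2*C) + (-215)*(S^3)) := by
    simp only [PosI]; ring
  rw [← key] at this
  linarith


end Crest.Agent.R163.Q3
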