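import Crest.Agent.R163.Q3Mono

/-!
Row 163, three states, ferromagnetic case: generated positivity certificate `PosX`.
-/

set_option autoImplicit false
set_option linter.unusedSimpArgs false
set_option maxHeartbeats 4000000
set_option maxRecDepth 100000

namespace Crest.Agent.R163.Q3


noncomputable def PosX_L0 (Y : Fin 33 → ℝ) : ℝ := 64*Y 0 + 800*Y 1 + 3600*Y 2 + 7200*Y 3 + 6080*Y 4 + 1408*Y 5 + 64*Y 6 + 1200*Y 7 + 7200*Y 8 + 18000*Y 9 + 18240*Y 10 + 4928*Y 11 + 64*Y 12 + 720*Y 13 + 4080*Y 14 + 11520*Y 15 + 12720*Y 16 + 2208*Y 17 + 160*Y 18 + 480*Y 19 + (-720)*Y 20 + (-4960)*Y 21 + (-6800)*Y 22 + (-240)*Y 23 + (-2880)*Y 24 + (-8880)*Y 25 + (-8800)*Y 26 + (-720)*Y 27 + (-3360)*Y 28 + (-3936)*Y 29 + (-400)*Y 30 + (-656)*Y 31 + (-16)*Y 32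

noncomputable def PosX_L1 (Y : Fin 33 → ℝ) : ℝ := 0*Y 0

noncomputable def PosX_L2 (Y : Fin 33 → ℝ) : ℝ := 80*Y 0 + 736*Y 1 + 2576*Y 2 + 4192*Y 3 + 3008*Y 4 + 640*Y 5 + 80*Y 6 + 1104*Y 7 + 5152*Y 8 + 10480*Y 9 + 9024*Y 10 + 2240*Y 11 + 80*Y 12 + 1296*Y 13 + 7248*Y 14 + 17728*Y 15 + 18672*Y 16 + 6240*Y 17 + 464*Y 18 + 4672*Y 19 + 16112*Y 20 + 22304*Y 21 + 10000*Y 22 + 944*Y 23 + 6368*Y 24 + 13152*Y 25 + 8096*Y 26 + 848*Y 27 + 3504*Y 28 + 3264*Y 29 + 320*Y 30 + 592*Y 31 + 32*Y 32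

noncomputable def PosX_L3 (Y : Fin 33 → ℝ) : ℝ := (-160)*Y 1 + (-1220)*Y 2 + (-3320)*Y 3 + (-3760)*Y 4 + (-1440)*Y 5 + (-240)*Y 7 + (-2440)*Y 8 + (-8300)*Y 9 + (-11280)*Y 10 + (-5040)*Y 11 + 240*Y 13 + 1140*Y 14 + 640*Y 15 + (-2460)*Y 16 + (-2040)*Y 17 + 160*Y 18 + 2360*Y 19 + 9260*Y 20 + 13880*Y 21 + 7500*Y 22 + 700*Y 23 + 5600*Y 24 + 13260*Y 25 + 9840*Y 26 + 980*Y 27 + 4440*Y 28 + 4740*Y 29 + 500*Y 30 + 960*Y 31 + 60*Y 32

noncomputable def PosX_L4 (Y : Fin 33 → ℝ) : ℝ := (-56)*Y 0 + (-440)*Y 1 + (-1160)*Y 2 + (-940)*Y 3 + 560*Y 4 + 848*Y 5 + (-56)*Y 6 + (-660)*Y 7 + (-2320)*Y 8 + (-2350)*Y 9 + 1680*Y 10 + 2968*Y 11 + (-56)*Y 12 + (-1020)*Y 13 + (-5400)*Y 14 + (-11020)*Y 15 + (-7380)*Y 16 + 588*Y 17 + (-400)*Y 18 + (-4240)*Y 19 + (-14180)*Y 20 + (-17560)*Y 21 + (-5950)*Y 22 + (-920)*Y 23 + (-6290)*Y 24 + (-12480)*Y 25 + (-6860)*Y 26 + (-860)*Y 27 + (-3420)*Y 28 +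 (-2856)*Y 29 + (-280)*Y 30 + (-406)*Y 31 + 4*Y 32

noncomputable def PosX_L5 (Y : Fin 33 → ℝ) : ℝ := 0*Y 0

noncomputable def PosX_L6 (Y : Fin 33 → ℝ) : ℝ := 0*Y 0

lemma PosX_L0_eq (Y : Fin 33 → ℝ) : (-80)*F0 Y + 32*F2 Y + 80*F3 Y + (-60)*F4 Y = PosX_L0 Y := by
  simp only [PosX_L0, F0, F1, F2, F3, F4, F5, F6]; ring

lemma PosX_L1_eq (Y : Fin 33 → ℝ) : 0*F1 Y = PosX_L1 Y := by
  simp only [PosX_L1, F0, F1, F2, F3, F4, F5, F6]; ring

lemma PosX_L2_eq (Y : Fin 33 → ℝ) : 32*F0 Y + 40*F2 Y + (-28)*F4 Y = PosX_L2 Y := by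
  simp only [PosX_L2, F0, F1, F2, F3, F4, F5, F6]; ring

lemma PosX_L3_eq (Y : Fin 33 → ℝ) : 80*F0 Y + (-40)*F3 Y + 15*F4 Y = PosX_L3 Y := by
  simp only [PosX_L3, F0, F1, F2, F3, F4, F5, F6]; ring

lemma PosX_L4_eq (Y : Fin 33 → ℝ) : (-60)*F0 Y + (-28)*F2 Y + 15*F3 Y + 30*F4 Y = PosX_L4 Y := by
  simp only [PosX_L4, F0, F1, F2, F3, F4, F5, F6]; ring

lemma PosX_L5_eq (Y : Fin 33 → ℝ) : 0*F5 Y = PosX_L5 Y := by
  simp only [PosX_L5, F0, F1, F2, F3, F4, F5, F6]; ring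

lemma PosX_L6_eq (Y : Fin 33 → ℝ) : 0*F6 Y = PosX_L6 Y := by
  simp only [PosX_L6, F0, F1, F2, F3, F4, F5, F6]; ring

lemma PosX_R0 (Y : Fin 33 → ℝ) (hY : ∀ i, 0 ≤ Y i) :
    0 ≤ 2*PosX_L2 Y := by
  have key : 2*PosX_L2 Y = 160*Y 0 + 1472*Y 1 + 5152*Y 2 + 8384*Y 3 + 6016*Y 4 + 1280*Y 5 + 160*Y 6 + 2208*Y 7 + 10304*Y 8 + 20960*Y 9 + 18048*Y 10 + 4480*Y 11 + 160*Y 12 + 2592*Y 13 + 14496*Y 14 + 35456*Y 15 + 37344*Y 16 + 12480*Y 17 + 928*Y 18 + 9344*Y 19 + 32224*Y 20 + 44608*Y 21 + 20000*Y 22 + 1888*Y 23 + 12736*Y 24 + 26304*Y 25 + 16192*Y 26 + 1696*Y 27 + 7008*Y 28 + 6528*Y 29 + 640*Y 30 + 1184*Y 31 + 64*Y 32 := by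
    simp only [PosX_L2]; ring
  rw [key]
  have h0 := hY 0
  have h1 := hY 1
  have h2 := hY 2
  have h3 := hY 3
  have h4 := hY 4
  have h5 := hY 5
  have h6 := hY 6
  have h7 := hY 7
  have h8 := hY 8
  have h9 := hY 9
  have h10 := hY 10
  have h11 := hY 11
  have h12 := hY 12
  have h13 := hY 13
  have h14 := hY 14
  have h15 := hY 15
  have h16 := hY 16
  have h17 := hY 17
  have h18 := hY 18
  have h19 := hY 19
  have h20 := hY 20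
  have h21 := hY 21
  have h22 := hY 22
  have h23 := hY 23
  have h24 := hY 24
  have h25 := hY 25
  have h26 := hY 26
  have h27 := hY 27
  have h28 := hY 28
  have h29 := hY 29
  have h30 := hY 30
  have h31 := hY 31
  have h32 := hY 32
  positivity

lemma PosX_R1 (Y : Fin 33 → ℝ) (hY : ∀ i, 0 ≤ Y i) :
    0 ≤ (-2)*PosX_L0 Y + 20*PosX_L2 Y := by
  have key : (-2)*PosX_L0 Y + 20*PosX_L2 Y = 1472*Y 0 + 13120*Y 1 + 44320*Y 2 + 69440*Y 3 + 48000*Y 4 + 9984*Y 5 + 1472*Y 6 + 19680*Y 7 + 88640*Y 8 + 173600*Y 9 + 144000*Y 10 + 34944*Y 11 + 1472*Y 12 + 24480*Y 13 + 136800*Y 14 + 331520*Y 15 + 348000*Y 16 + 120384*Y 17 + 8960*Y 18 + 92480*Y 19 + 323680*Y 20 + 456000*Y 21 + 213600*Y 22 + 19360*Y 23 + 133120*Y 24 + 280800*Y 25 + 179520*Y 26 + 18400*Y 27 + 76800*Y 28 + 73152*Y 29 + 7200*Y 30 + 13152*Y 31 + 672*Y 32 := by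
    simp only [PosX_L0, PosX_L2]; ring
  rw [key]
  have h0 := hY 0
  have h1 := hY 1
  have h2 := hY 2
  have h3 := hY 3
  have h4 := hY 4
  have h5 := hY 5
  have h6 := hY 6
  have h7 := hY 7
  have h8 := hY 8
  have h9 := hY 9
  have h10 := hY 10
  have h11 := hY 11
  have h12 := hY 12
  have h13 := hY 13
  have h14 := hY 14
  have h15 := hY 15
  have h16 := hY 16
  have h17 := hY 17
  have h18 := hY 18
  have h19 := hY 19
  have h20 := hY 20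
  have h21 := hY 21
  have h22 := hY 22
  have h23 := hY 23
  have h24 := hY 24
  have h25 := hY 25
  have h26 := hY 26
  have h27 := hY 27
  have h28 := hY 28
  have h29 := hY 29
  have h30 := hY 30
  have h31 := hY 31
  have h32 := hY 32
  positivity

lemma PosX_R2 (Y : Fin 33 → ℝ) (hY : ∀ i, 0 ≤ Y i) :
    0 ≤ (-16)*PosX_L0 Y + 80*PosX_L2 Y + 4*PosX_L4 Y := by
  have key : (-16)*PosX_L0 Y + 80*PosX_L2 Y + 4*PosX_L4 Y = 5152*Y 0 + 44320*Y 1 + 143840*Y 2 + 216400*Y 3 + 145600*Y 4 + 32064*Y 5 + 5152*Y 6 + 66480*Y 7 + 287680*Y 8 + 541000*Y 9 + 436800*Y 10 + 112224*Y 11 + 5152*Y 12 + 88080*Y 13 + 492960*Y 14 + 1189840*Y 15 + 1260720*Y 16 + 466224*Y 17 + 32960*Y 18 + 349120*Y 19 + 1243760*Y 20 + 1793440*Y 21 + 885000*Y 22 + 75680*Y 23 + 530360*Y 24 + 1144320*Y 25 + 761040*Y 26 + 75920*Y 27 + 320400*Y 28 + 312672*Y 29 + 30880*Y 30 + 56232*Y 31 + 2832*Y 32 := by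
    simp only [PosX_L0, PosX_L2, PosX_L4]; ring
  rw [key]
  have h0 := hY 0
  have h1 := hY 1
  have h2 := hY 2
  have h3 := hY 3
  have h4 := hY 4
  have h5 := hY 5
  have h6 := hY 6
  have h7 := hY 7
  have h8 := hY 8
  have h9 := hY 9
  have h10 := hY 10
  have h11 := hY 11
  have h12 := hY 12
  have h13 := hY 13
  have h14 := hY 14
  have h15 := hY 15
  have h16 := hY 16
  have h17 := hY 17
  have h18 := hY 18
  have h19 := hY 19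
  have h20 := hY 20
  have h21 := hY 21
  have h22 := hY 22
  have h23 := hY 23
  have h24 := hY 24
  have h25 := hY 25
  have h26 := hY 26
  have h27 := hY 27
  have h28 := hY 28
  have h29 := hY 29
  have h30 := hY 30
  have h31 := hY 31
  have h32 := hY 32
  positivity

lemma PosX_R3 (Y : Fin 33 → ℝ) (hY : ∀ i, 0 ≤ Y i) :
    0 ≤ (-48)*PosX_L0 Y + 160*PosX_L2 Y + (-4)*PosX_L3 Y + 24*PosX_L4 Y := by
  have key : (-48)*PosX_L0 Y + 160*PosX_L2 Y + (-4)*PosX_L3 Y + 24*PosX_L4 Y = 8384*Y 0 + 69440*Y 1 + 216400*Y 2 + 315840*Y 3 + 217920*Y 4 + 60928*Y 5 + 8384*Y 6 + 104160*Y 7 + 432800*Y 8 + 789600*Y 9 + 653760*Y 10 + 213248*Y 11 + 8384*Y 12 + 147360*Y 13 + 829680*Y 14 + 2016480*Y 15 + 2209680*Y 16 + 914688*Y 17 + 56320*Y 18 + 613280*Y 19 + 2235120*Y 20 + 3329760*Y 21 + 1753600*Y 22 + 137680*Y 23 + 983760*Y 24 + 2178000*Y 25 + 1513760*Y 26 + 145680*Y 27 + 622080*Y 28 +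 623664*Y 29 + 61680*Y 30 + 112624*Y 31 + 5744*Y 32 := by
    simp only [PosX_L0, PosX_L2, PosX_L3, PosX_L4]; ring
  rw [key]
  have h0 := hY 0
  have h1 := hY 1
  have h2 := hY 2
  have h3 := hY 3
  have h4 := hY 4
  have h5 := hY 5
  have h6 := hY 6
  have h7 := hY 7
  have h8 := hY 8
  have h9 := hY 9
  have h10 := hY 10
  have h11 := hY 11
  have h12 := hY 12
  have h13 := hY 13
  have h14 := hY 14
  have h15 := hY 15
  have h16 := hY 16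
  have h17 := hY 17
  have h18 := hY 18
  have h19 := hY 19
  have h20 := hY 20
  have h21 := hY 21
  have h22 := hY 22
  have h23 := hY 23
  have h24 := hY 24
  have h25 := hY 25
  have h26 := hY 26
  have h27 := hY 27
  have h28 := hY 28
  have h29 := hY 29
  have h30 := hY 30
  have h31 := hY 31
  have h32 := hY 32
  positivity

lemma PosX_R4 (Y : Fin 33 → ℝ) (hY : ∀ i, 0 ≤ Y i) :
    0 ≤ (-64)*PosX_L0 Y + 4*PosX_L1 Y + 160*PosX_L2 Y + (-16)*PosX_L3 Y + 48*PosX_L4 Y + 8*PosX_L6 Y := by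
  have key : (-64)*PosX_L0 Y + 4*PosX_L1 Y + 160*PosX_L2 Y + (-16)*PosX_L3 Y + 48*PosX_L4 Y + 8*PosX_L6 Y = 6016*Y 0 + 48000*Y 1 + 145600*Y 2 + 217920*Y 3 + 179200*Y 4 + 76032*Y 5 + 6016*Y 6 + 72000*Y 7 + 291200*Y 8 + 544800*Y 9 + 537600*Y 10 + 266112*Y 11 + 6016*Y 12 + 108480*Y 13 + 621120*Y 14 + 1560000*Y 15 + 1858560*Y 16 + 917952*Y 17 + 42240*Y 18 + 475520*Y 19 + 1795200*Y 20 + 2821120*Y 21 + 1629600*Y 22 + 111040*Y 23 + 811680*Y 24 + 1861440*Y 25 + 1371840*Y 26 + 124800*Y 27 + 540480*Y 28 + 561216*Y 29 + 55360*Y 30 + 101856*Y 31 + 5376*Y 32 := by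
    simp only [PosX_L0, PosX_L1, PosX_L2, PosX_L3, PosX_L4, PosX_L6]; ring
  rw [key]
  have h0 := hY 0
  have h1 := hY 1
  have h2 := hY 2
  have h3 := hY 3
  have h4 := hY 4
  have h5 := hY 5
  have h6 := hY 6
  have h7 := hY 7
  have h8 := hY 8
  have h9 := hY 9
  have h10 := hY 10
  have h11 := hY 11
  have h12 := hY 12
  have h13 := hY 13
  have h14 := hY 14
  have h15 := hY 15
  have h16 := hY 16
  have h17 := hY 17
  have h18 := hY 18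
  have h19 := hY 19
  have h20 := hY 20
  have h21 := hY 21
  have h22 := hY 22
  have h23 := hY 23
  have h24 := hY 24
  have h25 := hY 25
  have h26 := hY 26
  have h27 := hY 27
  have h28 := hY 28
  have h29 := hY 29
  have h30 := hY 30
  have h31 := hY 31
  have h32 := hY 32
  positivity

lemma PosX_R5 (Y : Fin 33 → ℝ) (hY : ∀ i, 0 ≤ Y i) :
    0 ≤ (-32)*PosX_L0 Y + 8*PosX_L1 Y + 64*PosX_L2 Y + (-16)*PosX_L3 Y + 32*PosX_L4 Y + (-8)*PosX_L5 Y + 16*PosX_L6 Y := by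
  have key : (-32)*PosX_L0 Y + 8*PosX_L1 Y + 64*PosX_L2 Y + (-16)*PosX_L3 Y + 32*PosX_L4 Y + (-8)*PosX_L5 Y + 16*PosX_L6 Y = 1280*Y 0 + 9984*Y 1 + 32064*Y 2 + 60928*Y 3 + 76032*Y 4 + 46080*Y 5 + 1280*Y 6 + 14976*Y 7 + 64128*Y 8 + 152320*Y 9 + 228096*Y 10 + 161280*Y 11 + 1280*Y 12 + 23424*Y 13 + 142272*Y 14 + 403072*Y 15 + 591168*Y 16 + 380160*Y 17 + 9216*Y 18 + 110208*Y 19 + 452288*Y 20 + 802176*Y 21 + 547200*Y 22 + 27456*Y 23 + 208832*Y 24 + 514368*Y 25 + 422784*Y 26 + 34112*Y 27 + 151296*Y 28 + 167616*Y 29 + 16320*Y 30 + 30528*Y 31 + 1728*Y 32 := by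
    simp only [PosX_L0, PosX_L1, PosX_L2, PosX_L3, PosX_L4, PosX_L5, PosX_L6]; ring
  rw [key]
  have h0 := hY 0
  have h1 := hY 1
  have h2 := hY 2
  have h3 := hY 3
  have h4 := hY 4
  have h5 := hY 5
  have h6 := hY 6
  have h7 := hY 7
  have h8 := hY 8
  have h9 := hY 9
  have h10 := hY 10
  have h11 := hY 11
  have h12 := hY 12
  have h13 := hY 13
  have h14 := hY 14
  have h15 := hY 15
  have h16 := hY 16
  have h17 := hY 17
  have h18 := hY 18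
  have h19 := hY 19
  have h20 := hY 20
  have h21 := hY 21
  have h22 := hY 22
  have h23 := hY 23
  have h24 := hY 24
  have h25 := hY 25
  have h26 := hY 26
  have h27 := hY 27
  have h28 := hY 28
  have h29 := hY 29
  have h30 := hY 30
  have h31 := hY 31
  have h32 := hY 32
  positivity

lemma PosX_R6 (Y : Fin 33 → ℝ) (hY : ∀ i, 0 ≤ Y i) :
    0 ≤ 2*PosX_L2 Y := by
  have key : 2*PosX_L2 Y = 160*Y 0 + 1472*Y 1 + 5152*Y 2 + 8384*Y 3 + 6016*Y 4 + 1280*Y 5 + 160*Y 6 + 2208*Y 7 + 10304*Y 8 + 20960*Y 9 + 18048*Y 10 + 4480*Y 11 + 160*Y 12 + 2592*Y 13 + 14496*Y 14 + 35456*Y 15 + 37344*Y 16 + 12480*Y 17 + 928*Y 18 + 9344*Y 19 + 32224*Y 20 + 44608*Y 21 + 20000*Y 22 + 1888*Y 23 + 12736*Y 24 + 26304*Y 25 + 16192*Y 26 + 1696*Y 27 + 7008*Y 28 + 6528*Y 29 + 640*Y 30 + 1184*Y 31 + 64*Y 32 := by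
    simp only [PosX_L2]; ring
  rw [key]
  have h0 := hY 0
  have h1 := hY 1
  have h2 := hY 2
  have h3 := hY 3
  have h4 := hY 4
  have h5 := hY 5
  have h6 := hY 6
  have h7 := hY 7
  have h8 := hY 8
  have h9 := hY 9
  have h10 := hY 10
  have h11 := hY 11
  have h12 := hY 12
  have h13 := hY 13
  have h14 := hY 14
  have h15 := hY 15
  have h16 := hY 16
  have h17 := hY 17
  have h18 := hY 18
  have h19 := hY 19
  have h20 := hY 20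
  have h21 := hY 21
  have h22 := hY 22
  have h23 := hY 23
  have h24 := hY 24
  have h25 := hY 25
  have h26 := hY 26
  have h27 := hY 27
  have h28 := hY 28
  have h29 := hY 29
  have h30 := hY 30
  have h31 := hY 31
  have h32 := hY 32
  positivity

lemma PosX_R7 (Y : Fin 33 → ℝ) (hY : ∀ i, 0 ≤ Y i) :
    0 ≤ (-3)*PosX_L0 Y + 30*PosX_L2 Y := by
  have key : (-3)*PosX_L0 Y + 30*PosX_L2 Y = 2208*Y 0 + 19680*Y 1 + 66480*Y 2 + 104160*Y 3 + 72000*Y 4 + 14976*Y 5 + 2208*Y 6 + 29520*Y 7 + 132960*Y 8 + 260400*Y 9 + 216000*Y 10 + 52416*Y 11 + 2208*Y 12 + 36720*Y 13 + 205200*Y 14 + 497280*Y 15 + 522000*Y 16 + 180576*Y 17 + 13440*Y 18 + 138720*Y 19 + 485520*Y 20 + 684000*Y 21 + 320400*Y 22 + 29040*Y 23 + 199680*Y 24 + 421200*Y 25 + 269280*Y 26 + 27600*Y 27 + 115200*Y 28 + 109728*Y 29 + 10800*Y 30 + 19728*Y 31 + 1008*Y 32 := by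
    simp only [PosX_L0, PosX_L2]; ring
  rw [key]
  have h0 := hY 0
  have h1 := hY 1
  have h2 := hY 2
  have h3 := hY 3
  have h4 := hY 4
  have h5 := hY 5
  have h6 := hY 6
  have h7 := hY 7
  have h8 := hY 8
  have h9 := hY 9
  have h10 := hY 10
  have h11 := hY 11
  have h12 := hY 12
  have h13 := hY 13
  have h14 := hY 14
  have h15 := hY 15
  have h16 := hY 16
  have h17 := hY 17
  have h18 := hY 18
  have h19 := hY 19
  have h20 := hY 20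
  have h21 := hY 21
  have h22 := hY 22
  have h23 := hY 23
  have h24 := hY 24
  have h25 := hY 25
  have h26 := hY 26
  have h27 := hY 27
  have h28 := hY 28
  have h29 := hY 29
  have h30 := hY 30
  have h31 := hY 31
  have h32 := hY 32
  positivity

lemma PosX_R8 (Y : Fin 33 → ℝ) (hY : ∀ i, 0 ≤ Y i) :
    0 ≤ (-32)*PosX_L0 Y + 160*PosX_L2 Y + 8*PosX_L4 Y := by
  have key : (-32)*PosX_L0 Y + 160*PosX_L2 Y + 8*PosX_L4 Y = 10304*Y 0 + 88640*Y 1 + 287680*Y 2 + 432800*Y 3 + 291200*Y 4 + 64128*Y 5 + 10304*Y 6 + 132960*Y 7 + 575360*Y 8 + 1082000*Y 9 + 873600*Y 10 + 224448*Y 11 + 10304*Y 12 + 176160*Y 13 + 985920*Y 14 + 2379680*Y 15 + 2521440*Y 16 + 932448*Y 17 + 65920*Y 18 + 698240*Y 19 + 2487520*Y 20 + 3586880*Y 21 + 1770000*Y 22 + 151360*Y 23 + 1060720*Y 24 + 2288640*Y 25 + 1522080*Y 26 + 151840*Y 27 + 640800*Y 28 + 625344*Y 29 + 61760*Y 30 + 112464*Y 31 + 5664*Y 32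 := by
    simp only [PosX_L0, PosX_L2, PosX_L4]; ring
  rw [key]
  have h0 := hY 0
  have h1 := hY 1
  have h2 := hY 2
  have h3 := hY 3
  have h4 := hY 4
  have h5 := hY 5
  have h6 := hY 6
  have h7 := hY 7
  have h8 := hY 8
  have h9 := hY 9
  have h10 := hY 10
  have h11 := hY 11
  have h12 := hY 12
  have h13 := hY 13
  have h14 := hY 14
  have h15 := hY 15
  have h16 := hY 16
  have h17 := hY 17
  have h18 := hY 18
  have h19 := hY 19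
  have h20 := hY 20
  have h21 := hY 21
  have h22 := hY 22
  have h23 := hY 23
  have h24 := hY 24
  have h25 := hY 25
  have h26 := hY 26
  have h27 := hY 27
  have h28 := hY 28
  have h29 := hY 29
  have h30 := hY 30
  have h31 := hY 31
  have h32 := hY 32
  positivity

lemma PosX_R9 (Y : Fin 33 → ℝ) (hY : ∀ i, 0 ≤ Y i) :
    0 ≤ (-120)*PosX_L0 Y + 400*PosX_L2 Y + (-10)*PosX_L3 Y + 60*PosX_L4 Y := by
  have key : (-120)*PosX_L0 Y + 400*PosX_L2 Y + (-10)*PosX_L3 Y + 60*PosX_L4 Y = 20960*Y 0 + 173600*Y 1 + 541000*Y 2 + 789600*Y 3 + 544800*Y 4 + 152320*Y 5 + 20960*Y 6 + 260400*Y 7 + 1082000*Y 8 + 1974000*Y 9 + 1634400*Y 10 + 533120*Y 11 + 20960*Y 12 + 368400*Y 13 + 2074200*Y 14 + 5041200*Y 15 + 5524200*Y 16 + 2286720*Y 17 + 140800*Y 18 + 1533200*Y 19 + 5587800*Y 20 + 8324400*Y 21 + 4384000*Y 22 + 344200*Y 23 + 2459400*Y 24 + 5445000*Y 25 + 3784400*Y 26 + 364200*Y 27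 + 1555200*Y 28 + 1559160*Y 29 + 154200*Y 30 + 281560*Y 31 + 14360*Y 32 := by
    simp only [PosX_L0, PosX_L2, PosX_L3, PosX_L4]; ring
  rw [key]
  have h0 := hY 0
  have h1 := hY 1
  have h2 := hY 2
  have h3 := hY 3
  have h4 := hY 4
  have h5 := hY 5
  have h6 := hY 6
  have h7 := hY 7
  have h8 := hY 8
  have h9 := hY 9
  have h10 := hY 10
  have h11 := hY 11
  have h12 := hY 12
  have h13 := hY 13
  have h14 := hY 14
  have h15 := hY 15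
  have h16 := hY 16
  have h17 := hY 17
  have h18 := hY 18
  have h19 := hY 19
  have h20 := hY 20
  have h21 := hY 21
  have h22 := hY 22
  have h23 := hY 23
  have h24 := hY 24
  have h25 := hY 25
  have h26 := hY 26
  have h27 := hY 27
  have h28 := hY 28
  have h29 := hY 29
  have h30 := hY 30
  have h31 := hY 31
  have h32 := hY 32
  positivity

lemma PosX_R10 (Y : Fin 33 → ℝ) (hY : ∀ i, 0 ≤ Y i) :
    0 ≤ (-192)*PosX_L0 Y + 12*PosX_L1 Y + 480*PosX_L2 Y + (-48)*PosX_L3 Y + 144*PosX_L4 Y + 24*PosX_L6 Y := by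
  have key : (-192)*PosX_L0 Y + 12*PosX_L1 Y + 480*PosX_L2 Y + (-48)*PosX_L3 Y + 144*PosX_L4 Y + 24*PosX_L6 Y = 18048*Y 0 + 144000*Y 1 + 436800*Y 2 + 653760*Y 3 + 537600*Y 4 + 228096*Y 5 + 18048*Y 6 + 216000*Y 7 + 873600*Y 8 + 1634400*Y 9 + 1612800*Y 10 + 798336*Y 11 + 18048*Y 12 + 325440*Y 13 + 1863360*Y 14 + 4680000*Y 15 + 5575680*Y 16 + 2753856*Y 17 + 126720*Y 18 + 1426560*Y 19 + 5385600*Y 20 + 8463360*Y 21 + 4888800*Y 22 + 333120*Y 23 + 2435040*Y 24 + 5584320*Y 25 + 4115520*Y 26 + 374400*Y 27 + 1621440*Y 28 + 1683648*Y 29 + 166080*Y 30 + 305568*Y 31 + 16128*Y 32 := by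
    simp only [PosX_L0, PosX_L1, PosX_L2, PosX_L3, PosX_L4, PosX_L6]; ring
  rw [key]
  have h0 := hY 0
  have h1 := hY 1
  have h2 := hY 2
  have h3 := hY 3
  have h4 := hY 4
  have h5 := hY 5
  have h6 := hY 6
  have h7 := hY 7
  have h8 := hY 8
  have h9 := hY 9
  have h10 := hY 10
  have h11 := hY 11
  have h12 := hY 12
  have h13 := hY 13
  have h14 := hY 14
  have h15 := hY 15
  have h16 := hY 16
  have h17 := hY 17
  have h18 := hY 18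
  have h19 := hY 19
  have h20 := hY 20
  have h21 := hY 21
  have h22 := hY 22
  have h23 := hY 23
  have h24 := hY 24
  have h25 := hY 25
  have h26 := hY 26
  have h27 := hY 27
  have h28 := hY 28
  have h29 := hY 29
  have h30 := hY 30
  have h31 := hY 31
  have h32 := hY 32
  positivity

lemma PosX_R11 (Y : Fin 33 → ℝ) (hY : ∀ i, 0 ≤ Y i) :
    0 ≤ (-112)*PosX_L0 Y + 28*PosX_L1 Y + 224*PosX_L2 Y + (-56)*PosX_L3 Y + 112*PosX_L4 Y + (-28)*PosX_L5 Y + 56*PosX_L6 Y := by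
  have key : (-112)*PosX_L0 Y + 28*PosX_L1 Y + 224*PosX_L2 Y + (-56)*PosX_L3 Y + 112*PosX_L4 Y + (-28)*PosX_L5 Y + 56*PosX_L6 Y = 4480*Y 0 + 34944*Y 1 + 112224*Y 2 + 213248*Y 3 + 266112*Y 4 + 161280*Y 5 + 4480*Y 6 + 52416*Y 7 + 224448*Y 8 + 533120*Y 9 + 798336*Y 10 + 564480*Y 11 + 4480*Y 12 + 81984*Y 13 + 497952*Y 14 + 1410752*Y 15 + 2069088*Y 16 + 1330560*Y 17 + 32256*Y 18 + 385728*Y 19 + 1583008*Y 20 + 2807616*Y 21 + 1915200*Y 22 + 96096*Y 23 + 730912*Y 24 + 1800288*Y 25 + 1479744*Y 26 + 119392*Y 27 + 529536*Y 28 + 586656*Y 29 + 57120*Y 30 + 106848*Y 31 + 6048*Y 32 := by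
    simp only [PosX_L0, PosX_L1, PosX_L2, PosX_L3, PosX_L4, PosX_L5, PosX_L6]; ring
  rw [key]
  have h0 := hY 0
  have h1 := hY 1
  have h2 := hY 2
  have h3 := hY 3
  have h4 := hY 4
  have h5 := hY 5
  have h6 := hY 6
  have h7 := hY 7
  have h8 := hY 8
  have h9 := hY 9
  have h10 := hY 10
  have h11 := hY 11
  have h12 := hY 12
  have h13 := hY 13
  have h14 := hY 14
  have h15 := hY 15
  have h16 := hY 16
  have h17 := hY 17
  have h18 := hY 18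
  have h19 := hY 19
  have h20 := hY 20
  have h21 := hY 21
  have h22 := hY 22
  have h23 := hY 23
  have h24 := hY 24
  have h25 := hY 25
  have h26 := hY 26
  have h27 := hY 27
  have h28 := hY 28
  have h29 := hY 29
  have h30 := hY 30
  have h31 := hY 31
  have h32 := hY 32
  positivity

lemma PosX_R12 (Y : Fin 33 → ℝ) (hY : ∀ i, 0 ≤ Y i) :
    0 ≤ 2*PosX_L2 Y := by
  have key : 2*PosX_L2 Y = 160*Y 0 + 1472*Y 1 + 5152*Y 2 + 8384*Y 3 + 6016*Y 4 + 1280*Y 5 + 160*Y 6 + 2208*Y 7 + 10304*Y 8 + 20960*Y 9 + 18048*Y 10 + 4480*Y 11 + 160*Y 12 + 2592*Y 13 + 14496*Y 14 + 35456*Y 15 + 37344*Y 16 + 12480*Y 17 + 928*Y 18 + 9344*Y 19 + 32224*Y 20 + 44608*Y 21 + 20000*Y 22 + 1888*Y 23 + 12736*Y 24 + 26304*Y 25 + 16192*Y 26 + 1696*Y 27 + 7008*Y 28 + 6528*Y 29 + 640*Y 30 + 1184*Y 31 + 64*Y 32 := by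
    simp only [PosX_L2]; ring
  rw [key]
  have h0 := hY 0
  have h1 := hY 1
  have h2 := hY 2
  have h3 := hY 3
  have h4 := hY 4
  have h5 := hY 5
  have h6 := hY 6
  have h7 := hY 7
  have h8 := hY 8
  have h9 := hY 9
  have h10 := hY 10
  have h11 := hY 11
  have h12 := hY 12
  have h13 := hY 13
  have h14 := hY 14
  have h15 := hY 15
  have h16 := hY 16
  have h17 := hY 17
  have h18 := hY 18
  have h19 := hY 19
  have h20 := hY 20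
  have h21 := hY 21
  have h22 := hY 22
  have h23 := hY 23
  have h24 := hY 24
  have h25 := hY 25
  have h26 := hY 26
  have h27 := hY 27
  have h28 := hY 28
  have h29 := hY 29
  have h30 := hY 30
  have h31 := hY 31
  have h32 := hY 32
  positivity

lemma PosX_R13 (Y : Fin 33 → ℝ) (hY : ∀ i, 0 ≤ Y i) :
    0 ≤ 3*PosX_L0 Y + 30*PosX_L2 Y := by
  have key : 3*PosX_L0 Y + 30*PosX_L2 Y = 2592*Y 0 + 24480*Y 1 + 88080*Y 2 + 147360*Y 3 + 108480*Y 4 + 23424*Y 5 + 2592*Y 6 + 36720*Y 7 + 176160*Y 8 + 368400*Y 9 + 325440*Y 10 + 81984*Y 11 + 2592*Y 12 + 41040*Y 13 + 229680*Y 14 + 566400*Y 15 + 598320*Y 16 + 193824*Y 17 + 14400*Y 18 + 141600*Y 19 + 481200*Y 20 + 654240*Y 21 + 279600*Y 22 + 27600*Y 23 + 182400*Y 24 + 367920*Y 25 + 216480*Y 26 + 23280*Y 27 + 95040*Y 28 + 86112*Y 29 + 8400*Y 30 + 15792*Y 31 + 912*Y 32 := by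
    simp only [PosX_L0, PosX_L2]; ring
  rw [key]
  have h0 := hY 0
  have h1 := hY 1
  have h2 := hY 2
  have h3 := hY 3
  have h4 := hY 4
  have h5 := hY 5
  have h6 := hY 6
  have h7 := hY 7
  have h8 := hY 8
  have h9 := hY 9
  have h10 := hY 10
  have h11 := hY 11
  have h12 := hY 12
  have h13 := hY 13
  have h14 := hY 14
  have h15 := hY 15
  have h16 := hY 16
  have h17 := hY 17
  have h18 := hY 18
  have h19 := hY 19
  have h20 := hY 20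
  have h21 := hY 21
  have h22 := hY 22
  have h23 := hY 23
  have h24 := hY 24
  have h25 := hY 25
  have h26 := hY 26
  have h27 := hY 27
  have h28 := hY 28
  have h29 := hY 29
  have h30 := hY 30
  have h31 := hY 31
  have h32 := hY 32
  positivity

lemma PosX_R14 (Y : Fin 33 → ℝ) (hY : ∀ i, 0 ≤ Y i) :
    0 ≤ 12*PosX_L0 Y + 180*PosX_L2 Y + 12*PosX_L4 Y := by
  have key : 12*PosX_L0 Y + 180*PosX_L2 Y + 12*PosX_L4 Y = 14496*Y 0 + 136800*Y 1 + 492960*Y 2 + 829680*Y 3 + 621120*Y 4 + 142272*Y 5 + 14496*Y 6 + 205200*Y 7 + 985920*Y 8 + 2074200*Y 9 + 1863360*Y 10 + 497952*Y 11 + 14496*Y 12 + 229680*Y 13 + 1288800*Y 14 + 3197040*Y 15 + 3425040*Y 16 + 1156752*Y 17 + 80640*Y 18 + 795840*Y 19 + 2721360*Y 20 + 3744480*Y 21 + 1647000*Y 22 + 156000*Y 23 + 1036200*Y 24 + 2111040*Y 25 + 1269360*Y 26 + 133680*Y 27 + 549360*Y 28 + 506016*Y 29 + 49440*Y 30 + 93816*Y 31 + 5616*Y 32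 := by
    simp only [PosX_L0, PosX_L2, PosX_L4]; ring
  rw [key]
  have h0 := hY 0
  have h1 := hY 1
  have h2 := hY 2
  have h3 := hY 3
  have h4 := hY 4
  have h5 := hY 5
  have h6 := hY 6
  have h7 := hY 7
  have h8 := hY 8
  have h9 := hY 9
  have h10 := hY 10
  have h11 := hY 11
  have h12 := hY 12
  have h13 := hY 13
  have h14 := hY 14
  have h15 := hY 15
  have h16 := hY 16
  have h17 := hY 17
  have h18 := hY 18
  have h19 := hY 19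
  have h20 := hY 20
  have h21 := hY 21
  have h22 := hY 22
  have h23 := hY 23
  have h24 := hY 24
  have h25 := hY 25
  have h26 := hY 26
  have h27 := hY 27
  have h28 := hY 28
  have h29 := hY 29
  have h30 := hY 30
  have h31 := hY 31
  have h32 := hY 32
  positivity

lemma PosX_R15 (Y : Fin 33 → ℝ) (hY : ∀ i, 0 ≤ Y i) :
    0 ≤ (-12)*PosX_L0 Y + 520*PosX_L2 Y + (-4)*PosX_L3 Y + 96*PosX_L4 Y := by
  have key : (-12)*PosX_L0 Y + 520*PosX_L2 Y + (-4)*PosX_L3 Y + 96*PosX_L4 Y = 35456*Y 0 + 331520*Y 1 + 1189840*Y 2 + 2016480*Y 3 + 1560000*Y 4 + 403072*Y 5 + 35456*Y 6 + 497280*Y 7 + 2379680*Y 8 + 5041200*Y 9 + 4680000*Y 10 + 1410752*Y 11 + 35456*Y 12 + 566400*Y 13 + 3197040*Y 14 + 8019840*Y 15 + 8858160*Y 16 + 3282912*Y 17 + 200320*Y 18 + 2007200*Y 19 + 6988560*Y 20 + 9916320*Y 21 + 4680400*Y 22 + 402640*Y 23 + 2719680*Y 24 + 5694480*Y 25 + 3617600*Y 26 + 363120*Y 27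 + 1516320*Y 28 + 1451376*Y 29 + 142320*Y 30 + 272896*Y 31 + 16976*Y 32 := by
    simp only [PosX_L0, PosX_L2, PosX_L3, PosX_L4]; ring
  rw [key]
  have h0 := hY 0
  have h1 := hY 1
  have h2 := hY 2
  have h3 := hY 3
  have h4 := hY 4
  have h5 := hY 5
  have h6 := hY 6
  have h7 := hY 7
  have h8 := hY 8
  have h9 := hY 9
  have h10 := hY 10
  have h11 := hY 11
  have h12 := hY 12
  have h13 := hY 13
  have h14 := hY 14
  have h15 := hY 15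
  have h16 := hY 16
  have h17 := hY 17
  have h18 := hY 18
  have h19 := hY 19
  have h20 := hY 20
  have h21 := hY 21
  have h22 := hY 22
  have h23 := hY 23
  have h24 := hY 24
  have h25 := hY 25
  have h26 := hY 26
  have h27 := hY 27
  have h28 := hY 28
  have h29 := hY 29
  have h30 := hY 30
  have h31 := hY 31
  have h32 := hY 32
  positivity

lemma PosX_R16 (Y : Fin 33 → ℝ) (hY : ∀ i, 0 ≤ Y i) :
    0 ≤ (-96)*PosX_L0 Y + (-3)*PosX_L1 Y + 720*PosX_L2 Y + (-36)*PosX_L3 Y + 252*PosX_L4 Y + 48*PosX_L6 Y := by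
  have key : (-96)*PosX_L0 Y + (-3)*PosX_L1 Y + 720*PosX_L2 Y + (-36)*PosX_L3 Y + 252*PosX_L4 Y + 48*PosX_L6 Y = 37344*Y 0 + 348000*Y 1 + 1260720*Y 2 + 2209680*Y 3 + 1858560*Y 4 + 591168*Y 5 + 37344*Y 6 + 522000*Y 7 + 2521440*Y 8 + 5524200*Y 9 + 5575680*Y 10 + 2069088*Y 11 + 37344*Y 12 + 598320*Y 13 + 3425040*Y 14 + 8858160*Y 15 + 10451520*Y 16 + 4502448*Y 17 + 212160*Y 18 + 2164320*Y 19 + 7763040*Y 20 + 11610240*Y 21 + 6083400*Y 22 + 445680*Y 23 + 3074760*Y 24 + 6699600*Y 25 + 4590960*Y 26 + 427680*Y 27 + 1823760*Y 28 + 1837584*Y 29 + 180240*Y 30 + 352344*Y 31 + 23424*Y 32 := by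
    simp only [PosX_L0, PosX_L1, PosX_L2, PosX_L3, PosX_L4, PosX_L6]; ring
  rw [key]
  have h0 := hY 0
  have h1 := hY 1
  have h2 := hY 2
  have h3 := hY 3
  have h4 := hY 4
  have h5 := hY 5
  have h6 := hY 6
  have h7 := hY 7
  have h8 := hY 8
  have h9 := hY 9
  have h10 := hY 10
  have h11 := hY 11
  have h12 := hY 12
  have h13 := hY 13
  have h14 := hY 14
  have h15 := hY 15
  have h16 := hY 16
  have h17 := hY 17
  have h18 := hY 18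
  have h19 := hY 19
  have h20 := hY 20
  have h21 := hY 21
  have h22 := hY 22
  have h23 := hY 23
  have h24 := hY 24
  have h25 := hY 25
  have h26 := hY 26
  have h27 := hY 27
  have h28 := hY 28
  have h29 := hY 29
  have h30 := hY 30
  have h31 := hY 31
  have h32 := hY 32
  positivity

lemma PosX_R17 (Y : Fin 33 → ℝ) (hY : ∀ i, 0 ≤ Y i) :
    0 ≤ (-96)*PosX_L0 Y + 6*PosX_L1 Y + 384*PosX_L2 Y + (-60)*PosX_L3 Y + 216*PosX_L4 Y + (-36)*PosX_L5 Y + 120*PosX_L6 Y := by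
  have key : (-96)*PosX_L0 Y + 6*PosX_L1 Y + 384*PosX_L2 Y + (-60)*PosX_L3 Y + 216*PosX_L4 Y + (-36)*PosX_L5 Y + 120*PosX_L6 Y = 12480*Y 0 + 120384*Y 1 + 466224*Y 2 + 914688*Y 3 + 917952*Y 4 + 380160*Y 5 + 12480*Y 6 + 180576*Y 7 + 932448*Y 8 + 2286720*Y 9 + 2753856*Y 10 + 1330560*Y 11 + 12480*Y 12 + 193824*Y 13 + 1156752*Y 14 + 3282912*Y 15 + 4502448*Y 16 + 2433600*Y 17 + 66816*Y 18 + 690528*Y 19 + 2637648*Y 20 + 4415136*Y 21 + 2757600*Y 22 + 144816*Y 23 + 1027152*Y 24 + 2411568*Y 25 + 1881504*Y 26 + 150192*Y 27 + 662976*Y 28 + 729936*Y 29 + 70800*Y 30 + 145008*Y 31 + 11088*Y 32 := by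
    simp only [PosX_L0, PosX_L1, PosX_L2, PosX_L3, PosX_L4, PosX_L5, PosX_L6]; ring
  rw [key]
  have h0 := hY 0
  have h1 := hY 1
  have h2 := hY 2
  have h3 := hY 3
  have h4 := hY 4
  have h5 := hY 5
  have h6 := hY 6
  have h7 := hY 7
  have h8 := hY 8
  have h9 := hY 9
  have h10 := hY 10
  have h11 := hY 11
  have h12 := hY 12
  have h13 := hY 13
  have h14 := hY 14
  have h15 := hY 15
  have h16 := hY 16
  have h17 := hY 17
  have h18 := hY 18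
  have h19 := hY 19
  have h20 := hY 20
  have h21 := hY 21
  have h22 := hY 22
  have h23 := hY 23
  have h24 := hY 24
  have h25 := hY 25
  have h26 := hY 26
  have h27 := hY 27
  have h28 := hY 28
  have h29 := hY 29
  have h30 := hY 30
  have h31 := hY 31
  have h32 := hY 32
  positivity

lemma PosX_R18 (Y : Fin 33 → ℝ) (hY : ∀ i, 0 ≤ Y i) :
    0 ≤ 2*PosX_L0 Y + 10*PosX_L2 Y := by
  have key : 2*PosX_L0 Y + 10*PosX_L2 Y = 928*Y 0 + 8960*Y 1 + 32960*Y 2 + 56320*Y 3 + 42240*Y 4 + 9216*Y 5 + 928*Y 6 + 13440*Y 7 + 65920*Y 8 + 140800*Y 9 + 126720*Y 10 + 32256*Y 11 + 928*Y 12 + 14400*Y 13 + 80640*Y 14 + 200320*Y 15 + 212160*Y 16 + 66816*Y 17 + 4960*Y 18 + 47680*Y 19 + 159680*Y 20 + 213120*Y 21 + 86400*Y 22 + 8960*Y 23 + 57920*Y 24 + 113760*Y 25 + 63360*Y 26 + 7040*Y 27 + 28320*Y 28 + 24768*Y 29 + 2400*Y 30 + 4608*Y 31 + 288*Y 32 := by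
    simp only [PosX_L0, PosX_L2]; ring
  rw [key]
  have h0 := hY 0
  have h1 := hY 1
  have h2 := hY 2
  have h3 := hY 3
  have h4 := hY 4
  have h5 := hY 5
  have h6 := hY 6
  have h7 := hY 7
  have h8 := hY 8
  have h9 := hY 9
  have h10 := hY 10
  have h11 := hY 11
  have h12 := hY 12
  have h13 := hY 13
  have h14 := hY 14
  have h15 := hY 15
  have h16 := hY 16
  have h17 := hY 17
  have h18 := hY 18
  have h19 := hY 19
  have h20 := hY 20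
  have h21 := hY 21
  have h22 := hY 22
  have h23 := hY 23
  have h24 := hY 24
  have h25 := hY 25
  have h26 := hY 26
  have h27 := hY 27
  have h28 := hY 28
  have h29 := hY 29
  have h30 := hY 30
  have h31 := hY 31
  have h32 := hY 32
  positivity

lemma PosX_R19 (Y : Fin 33 → ℝ) (hY : ∀ i, 0 ≤ Y i) :
    0 ≤ 28*PosX_L0 Y + 100*PosX_L2 Y + 8*PosX_L4 Y := by
  have key : 28*PosX_L0 Y + 100*PosX_L2 Y + 8*PosX_L4 Y = 9344*Y 0 + 92480*Y 1 + 349120*Y 2 + 613280*Y 3 + 475520*Y 4 + 110208*Y 5 + 9344*Y 6 + 138720*Y 7 + 698240*Y 8 + 1533200*Y 9 + 1426560*Y 10 + 385728*Y 11 + 9344*Y 12 + 141600*Y 13 + 795840*Y 14 + 2007200*Y 15 + 2164320*Y 16 + 690528*Y 17 + 47680*Y 18 + 446720*Y 19 + 1477600*Y 20 + 1951040*Y 21 + 762000*Y 22 + 80320*Y 23 + 505840*Y 24 + 966720*Y 25 + 508320*Y 26 + 57760*Y 27 + 228960*Y 28 + 193344*Y 29 + 18560*Y 30 + 37584*Y 31 + 2784*Y 32 := by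
    simp only [PosX_L0, PosX_L2, PosX_L4]; ring
  rw [key]
  have h0 := hY 0
  have h1 := hY 1
  have h2 := hY 2
  have h3 := hY 3
  have h4 := hY 4
  have h5 := hY 5
  have h6 := hY 6
  have h7 := hY 7
  have h8 := hY 8
  have h9 := hY 9
  have h10 := hY 10
  have h11 := hY 11
  have h12 := hY 12
  have h13 := hY 13
  have h14 := hY 14
  have h15 := hY 15
  have h16 := hY 16
  have h17 := hY 17
  have h18 := hY 18
  have h19 := hY 19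
  have h20 := hY 20
  have h21 := hY 21
  have h22 := hY 22
  have h23 := hY 23
  have h24 := hY 24
  have h25 := hY 25
  have h26 := hY 26
  have h27 := hY 27
  have h28 := hY 28
  have h29 := hY 29
  have h30 := hY 30
  have h31 := hY 31
  have h32 := hY 32
  positivity

lemma PosX_R20 (Y : Fin 33 → ℝ) (hY : ∀ i, 0 ≤ Y i) :
    0 ≤ 102*PosX_L0 Y + 380*PosX_L2 Y + 4*PosX_L3 Y + 84*PosX_L4 Y := by
  have key : 102*PosX_L0 Y + 380*PosX_L2 Y + 4*PosX_L3 Y + 84*PosX_L4 Y = 32224*Y 0 + 323680*Y 1 + 1243760*Y 2 + 2235120*Y 3 + 1795200*Y 4 + 452288*Y 5 + 32224*Y 6 + 485520*Y 7 + 2487520*Y 8 + 5587800*Y 9 + 5385600*Y 10 + 1583008*Y 11 + 32224*Y 12 + 481200*Y 13 + 2721360*Y 14 + 6988560*Y 15 + 7763040*Y 16 + 2637648*Y 17 + 159680*Y 18 + 1477600*Y 19 + 4895040*Y 20 + 6550080*Y 21 + 2636600*Y 22 + 259760*Y 23 + 1620120*Y 24 + 3096720*Y 25 + 1642000*Y 26 + 180480*Y 27 + 719280*Y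 28 + 617904*Y 29 + 59280*Y 30 + 127784*Y 31 + 11104*Y 32 := by
    simp only [PosX_L0, PosX_L2, PosX_L3, PosX_L4]; ring
  rw [key]
  have h0 := hY 0
  have h1 := hY 1
  have h2 := hY 2
  have h3 := hY 3
  have h4 := hY 4
  have h5 := hY 5
  have h6 := hY 6
  have h7 := hY 7
  have h8 := hY 8
  have h9 := hY 9
  have h10 := hY 10
  have h11 := hY 11
  have h12 := hY 12
  have h13 := hY 13
  have h14 := hY 14
  have h15 := hY 15
  have h16 := hY 16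
  have h17 := hY 17
  have h18 := hY 18
  have h19 := hY 19
  have h20 := hY 20
  have h21 := hY 21
  have h22 := hY 22
  have h23 := hY 23
  have h24 := hY 24
  have h25 := hY 25
  have h26 := hY 26
  have h27 := hY 27
  have h28 := hY 28
  have h29 := hY 29
  have h30 := hY 30
  have h31 := hY 31
  have h32 := hY 32
  positivity

lemma PosX_R21 (Y : Fin 33 → ℝ) (hY : ∀ i, 0 ≤ Y i) :
    0 ≤ 128*PosX_L0 Y + (-26)*PosX_L1 Y + 640*PosX_L2 Y + 8*PosX_L3 Y + 264*PosX_L4 Y + 56*PosX_L6 Y := by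
  have key : 128*PosX_L0 Y + (-26)*PosX_L1 Y + 640*PosX_L2 Y + 8*PosX_L3 Y + 264*PosX_L4 Y + 56*PosX_L6 Y = 44608*Y 0 + 456000*Y 1 + 1793440*Y 2 + 3329760*Y 3 + 2821120*Y 4 + 802176*Y 5 + 44608*Y 6 + 684000*Y 7 + 3586880*Y 8 + 8324400*Y 9 + 8463360*Y 10 + 2807616*Y 11 + 44608*Y 12 + 654240*Y 13 + 3744480*Y 14 + 9916320*Y 15 + 11610240*Y 16 + 4415136*Y 17 + 213120*Y 18 + 1951040*Y 19 + 6550080*Y 20 + 9114880*Y 21 + 4018800*Y 22 + 336160*Y 23 + 2091120*Y 24 + 4092000*Y 25 + 2322720*Y 26 + 231360*Y 27 + 945120*Y 28 + 869088*Y 29 + 83680*Y 30 + 195408*Y 31 + 19968*Y 32 := by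
    simp only [PosX_L0, PosX_L1, PosX_L2, PosX_L3, PosX_L4, PosX_L6]; ring
  rw [key]
  have h0 := hY 0
  have h1 := hY 1
  have h2 := hY 2
  have h3 := hY 3
  have h4 := hY 4
  have h5 := hY 5
  have h6 := hY 6
  have h7 := hY 7
  have h8 := hY 8
  have h9 := hY 9
  have h10 := hY 10
  have h11 := hY 11
  have h12 := hY 12
  have h13 := hY 13
  have h14 := hY 14
  have h15 := hY 15
  have h16 := hY 16
  have h17 := hY 17
  have h18 := hY 18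
  have h19 := hY 19
  have h20 := hY 20
  have h21 := hY 21
  have h22 := hY 22
  have h23 := hY 23
  have h24 := hY 24
  have h25 := hY 25
  have h26 := hY 26
  have h27 := hY 27
  have h28 := hY 28
  have h29 := hY 29
  have h30 := hY 30
  have h31 := hY 31
  have h32 := hY 32
  positivity

lemma PosX_R22 (Y : Fin 33 → ℝ) (hY : ∀ i, 0 ≤ Y i) :
    0 ≤ 40*PosX_L0 Y + (-55)*PosX_L1 Y + 400*PosX_L2 Y + (-10)*PosX_L3 Y + 260*PosX_L4 Y + (-20)*PosX_L5 Y + 160*PosX_L6 Y := by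
  have key : 40*PosX_L0 Y + (-55)*PosX_L1 Y + 400*PosX_L2 Y + (-10)*PosX_L3 Y + 260*PosX_L4 Y + (-20)*PosX_L5 Y + 160*PosX_L6 Y = 20000*Y 0 + 213600*Y 1 + 885000*Y 2 + 1753600*Y 3 + 1629600*Y 4 + 547200*Y 5 + 20000*Y 6 + 320400*Y 7 + 1770000*Y 8 + 4384000*Y 9 + 4888800*Y 10 + 1915200*Y 11 + 20000*Y 12 + 279600*Y 13 + 1647000*Y 14 + 4680400*Y 15 + 6083400*Y 16 + 2757600*Y 17 + 86400*Y 18 + 762000*Y 19 + 2636600*Y 20 + 4018800*Y 21 + 2106000*Y 22 + 121800*Y 23 + 740600*Y 24 + 1528200*Y 25 + 1004400*Y 26 + 77000*Y 27 + 333600*Y 28 + 358200*Y 29 + 34200*Y 30 + 95400*Y 31 + 12600*Y 32 := by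
    simp only [PosX_L0, PosX_L1, PosX_L2, PosX_L3, PosX_L4, PosX_L5, PosX_L6]; ring
  rw [key]
  have h0 := hY 0
  have h1 := hY 1
  have h2 := hY 2
  have h3 := hY 3
  have h4 := hY 4
  have h5 := hY 5
  have h6 := hY 6
  have h7 := hY 7
  have h8 := hY 8
  have h9 := hY 9
  have h10 := hY 10
  have h11 := hY 11
  have h12 := hY 12
  have h13 := hY 13
  have h14 := hY 14
  have h15 := hY 15
  have h16 := hY 16
  have h17 := hY 17
  have h18 := hY 18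
  have h19 := hY 19
  have h20 := hY 20
  have h21 := hY 21
  have h22 := hY 22
  have h23 := hY 23
  have h24 := hY 24
  have h25 := hY 25
  have h26 := hY 26
  have h27 := hY 27
  have h28 := hY 28
  have h29 := hY 29
  have h30 := hY 30
  have h31 := hY 31
  have h32 := hY 32
  positivity

lemma PosX_R23 (Y : Fin 33 → ℝ) (hY : ∀ i, 0 ≤ Y i) :
    0 ≤ 8*PosX_L0 Y + 20*PosX_L2 Y + 4*PosX_L4 Y := by
  have key : 8*PosX_L0 Y + 20*PosX_L2 Y + 4*PosX_L4 Y = 1888*Y 0 + 19360*Y 1 + 75680*Y 2 + 137680*Y 3 + 111040*Y 4 + 27456*Y 5 + 1888*Y 6 + 29040*Y 7 + 151360*Y 8 + 344200*Y 9 + 333120*Y 10 + 96096*Y 11 + 1888*Y 12 + 27600*Y 13 + 156000*Y 14 + 402640*Y 15 + 445680*Y 16 + 144816*Y 17 + 8960*Y 18 + 80320*Y 19 + 259760*Y 20 + 336160*Y 21 + 121800*Y 22 + 13280*Y 23 + 79160*Y 24 + 142080*Y 25 + 64080*Y 26 + 7760*Y 27 + 29520*Y 28 + 22368*Y 29 + 2080*Y 30 + 4968*Y 31 + 528*Y 32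 := by
    simp only [PosX_L0, PosX_L2, PosX_L4]; ring
  rw [key]
  have h0 := hY 0
  have h1 := hY 1
  have h2 := hY 2
  have h3 := hY 3
  have h4 := hY 4
  have h5 := hY 5
  have h6 := hY 6
  have h7 := hY 7
  have h8 := hY 8
  have h9 := hY 9
  have h10 := hY 10
  have h11 := hY 11
  have h12 := hY 12
  have h13 := hY 13
  have h14 := hY 14
  have h15 := hY 15
  have h16 := hY 16
  have h17 := hY 17
  have h18 := hY 18
  have h19 := hY 19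
  have h20 := hY 20
  have h21 := hY 21
  have h22 := hY 22
  have h23 := hY 23
  have h24 := hY 24
  have h25 := hY 25
  have h26 := hY 26
  have h27 := hY 27
  have h28 := hY 28
  have h29 := hY 29
  have h30 := hY 30
  have h31 := hY 31
  have h32 := hY 32
  positivity

lemma PosX_R24 (Y : Fin 33 → ℝ) (hY : ∀ i, 0 ≤ Y i) :
    0 ≤ 66*PosX_L0 Y + 140*PosX_L2 Y + 10*PosX_L3 Y + 48*PosX_L4 Y := by
  have key : 66*PosX_L0 Y + 140*PosX_L2 Y + 10*PosX_L3 Y + 48*PosX_L4 Y = 12736*Y 0 + 133120*Y 1 + 530360*Y 2 + 983760*Y 3 + 811680*Y 4 + 208832*Y 5 + 12736*Y 6 + 199680*Y 7 + 1060720*Y 8 + 2459400*Y 9 + 2435040*Y 10 + 730912*Y 11 + 12736*Y 12 + 182400*Y 13 + 1036200*Y 14 + 2719680*Y 15 + 3074760*Y 16 + 1027152*Y 17 + 57920*Y 18 + 505840*Y 19 + 1620120*Y 20 + 2091120*Y 21 + 740600*Y 22 + 79160*Y 23 + 455520*Y 24 + 788760*Y 25 + 321760*Y 26 + 39720*Y 27 + 149040*Y 28 + 107496*Y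 29 + 9960*Y 30 + 29696*Y 31 + 4216*Y 32 := by
    simp only [PosX_L0, PosX_L2, PosX_L3, PosX_L4]; ring
  rw [key]
  have h0 := hY 0
  have h1 := hY 1
  have h2 := hY 2
  have h3 := hY 3
  have h4 := hY 4
  have h5 := hY 5
  have h6 := hY 6
  have h7 := hY 7
  have h8 := hY 8
  have h9 := hY 9
  have h10 := hY 10
  have h11 := hY 11
  have h12 := hY 12
  have h13 := hY 13
  have h14 := hY 14
  have h15 := hY 15
  have h16 := hY 16
  have h17 := hY 17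
  have h18 := hY 18
  have h19 := hY 19
  have h20 := hY 20
  have h21 := hY 21
  have h22 := hY 22
  have h23 := hY 23
  have h24 := hY 24
  have h25 := hY 25
  have h26 := hY 26
  have h27 := hY 27
  have h28 := hY 28
  have h29 := hY 29
  have h30 := hY 30
  have h31 := hY 31
  have h32 := hY 32
  positivity

lemma PosX_R25 (Y : Fin 33 → ℝ) (hY : ∀ i, 0 ≤ Y i) :
    0 ≤ 156*PosX_L0 Y + (-3)*PosX_L1 Y + 330*PosX_L2 Y + 48*PosX_L3 Y + 180*PosX_L4 Y + 48*PosX_L6 Y := by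
  have key : 156*PosX_L0 Y + (-3)*PosX_L1 Y + 330*PosX_L2 Y + 48*PosX_L3 Y + 180*PosX_L4 Y + 48*PosX_L6 Y = 26304*Y 0 + 280800*Y 1 + 1144320*Y 2 + 2178000*Y 3 + 1861440*Y 4 + 514368*Y 5 + 26304*Y 6 + 421200*Y 7 + 2288640*Y 8 + 5445000*Y 9 + 5584320*Y 10 + 1800288*Y 11 + 26304*Y 12 + 367920*Y 13 + 2111040*Y 14 + 5694480*Y 15 + 6699600*Y 16 + 2411568*Y 17 + 113760*Y 18 + 966720*Y 19 + 3096720*Y 20 + 4092000*Y 21 + 1528200*Y 22 + 142080*Y 23 + 788760*Y 24 + 1344960*Y 25 + 536400*Y 26 + 59760*Y 27 + 229680*Y 28 + 176544*Y 29 + 16800*Y 30 + 66024*Y 31 + 11664*Y 32 := by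
    simp only [PosX_L0, PosX_L1, PosX_L2, PosX_L3, PosX_L4, PosX_L6]; ring
  rw [key]
  have h0 := hY 0
  have h1 := hY 1
  have h2 := hY 2
  have h3 := hY 3
  have h4 := hY 4
  have h5 := hY 5
  have h6 := hY 6
  have h7 := hY 7
  have h8 := hY 8
  have h9 := hY 9
  have h10 := hY 10
  have h11 := hY 11
  have h12 := hY 12
  have h13 := hY 13
  have h14 := hY 14
  have h15 := hY 15
  have h16 := hY 16
  have h17 := hY 17
  have h18 := hY 18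
  have h19 := hY 19
  have h20 := hY 20
  have h21 := hY 21
  have h22 := hY 22
  have h23 := hY 23
  have h24 := hY 24
  have h25 := hY 25
  have h26 := hY 26
  have h27 := hY 27
  have h28 := hY 28
  have h29 := hY 29
  have h30 := hY 30
  have h31 := hY 31
  have h32 := hY 32
  positivity

lemma PosX_R26 (Y : Fin 33 → ℝ) (hY : ∀ i, 0 ≤ Y i) :
    0 ≤ 110*PosX_L0 Y + (-32)*PosX_L1 Y + 260*PosX_L2 Y + 52*PosX_L3 Y + 208*PosX_L4 Y + 20*PosX_L5 Y + 152*PosX_L6 Y := by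
  have key : 110*PosX_L0 Y + (-32)*PosX_L1 Y + 260*PosX_L2 Y + 52*PosX_L3 Y + 208*PosX_L4 Y + 20*PosX_L5 Y + 152*PosX_L6 Y = 16192*Y 0 + 179520*Y 1 + 761040*Y 2 + 1513760*Y 3 + 1371840*Y 4 + 422784*Y 5 + 16192*Y 6 + 269280*Y 7 + 1522080*Y 8 + 3784400*Y 9 + 4115520*Y 10 + 1479744*Y 11 + 16192*Y 12 + 216480*Y 13 + 1269360*Y 14 + 3617600*Y 15 + 4590960*Y 16 + 1881504*Y 17 + 63360*Y 18 + 508320*Y 19 + 1642000*Y 20 + 2322720*Y 21 + 1004400*Y 22 + 64080*Y 23 + 321760*Y 24 + 536400*Y 25 + 221760*Y 26 + 13360*Y 27 + 60960*Y 28 + 68112*Y 29 + 6960*Y 30 + 47232*Y 31 + 10512*Y 32 := by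
    simp only [PosX_L0, PosX_L1, PosX_L2, PosX_L3, PosX_L4, PosX_L5, PosX_L6]; ring
  rw [key]
  have h0 := hY 0
  have h1 := hY 1
  have h2 := hY 2
  have h3 := hY 3
  have h4 := hY 4
  have h5 := hY 5
  have h6 := hY 6
  have h7 := hY 7
  have h8 := hY 8
  have h9 := hY 9
  have h10 := hY 10
  have h11 := hY 11
  have h12 := hY 12
  have h13 := hY 13
  have h14 := hY 14
  have h15 := hY 15
  have h16 := hY 16
  have h17 := hY 17
  have h18 := hY 18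
  have h19 := hY 19
  have h20 := hY 20
  have h21 := hY 21
  have h22 := hY 22
  have h23 := hY 23
  have h24 := hY 24
  have h25 := hY 25
  have h26 := hY 26
  have h27 := hY 27
  have h28 := hY 28
  have h29 := hY 29
  have h30 := hY 30
  have h31 := hY 31
  have h32 := hY 32
  positivity

lemma PosX_R27 (Y : Fin 33 → ℝ) (hY : ∀ i, 0 ≤ Y i) :
    0 ≤ 12*PosX_L0 Y + 20*PosX_L2 Y + 4*PosX_L3 Y + 12*PosX_L4 Y := by
  have key : 12*PosX_L0 Y + 20*PosX_L2 Y + 4*PosX_L3 Y + 12*PosX_L4 Y = 1696*Y 0 + 18400*Y 1 + 75920*Y 2 + 145680*Y 3 + 124800*Y 4 + 34112*Y 5 + 1696*Y 6 + 27600*Y 7 + 151840*Y 8 + 364200*Y 9 + 374400*Y 10 + 119392*Y 11 + 1696*Y 12 + 23280*Y 13 + 133680*Y 14 + 363120*Y 15 + 427680*Y 16 + 150192*Y 17 + 7040*Y 18 + 57760*Y 19 + 180480*Y 20 + 231360*Y 21 + 77000*Y 22 + 7760*Y 23 + 39720*Y 24 + 59760*Y 25 + 13360*Y 26 + 1920*Y 27 + 6480*Y 28 + 2736*Y 29 + 240*Y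 30 + 2936*Y 31 + 736*Y 32 := by
    simp only [PosX_L0, PosX_L2, PosX_L3, PosX_L4]; ring
  rw [key]
  have h0 := hY 0
  have h1 := hY 1
  have h2 := hY 2
  have h3 := hY 3
  have h4 := hY 4
  have h5 := hY 5
  have h6 := hY 6
  have h7 := hY 7
  have h8 := hY 8
  have h9 := hY 9
  have h10 := hY 10
  have h11 := hY 11
  have h12 := hY 12
  have h13 := hY 13
  have h14 := hY 14
  have h15 := hY 15
  have h16 := hY 16
  have h17 := hY 17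
  have h18 := hY 18
  have h19 := hY 19
  have h20 := hY 20
  have h21 := hY 21
  have h22 := hY 22
  have h23 := hY 23
  have h24 := hY 24
  have h25 := hY 25
  have h26 := hY 26
  have h27 := hY 27
  have h28 := hY 28
  have h29 := hY 29
  have h30 := hY 30
  have h31 := hY 31
  have h32 := hY 32
  positivity

lemma PosX_R28 (Y : Fin 33 → ℝ) (hY : ∀ i, 0 ≤ Y i) :
    0 ≤ 60*PosX_L0 Y + 12*PosX_L1 Y + 90*PosX_L2 Y + 36*PosX_L3 Y + 72*PosX_L4 Y + 24*PosX_L6 Y := by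
  have key : 60*PosX_L0 Y + 12*PosX_L1 Y + 90*PosX_L2 Y + 36*PosX_L3 Y + 72*PosX_L4 Y + 24*PosX_L6 Y = 7008*Y 0 + 76800*Y 1 + 320400*Y 2 + 622080*Y 3 + 540480*Y 4 + 151296*Y 5 + 7008*Y 6 + 115200*Y 7 + 640800*Y 8 + 1555200*Y 9 + 1621440*Y 10 + 529536*Y 11 + 7008*Y 12 + 95040*Y 13 + 549360*Y 14 + 1516320*Y 15 + 1823760*Y 16 + 662976*Y 17 + 28320*Y 18 + 228960*Y 19 + 719280*Y 20 + 945120*Y 21 + 333600*Y 22 + 29520*Y 23 + 149040*Y 24 + 229680*Y 25 + 60960*Y 26 + 6480*Y 27 + 27360*Y 28 + 22608*Y 29 + 2640*Y 30 + 19248*Y 31 + 4368*Y 32 := by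
    simp only [PosX_L0, PosX_L1, PosX_L2, PosX_L3, PosX_L4, PosX_L6]; ring
  rw [key]
  have h0 := hY 0
  have h1 := hY 1
  have h2 := hY 2
  have h3 := hY 3
  have h4 := hY 4
  have h5 := hY 5
  have h6 := hY 6
  have h7 := hY 7
  have h8 := hY 8
  have h9 := hY 9
  have h10 := hY 10
  have h11 := hY 11
  have h12 := hY 12
  have h13 := hY 13
  have h14 := hY 14
  have h15 := hY 15
  have h16 := hY 16
  have h17 := hY 17
  have h18 := hY 18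
  have h19 := hY 19
  have h20 := hY 20
  have h21 := hY 21
  have h22 := hY 22
  have h23 := hY 23
  have h24 := hY 24
  have h25 := hY 25
  have h26 := hY 26
  have h27 := hY 27
  have h28 := hY 28
  have h29 := hY 29
  have h30 := hY 30
  have h31 := hY 31
  have h32 := hY 32
  positivity

lemma PosX_R29 (Y : Fin 33 → ℝ) (hY : ∀ i, 0 ≤ Y i) :
    0 ≤ 69*PosX_L0 Y + 21*PosX_L1 Y + 102*PosX_L2 Y + 60*PosX_L3 Y + 108*PosX_L4 Y + 36*PosX_L5 Y + 96*PosX_L6 Y := by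
  have key : 69*PosX_L0 Y + 21*PosX_L1 Y + 102*PosX_L2 Y + 60*PosX_L3 Y + 108*PosX_L4 Y + 36*PosX_L5 Y + 96*PosX_L6 Y = 6528*Y 0 + 73152*Y 1 + 312672*Y 2 + 623664*Y 3 + 561216*Y 4 + 167616*Y 5 + 6528*Y 6 + 109728*Y 7 + 625344*Y 8 + 1559160*Y 9 + 1683648*Y 10 + 586656*Y 11 + 6528*Y 12 + 86112*Y 13 + 506016*Y 14 + 1451376*Y 15 + 1837584*Y 16 + 729936*Y 17 + 24768*Y 18 + 193344*Y 19 + 617904*Y 20 + 869088*Y 21 + 358200*Y 22 + 22368*Y 23 + 107496*Y 24 + 176544*Y 25 + 68112*Y 26 + 2736*Y 27 + 22608*Y 28 + 37296*Y 29 + 4800*Y 30 + 28872*Y 31 + 6192*Y 32 := by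
    simp only [PosX_L0, PosX_L1, PosX_L2, PosX_L3, PosX_L4, PosX_L5, PosX_L6]; ring
  rw [key]
  have h0 := hY 0
  have h1 := hY 1
  have h2 := hY 2
  have h3 := hY 3
  have h4 := hY 4
  have h5 := hY 5
  have h6 := hY 6
  have h7 := hY 7
  have h8 := hY 8
  have h9 := hY 9
  have h10 := hY 10
  have h11 := hY 11
  have h12 := hY 12
  have h13 := hY 13
  have h14 := hY 14
  have h15 := hY 15
  have h16 := hY 16
  have h17 := hY 17
  have h18 := hY 18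
  have h19 := hY 19
  have h20 := hY 20
  have h21 := hY 21
  have h22 := hY 22
  have h23 := hY 23
  have h24 := hY 24
  have h25 := hY 25
  have h26 := hY 26
  have h27 := hY 27
  have h28 := hY 28
  have h29 := hY 29
  have h30 := hY 30
  have h31 := hY 31
  have h32 := hY 32
  positivity

lemma PosX_R30 (Y : Fin 33 → ℝ) (hY : ∀ i, 0 ≤ Y i) :
    0 ≤ 8*PosX_L0 Y + 4*PosX_L1 Y + 10*PosX_L2 Y + 8*PosX_L3 Y + 12*PosX_L4 Y + 8*PosX_L6 Y := by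
  have key : 8*PosX_L0 Y + 4*PosX_L1 Y + 10*PosX_L2 Y + 8*PosX_L3 Y + 12*PosX_L4 Y + 8*PosX_L6 Y = 640*Y 0 + 7200*Y 1 + 30880*Y 2 + 61680*Y 3 + 55360*Y 4 + 16320*Y 5 + 640*Y 6 + 10800*Y 7 + 61760*Y 8 + 154200*Y 9 + 166080*Y 10 + 57120*Y 11 + 640*Y 12 + 8400*Y 13 + 49440*Y 14 + 142320*Y 15 + 180240*Y 16 + 70800*Y 17 + 2400*Y 18 + 18560*Y 19 + 59280*Y 20 + 83680*Y 21 + 34200*Y 22 + 2080*Y 23 + 9960*Y 24 + 16800*Y 25 + 6960*Y 26 + 240*Y 27 + 2640*Y 28 + 4800*Y 29 + 640*Y 30 + 3480*Y 31 + 720*Y 32 := by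
    simp only [PosX_L0, PosX_L1, PosX_L2, PosX_L3, PosX_L4, PosX_L6]; ring
  rw [key]
  have h0 := hY 0
  have h1 := hY 1
  have h2 := hY 2
  have h3 := hY 3
  have h4 := hY 4
  have h5 := hY 5
  have h6 := hY 6
  have h7 := hY 7
  have h8 := hY 8
  have h9 := hY 9
  have h10 := hY 10
  have h11 := hY 11
  have h12 := hY 12
  have h13 := hY 13
  have h14 := hY 14
  have h15 := hY 15
  have h16 := hY 16
  have h17 := hY 17
  have h18 := hY 18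
  have h19 := hY 19
  have h20 := hY 20
  have h21 := hY 21
  have h22 := hY 22
  have h23 := hY 23
  have h24 := hY 24
  have h25 := hY 25
  have h26 := hY 26
  have h27 := hY 27
  have h28 := hY 28
  have h29 := hY 29
  have h30 := hY 30
  have h31 := hY 31
  have h32 := hY 32
  positivity

lemma PosX_R31 (Y : Fin 33 → ℝ) (hY : ∀ i, 0 ≤ Y i) :
    0 ≤ 19*PosX_L0 Y + 20*PosX_L1 Y + 22*PosX_L2 Y + 26*PosX_L3 Y + 32*PosX_L4 Y + 28*PosX_L5 Y + 40*PosX_L6 Y := by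
  have key : 19*PosX_L0 Y + 20*PosX_L1 Y + 22*PosX_L2 Y + 26*PosX_L3 Y + 32*PosX_L4 Y + 28*PosX_L5 Y + 40*PosX_L6 Y = 1184*Y 0 + 13152*Y 1 + 56232*Y 2 + 112624*Y 3 + 101856*Y 4 + 30528*Y 5 + 1184*Y 6 + 19728*Y 7 + 112464*Y 8 + 281560*Y 9 + 305568*Y 10 + 106848*Y 11 + 1184*Y 12 + 15792*Y 13 + 93816*Y 14 + 272896*Y 15 + 352344*Y 16 + 145008*Y 17 + 4608*Y 18 + 37584*Y 19 + 127784*Y 20 + 195408*Y 21 + 95400*Y 22 + 4968*Y 23 + 29696*Y 24 + 66024*Y 25 + 47232*Y 26 + 2936*Y 27 + 19248*Y 28 + 28872*Y 29 + 3480*Y 30 + 12528*Y 31 + 2088*Y 32 := by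
    simp only [PosX_L0, PosX_L1, PosX_L2, PosX_L3, PosX_L4, PosX_L5, PosX_L6]; ring
  rw [key]
  have h0 := hY 0
  have h1 := hY 1
  have h2 := hY 2
  have h3 := hY 3
  have h4 := hY 4
  have h5 := hY 5
  have h6 := hY 6
  have h7 := hY 7
  have h8 := hY 8
  have h9 := hY 9
  have h10 := hY 10
  have h11 := hY 11
  have h12 := hY 12
  have h13 := hY 13
  have h14 := hY 14
  have h15 := hY 15
  have h16 := hY 16
  have h17 := hY 17
  have h18 := hY 18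
  have h19 := hY 19
  have h20 := hY 20
  have h21 := hY 21
  have h22 := hY 22
  have h23 := hY 23
  have h24 := hY 24
  have h25 := hY 25
  have h26 := hY 26
  have h27 := hY 27
  have h28 := hY 28
  have h29 := hY 29
  have h30 := hY 30
  have h31 := hY 31
  have h32 := hY 32
  positivity

lemma PosX_R32 (Y : Fin 33 → ℝ) (hY : ∀ i, 0 ≤ Y i) :
    0 ≤ 2*PosX_L0 Y + 4*PosX_L1 Y + 2*PosX_L2 Y + 4*PosX_L3 Y + 4*PosX_L4 Y + 8*PosX_L5 Y + 8*PosX_L6 Y := by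
  have key : 2*PosX_L0 Y + 4*PosX_L1 Y + 2*PosX_L2 Y + 4*PosX_L3 Y + 4*PosX_L4 Y + 8*PosX_L5 Y + 8*PosX_L6 Y = 64*Y 0 + 672*Y 1 + 2832*Y 2 + 5744*Y 3 + 5376*Y 4 + 1728*Y 5 + 64*Y 6 + 1008*Y 7 + 5664*Y 8 + 14360*Y 9 + 16128*Y 10 + 6048*Y 11 + 64*Y 12 + 912*Y 13 + 5616*Y 14 + 16976*Y 15 + 23424*Y 16 + 11088*Y 17 + 288*Y 18 + 2784*Y 19 + 11104*Y 20 + 19968*Y 21 + 12600*Y 22 + 528*Y 23 + 4216*Y 24 + 11664*Y 25 + 10512*Y 26 + 736*Y 27 + 4368*Y 28 + 6192*Y 29 + 720*Y 30 + 2088*Y 31 + 288*Y 32 := by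
    simp only [PosX_L0, PosX_L1, PosX_L2, PosX_L3, PosX_L4, PosX_L5, PosX_L6]; ring
  rw [key]
  have h0 := hY 0
  have h1 := hY 1
  have h2 := hY 2
  have h3 := hY 3
  have h4 := hY 4
  have h5 := hY 5
  have h6 := hY 6
  have h7 := hY 7
  have h8 := hY 8
  have h9 := hY 9
  have h10 := hY 10
  have h11 := hY 11
  have h12 := hY 12
  have h13 := hY 13
  have h14 := hY 14
  have h15 := hY 15
  have h16 := hY 16
  have h17 := hY 17
  have h18 := hY 18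
  have h19 := hY 19
  have h20 := hY 20
  have h21 := hY 21
  have h22 := hY 22
  have h23 := hY 23
  have h24 := hY 24
  have h25 := hY 25
  have h26 := hY 26
  have h27 := hY 27
  have h28 := hY 28
  have h29 := hY 29
  have h30 := hY 30
  have h31 := hY 31
  have h32 := hY 32
  positivity

/-- the certified polynomial -/
noncomputable def PosX (s c S C : ℝ) : ℝ := (-1/2)*(c*C) + (1/5)*(c*S) + (1/5)*(s*C) + (1/4)*(s*S) + (1/2)*(c*S*C) + (-3/8)*(c*S^2) + (-7/40)*(s*S^2) + (1/2)*(s*c*C) + (-3/8)*(s^2*C) + (-7/40)*(s^2*S) + (-1/4)*(s*c*S*C) + (3/32)*(s*c*S^2) + (3/32)*(s^2*S*C) + (3/16)*(s^2*S^2)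

theorem PosX_nonneg' (X Y : Fin 33 → ℝ) (hX : ∀ i, 0 ≤ X i) (hY : ∀ i, 0 ≤ Y i) :
    0 ≤ F0 X * ((-80)*F0 Y + 32*F2 Y + 80*F3 Y + (-60)*F4 Y) + F1 X * (0*F1 Y) + F2 X * (32*F0 Y + 40*F2 Y + (-28)*F4 Y) + F3 X * (80*F0 Y + (-40)*F3 Y + 15*F4 Y) + F4 X * ((-60)*F0 Y + (-28)*F2 Y + 15*F3 Y + 30*F4 Y) + F5 X * (0*F5 Y) + F6 X * (0*F6 Y) := by
  rw [PosX_L0_eq, PosX_L1_eq, PosX_L2_eq, PosX_L3_eq, PosX_L4_eq, PosX_L5_eq, PosX_L6_eq]
  rw [swapT]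

  exact add33 hX
    (PosX_R0 Y hY)
    (PosX_R1 Y hY)
    (PosX_R2 Y hY)
    (PosX_R3 Y hY)
    (PosX_R4 Y hY)
    (PosX_R5 Y hY)
    (PosX_R6 Y hY)
    (PosX_R7 Y hY)
    (PosX_R8 Y hY)
    (PosX_R9 Y hY)
    (PosX_R10 Y hY)
    (PosX_R11 Y hY)
    (PosX_R12 Y hY)
    (PosX_R13 Y hY)
    (PosX_R14 Y hY)
    (PosX_R15 Y hY)
    (PosX_R16 Y hY)
    (PosX_R17 Y hY)
    (PosX_R18 Y hY)
    (PosX_R19 Y hY)
    (PosX_R20 Y hY)
    (PosX_R21 Y hY)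
    (PosX_R22 Y hY)
    (PosX_R23 Y hY)
    (PosX_R24 Y hY)
    (PosX_R25 Y hY)
    (PosX_R26 Y hY)
    (PosX_R27 Y hY)
    (PosX_R28 Y hY)
    (PosX_R29 Y hY)
    (PosX_R30 Y hY)
    (PosX_R31 Y hY)
    (PosX_R32 Y hY)

theorem PosX_nonneg (s c S C : ℝ) (h : Cham s c) (h' : Cham S C) : 0 ≤ PosX s c S C := by
  obtain ⟨X, hX, hs⟩ := h.mono
  obtain ⟨Y, hY, hS⟩ := h'.mono
  have := PosX_nonneg' X Y hX hY
  obtain ⟨a0, a1, a2, a3, a4, a5, a6⟩ := hs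
  obtain ⟨b0, b1, b2, b3, b4, b5, b6⟩ := hS
  rw [← a0, ← a1, ← a2, ← a3, ← a4, ← a5, ← a6, ← b0, ← b1, ← b2, ← b3, ← b4, ← b5, ← b6] at this
  have key : (160 : ℝ) * PosX s c S C = (c) * ((-80)*(C) + 32*(S) + 80*(S*C) + (-60)*(S^2)) + (c^2) * (0*(C^2)) + (s) * (32*(C) + 40*(S) + (-28)*(S^2)) + (s*c) * (80*(C) + (-40)*(S*C) + 15*(S^2)) + (s^2) * ((-60)*(C) + (-28)*(S) + 15*(S*C) + 30*(S^2)) + (s^2*c) * (0*(S^2*C)) + (s^3) * (0*(S^3)) := by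
    simp only [PosX]; ring
  rw [← key] at this
  linarith


end Crest.Agent.R163.Q3
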