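import Mathlib

/-!
Row 163, three states, ferromagnetic case: generated polynomial identities (orbit sums of the
truncated merge functionals in terms of the two invariants of each posterior).
-/

set_option autoImplicit false
set_option linter.unusedSimpArgs false
set_option maxHeartbeats 4000000

namespace Crest.Agent.R163.Q3

/-- second invariant -/
noncomputable def i2 (a b c : ℝ) : ℝ := ((a-1)^2+(b-1)^2+(c-1)^2)/3
/-- third invariant -/
noncomputable def i3 (a b c : ℝ) : ℝ := (a-1)*(b-1)*(c-1)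

/-- sum over the six matchings -/
noncomputable def S6 (Q : ℝ → ℝ → ℝ → ℝ) (a b c x y z : ℝ) : ℝ :=
  Q (a*x) (b*y) (c*z) + Q (a*x) (b*z) (c*y) + Q (a*y) (b*x) (c*z) + Q (a*y) (b*z) (c*x)
    + Q (a*z) (b*x) (c*y) + Q (a*z) (b*y) (c*x)

/-- polynomial lower bound of `ψ` -/
noncomputable def Qi (a b c : ℝ) : ℝ :=
  let Z := (a+b+c)/3;
  let E := a*b+b*c+c*a;
  let v := Z - 1;
  -Z + (2/3)*(3*Z^2-E)*(1-v+v^2*(16/25-(4/25)*v)) + (a*b*c)*(1-2*v+v^2*(5/2-(3/2)*v))
    + (1/9)*E*(3*Z^2-E)*(1-3*v+v^2*(13/4-(6/5)*v))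

/-- polynomial upper bound of `χ²` -/
noncomputable def Qx (a b c : ℝ) : ℝ :=
  let Z := (a+b+c)/3;
  let E := a*b+b*c+c*a;
  let v := Z - 1;
  2*Z - (2/3)*E*(1-v+v^2*(3/4-(1/4)*v))


/-- monomial symmetric polynomial -/
noncomputable def m100 (a b c : ℝ) : ℝ := a + b + c

lemma m100_S6 (a b c x y z : ℝ) : S6 m100 a b c x y z = 2 * (m100 a b c * m100 x y z) := by
  simp only [S6, m100]; ring

lemma m100_sc (a b c : ℝ) (h : a + b + c = 3) : m100 a b c = 3*(1) := by
  obtain rfl : c = 3 - a - b := by linarith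
  simp only [i2, i3, m100]; ring

/-- monomial symmetric polynomial -/
noncomputable def m110 (a b c : ℝ) : ℝ := a*b + a*c + b*c

lemma m110_S6 (a b c x y z : ℝ) : S6 m110 a b c x y z = 2 * (m110 a b c * m110 x y z) := by
  simp only [S6, m110]; ring

lemma m110_sc (a b c : ℝ) (h : a + b + c = 3) : m110 a b c = 3*(1) + (-3/2)*((i2 a b c)) := by
  obtain rfl : c = 3 - a - b := by linarith
  simp only [i2, i3, m110]; ring

/-- monomial symmetric polynomial -/
noncomputable def m200 (a b c : ℝ) : ℝ := a^2 + b^2 + c^2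

lemma m200_S6 (a b c x y z : ℝ) : S6 m200 a b c x y z = 2 * (m200 a b c * m200 x y z) := by
  simp only [S6, m200]; ring

lemma m200_sc (a b c : ℝ) (h : a + b + c = 3) : m200 a b c = 3*(1) + 3*((i2 a b c)) := by
  obtain rfl : c = 3 - a - b := by linarith
  simp only [i2, i3, m200]; ring

/-- monomial symmetric polynomial -/
noncomputable def m111 (a b c : ℝ) : ℝ := a*b*c

lemma m111_S6 (a b c x y z : ℝ) : S6 m111 a b c x y z = 6 * (m111 a b c * m111 x y z) := by
  simp only [S6, m111]; ring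

lemma m111_sc (a b c : ℝ) (h : a + b + c = 3) : m111 a b c = 1*(1) + 1*((i3 a b c)) + (-3/2)*((i2 a b c)) := by
  obtain rfl : c = 3 - a - b := by linarith
  simp only [i2, i3, m111]; ring

/-- monomial symmetric polynomial -/
noncomputable def m210 (a b c : ℝ) : ℝ := a^2*b + a^2*c + a*b^2 + a*c^2 + b^2*c + b*c^2

lemma m210_S6 (a b c x y z : ℝ) : S6 m210 a b c x y z = 1 * (m210 a b c * m210 x y z) := by
  simp only [S6, m210]; ring

lemma m210_sc (a b c : ℝ) (h : a + b + c = 3) : m210 a b c = 6*(1) + (-3)*((i3 a b c)) := by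
  obtain rfl : c = 3 - a - b := by linarith
  simp only [i2, i3, m210]; ring

/-- monomial symmetric polynomial -/
noncomputable def m300 (a b c : ℝ) : ℝ := a^3 + b^3 + c^3

lemma m300_S6 (a b c x y z : ℝ) : S6 m300 a b c x y z = 2 * (m300 a b c * m300 x y z) := by
  simp only [S6, m300]; ring

lemma m300_sc (a b c : ℝ) (h : a + b + c = 3) : m300 a b c = 3*(1) + 3*((i3 a b c)) + 9*((i2 a b c)) := by
  obtain rfl : c = 3 - a - b := by linarith
  simp only [i2, i3, m300]; ring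

/-- monomial symmetric polynomial -/
noncomputable def m211 (a b c : ℝ) : ℝ := a^2*b*c + a*b^2*c + a*b*c^2

lemma m211_S6 (a b c x y z : ℝ) : S6 m211 a b c x y z = 2 * (m211 a b c * m211 x y z) := by
  simp only [S6, m211]; ring

lemma m211_sc (a b c : ℝ) (h : a + b + c = 3) : m211 a b c = 3*(1) + 3*((i3 a b c)) + (-9/2)*((i2 a b c)) := by
  obtain rfl : c = 3 - a - b := by linarith
  simp only [i2, i3, m211]; ring

/-- monomial symmetric polynomial -/
noncomputable def m220 (a b c : ℝ) : ℝ := a^2*b^2 + a^2*c^2 + b^2*c^2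

lemma m220_S6 (a b c x y z : ℝ) : S6 m220 a b c x y z = 2 * (m220 a b c * m220 x y z) := by
  simp only [S6, m220]; ring

lemma m220_sc (a b c : ℝ) (h : a + b + c = 3) : m220 a b c = 3*(1) + (-6)*((i3 a b c)) + (9/4)*((i2 a b c)^2) := by
  obtain rfl : c = 3 - a - b := by linarith
  simp only [i2, i3, m220]; ring

/-- monomial symmetric polynomial -/
noncomputable def m310 (a b c : ℝ) : ℝ := a^3*b + a^3*c + a*b^3 + a*c^3 + b^3*c + b*c^3

lemma m310_S6 (a b c x y z : ℝ) : S6 m310 a b c x y z = 1 * (m310 a b c * m310 x y z) := by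
  simp only [S6, m310]; ring

lemma m310_sc (a b c : ℝ) (h : a + b + c = 3) : m310 a b c = 6*(1) + (-3)*((i3 a b c)) + 9*((i2 a b c)) + (-9/2)*((i2 a b c)^2) := by
  obtain rfl : c = 3 - a - b := by linarith
  simp only [i2, i3, m310]; ring

/-- monomial symmetric polynomial -/
noncomputable def m400 (a b c : ℝ) : ℝ := a^4 + b^4 + c^4

lemma m400_S6 (a b c x y z : ℝ) : S6 m400 a b c x y z = 2 * (m400 a b c * m400 x y z) := by
  simp only [S6, m400]; ring

lemma m400_sc (a b c : ℝ) (h : a + b + c = 3) : m400 a b c = 3*(1) + 12*((i3 a b c)) + 18*((i2 a b c)) + (9/2)*((i2 a b c)^2) := by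
  obtain rfl : c = 3 - a - b := by linarith
  simp only [i2, i3, m400]; ring

/-- monomial symmetric polynomial -/
noncomputable def m221 (a b c : ℝ) : ℝ := a^2*b^2*c + a^2*b*c^2 + a*b^2*c^2

lemma m221_S6 (a b c x y z : ℝ) : S6 m221 a b c x y z = 2 * (m221 a b c * m221 x y z) := by
  simp only [S6, m221]; ring

lemma m221_sc (a b c : ℝ) (h : a + b + c = 3) : m221 a b c = 3*(1) + 3*((i3 a b c)) + (-6)*((i2 a b c)) + (-3/2)*((i2 a b c)*(i3 a b c)) + (9/4)*((i2 a b c)^2) := by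
  obtain rfl : c = 3 - a - b := by linarith
  simp only [i2, i3, m221]; ring

/-- monomial symmetric polynomial -/
noncomputable def m311 (a b c : ℝ) : ℝ := a^3*b*c + a*b^3*c + a*b*c^3

lemma m311_S6 (a b c x y z : ℝ) : S6 m311 a b c x y z = 2 * (m311 a b c * m311 x y z) := by
  simp only [S6, m311]; ring

lemma m311_sc (a b c : ℝ) (h : a + b + c = 3) : m311 a b c = 3*(1) + 3*((i3 a b c)) + (-3/2)*((i2 a b c)) + 3*((i2 a b c)*(i3 a b c)) + (-9/2)*((i2 a b c)^2) := by
  obtain rfl : c = 3 - a - b := by linarith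
  simp only [i2, i3, m311]; ring

/-- monomial symmetric polynomial -/
noncomputable def m320 (a b c : ℝ) : ℝ := a^3*b^2 + a^3*c^2 + a^2*b^3 + a^2*c^3 + b^3*c^2 + b^2*c^3

lemma m320_S6 (a b c x y z : ℝ) : S6 m320 a b c x y z = 1 * (m320 a b c * m320 x y z) := by
  simp only [S6, m320]; ring

lemma m320_sc (a b c : ℝ) (h : a + b + c = 3) : m320 a b c = 6*(1) + (-21)*((i3 a b c)) + 6*((i2 a b c)) + (3/2)*((i2 a b c)*(i3 a b c)) + (9/2)*((i2 a b c)^2) := by
  obtain rfl : c = 3 - a - b := by linarith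
  simp only [i2, i3, m320]; ring

/-- monomial symmetric polynomial -/
noncomputable def m410 (a b c : ℝ) : ℝ := a^4*b + a^4*c + a*b^4 + a*c^4 + b^4*c + b*c^4

lemma m410_S6 (a b c x y z : ℝ) : S6 m410 a b c x y z = 1 * (m410 a b c * m410 x y z) := by
  simp only [S6, m410]; ring

lemma m410_sc (a b c : ℝ) (h : a + b + c = 3) : m410 a b c = 6*(1) + 6*((i3 a b c)) + 24*((i2 a b c)) + (-15/2)*((i2 a b c)*(i3 a b c)) + (-9)*((i2 a b c)^2) := by
  obtain rfl : c = 3 - a - b := by linarith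
  simp only [i2, i3, m410]; ring

/-- monomial symmetric polynomial -/
noncomputable def m500 (a b c : ℝ) : ℝ := a^5 + b^5 + c^5

lemma m500_S6 (a b c x y z : ℝ) : S6 m500 a b c x y z = 2 * (m500 a b c * m500 x y z) := by
  simp only [S6, m500]; ring

lemma m500_sc (a b c : ℝ) (h : a + b + c = 3) : m500 a b c = 3*(1) + 30*((i3 a b c)) + 30*((i2 a b c)) + (15/2)*((i2 a b c)*(i3 a b c)) + (45/2)*((i2 a b c)^2) := by
  obtain rfl : c = 3 - a - b := by linarith
  simp only [i2, i3, m500]; ring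

/-- monomial symmetric polynomial -/
noncomputable def m222 (a b c : ℝ) : ℝ := a^2*b^2*c^2

lemma m222_S6 (a b c x y z : ℝ) : S6 m222 a b c x y z = 6 * (m222 a b c * m222 x y z) := by
  simp only [S6, m222]; ring

lemma m222_sc (a b c : ℝ) (h : a + b + c = 3) : m222 a b c = 1*(1) + 2*((i3 a b c)) + (-3)*((i2 a b c)) + 1*((i3 a b c)^2) + (-3)*((i2 a b c)*(i3 a b c)) + (9/4)*((i2 a b c)^2) := by
  obtain rfl : c = 3 - a - b := by linarith
  simp only [i2, i3, m222]; ring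

/-- monomial symmetric polynomial -/
noncomputable def m321 (a b c : ℝ) : ℝ := a^3*b^2*c + a^3*b*c^2 + a^2*b^3*c + a^2*b*c^3 + a*b^3*c^2 + a*b^2*c^3

lemma m321_S6 (a b c x y z : ℝ) : S6 m321 a b c x y z = 1 * (m321 a b c * m321 x y z) := by
  simp only [S6, m321]; ring

lemma m321_sc (a b c : ℝ) (h : a + b + c = 3) : m321 a b c = 6*(1) + 3*((i3 a b c)) + (-9)*((i2 a b c)) + (-3)*((i3 a b c)^2) + (9/2)*((i2 a b c)*(i3 a b c)) := by
  obtain rfl : c = 3 - a - b := by linarith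
  simp only [i2, i3, m321]; ring

/-- monomial symmetric polynomial -/
noncomputable def m411 (a b c : ℝ) : ℝ := a^4*b*c + a*b^4*c + a*b*c^4

lemma m411_S6 (a b c x y z : ℝ) : S6 m411 a b c x y z = 2 * (m411 a b c * m411 x y z) := by
  simp only [S6, m411]; ring

lemma m411_sc (a b c : ℝ) (h : a + b + c = 3) : m411 a b c = 3*(1) + 6*((i3 a b c)) + (9/2)*((i2 a b c)) + 3*((i3 a b c)^2) + (9/2)*((i2 a b c)*(i3 a b c)) + (-27/2)*((i2 a b c)^2) := by
  obtain rfl : c = 3 - a - b := by linarith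
  simp only [i2, i3, m411]; ring

/-- monomial symmetric polynomial -/
noncomputable def m420 (a b c : ℝ) : ℝ := a^4*b^2 + a^4*c^2 + a^2*b^4 + a^2*c^4 + b^4*c^2 + b^2*c^4

lemma m420_S6 (a b c x y z : ℝ) : S6 m420 a b c x y z = 1 * (m420 a b c * m420 x y z) := by
  simp only [S6, m420]; ring

lemma m420_sc (a b c : ℝ) (h : a + b + c = 3) : m420 a b c = 6*(1) + (-24)*((i3 a b c)) + 18*((i2 a b c)) + (-3)*((i3 a b c)^2) + (-9)*((i2 a b c)*(i3 a b c)) + (27/4)*((i2 a b c)^3) := by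
  obtain rfl : c = 3 - a - b := by linarith
  simp only [i2, i3, m420]; ring

/-- monomial symmetric polynomial -/
noncomputable def m510 (a b c : ℝ) : ℝ := a^5*b + a^5*c + a*b^5 + a*c^5 + b^5*c + b*c^5

lemma m510_S6 (a b c x y z : ℝ) : S6 m510 a b c x y z = 1 * (m510 a b c * m510 x y z) := by
  simp only [S6, m510]; ring

lemma m510_sc (a b c : ℝ) (h : a + b + c = 3) : m510 a b c = 6*(1) + 30*((i3 a b c)) + 45*((i2 a b c)) + (-3)*((i3 a b c)^2) + (-45/2)*((i2 a b c)*(i3 a b c)) + (-27/4)*((i2 a b c)^3) := by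
  obtain rfl : c = 3 - a - b := by linarith
  simp only [i2, i3, m510]; ring

/-- monomial symmetric polynomial -/
noncomputable def m322 (a b c : ℝ) : ℝ := a^3*b^2*c^2 + a^2*b^3*c^2 + a^2*b^2*c^3

lemma m322_S6 (a b c x y z : ℝ) : S6 m322 a b c x y z = 2 * (m322 a b c * m322 x y z) := by
  simp only [S6, m322]; ring

lemma m322_sc (a b c : ℝ) (h : a + b + c = 3) : m322 a b c = 3*(1) + 6*((i3 a b c)) + (-9)*((i2 a b c)) + 3*((i3 a b c)^2) + (-9)*((i2 a b c)*(i3 a b c)) + (27/4)*((i2 a b c)^2) := by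
  obtain rfl : c = 3 - a - b := by linarith
  simp only [i2, i3, m322]; ring

/-- monomial symmetric polynomial -/
noncomputable def m331 (a b c : ℝ) : ℝ := a^3*b^3*c + a^3*b*c^3 + a*b^3*c^3

lemma m331_S6 (a b c x y z : ℝ) : S6 m331 a b c x y z = 2 * (m331 a b c * m331 x y z) := by
  simp only [S6, m331]; ring

lemma m331_sc (a b c : ℝ) (h : a + b + c = 3) : m331 a b c = 3*(1) + (-3)*((i3 a b c)) + (-9/2)*((i2 a b c)) + (-6)*((i3 a b c)^2) + 9*((i2 a b c)*(i3 a b c)) + (9/4)*((i2 a b c)^2) + (9/4)*((i2 a b c)^2*(i3 a b c)) + (-27/8)*((i2 a b c)^3) := by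
  obtain rfl : c = 3 - a - b := by linarith
  simp only [i2, i3, m331]; ring

/-- monomial symmetric polynomial -/
noncomputable def m421 (a b c : ℝ) : ℝ := a^4*b^2*c + a^4*b*c^2 + a^2*b^4*c + a^2*b*c^4 + a*b^4*c^2 + a*b^2*c^4

lemma m421_S6 (a b c x y z : ℝ) : S6 m421 a b c x y z = 1 * (m421 a b c * m421 x y z) := by
  simp only [S6, m421]; ring

lemma m421_sc (a b c : ℝ) (h : a + b + c = 3) : m421 a b c = 6*(1) + 3*((i3 a b c)) + (-3)*((i3 a b c)^2) + (27/2)*((i2 a b c)*(i3 a b c)) + (-18)*((i2 a b c)^2) + (-9/2)*((i2 a b c)^2*(i3 a b c)) + (27/4)*((i2 a b c)^3) := by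
  obtain rfl : c = 3 - a - b := by linarith
  simp only [i2, i3, m421]; ring

/-- monomial symmetric polynomial -/
noncomputable def m430 (a b c : ℝ) : ℝ := a^4*b^3 + a^4*c^3 + a^3*b^4 + a^3*c^4 + b^4*c^3 + b^3*c^4

lemma m430_S6 (a b c x y z : ℝ) : S6 m430 a b c x y z = 1 * (m430 a b c * m430 x y z) := by
  simp only [S6, m430]; ring

lemma m430_sc (a b c : ℝ) (h : a + b + c = 3) : m430 a b c = 6*(1) + (-60)*((i3 a b c)) + 18*((i2 a b c)) + 15*((i3 a b c)^2) + (9/2)*((i2 a b c)*(i3 a b c)) + 18*((i2 a b c)^2) + (-9/4)*((i2 a b c)^2*(i3 a b c)) + (-27/4)*((i2 a b c)^3) := by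
  obtain rfl : c = 3 - a - b := by linarith
  simp only [i2, i3, m430]; ring

/-- monomial symmetric polynomial -/
noncomputable def m511 (a b c : ℝ) : ℝ := a^5*b*c + a*b^5*c + a*b*c^5

lemma m511_S6 (a b c x y z : ℝ) : S6 m511 a b c x y z = 2 * (m511 a b c * m511 x y z) := by
  simp only [S6, m511]; ring

lemma m511_sc (a b c : ℝ) (h : a + b + c = 3) : m511 a b c = 3*(1) + 15*((i3 a b c)) + (27/2)*((i2 a b c)) + 12*((i3 a b c)^2) + (-45/2)*((i2 a b c)^2) + (9/2)*((i2 a b c)^2*(i3 a b c)) + (-27/4)*((i2 a b c)^3) := by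
  obtain rfl : c = 3 - a - b := by linarith
  simp only [i2, i3, m511]; ring

/-- monomial symmetric polynomial -/
noncomputable def m520 (a b c : ℝ) : ℝ := a^5*b^2 + a^5*c^2 + a^2*b^5 + a^2*c^5 + b^5*c^2 + b^2*c^5

lemma m520_S6 (a b c x y z : ℝ) : S6 m520 a b c x y z = 1 * (m520 a b c * m520 x y z) := by
  simp only [S6, m520]; ring

lemma m520_sc (a b c : ℝ) (h : a + b + c = 3) : m520 a b c = 6*(1) + (-15)*((i3 a b c)) + 36*((i2 a b c)) + (-21)*((i3 a b c)^2) + (-45)*((i2 a b c)*(i3 a b c)) + (27/4)*((i2 a b c)^2*(i3 a b c)) + (81/4)*((i2 a b c)^3) := by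
  obtain rfl : c = 3 - a - b := by linarith
  simp only [i2, i3, m520]; ring

/-- monomial symmetric polynomial -/
noncomputable def m610 (a b c : ℝ) : ℝ := a^6*b + a^6*c + a*b^6 + a*c^6 + b^6*c + b*c^6

lemma m610_S6 (a b c x y z : ℝ) : S6 m610 a b c x y z = 1 * (m610 a b c * m610 x y z) := by
  simp only [S6, m610]; ring

lemma m610_sc (a b c : ℝ) (h : a + b + c = 3) : m610 a b c = 6*(1) + 75*((i3 a b c)) + 72*((i2 a b c)) + (-12)*((i3 a b c)^2) + (-45/2)*((i2 a b c)*(i3 a b c)) + 45*((i2 a b c)^2) + (-63/4)*((i2 a b c)^2*(i3 a b c)) + (-27)*((i2 a b c)^3) := by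
  obtain rfl : c = 3 - a - b := by linarith
  simp only [i2, i3, m610]; ring

lemma Qi_eq (a b c : ℝ) : Qi a b c = (-1/3) * m100 a b c + (-28/45) * m110 a b c + (28/45) * m200 a b c + (571/75) * m111 a b c + (-46/225) * m300 a b c + (-11419/2700) * m211 a b c + (-169/540) * m220 a b c + (2759/8100) * m310 a b c + (56/2025) * m400 a b c + (8297/4050) * m221 a b c + (7501/12150) * m311 a b c + (-8/6075) * m320 a b c + (-1997/12150) * m410 a b c + (-8/6075) * m500 a b c + (-317/540) * m222 a b c + (-271/1215) * m321 a b c + (47/1620) * m411 a b c + (137/4860) * m420 a b c + (137/4860) * m510 a b c + (26/1215) * m322 a b c + (8/1215) * m331 a b c + (-4/1215) * m421 a b c + (-2/1215) * m430 a b c + (-2/243) * m511 a b c + (-4/1215) * m520 a b c + (-2/1215) * m610 a b c := by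
  simp only [Qi, m100, m200, m300, m400, m310, m211, m500, m410, m320, m311, m221, m110, m111, m411, m321, m222, m510, m420, m610, m520, m511, m430, m421, m331, m322, m220]; ring

lemma Qx_eq (a b c : ℝ) : Qx a b c = (2/3) * m100 a b c + (-2) * m110 a b c + (13/6) * m111 a b c + (13/18) * m210 a b c + (-5/9) * m211 a b c + (-2/9) * m220 a b c + (-1/9) * m310 a b c + (2/27) * m221 a b c + (7/162) * m311 a b c + (1/54) * m320 a b c + (1/162) * m410 a b c := by
  simp only [Qx, m100, m110, m210, m111, m310, m220, m211, m410, m320, m311, m221]; ring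

/-- orbit sum of `Qi` as a polynomial in the invariants -/
noncomputable def GQi (s c S C : ℝ) : ℝ := 6*(C) + 6*(c) + (-3/2)*(S^2) + (309/100)*(c*C) + (-24)*(c*S) + (-24)*(s*C) + (21/2)*(s*S) + (-3/2)*(s^2) + (-9/2)*(c*C^2) + (447/100)*(c*S*C) + (3459/200)*(c*S^2) + (-9/2)*(c^2*C) + (33/2)*(s*S*C) + (-1191/200)*(s*S^2) + (447/100)*(s*c*C) + (33/2)*(s*c*S) + (3459/200)*(s^2*C) + (-1191/200)*(s^2*S) + (9/10)*(c*S^2*C) + (-39/8)*(c*S^3) + (-81/10)*(c^2*C^2) + (93/8)*(c^2*S*C) + (-39/8)*(c^2*S^2) + (-39/16)*(s*S^3) + (93/8)*(s*c*C^2) + (-4461/400)*(s*c*S*C) + (-4359/200)*(s*c*S^2) + (-39/8)*(s^2*C^2) + (-4359/200)*(s^2*S*C) + (3483/200)*(s^2*S^2) + (9/10)*(s^2*c*C) + (-39/8)*(s^3*C) + (-39/16)*(s^3*S) + (-9/10)*(c^2*S^2*C) + (27/10)*(c^2*S^3) + (9/10)*(s*c*S^2*C) + (627/160)*(s*c*S^3) + (27/10)*(s^2*S^2*C) + (-9/10)*(s^2*c*C^2) + (9/10)*(s^2*c*S*C) + (27/10)*(s^2*c*S^2) + (27/10)*(s^3*C^2) + (627/160)*(s^3*S*C) + (-9/10)*(s^2*c*S^2*C) +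 (-27/40)*(s^2*c*S^3) + (-27/40)*(s^3*S^2*C) + (-129/160)*(s^3*S^3)

lemma S6_Qi_lin (a b c x y z : ℝ) : S6 Qi a b c x y z = (-1/3) * S6 m100 a b c x y z + (-28/45) * S6 m110 a b c x y z + (28/45) * S6 m200 a b c x y z + (571/75) * S6 m111 a b c x y z + (-46/225) * S6 m300 a b c x y z + (-11419/2700) * S6 m211 a b c x y z + (-169/540) * S6 m220 a b c x y z + (2759/8100) * S6 m310 a b c x y z + (56/2025) * S6 m400 a b c x y z + (8297/4050) * S6 m221 a b c x y z + (7501/12150) * S6 m311 a b c x y z + (-8/6075) * S6 m320 a b c x y z + (-1997/12150) * S6 m410 a b c x y z + (-8/6075) * S6 m500 a b c x y z + (-317/540) * S6 m222 a b c x y z + (-271/1215) * S6 m321 a b c x y z + (47/1620) * S6 m411 a b c x y z + (137/4860) * S6 m420 a b c x y z + (137/4860) * S6 m510 a b c x y z + (26/1215) * S6 m322 a b c x y z + (8/1215) * S6 m331 a b c x y z + (-4/1215) * S6 m421 a b c x y z + (-2/1215) * S6 m430 a b c x y z + (-2/243) * S6 m511 a b c x y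 z + (-4/1215) * S6 m520 a b c x y z + (-2/1215) * S6 m610 a b c x y z := by
  simp only [S6, Qi_eq]; ring

lemma S6_Qi (a b c x y z : ℝ) (h : a + b + c = 3) (h' : x + y + z = 3) :
    S6 Qi a b c x y z = GQi (i2 a b c) (i3 a b c) (i2 x y z) (i3 x y z) := by
  rw [S6_Qi_lin, m100_S6, m110_S6, m200_S6, m111_S6, m300_S6, m211_S6, m220_S6, m310_S6, m400_S6, m221_S6, m311_S6, m320_S6, m410_S6, m500_S6, m222_S6, m321_S6, m411_S6, m420_S6, m510_S6, m322_S6, m331_S6, m421_S6, m430_S6, m511_S6, m520_S6, m610_S6]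
  rw [m100_sc a b c h, m110_sc a b c h, m200_sc a b c h, m111_sc a b c h, m300_sc a b c h, m211_sc a b c h, m220_sc a b c h, m310_sc a b c h, m400_sc a b c h, m221_sc a b c h, m311_sc a b c h, m320_sc a b c h, m410_sc a b c h, m500_sc a b c h, m222_sc a b c h, m321_sc a b c h, m411_sc a b c h, m420_sc a b c h, m510_sc a b c h, m322_sc a b c h, m331_sc a b c h, m421_sc a b c h, m430_sc a b c h, m511_sc a b c h, m520_sc a b c h, m610_sc a b c h]
  rw [m100_sc x y z h', m110_sc x y z h', m200_sc x y z h', m111_sc x y z h', m300_sc x y z h', m211_sc x y z h', m220_sc x y z h', m310_sc x y z h', m400_sc x y z h', m221_sc x y z h', m311_sc x y z h', m320_sc x y z h', m410_sc x y z h', m500_sc x y z h', m222_sc x y z h', m321_sc x y z h', m411_sc x y z h', m420_sc x y z h', m510_sc x y z h', m322_sc x y z h', m331_sc x y z h', m421_sc x y z h', m430_sc x y z h', m511_sc x y z h', m520_sc x y z h', m610_sc x y z h']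
  generalize i2 a b c = s
  generalize i3 a b c = c1
  generalize i2 x y z = s'
  generalize i3 x y z = c1'
  simp only [GQi]; ring

/-- orbit sum of `Qx` as a polynomial in the invariants -/
noncomputable def GQx (s c S C : ℝ) : ℝ := 6*(S) + 6*(s) + 3*(c*C) + (-6)*(c*S) + (-6)*(s*C) + (-3/2)*(s*S) + (-3/4)*(c*S*C) + (9/4)*(c*S^2) + (9/4)*(s*S^2) + (-3/4)*(s*c*C) + (9/4)*(s^2*C) + (9/4)*(s^2*S) + (3/2)*(s*c*S*C) + (-9/8)*(s*c*S^2) + (-9/8)*(s^2*S*C) + (-9/8)*(s^2*S^2)

lemma S6_Qx_lin (a b c x y z : ℝ) : S6 Qx a b c x y z = (2/3) * S6 m100 a b c x y z + (-2) * S6 m110 a b c x y z + (13/6) * S6 m111 a b c x y z + (13/18) * S6 m210 a b c x y z + (-5/9) * S6 m211 a b c x y z + (-2/9) * S6 m220 a b c x y z + (-1/9) * S6 m310 a b c x y z + (2/27) * S6 m221 a b c x y z + (7/162) * S6 m311 a b c x y z + (1/54) * S6 m320 a b c x y z + (1/162) * S6 m410 a b c x y z := by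
  simp only [S6, Qx_eq]; ring

lemma S6_Qx (a b c x y z : ℝ) (h : a + b + c = 3) (h' : x + y + z = 3) :
    S6 Qx a b c x y z = GQx (i2 a b c) (i3 a b c) (i2 x y z) (i3 x y z) := by
  rw [S6_Qx_lin, m100_S6, m110_S6, m111_S6, m210_S6, m211_S6, m220_S6, m310_S6, m221_S6, m311_S6, m320_S6, m410_S6]
  rw [m100_sc a b c h, m110_sc a b c h, m111_sc a b c h, m210_sc a b c h, m211_sc a b c h, m220_sc a b c h, m310_sc a b c h, m221_sc a b c h, m311_sc a b c h, m320_sc a b c h, m410_sc a b c h]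
  rw [m100_sc x y z h', m110_sc x y z h', m111_sc x y z h', m210_sc x y z h', m211_sc x y z h', m220_sc x y z h', m310_sc x y z h', m221_sc x y z h', m311_sc x y z h', m320_sc x y z h', m410_sc x y z h']
  generalize i2 a b c = s
  generalize i3 a b c = c1
  generalize i2 x y z = s'
  generalize i3 x y z = c1'
  simp only [GQx]; ring


end Crest.Agent.R163.Q3
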