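import Crest.Agent.R163.Pair
import Crest.Agent.R163.Q3Sum
import Crest.Agent.R163.Q3PosI
import Crest.Agent.R163.Q3PosX

/-!
Row 163, three states, ferromagnetic case: the pointwise hypotheses `PairHyp 3`.
-/

set_option autoImplicit false

namespace Crest.Agent.R163.Q3

open Crest.Agent.R163

/-- chamber coordinates exist -/
lemma cham_of_sorted {a b c : ℝ} (hc : 0 ≤ c) (hab : b ≤ a) (hbc : c ≤ b) (h : a + b + c = 3) :
    Cham (i2 a b c) (i3 a b c) := by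
  refine ⟨c, (a - b) / 3, (b - c) / 3, hc, by linarith, by linarith, by linarith, ?_, ?_⟩
  · obtain rfl : a = 3 - b - c := by linarith
    simp only [i2]; ring
  · obtain rfl : a = 3 - b - c := by linarith
    simp only [i3]; ring

lemma i2_comm1 (a b c : ℝ) : i2 b a c = i2 a b c := by simp only [i2]; ring
lemma i2_comm2 (a b c : ℝ) : i2 a c b = i2 a b c := by simp only [i2]; ring
lemma i3_comm1 (a b c : ℝ) : i3 b a c = i3 a b c := by simp only [i3]; ring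
lemma i3_comm2 (a b c : ℝ) : i3 a c b = i3 a b c := by simp only [i3]; ring

lemma cham {a b c : ℝ} (ha : 0 ≤ a) (hb : 0 ≤ b) (hc : 0 ≤ c) (h : a + b + c = 3) :
    Cham (i2 a b c) (i3 a b c) := by
  rcases le_total a b with h1 | h1 <;> rcases le_total b c with h2 | h2 <;>
    rcases le_total a c with h3 | h3
  · have := cham_of_sorted ha h2 h1 (by linarith : c + b + a = 3)
    rwa [i2_comm2, i2_comm1, i2_comm2, i3_comm2, i3_comm1, i3_comm2] at this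
  · have := cham_of_sorted ha h2 h1 (by linarith : c + b + a = 3)
    rwa [i2_comm2, i2_comm1, i2_comm2, i3_comm2, i3_comm1, i3_comm2] at this
  · have := cham_of_sorted ha h2 h3 (by linarith : b + c + a = 3)
    rwa [i2_comm2, i2_comm1, i3_comm2, i3_comm1] at this
  · have := cham_of_sorted hc h1 h3 (by linarith : b + a + c = 3)
    rwa [i2_comm1, i3_comm1] at this
  · have := cham_of_sorted hb h3 h1 (by linarith : c + a + b = 3)
    rwa [i2_comm1, i2_comm2, i3_comm1, i3_comm2] at this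
  · have := cham_of_sorted hb h3 h2 (by linarith : a + c + b = 3)
    rwa [i2_comm2, i3_comm2] at this
  · have := cham_of_sorted hc h1 h2 (by linarith : a + b + c = 3)
    exact this
  · have := cham_of_sorted hc h1 h2 (by linarith : a + b + c = 3)
    exact this

/-! ### explicit functionals -/

/-- `ψ` in coordinates -/
noncomputable def P3 (a b c : ℝ) : ℝ :=
  ((a - (a+b+c)/3) * (b - (a+b+c)/3) * (c - (a+b+c)/3)) / ((a+b+c)/3)^2
    - (((a^2+b^2+c^2)/3) / ((a+b+c)/3) - (a+b+c)/3)^2 / (4 * ((a+b+c)/3))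

/-- `χ²` in coordinates -/
noncomputable def X3 (a b c : ℝ) : ℝ := ((a^2+b^2+c^2)/3) / ((a+b+c)/3) - (a+b+c)/3

lemma all_zero {a b c : ℝ} (ha : 0 ≤ a) (hb : 0 ≤ b) (hc : 0 ≤ c) (h : (a + b + c) / 3 = 0) :
    a = 0 ∧ b = 0 ∧ c = 0 := ⟨by linarith, by linarith, by linarith⟩

lemma bnd1 {Z : ℝ} (hZ : 0 < Z) {A B r : ℝ} (h : 1 - Z * (A - B * (Z - 1)) = r ^ 2) :
    1 - (Z - 1) + (Z - 1)^2 * (A - B * (Z - 1)) ≤ 1 / Z := by
  rw [le_div_iff₀ hZ]
  have : 1 - (1 - (Z - 1) + (Z - 1)^2 * (A - B * (Z - 1))) * Z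
      = (Z - 1)^2 * (1 - Z * (A - B * (Z - 1))) := by ring
  have h2 : 0 ≤ (Z - 1)^2 * (1 - Z * (A - B * (Z - 1))) := by rw [h]; positivity
  linarith

lemma bnd2 {Z : ℝ} (hZ : 0 < Z) :
    1 - 2 * (Z - 1) + (Z - 1)^2 * (5/2 - (3/2) * (Z - 1)) ≤ 1 / Z ^ 2 := by
  rw [le_div_iff₀ (by positivity)]
  have h1 : 0 ≤ 3/2 * Z^3 - 4 * Z^2 + 2 * Z + 1 := by
    nlinarith [mul_nonneg hZ.le (sq_nonneg (Z - 3/2)), sq_nonneg (Z - 11/8)]
  have h2 : 0 ≤ (Z - 1)^2 * (3/2 * Z^3 - 4 * Z^2 + 2 * Z + 1) := by positivity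
  nlinarith

lemma bnd3 {Z : ℝ} (hZ : 0 < Z) :
    1 - 3 * (Z - 1) + (Z - 1)^2 * (13/4 - (6/5) * (Z - 1)) ≤ 1 / Z ^ 3 := by
  rw [le_div_iff₀ (by positivity)]
  have h1 : 0 ≤ 6/5 * Z^4 - 89/20 * Z^3 + 3 * Z^2 + 2 * Z + 1 := by
    nlinarith [mul_nonneg hZ.le (sq_nonneg (Z - 2)), sq_nonneg (Z * (Z - 2)), sq_nonneg (Z^2 - 37/20 * Z - 1/2),
      sq_nonneg (Z - 2)]
  have h2 : 0 ≤ (Z - 1)^2 * (6/5 * Z^4 - 89/20 * Z^3 + 3 * Z^2 + 2 * Z + 1) := by positivity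
  nlinarith

lemma P3_formula {a b c Z : ℝ} (hZ : 0 < Z) (h : Z = (a + b + c) / 3) :
    P3 a b c = -Z + (2/3) * ((3 * Z^2 - (a*b+b*c+c*a)) * (1 / Z)) + (a*b*c) * (1 / Z^2)
      + (1/9) * ((a*b+b*c+c*a) * (3 * Z^2 - (a*b+b*c+c*a)) * (1 / Z^3)) := by
  obtain rfl : a = 3 * Z - b - c := by rw [h]; ring
  have : (3 * Z - b - c + b + c) / 3 = Z := by ring
  simp only [P3, this]
  field_simp
  ring

lemma X3_formula {a b c Z : ℝ} (hZ : 0 < Z) (h : Z = (a + b + c) / 3) :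
    X3 a b c = 2 * Z - (2/3) * ((a*b+b*c+c*a) * (1 / Z)) := by
  obtain rfl : a = 3 * Z - b - c := by rw [h]; ring
  have : (3 * Z - b - c + b + c) / 3 = Z := by ring
  simp only [X3, this]
  field_simp
  ring

lemma Qi_le_P3 {a b c : ℝ} (ha : 0 ≤ a) (hb : 0 ≤ b) (hc : 0 ≤ c) : Qi a b c ≤ P3 a b c := by
  by_cases h0 : (a + b + c) / 3 = 0
  · obtain ⟨rfl, rfl, rfl⟩ := all_zero ha hb hc h0
    simp [Qi, P3]
  have hZ : 0 < (a + b + c) / 3 := lt_of_le_of_ne (by positivity) (Ne.symm h0)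
  set Z := (a + b + c) / 3 with hZd
  have hV : 0 ≤ 3 * Z^2 - (a*b+b*c+c*a) := by
    rw [hZd]; nlinarith [sq_nonneg (a-b), sq_nonneg (b-c), sq_nonneg (c-a)]
  have hE : 0 ≤ a*b+b*c+c*a := by positivity
  have hEV := mul_nonneg hE hV
  have hP : P3 a b c = -Z + (2/3) * ((3 * Z^2 - (a*b+b*c+c*a)) * (1 / Z)) + (a*b*c) * (1 / Z^2)
      + (1/9) * ((a*b+b*c+c*a) * (3 * Z^2 - (a*b+b*c+c*a)) * (1 / Z^3)) := by
    exact P3_formula hZ hZd
  have e1 : 1 - (Z-1) + (Z-1)^2 * (16/25 - (4/25) * (Z-1)) ≤ 1 / Z :=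
    bnd1 hZ (r := (3 - 2 * (Z-1)) / 5) (by ring)
  have e2 := bnd2 hZ
  have e3 := bnd3 hZ
  have k1 := mul_le_mul_of_nonneg_left e1 hV
  have k2 := mul_le_mul_of_nonneg_left e2 (by positivity : 0 ≤ a*b*c)
  have k3 := mul_le_mul_of_nonneg_left e3 hEV
  rw [hP]
  simp only [Qi]
  rw [← hZd]
  linarith

lemma X3_le_Qx {a b c : ℝ} (ha : 0 ≤ a) (hb : 0 ≤ b) (hc : 0 ≤ c) : X3 a b c ≤ Qx a b c := by
  by_cases h0 : (a + b + c) / 3 = 0
  · obtain ⟨rfl, rfl, rfl⟩ := all_zero ha hb hc h0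
    simp [Qx, X3]
  have hZ : 0 < (a + b + c) / 3 := lt_of_le_of_ne (by positivity) (Ne.symm h0)
  set Z := (a + b + c) / 3 with hZd
  have hE : 0 ≤ a*b+b*c+c*a := by positivity
  have hP : X3 a b c = 2 * Z - (2/3) * ((a*b+b*c+c*a) * (1 / Z)) := by
    exact X3_formula hZ hZd
  have e1 : 1 - (Z-1) + (Z-1)^2 * (3/4 - (1/4) * (Z-1)) ≤ 1 / Z :=
    bnd1 hZ (r := (1 - (Z-1)) / 2) (by ring)
  have k1 := mul_le_mul_of_nonneg_left e1 hE
  rw [hP]
  simp only [Qx]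
  rw [← hZd]
  linarith

/-! ### normalised inequalities -/

lemma prod_eq {a b c : ℝ} (h : a + b + c = 3) : a * b * c = 1 - 3/2 * i2 a b c + i3 a b c := by
  obtain rfl : c = 3 - a - b := by linarith
  simp only [i2, i3]; ring

lemma X3_norm {a b c : ℝ} (h : a + b + c = 3) : X3 a b c = i2 a b c := by
  obtain rfl : c = 3 - a - b := by linarith
  have : (a + b + (3 - a - b)) / 3 = 1 := by ring
  simp only [X3, this, i2]; ring

lemma P3_norm {a b c : ℝ} (h : a + b + c = 3) : P3 a b c = i3 a b c - i2 a b c ^ 2 / 4 := by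
  obtain rfl : c = 3 - a - b := by linarith
  have : (a + b + (3 - a - b)) / 3 = 1 := by ring
  simp only [P3, this, i2, i3]; ring

lemma S6_mono {Q Q' : ℝ → ℝ → ℝ → ℝ}
    (hQ : ∀ a b c : ℝ, 0 ≤ a → 0 ≤ b → 0 ≤ c → Q a b c ≤ Q' a b c) {a b c x y z : ℝ}
    (ha : 0 ≤ a) (hb : 0 ≤ b) (hc : 0 ≤ c) (hx : 0 ≤ x) (hy : 0 ≤ y) (hz : 0 ≤ z) :
    S6 Q a b c x y z ≤ S6 Q' a b c x y z := by
  simp only [S6]
  have := hQ (a*x) (b*y) (c*z) (by positivity) (by positivity) (by positivity)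
  have := hQ (a*x) (b*z) (c*y) (by positivity) (by positivity) (by positivity)
  have := hQ (a*y) (b*x) (c*z) (by positivity) (by positivity) (by positivity)
  have := hQ (a*y) (b*z) (c*x) (by positivity) (by positivity) (by positivity)
  have := hQ (a*z) (b*x) (c*y) (by positivity) (by positivity) (by positivity)
  have := hQ (a*z) (b*y) (c*x) (by positivity) (by positivity) (by positivity)
  linarith

theorem closure_norm {a b c x y z : ℝ}
    (ha : 0 ≤ a) (hb : 0 ≤ b) (hc : 0 ≤ c) (hx : 0 ≤ x) (hy : 0 ≤ y) (hz : 0 ≤ z)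
    (h : a + b + c = 3) (h' : x + y + z = 3) :
    (x*y*z)^2 * P3 a b c + (a*b*c)^2 * P3 x y z + (1/100) * X3 a b c * X3 x y z
      ≤ S6 P3 a b c x y z / 6 := by
  have h1 := S6_mono (fun a b c h1 h2 h3 => Qi_le_P3 h1 h2 h3) ha hb hc hx hy hz
  rw [S6_Qi a b c x y z h h'] at h1
  have h2 := PosI_nonneg _ _ _ _ (cham ha hb hc h) (cham hx hy hz h')
  rw [P3_norm h, P3_norm h', X3_norm h, X3_norm h', prod_eq h, prod_eq h']
  have key : GQi (i2 a b c) (i3 a b c) (i2 x y z) (i3 x y z)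
      = 6 * (PosI (i2 a b c) (i3 a b c) (i2 x y z) (i3 x y z)
        + (1 - 3/2 * i2 x y z + i3 x y z)^2 * (i3 a b c - i2 a b c ^ 2 / 4)
        + (1 - 3/2 * i2 a b c + i3 a b c)^2 * (i3 x y z - i2 x y z ^ 2 / 4)
        + (1/100) * i2 a b c * i2 x y z) := by
    generalize i2 a b c = s
    generalize i3 a b c = t
    generalize i2 x y z = s'
    generalize i3 x y z = t'
    simp only [GQi, PosI]; ring
  linarith

theorem chisub_norm {a b c x y z : ℝ}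
    (ha : 0 ≤ a) (hb : 0 ≤ b) (hc : 0 ≤ c) (hx : 0 ≤ x) (hy : 0 ≤ y) (hz : 0 ≤ z)
    (h : a + b + c = 3) (h' : x + y + z = 3) :
    S6 X3 a b c x y z / 6 ≤ X3 a b c + X3 x y z
      - i2 x y z * (4/5 - 3/8 * i3 x y z) * P3 a b c
      - i2 a b c * (4/5 - 3/8 * i3 a b c) * P3 x y z := by
  have h1 := S6_mono (fun a b c h1 h2 h3 => X3_le_Qx h1 h2 h3) ha hb hc hx hy hz
  rw [S6_Qx a b c x y z h h'] at h1
  have h2 := PosX_nonneg _ _ _ _ (cham ha hb hc h) (cham hx hy hz h')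
  rw [P3_norm h, P3_norm h', X3_norm h, X3_norm h']
  have key : GQx (i2 a b c) (i3 a b c) (i2 x y z) (i3 x y z)
      = 6 * (i2 a b c + i2 x y z
        - i2 x y z * (4/5 - 3/8 * i3 x y z) * (i3 a b c - i2 a b c ^ 2 / 4)
        - i2 a b c * (4/5 - 3/8 * i3 a b c) * (i3 x y z - i2 x y z ^ 2 / 4)
        - PosX (i2 a b c) (i3 a b c) (i2 x y z) (i3 x y z)) := by
    generalize i2 a b c = s
    generalize i3 a b c = t
    generalize i2 x y z = s'
    generalize i3 x y z = t'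
    simp only [GQx, PosX]; ring
  linarith

end Crest.Agent.R163.Q3
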