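import Mathlib

/-!
Row 163, three states: chamber coordinates of the triangle and the monomials in the two invariants
(generated).
-/

set_option autoImplicit false
set_option linter.unusedSimpArgs false
set_option maxHeartbeats 4000000
set_option maxRecDepth 100000

namespace Crest.Agent.R163.Q3

/-- `(s, c)` are the invariants of a point of the triangle, in chamber coordinates -/
def Cham (s c : ℝ) : Prop :=
  ∃ α β γ : ℝ, 0 ≤ α ∧ 0 ≤ β ∧ 0 ≤ γ ∧ α + β + 2 * γ = 1 ∧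
    s = 2*β^2+2*β*γ+2*γ^2 ∧ c = (2*β^2-β*γ-γ^2)*(β+2*γ)


/-- `s^0 c^1` in the monomials -/
noncomputable def F0 (X : Fin 33 → ℝ) : ℝ := (-2)*X 1 + (-16)*X 2 + (-48)*X 3 + (-64)*X 4 + (-32)*X 5 + (-3)*X 7 + (-32)*X 8 + (-120)*X 9 + (-192)*X 10 + (-112)*X 11 + 3*X 13 + 12*X 14 + (-12)*X 15 + (-96)*X 16 + (-96)*X 17 + 2*X 18 + 28*X 19 + 102*X 20 + 128*X 21 + 40*X 22 + 8*X 23 + 66*X 24 + 156*X 25 + 110*X 26 + 12*X 27 + 60*X 28 + 69*X 29 + 8*X 30 + 19*X 31 + 2*X 32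

/-- `s^0 c^2` in the monomials -/
noncomputable def F1 (X : Fin 33 → ℝ) : ℝ := 4*X 4 + 8*X 5 + 12*X 10 + 28*X 11 + (-3)*X 16 + 6*X 17 + (-26)*X 21 + (-55)*X 22 + (-3)*X 25 + (-32)*X 26 + 12*X 28 + 21*X 29 + 4*X 30 + 20*X 31 + 4*X 32

/-- `s^1 c^0` in the monomials -/
noncomputable def F2 (X : Fin 33 → ℝ) : ℝ := 2*X 0 + 20*X 1 + 80*X 2 + 160*X 3 + 160*X 4 + 64*X 5 + 2*X 6 + 30*X 7 + 160*X 8 + 400*X 9 + 480*X 10 + 224*X 11 + 2*X 12 + 30*X 13 + 180*X 14 + 520*X 15 + 720*X 16 + 384*X 17 + 10*X 18 + 100*X 19 + 380*X 20 + 640*X 21 + 400*X 22 + 20*X 23 + 140*X 24 + 330*X 25 + 260*X 26 + 20*X 27 + 90*X 28 + 102*X 29 + 10*X 30 + 22*X 31 + 2*X 32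

/-- `s^1 c^1` in the monomials -/
noncomputable def F3 (X : Fin 33 → ℝ) : ℝ := (-4)*X 3 + (-16)*X 4 + (-16)*X 5 + (-10)*X 9 + (-48)*X 10 + (-56)*X 11 + (-4)*X 15 + (-36)*X 16 + (-60)*X 17 + 4*X 20 + 8*X 21 + (-10)*X 22 + 10*X 24 + 48*X 25 + 52*X 26 + 4*X 27 + 36*X 28 + 60*X 29 + 8*X 30 + 26*X 31 + 4*X 32

/-- `s^2 c^0` in the monomials -/
noncomputable def F4 (X : Fin 33 → ℝ) : ℝ := 4*X 2 + 24*X 3 + 48*X 4 + 32*X 5 + 8*X 8 + 60*X 9 + 144*X 10 + 112*X 11 + 12*X 14 + 96*X 15 + 252*X 16 + 216*X 17 + 8*X 19 + 84*X 20 + 264*X 21 + 260*X 22 + 4*X 23 + 48*X 24 + 180*X 25 + 208*X 26 + 12*X 27 + 72*X 28 + 108*X 29 + 12*X 30 + 32*X 31 + 4*X 32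

/-- `s^2 c^1` in the monomials -/
noncomputable def F5 (X : Fin 33 → ℝ) : ℝ := (-8)*X 5 + (-28)*X 11 + (-36)*X 17 + (-20)*X 22 + 20*X 26 + 36*X 29 + 28*X 31 + 8*X 32

/-- `s^3 c^0` in the monomials -/
noncomputable def F6 (X : Fin 33 → ℝ) : ℝ := 8*X 4 + 16*X 5 + 24*X 10 + 56*X 11 + 48*X 16 + 120*X 17 + 56*X 21 + 160*X 22 + 48*X 25 + 152*X 26 + 24*X 28 + 96*X 29 + 8*X 30 + 40*X 31 + 8*X 32

/-- the monomials of degree seven -/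
noncomputable def mons (α β γ : ℝ) : Fin 33 → ℝ := ![α^5*γ^2, α^4*γ^3, α^3*γ^4, α^2*γ^5, α*γ^6, γ^7, α^5*β*γ, α^4*β*γ^2, α^3*β*γ^3, α^2*β*γ^4, α*β*γ^5, β*γ^6, α^5*β^2, α^4*β^2*γ, α^3*β^2*γ^2, α^2*β^2*γ^3, α*β^2*γ^4, β^2*γ^5, α^4*β^3, α^3*β^3*γ, α^2*β^3*γ^2, α*β^3*γ^3, β^3*γ^4, α^3*β^4, α^2*β^4*γ, α*β^4*γ^2, β^4*γ^3, α^2*β^5, α*β^5*γ, β^5*γ^2, α*β^6, β^6*γ, β^7]

lemma mons_0 (α β γ : ℝ) : mons α β γ 0 = α^5*γ^2 := rfl

lemma mons_1 (α β γ : ℝ) : mons α β γ 1 = α^4*γ^3 := rfl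

lemma mons_2 (α β γ : ℝ) : mons α β γ 2 = α^3*γ^4 := rfl

lemma mons_3 (α β γ : ℝ) : mons α β γ 3 = α^2*γ^5 := rfl

lemma mons_4 (α β γ : ℝ) : mons α β γ 4 = α*γ^6 := rfl

lemma mons_5 (α β γ : ℝ) : mons α β γ 5 = γ^7 := rfl

lemma mons_6 (α β γ : ℝ) : mons α β γ 6 = α^5*β*γ := rfl

lemma mons_7 (α β γ : ℝ) : mons α β γ 7 = α^4*β*γ^2 := rfl

lemma mons_8 (α β γ : ℝ) : mons α β γ 8 = α^3*β*γ^3 := rfl

lemma mons_9 (α β γ : ℝ) : mons α β γ 9 = α^2*β*γ^4 := rfl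

lemma mons_10 (α β γ : ℝ) : mons α β γ 10 = α*β*γ^5 := rfl

lemma mons_11 (α β γ : ℝ) : mons α β γ 11 = β*γ^6 := rfl

lemma mons_12 (α β γ : ℝ) : mons α β γ 12 = α^5*β^2 := rfl

lemma mons_13 (α β γ : ℝ) : mons α β γ 13 = α^4*β^2*γ := rfl

lemma mons_14 (α β γ : ℝ) : mons α β γ 14 = α^3*β^2*γ^2 := rfl

lemma mons_15 (α β γ : ℝ) : mons α β γ 15 = α^2*β^2*γ^3 := rfl

lemma mons_16 (α β γ : ℝ) : mons α β γ 16 = α*β^2*γ^4 := rfl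

lemma mons_17 (α β γ : ℝ) : mons α β γ 17 = β^2*γ^5 := rfl

lemma mons_18 (α β γ : ℝ) : mons α β γ 18 = α^4*β^3 := rfl

lemma mons_19 (α β γ : ℝ) : mons α β γ 19 = α^3*β^3*γ := rfl

lemma mons_20 (α β γ : ℝ) : mons α β γ 20 = α^2*β^3*γ^2 := rfl

lemma mons_21 (α β γ : ℝ) : mons α β γ 21 = α*β^3*γ^3 := rfl

lemma mons_22 (α β γ : ℝ) : mons α β γ 22 = β^3*γ^4 := rfl

lemma mons_23 (α β γ : ℝ) : mons α β γ 23 = α^3*β^4 := rfl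

lemma mons_24 (α β γ : ℝ) : mons α β γ 24 = α^2*β^4*γ := rfl

lemma mons_25 (α β γ : ℝ) : mons α β γ 25 = α*β^4*γ^2 := rfl

lemma mons_26 (α β γ : ℝ) : mons α β γ 26 = β^4*γ^3 := rfl

lemma mons_27 (α β γ : ℝ) : mons α β γ 27 = α^2*β^5 := rfl

lemma mons_28 (α β γ : ℝ) : mons α β γ 28 = α*β^5*γ := rfl

lemma mons_29 (α β γ : ℝ) : mons α β γ 29 = β^5*γ^2 := rfl

lemma mons_30 (α β γ : ℝ) : mons α β γ 30 = α*β^6 := rfl

lemma mons_31 (α β γ : ℝ) : mons α β γ 31 = β^6*γ := rfl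

lemma mons_32 (α β γ : ℝ) : mons α β γ 32 = β^7 := rfl

lemma F0_mons (α β γ : ℝ) (h : α + β + 2 * γ = 1) :
    ((2*β^2-β*γ-γ^2)*(β+2*γ)) = F0 (mons α β γ) := by
  simp only [F0, mons_1, mons_2, mons_3, mons_4, mons_5, mons_7, mons_8, mons_9, mons_10, mons_11, mons_13, mons_14, mons_15, mons_16, mons_17, mons_18, mons_19, mons_20, mons_21, mons_22, mons_23, mons_24, mons_25, mons_26, mons_27, mons_28, mons_29, mons_30, mons_31, mons_32]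
  obtain rfl : α = 1 - β - 2 * γ := by linarith
  ring

lemma F1_mons (α β γ : ℝ) (h : α + β + 2 * γ = 1) :
    ((2*β^2-β*γ-γ^2)*(β+2*γ))^2 = F1 (mons α β γ) := by
  simp only [F1, mons_4, mons_5, mons_10, mons_11, mons_16, mons_17, mons_21, mons_22, mons_25, mons_26, mons_28, mons_29, mons_30, mons_31, mons_32]
  obtain rfl : α = 1 - β - 2 * γ := by linarith
  ring

lemma F2_mons (α β γ : ℝ) (h : α + β + 2 * γ = 1) :
    (2*β^2+2*β*γ+2*γ^2) = F2 (mons α β γ) := by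
  simp only [F2, mons_0, mons_1, mons_2, mons_3, mons_4, mons_5, mons_6, mons_7, mons_8, mons_9, mons_10, mons_11, mons_12, mons_13, mons_14, mons_15, mons_16, mons_17, mons_18, mons_19, mons_20, mons_21, mons_22, mons_23, mons_24, mons_25, mons_26, mons_27, mons_28, mons_29, mons_30, mons_31, mons_32]
  obtain rfl : α = 1 - β - 2 * γ := by linarith
  ring

lemma F3_mons (α β γ : ℝ) (h : α + β + 2 * γ = 1) :
    (2*β^2+2*β*γ+2*γ^2)*((2*β^2-β*γ-γ^2)*(β+2*γ)) = F3 (mons α β γ) := by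
  simp only [F3, mons_3, mons_4, mons_5, mons_9, mons_10, mons_11, mons_15, mons_16, mons_17, mons_20, mons_21, mons_22, mons_24, mons_25, mons_26, mons_27, mons_28, mons_29, mons_30, mons_31, mons_32]
  obtain rfl : α = 1 - β - 2 * γ := by linarith
  ring

lemma F4_mons (α β γ : ℝ) (h : α + β + 2 * γ = 1) :
    (2*β^2+2*β*γ+2*γ^2)^2 = F4 (mons α β γ) := by
  simp only [F4, mons_2, mons_3, mons_4, mons_5, mons_8, mons_9, mons_10, mons_11, mons_14, mons_15, mons_16, mons_17, mons_19, mons_20, mons_21, mons_22, mons_23, mons_24, mons_25, mons_26, mons_27, mons_28, mons_29, mons_30, mons_31, mons_32]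
  obtain rfl : α = 1 - β - 2 * γ := by linarith
  ring

lemma F5_mons (α β γ : ℝ) (h : α + β + 2 * γ = 1) :
    (2*β^2+2*β*γ+2*γ^2)^2*((2*β^2-β*γ-γ^2)*(β+2*γ)) = F5 (mons α β γ) := by
  simp only [F5, mons_5, mons_11, mons_17, mons_22, mons_26, mons_29, mons_31, mons_32]
  obtain rfl : α = 1 - β - 2 * γ := by linarith
  ring

lemma F6_mons (α β γ : ℝ) (h : α + β + 2 * γ = 1) :
    (2*β^2+2*β*γ+2*γ^2)^3 = F6 (mons α β γ) := by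
  simp only [F6, mons_4, mons_5, mons_10, mons_11, mons_16, mons_17, mons_21, mons_22, mons_25, mons_26, mons_28, mons_29, mons_30, mons_31, mons_32]
  obtain rfl : α = 1 - β - 2 * γ := by linarith
  ring

lemma mons_nonneg (α β γ : ℝ) (hα : 0 ≤ α) (hβ : 0 ≤ β) (hγ : 0 ≤ γ) (i : Fin 33) : 0 ≤ mons α β γ i := by
  fin_cases i
  · show 0 ≤ mons α β γ 0
    rw [mons_0]; positivity
  · show 0 ≤ mons α β γ 1
    rw [mons_1]; positivity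
  · show 0 ≤ mons α β γ 2
    rw [mons_2]; positivity
  · show 0 ≤ mons α β γ 3
    rw [mons_3]; positivity
  · show 0 ≤ mons α β γ 4
    rw [mons_4]; positivity
  · show 0 ≤ mons α β γ 5
    rw [mons_5]; positivity
  · show 0 ≤ mons α β γ 6
    rw [mons_6]; positivity
  · show 0 ≤ mons α β γ 7
    rw [mons_7]; positivity
  · show 0 ≤ mons α β γ 8
    rw [mons_8]; positivity
  · show 0 ≤ mons α β γ 9
    rw [mons_9]; positivity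
  · show 0 ≤ mons α β γ 10
    rw [mons_10]; positivity
  · show 0 ≤ mons α β γ 11
    rw [mons_11]; positivity
  · show 0 ≤ mons α β γ 12
    rw [mons_12]; positivity
  · show 0 ≤ mons α β γ 13
    rw [mons_13]; positivity
  · show 0 ≤ mons α β γ 14
    rw [mons_14]; positivity
  · show 0 ≤ mons α β γ 15
    rw [mons_15]; positivity
  · show 0 ≤ mons α β γ 16
    rw [mons_16]; positivity
  · show 0 ≤ mons α β γ 17
    rw [mons_17]; positivity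
  · show 0 ≤ mons α β γ 18
    rw [mons_18]; positivity
  · show 0 ≤ mons α β γ 19
    rw [mons_19]; positivity
  · show 0 ≤ mons α β γ 20
    rw [mons_20]; positivity
  · show 0 ≤ mons α β γ 21
    rw [mons_21]; positivity
  · show 0 ≤ mons α β γ 22
    rw [mons_22]; positivity
  · show 0 ≤ mons α β γ 23
    rw [mons_23]; positivity
  · show 0 ≤ mons α β γ 24
    rw [mons_24]; positivity
  · show 0 ≤ mons α β γ 25
    rw [mons_25]; positivity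
  · show 0 ≤ mons α β γ 26
    rw [mons_26]; positivity
  · show 0 ≤ mons α β γ 27
    rw [mons_27]; positivity
  · show 0 ≤ mons α β γ 28
    rw [mons_28]; positivity
  · show 0 ≤ mons α β γ 29
    rw [mons_29]; positivity
  · show 0 ≤ mons α β γ 30
    rw [mons_30]; positivity
  · show 0 ≤ mons α β γ 31
    rw [mons_31]; positivity
  · show 0 ≤ mons α β γ 32
    rw [mons_32]; positivity

lemma Cham.mono {s c : ℝ} (h : Cham s c) : ∃ X : Fin 33 → ℝ, (∀ i, 0 ≤ X i) ∧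
    (c = F0 X ∧ c^2 = F1 X ∧ s = F2 X ∧ s*c = F3 X ∧ s^2 = F4 X ∧ s^2*c = F5 X ∧ s^3 = F6 X) := by
  obtain ⟨α, β, γ, hα, hβ, hγ, h1, rfl, rfl⟩ := h
  exact ⟨mons α β γ, mons_nonneg α β γ hα hβ hγ, F0_mons α β γ h1, F1_mons α β γ h1, F2_mons α β γ h1, F3_mons α β γ h1, F4_mons α β γ h1, F5_mons α β γ h1, F6_mons α β γ h1⟩

lemma swapT (X : Fin 33 → ℝ) (L0 L1 L2 L3 L4 L5 L6 : ℝ) :
    F0 X * L0 + F1 X * L1 + F2 X * L2 + F3 X * L3 + F4 X * L4 + F5 X * L5 + F6 X * L6 = X 0 * (2*L2) + X 1 * ((-2)*L0 + 20*L2) + X 2 * ((-16)*L0 + 80*L2 + 4*L4) + X 3 * ((-48)*L0 + 160*L2 + (-4)*L3 + 24*L4) + X 4 * ((-64)*L0 + 4*L1 + 160*L2 + (-16)*L3 + 48*L4 + 8*L6) + X 5 * ((-32)*L0 + 8*L1 + 64*L2 + (-16)*L3 + 32*L4 + (-8)*L5 + 16*L6) + X 6 * (2*L2) + X 7 * ((-3)*L0 + 30*L2) + X 8 * ((-32)*L0 + 160*L2 + 8*L4) + X 9 * ((-120)*L0 + 400*L2 + (-10)*L3 + 60*L4) +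 X 10 * ((-192)*L0 + 12*L1 + 480*L2 + (-48)*L3 + 144*L4 + 24*L6) + X 11 * ((-112)*L0 + 28*L1 + 224*L2 + (-56)*L3 + 112*L4 + (-28)*L5 + 56*L6) + X 12 * (2*L2) + X 13 * (3*L0 + 30*L2) + X 14 * (12*L0 + 180*L2 + 12*L4) + X 15 * ((-12)*L0 + 520*L2 + (-4)*L3 + 96*L4) + X 16 * ((-96)*L0 + (-3)*L1 + 720*L2 + (-36)*L3 + 252*L4 + 48*L6) + X 17 * ((-96)*L0 + 6*L1 + 384*L2 + (-60)*L3 + 216*L4 + (-36)*L5 + 120*L6) + X 18 * (2*L0 + 10*L2) + X 19 * (28*L0 + 100*L2 + 8*L4) + X 20 * (102*L0 + 380*L2 + 4*L3 + 84*L4) + X 21 * (128*L0 + (-26)*L1 + 640*L2 + 8*L3 + 264*L4 + 56*L6) + X 22 * (40*L0 + (-55)*L1 + 400*L2 + (-10)*L3 + 260*L4 + (-20)*L5 + 160*L6) + X 23 * (8*L0 + 20*L2 + 4*L4) + X 24 * (66*L0 + 140*L2 + 10*L3 + 48*L4) + X 25 * (156*L0 + (-3)*L1 + 330*L2 + 48*L3 + 180*L4 + 48*L6) + X 26 * (110*L0 + (-32)*L1 + 260*L2 + 52*L3 + 208*L4 + 20*L5 + 152*L6)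 + X 27 * (12*L0 + 20*L2 + 4*L3 + 12*L4) + X 28 * (60*L0 + 12*L1 + 90*L2 + 36*L3 + 72*L4 + 24*L6) + X 29 * (69*L0 + 21*L1 + 102*L2 + 60*L3 + 108*L4 + 36*L5 + 96*L6) + X 30 * (8*L0 + 4*L1 + 10*L2 + 8*L3 + 12*L4 + 8*L6) + X 31 * (19*L0 + 20*L1 + 22*L2 + 26*L3 + 32*L4 + 28*L5 + 40*L6) + X 32 * (2*L0 + 4*L1 + 2*L2 + 4*L3 + 4*L4 + 8*L5 + 8*L6) := by
  simp only [F0, F1, F2, F3, F4, F5, F6]; ring

lemma add33 {X : Fin 33 → ℝ} (hX : ∀ i, 0 ≤ X i) {R0 R1 R2 R3 R4 R5 R6 R7 R8 R9 R10 R11 R12 R13 R14 R15 R16 R17 R18 R19 R20 R21 R22 R23 R24 R25 R26 R27 R28 R29 R30 R31 R32 : ℝ}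
    (k0 : 0 ≤ R0)
    (k1 : 0 ≤ R1)
    (k2 : 0 ≤ R2)
    (k3 : 0 ≤ R3)
    (k4 : 0 ≤ R4)
    (k5 : 0 ≤ R5)
    (k6 : 0 ≤ R6)
    (k7 : 0 ≤ R7)
    (k8 : 0 ≤ R8)
    (k9 : 0 ≤ R9)
    (k10 : 0 ≤ R10)
    (k11 : 0 ≤ R11)
    (k12 : 0 ≤ R12)
    (k13 : 0 ≤ R13)
    (k14 : 0 ≤ R14)
    (k15 : 0 ≤ R15)
    (k16 : 0 ≤ R16)
    (k17 : 0 ≤ R17)
    (k18 : 0 ≤ R18)
    (k19 : 0 ≤ R19)
    (k20 : 0 ≤ R20)
    (k21 : 0 ≤ R21)
    (k22 : 0 ≤ R22)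
    (k23 : 0 ≤ R23)
    (k24 : 0 ≤ R24)
    (k25 : 0 ≤ R25)
    (k26 : 0 ≤ R26)
    (k27 : 0 ≤ R27)
    (k28 : 0 ≤ R28)
    (k29 : 0 ≤ R29)
    (k30 : 0 ≤ R30)
    (k31 : 0 ≤ R31)
    (k32 : 0 ≤ R32) :
    0 ≤ X 0 * (R0) + X 1 * (R1) + X 2 * (R2) + X 3 * (R3) + X 4 * (R4) + X 5 * (R5) + X 6 * (R6) + X 7 * (R7) + X 8 * (R8) + X 9 * (R9) + X 10 * (R10) + X 11 * (R11) + X 12 * (R12) + X 13 * (R13) + X 14 * (R14) + X 15 * (R15) + X 16 * (R16) + X 17 * (R17) + X 18 * (R18) + X 19 * (R19) + X 20 * (R20) + X 21 * (R21) + X 22 * (R22) + X 23 * (R23) + X 24 * (R24) + X 25 * (R25) + X 26 * (R26) + X 27 * (R27) + X 28 * (R28) + X 29 * (R29) + X 30 * (R30) + X 31 * (R31) + X 32 * (R32) := by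
  have h0 := hX 0
  have h1 := hX 1
  have h2 := hX 2
  have h3 := hX 3
  have h4 := hX 4
  have h5 := hX 5
  have h6 := hX 6
  have h7 := hX 7
  have h8 := hX 8
  have h9 := hX 9
  have h10 := hX 10
  have h11 := hX 11
  have h12 := hX 12
  have h13 := hX 13
  have h14 := hX 14
  have h15 := hX 15
  have h16 := hX 16
  have h17 := hX 17
  have h18 := hX 18
  have h19 := hX 19
  have h20 := hX 20
  have h21 := hX 21
  have h22 := hX 22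
  have h23 := hX 23
  have h24 := hX 24
  have h25 := hX 25
  have h26 := hX 26
  have h27 := hX 27
  have h28 := hX 28
  have h29 := hX 29
  have h30 := hX 30
  have h31 := hX 31
  have h32 := hX 32
  positivity


end Crest.Agent.R163.Q3
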