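import Mathlib
import Crest.Agent.R163.Bern5

/-! Row 163, q = 4: positivity of the multiplier `theta` in (i) and of `B - s/300` in (ii)
(helper163's data), two-variable polynomials. -/

set_option autoImplicit false
set_option maxRecDepth 1000000

namespace Crest.Agent.R163.Q4CertI

open Crest.Agent.R163.Bern

/-- `65536 * (r + sum mu_j null_j - al_p)` of (i) -/
def pa : List (List Int) :=
  [[262, 0, 0, 0, 0, 0, 0], [3, 0, 0, 0, 0, 0, 0], [-8, 0, 120025, 0, 0, 0, 0], [19399, 0, -22561, 0, 0, 0, 0], [-59403, 0, -60477, 0, 863, 0, 0], [66119, 0, 29736, 0, 3078, 0, 0], [-31603, 0, -4380, 0, -1305, 0, 400], [5493, 0, -112, 0, -7, 0, 14]]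

/-- data of the check of `pa` -/
def pa_D : Data where
  k := 51
  n := 8
  m := 7
  n' := 1
  m' := 1
  XM := 7
  YM := 4
  XM' := 2
  YM' := 2
  S := 425248
  S' := 1
  SC := 1
  cr := 2
  cy := 2
  cr' := 1
  cy' := 1
  C := [[1]]
  fs := [pa]
  gs := [[[1]]]

theorem pa_ok : pa_D.ok = true := by decide +kernel

theorem pa_row : pa_D.row 0 4 0 2 (0, 1) (0, 1)
    [((0, 2), [(0, 1), (1, 2)]), ((2, 3), [(0, 1), (1, 2)]), ((3, 4), [(0, 1), (1, 2)])] = true := by decide +kernel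

theorem pa_nonneg {r y : ℝ} (hr0 : 0 ≤ r) (hr1 : r ≤ 2) (hy0 : 0 ≤ y) (hy1 : y ≤ 1) :
    0 ≤ ev2 r y pa := by
  have e1 : (((0 : Int) : ℝ) / ((pa_D.cr : Int) : ℝ)) = 0 := by
    show (((0 : Int) : ℝ) / (((2 : Int)) : ℝ)) = 0
    norm_num
  have e2 : (((4 : Int) : ℝ) / ((pa_D.cr : Int) : ℝ)) = 2 := by
    show (((4 : Int) : ℝ) / (((2 : Int)) : ℝ)) = 2
    norm_num
  have e3 : (((0 : Int) : ℝ) / ((pa_D.cy : Int) : ℝ)) = 0 := by
    show (((0 : Int) : ℝ) / (((2 : Int)) : ℝ)) = 0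
    norm_num
  have e4 : (((2 : Int) : ℝ) / ((pa_D.cy : Int) : ℝ)) = 1 := by
    show (((2 : Int) : ℝ) / (((2 : Int)) : ℝ)) = 1
    norm_num
  have h := Data.row_sound pa_ok pa_row (e1.trans_le hr0) (hr1.trans_eq e2.symm)
    (e3.trans_le hy0) (hy1.trans_eq e4.symm) (r' := 0) (y' := 0)
    (by show (((0 : Int)) : ℝ) / (((1 : Int)) : ℝ) ≤ 0; norm_num)
    (by show (0 : ℝ) ≤ (((1 : Int)) : ℝ) / (((1 : Int)) : ℝ); norm_num)
    (by show (((0 : Int)) : ℝ) / (((1 : Int)) : ℝ) ≤ 0; norm_num)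
    (by show (0 : ℝ) ≤ (((1 : Int)) : ℝ) / (((1 : Int)) : ℝ); norm_num)
  have e : pa_D.val r y 0 0 = ev2 r y pa := by
    show bil [[1]] [ev2 r y pa] [ev2 0 0 [[1]]] = _
    simp [bil, dotR, ev2, evRows, ev]
  rw [e] at h
  exact h

/-- `9830400 * (B_p + sum mu_j null_j - (1/100)(eta_p + w^2))` of (ii) -/
def pb : List (List Int) :=
  [[2589496, 0, 0, 0, 0, 0, 0], [15610954, 98304, 0, 0, 0, 0, 0], [76707146, 0, -92454850, 0, 0, 0, 0], [-472755000, 0, 371484000, 0, 0, 0, 0], [879248775, 0, -664555050, 0, 3741825, 0, 0], [-724681125, 0, 576922950, 0, -23586225, 0, 0], [275319075, 0, -231723900, 0, 6686775, 0, 8540700], [-39502725, 0, 34462800, 0, 2153925, 0, -4307850]]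

/-- data of the check of `pb` -/
def pb_D : Data where
  k := 58
  n := 8
  m := 7
  n' := 1
  m' := 1
  XM := 7
  YM := 2
  XM' := 2
  YM' := 2
  S := 4507133450
  S' := 1
  SC := 1
  cr := 2
  cy := 1
  cr' := 1
  cy' := 1
  C := [[1]]
  fs := [pb]
  gs := [[[1]]]

theorem pb_ok : pb_D.ok = true := by decide +kernel

theorem pb_row : pb_D.row 0 4 0 1 (0, 1) (0, 1)
    [((0, 2), [(0, 1)]), ((2, 3), [(0, 1)]), ((3, 4), [(0, 1)])] = true := by decide +kernel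

theorem pb_nonneg {r y : ℝ} (hr0 : 0 ≤ r) (hr1 : r ≤ 2) (hy0 : 0 ≤ y) (hy1 : y ≤ 1) :
    0 ≤ ev2 r y pb := by
  have e1 : (((0 : Int) : ℝ) / ((pb_D.cr : Int) : ℝ)) = 0 := by
    show (((0 : Int) : ℝ) / (((2 : Int)) : ℝ)) = 0
    norm_num
  have e2 : (((4 : Int) : ℝ) / ((pb_D.cr : Int) : ℝ)) = 2 := by
    show (((4 : Int) : ℝ) / (((2 : Int)) : ℝ)) = 2
    norm_num
  have e3 : (((0 : Int) : ℝ) / ((pb_D.cy : Int) : ℝ)) = 0 := by
    show (((0 : Int) : ℝ) / (((1 : Int)) : ℝ)) = 0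
    norm_num
  have e4 : (((1 : Int) : ℝ) / ((pb_D.cy : Int) : ℝ)) = 1 := by
    show (((1 : Int) : ℝ) / (((1 : Int)) : ℝ)) = 1
    norm_num
  have h := Data.row_sound pb_ok pb_row (e1.trans_le hr0) (hr1.trans_eq e2.symm)
    (e3.trans_le hy0) (hy1.trans_eq e4.symm) (r' := 0) (y' := 0)
    (by show (((0 : Int)) : ℝ) / (((1 : Int)) : ℝ) ≤ 0; norm_num)
    (by show (0 : ℝ) ≤ (((1 : Int)) : ℝ) / (((1 : Int)) : ℝ); norm_num)
    (by show (((0 : Int)) : ℝ) / (((1 : Int)) : ℝ) ≤ 0; norm_num)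
    (by show (0 : ℝ) ≤ (((1 : Int)) : ℝ) / (((1 : Int)) : ℝ); norm_num)
  have e : pb_D.val r y 0 0 = ev2 r y pb := by
    show bil [[1]] [ev2 r y pb] [ev2 0 0 [[1]]] = _
    simp [bil, dotR, ev2, evRows, ev]
  rw [e] at h
  exact h

end Crest.Agent.R163.Q4CertI
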