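import Mathlib
import Crest.Agent.R163.Bern5

/-! Row 163, q = 4: exact data of the pointwise inequality (i) (closure), found by helper163; kernel check of the nonnegativity by Bernstein coefficients. -/

set_option autoImplicit false
set_option maxRecDepth 1000000

namespace Crest.Agent.R163.Q4CertI

open Crest.Agent.R163.Bern

/-- the functions (`fs[a][i][j]` = coefficient of `r^i y^j`) -/
def fs : List (List (List Int)) :=
  [[[1, 0, 0, 0, 0, 0, 0], [-2, 0, 0, 0, 0, 0, 0], [1, 0, 0, 0, 0, 0, 0], [0, 0, 0, 0, 0, 0, 0], [0, 0, 0, 0, 0, 0, 0], [0, 0, 0, 0, 0, 0, 0], [0, 0, 0, 0, 0, 0, 0], [0, 0, 0, 0, 0, 0, 0]], [[0, 0, 0, 0, 0, 0, 0], [0, 0, 0, 0, 0, 0, 0], [1, 0, -1, 0, 0, 0, 0], [0, 0, 0, 0, 0, 0, 0], [0, 0, 0, 0, 0, 0, 0], [0, 0, 0, 0, 0, 0, 0], [0, 0, 0, 0, 0, 0, 0], [0, 0, 0, 0, 0, 0, 0]], [[-1, 0, 0, 0, 0, 0, 0], [3, 0, 0, 0, 0, 0, 0], [-3, 0, 0, 0, 0, 0, 0], [1, 0, 0, 0, 0, 0, 0], [0, 0, 0, 0, 0,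 0, 0], [0, 0, 0, 0, 0, 0, 0], [0, 0, 0, 0, 0, 0, 0], [0, 0, 0, 0, 0, 0, 0]], [[0, 0, 0, 0, 0, 0, 0], [0, 0, 0, 0, 0, 0, 0], [-1, 0, 1, 0, 0, 0, 0], [1, 0, -1, 0, 0, 0, 0], [0, 0, 0, 0, 0, 0, 0], [0, 0, 0, 0, 0, 0, 0], [0, 0, 0, 0, 0, 0, 0], [0, 0, 0, 0, 0, 0, 0]], [[1, 0, 0, 0, 0, 0, 0], [-4, 0, 0, 0, 0, 0, 0], [6, 0, 0, 0, 0, 0, 0], [-4, 0, 0, 0, 0, 0, 0], [1, 0, 0, 0, 0, 0, 0], [0, 0, 0, 0, 0, 0, 0], [0, 0, 0, 0, 0, 0, 0], [0, 0, 0, 0, 0, 0, 0]], [[0, 0, 0, 0, 0, 0, 0], [0, 0, 0, 0, 0, 0, 0], [1, 0, -1, 0, 0, 0, 0], [-2, 0, 2, 0, 0, 0, 0], [1, 0, -1, 0, 0, 0, 0], [0, 0, 0, 0, 0, 0, 0], [0, 0, 0, 0, 0, 0, 0], [0, 0, 0, 0, 0, 0, 0]], [[0, 0, 0, 0, 0, 0, 0], [0, 0, 0, 0, 0, 0, 0], [0, 0, 0, 0, 0, 0, 0], [0, 0, 0, 0, 0, 0, 0], [1, 0, -2, 0, 1, 0, 0], [0, 0, 0, 0, 0, 0, 0], [0, 0, 0, 0, 0, 0, 0], [0, 0, 0, 0, 0, 0, 0]], [[-1, 0, 0, 0, 0, 0, 0], [5, 0, 0, 0, 0, 0, 0], [-10, 0, 0, 0, 0, 0, 0], [10, 0, 0, 0,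 0, 0, 0], [-5, 0, 0, 0, 0, 0, 0], [1, 0, 0, 0, 0, 0, 0], [0, 0, 0, 0, 0, 0, 0], [0, 0, 0, 0, 0, 0, 0]], [[0, 0, 0, 0, 0, 0, 0], [0, 0, 0, 0, 0, 0, 0], [-1, 0, 1, 0, 0, 0, 0], [3, 0, -3, 0, 0, 0, 0], [-3, 0, 3, 0, 0, 0, 0], [1, 0, -1, 0, 0, 0, 0], [0, 0, 0, 0, 0, 0, 0], [0, 0, 0, 0, 0, 0, 0]], [[0, 0, 0, 0, 0, 0, 0], [0, 0, 0, 0, 0, 0, 0], [0, 0, 0, 0, 0, 0, 0], [0, 0, 0, 0, 0, 0, 0], [-1, 0, 2, 0, -1, 0, 0], [1, 0, -2, 0, 1, 0, 0], [0, 0, 0, 0, 0, 0, 0], [0, 0, 0, 0, 0, 0, 0]], [[1, 0, 0, 0, 0, 0, 0], [-6, 0, 0, 0, 0, 0, 0], [15, 0, 0, 0, 0, 0, 0], [-20, 0, 0, 0, 0, 0, 0], [15, 0, 0, 0, 0, 0, 0], [-6, 0, 0, 0, 0, 0, 0], [1, 0, 0, 0, 0, 0, 0], [0, 0, 0, 0, 0, 0, 0]], [[0, 0, 0, 0, 0, 0, 0], [0, 0, 0, 0, 0, 0, 0], [1, 0, -1, 0, 0, 0, 0], [-4, 0, 4, 0, 0, 0, 0], [6, 0, -6, 0, 0, 0, 0], [-4, 0, 4, 0, 0, 0, 0], [1, 0, -1, 0, 0, 0, 0], [0, 0, 0, 0, 0, 0, 0]], [[0, 0, 0, 0, 0, 0, 0], [0, 0, 0, 0, 0, 0, 0], [0,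 0, 0, 0, 0, 0, 0], [0, 0, 0, 0, 0, 0, 0], [1, 0, -2, 0, 1, 0, 0], [-2, 0, 4, 0, -2, 0, 0], [1, 0, -2, 0, 1, 0, 0], [0, 0, 0, 0, 0, 0, 0]], [[0, 0, 0, 0, 0, 0, 0], [0, 0, 0, 0, 0, 0, 0], [0, 0, 0, 0, 0, 0, 0], [0, 0, 0, 0, 0, 0, 0], [0, 0, 0, 0, 0, 0, 0], [0, 0, 0, 0, 0, 0, 0], [1, 0, -3, 0, 3, 0, -1], [0, 0, 0, 0, 0, 0, 0]], [[-1, 0, 0, 0, 0, 0, 0], [7, 0, 0, 0, 0, 0, 0], [-21, 0, 0, 0, 0, 0, 0], [35, 0, 0, 0, 0, 0, 0], [-35, 0, 0, 0, 0, 0, 0], [21, 0, 0, 0, 0, 0, 0], [-7, 0, 0, 0, 0, 0, 0], [1, 0, 0, 0, 0, 0, 0]], [[0, 0, 0, 0, 0, 0, 0], [0, 0, 0, 0, 0, 0, 0], [-1, 0, 1, 0, 0, 0, 0], [5, 0, -5, 0, 0, 0, 0], [-10, 0, 10, 0, 0, 0, 0], [10, 0, -10, 0, 0, 0, 0], [-5, 0, 5, 0, 0, 0, 0], [1, 0, -1, 0, 0, 0, 0]], [[0, 0, 0, 0, 0, 0, 0], [0, 0, 0, 0, 0, 0, 0], [0, 0, 0, 0, 0, 0, 0], [0, 0, 0, 0, 0, 0, 0], [-1, 0, 2, 0, -1, 0, 0], [3, 0, -6, 0, 3, 0, 0], [-3, 0, 6, 0, -3, 0, 0], [1, 0, -2, 0, 1, 0, 0]], [[0, 0,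 0, 0, 0, 0, 0], [0, 0, 0, 0, 0, 0, 0], [0, 0, 0, 0, 0, 0, 0], [0, 0, 0, 0, 0, 0, 0], [0, 0, 0, 0, 0, 0, 0], [0, 0, 0, 0, 0, 0, 0], [-1, 0, 3, 0, -3, 0, 1], [1, 0, -3, 0, 3, 0, -1]], [[0, 0, 0, 0, 0, 0, 0], [1, -1, 0, 0, 0, 0, 0], [0, 0, 0, 0, 0, 0, 0], [0, 0, 0, 0, 0, 0, 0], [0, 0, 0, 0, 0, 0, 0], [0, 0, 0, 0, 0, 0, 0], [0, 0, 0, 0, 0, 0, 0], [0, 0, 0, 0, 0, 0, 0]], [[0, 0, 0, 0, 0, 0, 0], [1, 0, -1, 0, 0, 0, 0], [0, 0, 0, 0, 0, 0, 0], [0, 0, 0, 0, 0, 0, 0], [0, 0, 0, 0, 0, 0, 0], [0, 0, 0, 0, 0, 0, 0], [0, 0, 0, 0, 0, 0, 0], [0, 0, 0, 0, 0, 0, 0]], [[0, 0, 0, 0, 0, 0, 0], [1, 0, -2, 0, 1, 0, 0], [0, 0, 0, 0, 0, 0, 0], [0, 0, 0, 0, 0, 0, 0], [0, 0, 0, 0, 0, 0, 0], [0, 0, 0, 0, 0, 0, 0], [0, 0, 0, 0, 0, 0, 0], [0, 0, 0, 0, 0, 0, 0]], [[0, 0, 0, 0, 0, 0, 0], [1, 0, -3, 0, 3, 0, -1], [0, 0, 0, 0, 0, 0, 0], [0, 0, 0, 0, 0, 0, 0], [0, 0, 0, 0, 0, 0, 0], [0, 0, 0, 0, 0, 0, 0], [0, 0, 0, 0, 0, 0, 0], [0, 0, 0,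 0, 0, 0, 0]]]

/-- the symmetric matrix -/
def C : List (List Int) :=
  [[5458056, 561466500, 0, -587187000, 75348000, 581580000, -54081000, 18852000, -491601000, 111216000, 431298000, -211833000, -78435000, 22122000, 394344000, -475434000, 300621000, -50592000, -135919200, -478467900, 104030700, -16578000], [561466500, 290301000, 747171000, -548082000, -313983000, -713997000, 265657500, -1730343000, -1193839500, 304302000, 160245000, 2925121500, 39217500, -199008000, 1310571000, -914697000, -630483000, 217365000, -277415400, -19797300, -138359100, 8289000], [0, 747171000, 0, -724788000, 332922000, 321421500, -201858000, -31032000, -59328000, 752112000, 827772000, -1954380000, -407643000, -43302000, 1135554000, -166878000, 561237750, -35955000, 236865000, -762252000, 143787000, -109965000], [-587187000, -548082000, -724788000, 276889500, 82269000, 1262803500, -41134500, 834466500, 1463787000, -549553500,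 -454284000, -3407130000, 0, 227142000, -983040000, 1743606000, 726502500, -290601000, 201481200, 151110900, 50370300, 0], [75348000, -313983000, 332922000, 82269000, 716784000, 1496358000, -385716000, -153963000, 267600000, -572367000, -935874000, -4356268000, 486619000, 330975000, -170028000, 2655927000, 429446250, -319500000, -297432000, 796386000, -153798000, 151506000], [581580000, -713997000, 321421500, 1262803500, 1496358000, -687690000, 37575000, 1211224500, -844866000, -914197500, -1097874000, -733483500, 873046500, 128817000, -327775500, 1485634500, -396770625, -62874000, -553093200, 1114370100, -257433300, 227259000], [-54081000, 265657500, -201858000, -41134500, -385716000, 37575000, 25890000, 97704000, -22992000, 136077000, 444744000, 1073919500, -243309500, -82332000, 199881000, -906169500, -38975625, 89451000, 182286000, -373015500, 85291500, -75753000], [18852000, -1730343000, -31032000,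 834466500, -153963000, 1211224500, 97704000, 408138000, 2513172000, -1365573000, -1600386000, -3488194000, 97534000, 333966000, -1966080000, 2493828000, 388008000, -243252000, -435603000, 1814904000, 125151000, -82743000], [-491601000, -1193839500, -59328000, 1463787000, 267600000, -844866000, -22992000, 2513172000, 899001000, -1647868500, 247785000, -2069928500, 2459912000, 167167500, -2793207000, 526959000, -1016933250, -72109500, -646128000, 1558608000, -358632000, 447864000], [111216000, 304302000, 752112000, -549553500, -572367000, -914197500, 136077000, -1365573000, -1647868500, 729180000, 403086000, 4291460000, -328742000, -274308000, 292197000, -2219751000, -621672000, 354228000, 161532000, -389652000, 89658000, -111966000], [431298000, 160245000, 827772000, -454284000, -935874000, -1097874000, 444744000, -1600386000, 247785000, 403086000, 141714000, 4322368000, -671122000, -308934000, 350496000,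 -2203785000, -417058500, 329880000, 305742000, -619098000, 115746000, -148392000], [-211833000, 2925121500, -1954380000, -3407130000, -4356268000, -733483500, 1073919500, -3488194000, -2069928500, 4291460000, 4322368000, 13542402000, -4411638000, -1435001000, 5090237000, -9220519500, -342621250, 1303327000, 2293065000, -4643235000, 868095000, -1112940000], [-78435000, 39217500, -407643000, 0, 486619000, 873046500, -243309500, 97534000, 2459912000, -328742000, -671122000, -4411638000, -335541000, 335561000, 368047000, 2616954000, 948782500, -436159000, 0, 0, 0, 0], [22122000, -199008000, -43302000, 227142000, 330975000, 128817000, -82332000, 333966000, 167167500, -274308000, -308934000, -1435001000, 335561000, 115596000, -249633000, 871798500, 136259250, -136032000, -152871000, 309549000, -57873000, 74196000], [394344000, 1310571000, 1135554000, -983040000, -170028000, -327775500, 199881000, -1966080000,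 -2793207000, 292197000, 350496000, 5090237000, 368047000, -249633000, 1314972000, -2150145000, -768825750, 240924000, 78051000, -1280355000, -330291000, 218280000], [-475434000, -914697000, -166878000, 1743606000, 2655927000, 1485634500, -906169500, 2493828000, 526959000, -2219751000, -2203785000, -9220519500, 2616954000, 871798500, -2150145000, 6022350000, 382223250, -848965500, -927648000, 1913526000, -304524000, 387432000], [300621000, -630483000, 561237750, 726502500, 429446250, -396770625, -38975625, 388008000, -1016933250, -621672000, -417058500, -342621250, 948782500, 136259250, -768825750, 382223250, -105495000, -125100750, -386520000, 797302500, -126885000, 161430000], [-50592000, 217365000, -35955000, -290601000, -319500000, -62874000, 89451000, -243252000, -72109500, 354228000, 329880000, 1303327000, -436159000, -136032000, 240924000, -848965500, -125100750, 156612000, 154608000, -318921000,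 50754000, -64572000], [-135919200, -277415400, 236865000, 201481200, -297432000, -553093200, 182286000, -435603000, -646128000, 161532000, 305742000, 2293065000, 0, -152871000, 78051000, -927648000, -386520000, 154608000, 235929600, 0, 0, 0], [-478467900, -19797300, -762252000, 151110900, 796386000, 1114370100, -373015500, 1814904000, 1558608000, -389652000, -619098000, -4643235000, 0, 309549000, -1280355000, 1913526000, 797302500, -318921000, 0, 0, 530841600, -353894400], [104030700, -138359100, 143787000, 50370300, -153798000, -257433300, 85291500, 125151000, -358632000, 89658000, 115746000, 868095000, 0, -57873000, -330291000, -304524000, -126885000, 50754000, 0, 530841600, -1946419200, 1474560000], [-16578000, 8289000, -109965000, 0, 151506000, 227259000, -75753000, -82743000, 447864000, -111966000, -148392000, -1112940000, 0, 74196000, 218280000, 387432000, 161430000, -64572000, 0, -353894400, 1474560000,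 -1120665600]]

/-- data of the check -/
def D : Data where
  k := 166
  n := 8
  m := 7
  n' := 8
  m' := 7
  XM := 14
  YM := 32
  XM' := 14
  YM' := 32
  S := 128
  S' := 128
  SC := 368034200656
  cr := 4
  cy := 16
  cr' := 4
  cy' := 16
  C := C
  fs := fs
  gs := fs

/-- the cells -/
def cells : List ((Int × Int) × List (Int × Int)) :=
  [((0, 2), [(0, 8), (8, 12), (12, 14), (14, 15), (15, 16)]), ((2, 3), [(0, 8), (8, 12), (12, 14), (14, 15), (15, 16)]), ((3, 4), [(0, 8), (8, 12), (12, 14), (14, 15), (15, 16)]), ((4, 5), [(0, 8), (8, 12), (12, 14), (14, 15), (15, 16)]), ((5, 6), [(0, 8), (8, 12), (12, 14), (14, 15), (15, 16)]), ((6, 8), [(0, 8), (8, 12), (12, 14), (14, 15), (15, 16)])]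

theorem D_ok : D.ok = true := by decide +kernel

theorem D_sym : symOK D.fs.length D.C = true := by decide +kernel

theorem cov : covOK 0 8 0 16 cells = true := by decide +kernel

theorem row_0_0 : D.row 0 8 0 16 (0, 2) (0, 8)
    [((0, 2), [(0, 8), (8, 12), (12, 14), (14, 15), (15, 16)]), ((2, 3), [(0, 8), (8, 12), (12, 14), (14, 15), (15, 16)]), ((3, 4), [(0, 8), (8, 12), (12, 14), (14, 15), (15, 16)]), ((4, 5), [(0, 8), (8, 12), (12, 14), (14, 15), (15, 16)]), ((5, 6), [(0, 8), (8, 12), (12, 14), (14, 15), (15, 16)]), ((6, 8), [(0, 8), (8, 12), (12, 14), (14, 15), (15, 16)])] = true := by decide +kernel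

theorem row_0_1 : D.row 0 8 0 16 (0, 2) (8, 12)
    [((0, 2), [(0, 8), (8, 12), (12, 14), (14, 15), (15, 16)]), ((2, 3), [(0, 8), (8, 12), (12, 14), (14, 15), (15, 16)]), ((3, 4), [(0, 8), (8, 12), (12, 14), (14, 15), (15, 16)]), ((4, 5), [(0, 8), (8, 12), (12, 14), (14, 15), (15, 16)]), ((5, 6), [(0, 8), (8, 12), (12, 14), (14, 15), (15, 16)]), ((6, 8), [(0, 8), (8, 12), (12, 14), (14, 15), (15, 16)])] = true := by decide +kernel

theorem row_0_2 : D.row 0 8 0 16 (0, 2) (12, 14)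
    [((0, 2), [(0, 8), (8, 12), (12, 14), (14, 15), (15, 16)]), ((2, 3), [(0, 8), (8, 12), (12, 14), (14, 15), (15, 16)]), ((3, 4), [(0, 8), (8, 12), (12, 14), (14, 15), (15, 16)]), ((4, 5), [(0, 8), (8, 12), (12, 14), (14, 15), (15, 16)]), ((5, 6), [(0, 8), (8, 12), (12, 14), (14, 15), (15, 16)]), ((6, 8), [(0, 8), (8, 12), (12, 14), (14, 15), (15, 16)])] = true := by decide +kernel

theorem row_0_3 : D.row 0 8 0 16 (0, 2) (14, 15)
    [((0, 2), [(0, 8), (8, 12), (12, 14), (14, 15), (15, 16)]), ((2, 3), [(0, 8), (8, 12), (12, 14), (14, 15), (15, 16)]), ((3, 4), [(0, 8), (8, 12), (12, 14), (14, 15), (15, 16)]), ((4, 5), [(0, 8), (8, 12), (12, 14), (14, 15), (15, 16)]), ((5, 6), [(0, 8), (8, 12), (12, 14), (14, 15), (15, 16)]), ((6, 8), [(0, 8), (8, 12), (12, 14), (14, 15), (15, 16)])] = true := by decide +kernel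

theorem row_0_4 : D.row 0 8 0 16 (0, 2) (15, 16)
    [((0, 2), [(0, 8), (8, 12), (12, 14), (14, 15), (15, 16)]), ((2, 3), [(0, 8), (8, 12), (12, 14), (14, 15), (15, 16)]), ((3, 4), [(0, 8), (8, 12), (12, 14), (14, 15), (15, 16)]), ((4, 5), [(0, 8), (8, 12), (12, 14), (14, 15), (15, 16)]), ((5, 6), [(0, 8), (8, 12), (12, 14), (14, 15), (15, 16)]), ((6, 8), [(0, 8), (8, 12), (12, 14), (14, 15), (15, 16)])] = true := by decide +kernel

theorem row_1_0 : D.row 2 8 0 16 (2, 3) (0, 8)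
    [((2, 3), [(0, 8), (8, 12), (12, 14), (14, 15), (15, 16)]), ((3, 4), [(0, 8), (8, 12), (12, 14), (14, 15), (15, 16)]), ((4, 5), [(0, 8), (8, 12), (12, 14), (14, 15), (15, 16)]), ((5, 6), [(0, 8), (8, 12), (12, 14), (14, 15), (15, 16)]), ((6, 8), [(0, 8), (8, 12), (12, 14), (14, 15), (15, 16)])] = true := by decide +kernel

theorem row_1_1 : D.row 2 8 0 16 (2, 3) (8, 12)
    [((2, 3), [(0, 8), (8, 12), (12, 14), (14, 15), (15, 16)]), ((3, 4), [(0, 8), (8, 12), (12, 14), (14, 15), (15, 16)]), ((4, 5), [(0, 8), (8, 12), (12, 14), (14, 15), (15, 16)]), ((5, 6), [(0, 8), (8, 12), (12, 14), (14, 15), (15, 16)]), ((6, 8), [(0, 8), (8, 12), (12, 14), (14, 15), (15, 16)])] = true := by decide +kernel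

theorem row_1_2 : D.row 2 8 0 16 (2, 3) (12, 14)
    [((2, 3), [(0, 8), (8, 12), (12, 14), (14, 15), (15, 16)]), ((3, 4), [(0, 8), (8, 12), (12, 14), (14, 15), (15, 16)]), ((4, 5), [(0, 8), (8, 12), (12, 14), (14, 15), (15, 16)]), ((5, 6), [(0, 8), (8, 12), (12, 14), (14, 15), (15, 16)]), ((6, 8), [(0, 8), (8, 12), (12, 14), (14, 15), (15, 16)])] = true := by decide +kernel

theorem row_1_3 : D.row 2 8 0 16 (2, 3) (14, 15)
    [((2, 3), [(0, 8), (8, 12), (12, 14), (14, 15), (15, 16)]), ((3, 4), [(0, 8), (8, 12), (12, 14), (14, 15), (15, 16)]), ((4, 5), [(0, 8), (8, 12), (12, 14), (14, 15), (15, 16)]), ((5, 6), [(0, 8), (8, 12), (12, 14), (14, 15), (15, 16)]), ((6, 8), [(0, 8), (8, 12), (12, 14), (14, 15), (15, 16)])] = true := by decide +kernel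

theorem row_1_4 : D.row 2 8 0 16 (2, 3) (15, 16)
    [((2, 3), [(0, 8), (8, 12), (12, 14), (14, 15), (15, 16)]), ((3, 4), [(0, 8), (8, 12), (12, 14), (14, 15), (15, 16)]), ((4, 5), [(0, 8), (8, 12), (12, 14), (14, 15), (15, 16)]), ((5, 6), [(0, 8), (8, 12), (12, 14), (14, 15), (15, 16)]), ((6, 8), [(0, 8), (8, 12), (12, 14), (14, 15), (15, 16)])] = true := by decide +kernel

theorem row_2_0 : D.row 3 8 0 16 (3, 4) (0, 8)
    [((3, 4), [(0, 8), (8, 12), (12, 14), (14, 15), (15, 16)]), ((4, 5), [(0, 8), (8, 12), (12, 14), (14, 15), (15, 16)]), ((5, 6), [(0, 8), (8, 12), (12, 14), (14, 15), (15, 16)]), ((6, 8), [(0, 8), (8, 12), (12, 14), (14, 15), (15, 16)])] = true := by decide +kernel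

theorem row_2_1 : D.row 3 8 0 16 (3, 4) (8, 12)
    [((3, 4), [(0, 8), (8, 12), (12, 14), (14, 15), (15, 16)]), ((4, 5), [(0, 8), (8, 12), (12, 14), (14, 15), (15, 16)]), ((5, 6), [(0, 8), (8, 12), (12, 14), (14, 15), (15, 16)]), ((6, 8), [(0, 8), (8, 12), (12, 14), (14, 15), (15, 16)])] = true := by decide +kernel

theorem row_2_2 : D.row 3 8 0 16 (3, 4) (12, 14)
    [((3, 4), [(0, 8), (8, 12), (12, 14), (14, 15), (15, 16)]), ((4, 5), [(0, 8), (8, 12), (12, 14), (14, 15), (15, 16)]), ((5, 6), [(0, 8), (8, 12), (12, 14), (14, 15), (15, 16)]), ((6, 8), [(0, 8), (8, 12), (12, 14), (14, 15), (15, 16)])] = true := by decide +kernel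

theorem row_2_3 : D.row 3 8 0 16 (3, 4) (14, 15)
    [((3, 4), [(0, 8), (8, 12), (12, 14), (14, 15), (15, 16)]), ((4, 5), [(0, 8), (8, 12), (12, 14), (14, 15), (15, 16)]), ((5, 6), [(0, 8), (8, 12), (12, 14), (14, 15), (15, 16)]), ((6, 8), [(0, 8), (8, 12), (12, 14), (14, 15), (15, 16)])] = true := by decide +kernel

theorem row_2_4 : D.row 3 8 0 16 (3, 4) (15, 16)
    [((3, 4), [(0, 8), (8, 12), (12, 14), (14, 15), (15, 16)]), ((4, 5), [(0, 8), (8, 12), (12, 14), (14, 15), (15, 16)]), ((5, 6), [(0, 8), (8, 12), (12, 14), (14, 15), (15, 16)]), ((6, 8), [(0, 8), (8, 12), (12, 14), (14, 15), (15, 16)])] = true := by decide +kernel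

theorem row_3_0 : D.row 4 8 0 16 (4, 5) (0, 8)
    [((4, 5), [(0, 8), (8, 12), (12, 14), (14, 15), (15, 16)]), ((5, 6), [(0, 8), (8, 12), (12, 14), (14, 15), (15, 16)]), ((6, 8), [(0, 8), (8, 12), (12, 14), (14, 15), (15, 16)])] = true := by decide +kernel

theorem row_3_1 : D.row 4 8 0 16 (4, 5) (8, 12)
    [((4, 5), [(0, 8), (8, 12), (12, 14), (14, 15), (15, 16)]), ((5, 6), [(0, 8), (8, 12), (12, 14), (14, 15), (15, 16)]), ((6, 8), [(0, 8), (8, 12), (12, 14), (14, 15), (15, 16)])] = true := by decide +kernel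

theorem row_3_2 : D.row 4 8 0 16 (4, 5) (12, 14)
    [((4, 5), [(0, 8), (8, 12), (12, 14), (14, 15), (15, 16)]), ((5, 6), [(0, 8), (8, 12), (12, 14), (14, 15), (15, 16)]), ((6, 8), [(0, 8), (8, 12), (12, 14), (14, 15), (15, 16)])] = true := by decide +kernel

theorem row_3_3 : D.row 4 8 0 16 (4, 5) (14, 15)
    [((4, 5), [(0, 8), (8, 12), (12, 14), (14, 15), (15, 16)]), ((5, 6), [(0, 8), (8, 12), (12, 14), (14, 15), (15, 16)]), ((6, 8), [(0, 8), (8, 12), (12, 14), (14, 15), (15, 16)])] = true := by decide +kernel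

theorem row_3_4 : D.row 4 8 0 16 (4, 5) (15, 16)
    [((4, 5), [(0, 8), (8, 12), (12, 14), (14, 15), (15, 16)]), ((5, 6), [(0, 8), (8, 12), (12, 14), (14, 15), (15, 16)]), ((6, 8), [(0, 8), (8, 12), (12, 14), (14, 15), (15, 16)])] = true := by decide +kernel

theorem row_4_0 : D.row 5 8 0 16 (5, 6) (0, 8)
    [((5, 6), [(0, 8), (8, 12), (12, 14), (14, 15), (15, 16)]), ((6, 8), [(0, 8), (8, 12), (12, 14), (14, 15), (15, 16)])] = true := by decide +kernel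

theorem row_4_1 : D.row 5 8 0 16 (5, 6) (8, 12)
    [((5, 6), [(0, 8), (8, 12), (12, 14), (14, 15), (15, 16)]), ((6, 8), [(0, 8), (8, 12), (12, 14), (14, 15), (15, 16)])] = true := by decide +kernel

theorem row_4_2 : D.row 5 8 0 16 (5, 6) (12, 14)
    [((5, 6), [(0, 8), (8, 12), (12, 14), (14, 15), (15, 16)]), ((6, 8), [(0, 8), (8, 12), (12, 14), (14, 15), (15, 16)])] = true := by decide +kernel

theorem row_4_3 : D.row 5 8 0 16 (5, 6) (14, 15)
    [((5, 6), [(0, 8), (8, 12), (12, 14), (14, 15), (15, 16)]), ((6, 8), [(0, 8), (8, 12), (12, 14), (14, 15), (15, 16)])] = true := by decide +kernel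

theorem row_4_4 : D.row 5 8 0 16 (5, 6) (15, 16)
    [((5, 6), [(0, 8), (8, 12), (12, 14), (14, 15), (15, 16)]), ((6, 8), [(0, 8), (8, 12), (12, 14), (14, 15), (15, 16)])] = true := by decide +kernel

theorem row_5_0 : D.row 6 8 0 16 (6, 8) (0, 8)
    [((6, 8), [(0, 8), (8, 12), (12, 14), (14, 15), (15, 16)])] = true := by decide +kernel

theorem row_5_1 : D.row 6 8 0 16 (6, 8) (8, 12)
    [((6, 8), [(0, 8), (8, 12), (12, 14), (14, 15), (15, 16)])] = true := by decide +kernel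

theorem row_5_2 : D.row 6 8 0 16 (6, 8) (12, 14)
    [((6, 8), [(0, 8), (8, 12), (12, 14), (14, 15), (15, 16)])] = true := by decide +kernel

theorem row_5_3 : D.row 6 8 0 16 (6, 8) (14, 15)
    [((6, 8), [(0, 8), (8, 12), (12, 14), (14, 15), (15, 16)])] = true := by decide +kernel

theorem row_5_4 : D.row 6 8 0 16 (6, 8) (15, 16)
    [((6, 8), [(0, 8), (8, 12), (12, 14), (14, 15), (15, 16)])] = true := by decide +kernel

theorem rows : ∀ I' ∈ cells, ∀ J' ∈ I'.2, ∃ left,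
    D.row I'.1.1 8 0 16 I'.1 J' left = true := by
  simp only [cells, List.forall_mem_cons, List.not_mem_nil, false_imp_iff, implies_true, and_true]
  exact ⟨⟨⟨_, row_0_0⟩, ⟨_, row_0_1⟩, ⟨_, row_0_2⟩, ⟨_, row_0_3⟩, ⟨_, row_0_4⟩⟩, ⟨⟨_, row_1_0⟩, ⟨_, row_1_1⟩, ⟨_, row_1_2⟩, ⟨_, row_1_3⟩, ⟨_, row_1_4⟩⟩, ⟨⟨_, row_2_0⟩, ⟨_, row_2_1⟩, ⟨_, row_2_2⟩, ⟨_, row_2_3⟩, ⟨_, row_2_4⟩⟩, ⟨⟨_, row_3_0⟩, ⟨_, row_3_1⟩, ⟨_, row_3_2⟩, ⟨_, row_3_3⟩, ⟨_, row_3_4⟩⟩, ⟨⟨_, row_4_0⟩, ⟨_, row_4_1⟩, ⟨_, row_4_2⟩, ⟨_, row_4_3⟩, ⟨_, row_4_4⟩⟩, ⟨⟨_, row_5_0⟩, ⟨_, row_5_1⟩, ⟨_, row_5_2⟩, ⟨_, row_5_3⟩, ⟨_, row_5_4⟩⟩⟩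

/-- **the inequality** -/
theorem nonneg {r y r2 y2 : ℝ} (hr0 : 0 ≤ r) (hr1 : r ≤ 2) (hy0 : 0 ≤ y) (hy1 : y ≤ 1)
    (hr0' : 0 ≤ r2) (hr1' : r2 ≤ 2) (hy0' : 0 ≤ y2) (hy1' : y2 ≤ 1) :
    0 ≤ bil C (fs.map (ev2 r y)) (fs.map (ev2 r2 y2)) := by
  have e1 : (((0 : Int) : ℝ) / ((D.cr : Int) : ℝ)) = 0 := by
    show (((0 : Int) : ℝ) / (((4 : Int)) : ℝ)) = 0
    norm_num
  have e2 : (((8 : Int) : ℝ) / ((D.cr : Int) : ℝ)) = 2 := by
    show (((8 : Int) : ℝ) / (((4 : Int)) : ℝ)) = 2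
    norm_num
  have e3 : (((0 : Int) : ℝ) / ((D.cy : Int) : ℝ)) = 0 := by
    show (((0 : Int) : ℝ) / (((16 : Int)) : ℝ)) = 0
    norm_num
  have e4 : (((16 : Int) : ℝ) / ((D.cy : Int) : ℝ)) = 1 := by
    show (((16 : Int) : ℝ) / (((16 : Int)) : ℝ)) = 1
    norm_num
  exact Data.sym_sound D_ok rfl rfl rfl D_sym cov rows (e1.trans_le hr0) (hr1.trans_eq e2.symm)
    (e3.trans_le hy0) (hy1.trans_eq e4.symm) (e1.trans_le hr0') (hr1'.trans_eq e2.symm)
    (e3.trans_le hy0') (hy1'.trans_eq e4.symm)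

end Crest.Agent.R163.Q4CertI
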