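import Crest.Agent.R163.Q4Psi

/-!
Row 163, `q = 4`: closure inequality (i), reduction to a bilinear two-point inequality.
-/

set_option autoImplicit false

namespace Crest.Agent.R163

/-- lower bound of χ², linear in `EE` -/
lemma chi_ge' {v : Fin 4 → ℝ} (hv : ∀ i, 0 ≤ v i) {α β : ℝ} (hα : 0 ≤ α)
    (hβ : 3 * (1 - avg v * β) ≤ α) :
    3 * avg v - avg v * α - EE v * β ≤ chi v := by
  by_cases h : avg v = 0
  · have h0 := eq_zero_of_avg hv h
    rw [h0]
    simp [chi, avg, EE]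
  · have hpos : 0 < avg v := lt_of_le_of_ne (avg_nonneg hv) (Ne.symm h)
    have hE := EE_nonneg hv
    have hE' := EE_le v
    have e : chi v = 3 * avg v - EE v / avg v := by
      unfold chi
      rw [avg_sq_four]
      field_simp
      ring
    have e2 : EE v / avg v = EE v * β + EE v * (1 - avg v * β) / avg v := by
      field_simp
      ring
    have h2 : EE v * (1 - avg v * β) / avg v ≤ avg v * α := by
      rw [div_le_iff₀ hpos]
      rcases le_total 0 (1 - avg v * β) with h3 | h3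
      · calc EE v * (1 - avg v * β) ≤ 3 * avg v ^ 2 * (1 - avg v * β) :=
            mul_le_mul_of_nonneg_right hE' h3
          _ = avg v * (3 * (1 - avg v * β)) * avg v := by ring
          _ ≤ avg v * α * avg v := by
            apply mul_le_mul_of_nonneg_right _ hpos.le
            exact mul_le_mul_of_nonneg_left hβ hpos.le
      · have h4 : EE v * (1 - avg v * β) ≤ 0 := mul_nonpos_of_nonneg_of_nonpos hE h3
        have h5 : 0 ≤ avg v * α * avg v := by positivity
        linarith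
    rw [e, e2]
    linarith

/-- the two-point bound of the non-polynomial part of `ψ` after merging -/
noncomputable def mrgB (a b c d : ℝ) : ℝ :=
  6 / 5 * (rr a b * rr c d * (1 - yy a b * yy c d)) +
  9 / 10 * (rr a b * rr c d *
      ((1 - yy a b ^ 2) + (1 - yy c d ^ 2) - (1 - yy a b ^ 2) * (1 - yy c d ^ 2) -
      (1 - yy a b ^ 2) * yy a b ^ 2 * ((1 - yy c d ^ 2) * yy c d ^ 2))) +
  3 / 10 * (rr a b * rr c d *
      ((1 - yy a b ^ 2) ^ 2 + (1 - yy c d ^ 2) ^ 2 -
      (1 - yy a b ^ 2) ^ 2 * (1 - yy c d ^ 2) ^ 2 +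
      6 * ((1 - yy a b ^ 2) * (yy a b ^ 2) ^ 2) * ((1 - yy c d ^ 2) * (yy c d ^ 2) ^ 2) +
      13 * ((1 - yy a b ^ 2) ^ 2 * yy a b ^ 2) * ((1 - yy c d ^ 2) ^ 2 * yy c d ^ 2)))

/-- polynomial lower bound for the orbit average of `ψ` -/
theorem orb_psi4_ge {α β : ℝ → ℝ} (hα : ∀ Z, 0 ≤ Z → Z ≤ 4 → 0 ≤ α Z)
    (hβ : ∀ Z, 0 ≤ Z → Z ≤ 4 → 3 * (1 - Z * β Z) ≤ α Z)
    {u v : Fin 4 → ℝ} (hu : ∀ i, 0 ≤ u i) (hv : ∀ i, 0 ≤ v i) (hu1 : avg u = 1)
    (hv1 : avg v = 1) :
    orb (fun w => 3 * avg w - avg w * α (avg w) - EE w * β (avg w)) u v - pr2 mrgB u v ≤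
      orb psi4 u v := by
  have e : orb psi4 u v = orb chi u v - 6 / 5 * orb eta4 u v - 9 / 10 * orb L2f u v -
      3 / 10 * orb L4f u v := by
    have : psi4 = fun w => ((chi w - 6 / 5 * eta4 w) - 9 / 10 * L2f w) - 3 / 10 * L4f w := rfl
    rw [this, orb_sub (fun w => (chi w - 6 / 5 * eta4 w) - 9 / 10 * L2f w) (fun w => 3 / 10 * L4f w),
      orb_sub (fun w => chi w - 6 / 5 * eta4 w) (fun w => 9 / 10 * L2f w),
      orb_sub chi (fun w => 6 / 5 * eta4 w), orb_const_mul, orb_const_mul, orb_const_mul]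
  have h1 : orb (fun w => 3 * avg w - avg w * α (avg w) - EE w * β (avg w)) u v ≤ orb chi u v := by
    unfold orb
    refine div_le_div_of_nonneg_right ?_ (Nat.cast_nonneg _)
    refine Finset.sum_le_sum fun σ _ => ?_
    have hw : ∀ i, 0 ≤ u i * v (σ i) := fun i => mul_nonneg (hu i) (hv _)
    have h4 : avg (fun i => u i * v (σ i)) ≤ 4 := by
      have h5 : ∀ i, v i ≤ 4 := fun i => by
        have := le_avg hv i
        rw [hv1] at this
        have h6 : v i / 4 ≤ 1 := by exact_mod_cast this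
        linarith
      have h6 : avg (fun i => u i * v (σ i)) ≤ avg (fun i => 4 * u i) := by
        unfold avg
        refine div_le_div_of_nonneg_right ?_ (Nat.cast_nonneg _)
        refine Finset.sum_le_sum fun i _ => ?_
        have := mul_le_mul_of_nonneg_left (h5 (σ i)) (hu i)
        linarith
      rw [avg_smul, hu1] at h6
      linarith
    exact chi_ge' hw (hα _ (avg_nonneg hw) h4) (hβ _ (avg_nonneg hw) h4)
  have h2 := orb_eta4 hu hv
  have h3 := orb_L2f_le hu hv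
  have h4 := orb_L4f_le hu hv
  have e2 : pr2 mrgB u v = 6 / 5 * pr2 (fun a b c d => rr a b * rr c d * (1 - yy a b * yy c d)) u v +
      9 / 10 * pr2 (fun a b c d => rr a b * rr c d *
      ((1 - yy a b ^ 2) + (1 - yy c d ^ 2) - (1 - yy a b ^ 2) * (1 - yy c d ^ 2) -
      (1 - yy a b ^ 2) * yy a b ^ 2 * ((1 - yy c d ^ 2) * yy c d ^ 2))) u v +
      3 / 10 * pr2 (fun a b c d => rr a b * rr c d *
      ((1 - yy a b ^ 2) ^ 2 + (1 - yy c d ^ 2) ^ 2 -
      (1 - yy a b ^ 2) ^ 2 * (1 - yy c d ^ 2) ^ 2 +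
      6 * ((1 - yy a b ^ 2) * (yy a b ^ 2) ^ 2) * ((1 - yy c d ^ 2) * (yy c d ^ 2) ^ 2) +
      13 * ((1 - yy a b ^ 2) ^ 2 * yy a b ^ 2) * ((1 - yy c d ^ 2) ^ 2 * yy c d ^ 2))) u v := by
    rw [← pr2_const_mul, ← pr2_const_mul, ← pr2_const_mul, ← pr2_add, ← pr2_add]
    rfl
  rw [e, e2, h2]
  linarith


/-- lower bound of χ², linear in `EE`, general form -/
lemma chi_ge2 {v : Fin 4 → ℝ} (hv : ∀ i, 0 ≤ v i) {A B : ℝ} (h1 : A ≤ 3 * avg v)
    (h2 : A ≤ 3 * avg v ^ 2 * B) : A - EE v * B ≤ chi v := by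
  by_cases h : avg v = 0
  · have h0 := eq_zero_of_avg hv h
    rw [h] at h1
    rw [h0]
    simp [chi, avg, EE]
    linarith
  · have hpos : 0 < avg v := lt_of_le_of_ne (avg_nonneg hv) (Ne.symm h)
    have hE := EE_nonneg hv
    have hE' := EE_le v
    have e : chi v = 3 * avg v - EE v / avg v := by
      unfold chi
      rw [avg_sq_four]
      field_simp
      ring
    have key : (3 * avg v ^ 2) * (3 * avg v - EE v / avg v - (A - EE v * B)) =
        (3 * avg v ^ 2 - EE v) * (3 * avg v - A) + EE v * (3 * avg v ^ 2 * B - A) := by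
      field_simp
      ring
    have h3 : 0 ≤ (3 * avg v ^ 2) * (3 * avg v - EE v / avg v - (A - EE v * B)) := by
      rw [key]
      have a1 : 0 ≤ 3 * avg v ^ 2 - EE v := by linarith
      have a2 : 0 ≤ 3 * avg v - A := by linarith
      have a3 : 0 ≤ 3 * avg v ^ 2 * B - A := by linarith
      positivity
    have h4 := nonneg_of_mul_nonneg_right h3 (by positivity)
    rw [e]
    linarith

/-- polynomial lower bound for the orbit average of `ψ`, general form -/
theorem orb_psi4_ge2 {A B : ℝ → ℝ} (hA : ∀ Z, 0 ≤ Z → Z ≤ 4 → A Z ≤ 3 * Z)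
    (hB : ∀ Z, 0 ≤ Z → Z ≤ 4 → A Z ≤ 3 * Z ^ 2 * B Z)
    {u v : Fin 4 → ℝ} (hu : ∀ i, 0 ≤ u i) (hv : ∀ i, 0 ≤ v i) (hu1 : avg u = 1)
    (hv1 : avg v = 1) :
    orb (fun w => A (avg w) - EE w * B (avg w)) u v - pr2 mrgB u v ≤ orb psi4 u v := by
  have e : orb psi4 u v = orb chi u v - 6 / 5 * orb eta4 u v - 9 / 10 * orb L2f u v -
      3 / 10 * orb L4f u v := by
    have : psi4 = fun w => ((chi w - 6 / 5 * eta4 w) - 9 / 10 * L2f w) - 3 / 10 * L4f w := rfl
    rw [this, orb_sub (fun w => (chi w - 6 / 5 * eta4 w) - 9 / 10 * L2f w) (fun w => 3 / 10 * L4f w),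
      orb_sub (fun w => chi w - 6 / 5 * eta4 w) (fun w => 9 / 10 * L2f w),
      orb_sub chi (fun w => 6 / 5 * eta4 w), orb_const_mul, orb_const_mul, orb_const_mul]
  have h1 : orb (fun w => A (avg w) - EE w * B (avg w)) u v ≤ orb chi u v := by
    unfold orb
    refine div_le_div_of_nonneg_right ?_ (Nat.cast_nonneg _)
    refine Finset.sum_le_sum fun σ _ => ?_
    have hw : ∀ i, 0 ≤ u i * v (σ i) := fun i => mul_nonneg (hu i) (hv _)
    have h4 : avg (fun i => u i * v (σ i)) ≤ 4 := by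
      have h5 : ∀ i, v i ≤ 4 := fun i => by
        have := le_avg hv i
        rw [hv1] at this
        have h6 : v i / 4 ≤ 1 := by exact_mod_cast this
        linarith
      have h6 : avg (fun i => u i * v (σ i)) ≤ avg (fun i => 4 * u i) := by
        unfold avg
        refine div_le_div_of_nonneg_right ?_ (Nat.cast_nonneg _)
        refine Finset.sum_le_sum fun i _ => ?_
        have := mul_le_mul_of_nonneg_left (h5 (σ i)) (hu i)
        linarith
      rw [avg_smul, hu1] at h6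
      linarith
    exact chi_ge2 hw (hA _ (avg_nonneg hw) h4) (hB _ (avg_nonneg hw) h4)
  have h2 := orb_eta4 hu hv
  have h3 := orb_L2f_le hu hv
  have h4 := orb_L4f_le hu hv
  have e2 : pr2 mrgB u v = 6 / 5 * pr2 (fun a b c d => rr a b * rr c d * (1 - yy a b * yy c d)) u v +
      9 / 10 * pr2 (fun a b c d => rr a b * rr c d *
      ((1 - yy a b ^ 2) + (1 - yy c d ^ 2) - (1 - yy a b ^ 2) * (1 - yy c d ^ 2) -
      (1 - yy a b ^ 2) * yy a b ^ 2 * ((1 - yy c d ^ 2) * yy c d ^ 2))) u v +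
      3 / 10 * pr2 (fun a b c d => rr a b * rr c d *
      ((1 - yy a b ^ 2) ^ 2 + (1 - yy c d ^ 2) ^ 2 -
      (1 - yy a b ^ 2) ^ 2 * (1 - yy c d ^ 2) ^ 2 +
      6 * ((1 - yy a b ^ 2) * (yy a b ^ 2) ^ 2) * ((1 - yy c d ^ 2) * (yy c d ^ 2) ^ 2) +
      13 * ((1 - yy a b ^ 2) ^ 2 * yy a b ^ 2) * ((1 - yy c d ^ 2) ^ 2 * yy c d ^ 2))) u v := by
    rw [← pr2_const_mul, ← pr2_const_mul, ← pr2_const_mul, ← pr2_add, ← pr2_add]
    rfl
  rw [e, e2, h2]
  linarith

end Crest.Agent.R163
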