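import Crest.Agent.R163.Q4Clo
import Crest.Agent.R163.Q4Sym
import Crest.Agent.R163.PrBil
import Crest.Agent.R163.Q4CertI

/-! Row 163, `q = 4`: closure inequality (i), final assembly (generated from exact data). -/

set_option autoImplicit false
set_option maxRecDepth 1000000

namespace Crest.Agent.R163.Q4Clo

open Bern Q4CertI

/-- values of the pair averages in terms of the invariants -/
noncomputable def PL (s t e n l2 l4 l6 : ℝ) : List ℝ :=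
  [(1/3) * s ^ 1, (2/3) * s ^ 1, 0, 2 * t ^ 1, (-2/3) * e ^ 1 + (1/3) * s ^ 2, (2/3) * e ^ 1, (2/3) * e ^ 1 + (2/3) * s ^ 2, 0, (2/3) * s ^ 1 * t ^ 1, (8/3) * s ^ 1 * t ^ 1, 1 * t ^ 2 + (-1) * s ^ 1 * e ^ 1 + (1/3) * s ^ 3, (-1) * t ^ 2 + (1/3) * s ^ 1 * e ^ 1, 5 * t ^ 2 + (1/3) * s ^ 1 * e ^ 1, (-13) * t ^ 2 + 3 * s ^ 1 * e ^ 1 + (2/3) * s ^ 3, 0, (-4/3) * t ^ 1 * e ^ 1 + (2/3) * s ^ 2 * t ^ 1, (8/3) * t ^ 1 * e ^ 1, (-4/3) * t ^ 1 * e ^ 1 + 4 * s ^ 2 * t ^ 1, n, l2, l4, l6]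

/-- the coefficient `a` -/
noncomputable def al (s t e : ℝ) : ℝ :=
  (58229/65536) * ((2/3) * s ^ 1) + (75417/65536) * ((1/3) * s ^ 1) + (-55967/65536) * (2 * t ^ 1) + (-9325/65536) * ((2/3) * e ^ 1 + (2/3) * s ^ 2) + (29707/65536) * ((2/3) * e ^ 1)

/-- `ψ` in terms of the invariants -/
noncomputable def psiI (s n l2 l4 : ℝ) : ℝ := s - 6 / 5 * n - 9 / 10 * l2 - 3 / 10 * l4

/-- bilinear part coming from the orbit averages of polynomials -/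
noncomputable def gP (s t e s' t' e' : ℝ) : ℝ :=
  3 * gE0 s t e s' t' e' + 3 * gE1 s t e s' t' e' + (-10895/65536) * gE2 s t e s' t' e' +
    (20453/65536) * gE3 s t e s' t' e' + (-393/2048) * gE4 s t e s' t' e' +
    (1069/32768) * gE5 s t e s' t' e' + (27/32768) * gE6 s t e s' t' e' +
    0 * gE7 s t e s' t' e' +
    ((-1) * gG0 s t e s' t' e' + 1 * gG1 s t e s' t' e' + (-15825/16384) * gG2 s t e s' t' e' +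
    (27201/32768) * gG3 s t e s' t' e' + (-7951/16384) * gG4 s t e s' t' e' +
    (3147/32768) * gG5 s t e s' t' e')

set_option maxHeartbeats 4000000 in
theorem ident (s t e n l2 l4 l6 s' t' e' n' l2' l4' l6' : ℝ) :
    bil C (PL s t e n l2 l4 l6) (PL s' t' e' n' l2' l4' l6') =
      196608000 * (gP s t e s' t' e' -
        (6 / 5 * (n + n' - n * n') + 9 / 10 * (l2 + l2' - l2 * l2' - (l2 - l4) * (l2' - l4')) +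
        3 / 10 * (l4 + l4' - l4 * l4' + 6 * (l2 - 2 * l4 + l6) * (l2' - 2 * l4' + l6') +
          13 * (l4 - l6) * (l4' - l6'))) -
        (1 - al s' t' e') * psiI s n l2 l4 - (1 - al s t e) * psiI s' n' l2' l4' -
        (1/500) * s * s') := by
  simp only [C, PL, bil, dotR]
  unfold gP al psiI gE0 gE1 gE2 gE3 gE4 gE5 gE6 gG0 gG1 gG2 gG3 gG4 gG5 gE0 gE1 gE2 gE3 gE4 gE5 gE6 gE7 gF0 gF1 gF2 gF3 gF4 gF5
  push_cast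
  ring


/-- sixth moment functional -/
noncomputable def L6f : (Fin 4 → ℝ) → ℝ := pr fun a b => rr a b * (1 - yy a b ^ 2) ^ 3

lemma p0 {v : Fin 4 → ℝ} (hv : ∀ i, 0 ≤ v i) (h1 : avg v = 1) :
    pr (fun a b => ev2 (rr a b) (yy a b) [[1, 0, 0, 0, 0, 0, 0], [-2, 0, 0, 0, 0, 0, 0], [1, 0, 0, 0, 0, 0, 0], [0, 0, 0, 0, 0, 0, 0], [0, 0, 0, 0, 0, 0, 0], [0, 0, 0, 0, 0, 0, 0], [0, 0, 0, 0, 0, 0, 0], [0, 0, 0, 0, 0, 0, 0]]) v = (1/3) * sI v ^ 1 := by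
  have h := pr_w2_U0 hv h1
  have e : (fun a b => ev2 (rr a b) (yy a b) [[1, 0, 0, 0, 0, 0, 0], [-2, 0, 0, 0, 0, 0, 0], [1, 0, 0, 0, 0, 0, 0], [0, 0, 0, 0, 0, 0, 0], [0, 0, 0, 0, 0, 0, 0], [0, 0, 0, 0, 0, 0, 0], [0, 0, 0, 0, 0, 0, 0], [0, 0, 0, 0, 0, 0, 0]]) =
      fun a b => (rr a b - 1) ^ 2 * (rr a b ^ 2 * (1 - yy a b ^ 2)) ^ 0 := by
    funext a b
    simp only [ev2, evRows, ev]
    push_cast
    ring
  rw [e, h]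
  try ring

lemma p1 {v : Fin 4 → ℝ} (hv : ∀ i, 0 ≤ v i) (h1 : avg v = 1) :
    pr (fun a b => ev2 (rr a b) (yy a b) [[0, 0, 0, 0, 0, 0, 0], [0, 0, 0, 0, 0, 0, 0], [1, 0, -1, 0, 0, 0, 0], [0, 0, 0, 0, 0, 0, 0], [0, 0, 0, 0, 0, 0, 0], [0, 0, 0, 0, 0, 0, 0], [0, 0, 0, 0, 0, 0, 0], [0, 0, 0, 0, 0, 0, 0]]) v = (2/3) * sI v ^ 1 := by
  have h := pr_w0_U1 hv h1
  have e : (fun a b => ev2 (rr a b) (yy a b) [[0, 0, 0, 0, 0, 0, 0], [0, 0, 0, 0, 0, 0, 0], [1, 0, -1, 0, 0, 0, 0], [0, 0, 0, 0, 0, 0, 0], [0, 0, 0, 0, 0, 0, 0], [0, 0, 0, 0, 0, 0, 0], [0, 0, 0, 0, 0, 0, 0], [0, 0, 0, 0, 0, 0, 0]]) =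
      fun a b => (rr a b - 1) ^ 0 * (rr a b ^ 2 * (1 - yy a b ^ 2)) ^ 1 := by
    funext a b
    simp only [ev2, evRows, ev]
    push_cast
    ring
  rw [e, h]
  try ring

lemma p2 {v : Fin 4 → ℝ} (hv : ∀ i, 0 ≤ v i) (h1 : avg v = 1) :
    pr (fun a b => ev2 (rr a b) (yy a b) [[-1, 0, 0, 0, 0, 0, 0], [3, 0, 0, 0, 0, 0, 0], [-3, 0, 0, 0, 0, 0, 0], [1, 0, 0, 0, 0, 0, 0], [0, 0, 0, 0, 0, 0, 0], [0, 0, 0, 0, 0, 0, 0], [0, 0, 0, 0, 0, 0, 0], [0, 0, 0, 0, 0, 0, 0]]) v = 0 := by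
  have h := pr_w3_U0 hv h1
  have e : (fun a b => ev2 (rr a b) (yy a b) [[-1, 0, 0, 0, 0, 0, 0], [3, 0, 0, 0, 0, 0, 0], [-3, 0, 0, 0, 0, 0, 0], [1, 0, 0, 0, 0, 0, 0], [0, 0, 0, 0, 0, 0, 0], [0, 0, 0, 0, 0, 0, 0], [0, 0, 0, 0, 0, 0, 0], [0, 0, 0, 0, 0, 0, 0]]) =
      fun a b => (rr a b - 1) ^ 3 * (rr a b ^ 2 * (1 - yy a b ^ 2)) ^ 0 := by
    funext a b
    simp only [ev2, evRows, ev]
    push_cast
    ring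
  rw [e, h]
  try ring

lemma p3 {v : Fin 4 → ℝ} (hv : ∀ i, 0 ≤ v i) (h1 : avg v = 1) :
    pr (fun a b => ev2 (rr a b) (yy a b) [[0, 0, 0, 0, 0, 0, 0], [0, 0, 0, 0, 0, 0, 0], [-1, 0, 1, 0, 0, 0, 0], [1, 0, -1, 0, 0, 0, 0], [0, 0, 0, 0, 0, 0, 0], [0, 0, 0, 0, 0, 0, 0], [0, 0, 0, 0, 0, 0, 0], [0, 0, 0, 0, 0, 0, 0]]) v = 2 * tI v ^ 1 := by
  have h := pr_w1_U1 hv h1
  have e : (fun a b => ev2 (rr a b) (yy a b) [[0, 0, 0, 0, 0, 0, 0], [0, 0, 0, 0, 0, 0, 0], [-1, 0, 1, 0, 0, 0, 0], [1, 0, -1, 0, 0, 0, 0], [0, 0, 0, 0, 0, 0, 0], [0, 0, 0, 0, 0, 0, 0], [0, 0, 0, 0, 0, 0, 0], [0, 0, 0, 0, 0, 0, 0]]) =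
      fun a b => (rr a b - 1) ^ 1 * (rr a b ^ 2 * (1 - yy a b ^ 2)) ^ 1 := by
    funext a b
    simp only [ev2, evRows, ev]
    push_cast
    ring
  rw [e, h]
  try ring

lemma p4 {v : Fin 4 → ℝ} (hv : ∀ i, 0 ≤ v i) (h1 : avg v = 1) :
    pr (fun a b => ev2 (rr a b) (yy a b) [[1, 0, 0, 0, 0, 0, 0], [-4, 0, 0, 0, 0, 0, 0], [6, 0, 0, 0, 0, 0, 0], [-4, 0, 0, 0, 0, 0, 0], [1, 0, 0, 0, 0, 0, 0], [0, 0, 0, 0, 0, 0, 0], [0, 0, 0, 0, 0, 0, 0], [0, 0, 0, 0, 0, 0, 0]]) v = (-2/3) * eI v ^ 1 + (1/3) * sI v ^ 2 := by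
  have h := pr_w4_U0 hv h1
  have e : (fun a b => ev2 (rr a b) (yy a b) [[1, 0, 0, 0, 0, 0, 0], [-4, 0, 0, 0, 0, 0, 0], [6, 0, 0, 0, 0, 0, 0], [-4, 0, 0, 0, 0, 0, 0], [1, 0, 0, 0, 0, 0, 0], [0, 0, 0, 0, 0, 0, 0], [0, 0, 0, 0, 0, 0, 0], [0, 0, 0, 0, 0, 0, 0]]) =
      fun a b => (rr a b - 1) ^ 4 * (rr a b ^ 2 * (1 - yy a b ^ 2)) ^ 0 := by
    funext a b
    simp only [ev2, evRows, ev]
    push_cast
    ring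
  rw [e, h]
  try ring

lemma p5 {v : Fin 4 → ℝ} (hv : ∀ i, 0 ≤ v i) (h1 : avg v = 1) :
    pr (fun a b => ev2 (rr a b) (yy a b) [[0, 0, 0, 0, 0, 0, 0], [0, 0, 0, 0, 0, 0, 0], [1, 0, -1, 0, 0, 0, 0], [-2, 0, 2, 0, 0, 0, 0], [1, 0, -1, 0, 0, 0, 0], [0, 0, 0, 0, 0, 0, 0], [0, 0, 0, 0, 0, 0, 0], [0, 0, 0, 0, 0, 0, 0]]) v = (2/3) * eI v ^ 1 := by
  have h := pr_w2_U1 hv h1
  have e : (fun a b => ev2 (rr a b) (yy a b) [[0, 0, 0, 0, 0, 0, 0], [0, 0, 0, 0, 0, 0, 0], [1, 0, -1, 0, 0, 0, 0], [-2, 0, 2, 0, 0, 0, 0], [1, 0, -1, 0, 0, 0, 0], [0, 0, 0, 0, 0, 0, 0], [0, 0, 0, 0, 0, 0, 0], [0, 0, 0, 0, 0, 0, 0]]) =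
      fun a b => (rr a b - 1) ^ 2 * (rr a b ^ 2 * (1 - yy a b ^ 2)) ^ 1 := by
    funext a b
    simp only [ev2, evRows, ev]
    push_cast
    ring
  rw [e, h]
  try ring

lemma p6 {v : Fin 4 → ℝ} (hv : ∀ i, 0 ≤ v i) (h1 : avg v = 1) :
    pr (fun a b => ev2 (rr a b) (yy a b) [[0, 0, 0, 0, 0, 0, 0], [0, 0, 0, 0, 0, 0, 0], [0, 0, 0, 0, 0, 0, 0], [0, 0, 0, 0, 0, 0, 0], [1, 0, -2, 0, 1, 0, 0], [0, 0, 0, 0, 0, 0, 0], [0, 0, 0, 0, 0, 0, 0], [0, 0, 0, 0, 0, 0, 0]]) v = (2/3) * eI v ^ 1 + (2/3) * sI v ^ 2 := by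
  have h := pr_w0_U2 hv h1
  have e : (fun a b => ev2 (rr a b) (yy a b) [[0, 0, 0, 0, 0, 0, 0], [0, 0, 0, 0, 0, 0, 0], [0, 0, 0, 0, 0, 0, 0], [0, 0, 0, 0, 0, 0, 0], [1, 0, -2, 0, 1, 0, 0], [0, 0, 0, 0, 0, 0, 0], [0, 0, 0, 0, 0, 0, 0], [0, 0, 0, 0, 0, 0, 0]]) =
      fun a b => (rr a b - 1) ^ 0 * (rr a b ^ 2 * (1 - yy a b ^ 2)) ^ 2 := by
    funext a b
    simp only [ev2, evRows, ev]
    push_cast
    ring
  rw [e, h]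
  try ring

lemma p7 {v : Fin 4 → ℝ} (hv : ∀ i, 0 ≤ v i) (h1 : avg v = 1) :
    pr (fun a b => ev2 (rr a b) (yy a b) [[-1, 0, 0, 0, 0, 0, 0], [5, 0, 0, 0, 0, 0, 0], [-10, 0, 0, 0, 0, 0, 0], [10, 0, 0, 0, 0, 0, 0], [-5, 0, 0, 0, 0, 0, 0], [1, 0, 0, 0, 0, 0, 0], [0, 0, 0, 0, 0, 0, 0], [0, 0, 0, 0, 0, 0, 0]]) v = 0 := by
  have h := pr_w5_U0 hv h1
  have e : (fun a b => ev2 (rr a b) (yy a b) [[-1, 0, 0, 0, 0, 0, 0], [5, 0, 0, 0, 0, 0, 0], [-10, 0, 0, 0, 0, 0, 0], [10, 0, 0, 0, 0, 0, 0], [-5, 0, 0, 0, 0, 0, 0], [1, 0, 0, 0, 0, 0, 0], [0, 0, 0, 0, 0, 0, 0], [0, 0, 0, 0, 0, 0, 0]]) =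
      fun a b => (rr a b - 1) ^ 5 * (rr a b ^ 2 * (1 - yy a b ^ 2)) ^ 0 := by
    funext a b
    simp only [ev2, evRows, ev]
    push_cast
    ring
  rw [e, h]
  try ring

lemma p8 {v : Fin 4 → ℝ} (hv : ∀ i, 0 ≤ v i) (h1 : avg v = 1) :
    pr (fun a b => ev2 (rr a b) (yy a b) [[0, 0, 0, 0, 0, 0, 0], [0, 0, 0, 0, 0, 0, 0], [-1, 0, 1, 0, 0, 0, 0], [3, 0, -3, 0, 0, 0, 0], [-3, 0, 3, 0, 0, 0, 0], [1, 0, -1, 0, 0, 0, 0], [0, 0, 0, 0, 0, 0, 0], [0, 0, 0, 0, 0, 0, 0]]) v = (2/3) * sI v ^ 1 * tI v ^ 1 := by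
  have h := pr_w3_U1 hv h1
  have e : (fun a b => ev2 (rr a b) (yy a b) [[0, 0, 0, 0, 0, 0, 0], [0, 0, 0, 0, 0, 0, 0], [-1, 0, 1, 0, 0, 0, 0], [3, 0, -3, 0, 0, 0, 0], [-3, 0, 3, 0, 0, 0, 0], [1, 0, -1, 0, 0, 0, 0], [0, 0, 0, 0, 0, 0, 0], [0, 0, 0, 0, 0, 0, 0]]) =
      fun a b => (rr a b - 1) ^ 3 * (rr a b ^ 2 * (1 - yy a b ^ 2)) ^ 1 := by
    funext a b
    simp only [ev2, evRows, ev]
    push_cast
    ring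
  rw [e, h]
  try ring

lemma p9 {v : Fin 4 → ℝ} (hv : ∀ i, 0 ≤ v i) (h1 : avg v = 1) :
    pr (fun a b => ev2 (rr a b) (yy a b) [[0, 0, 0, 0, 0, 0, 0], [0, 0, 0, 0, 0, 0, 0], [0, 0, 0, 0, 0, 0, 0], [0, 0, 0, 0, 0, 0, 0], [-1, 0, 2, 0, -1, 0, 0], [1, 0, -2, 0, 1, 0, 0], [0, 0, 0, 0, 0, 0, 0], [0, 0, 0, 0, 0, 0, 0]]) v = (8/3) * sI v ^ 1 * tI v ^ 1 := by
  have h := pr_w1_U2 hv h1
  have e : (fun a b => ev2 (rr a b) (yy a b) [[0, 0, 0, 0, 0, 0, 0], [0, 0, 0, 0, 0, 0, 0], [0, 0, 0, 0, 0, 0, 0], [0, 0, 0, 0, 0, 0, 0], [-1, 0, 2, 0, -1, 0, 0], [1, 0, -2, 0, 1, 0, 0], [0, 0, 0, 0, 0, 0, 0], [0, 0, 0, 0, 0, 0, 0]]) =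
      fun a b => (rr a b - 1) ^ 1 * (rr a b ^ 2 * (1 - yy a b ^ 2)) ^ 2 := by
    funext a b
    simp only [ev2, evRows, ev]
    push_cast
    ring
  rw [e, h]
  try ring

lemma p10 {v : Fin 4 → ℝ} (hv : ∀ i, 0 ≤ v i) (h1 : avg v = 1) :
    pr (fun a b => ev2 (rr a b) (yy a b) [[1, 0, 0, 0, 0, 0, 0], [-6, 0, 0, 0, 0, 0, 0], [15, 0, 0, 0, 0, 0, 0], [-20, 0, 0, 0, 0, 0, 0], [15, 0, 0, 0, 0, 0, 0], [-6, 0, 0, 0, 0, 0, 0], [1, 0, 0, 0, 0, 0, 0], [0, 0, 0, 0, 0, 0, 0]]) v = 1 * tI v ^ 2 + (-1) * sI v ^ 1 * eI v ^ 1 + (1/3) * sI v ^ 3 := by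
  have h := pr_w6_U0 hv h1
  have e : (fun a b => ev2 (rr a b) (yy a b) [[1, 0, 0, 0, 0, 0, 0], [-6, 0, 0, 0, 0, 0, 0], [15, 0, 0, 0, 0, 0, 0], [-20, 0, 0, 0, 0, 0, 0], [15, 0, 0, 0, 0, 0, 0], [-6, 0, 0, 0, 0, 0, 0], [1, 0, 0, 0, 0, 0, 0], [0, 0, 0, 0, 0, 0, 0]]) =
      fun a b => (rr a b - 1) ^ 6 * (rr a b ^ 2 * (1 - yy a b ^ 2)) ^ 0 := by
    funext a b
    simp only [ev2, evRows, ev]
    push_cast
    ring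
  rw [e, h]
  try ring

lemma p11 {v : Fin 4 → ℝ} (hv : ∀ i, 0 ≤ v i) (h1 : avg v = 1) :
    pr (fun a b => ev2 (rr a b) (yy a b) [[0, 0, 0, 0, 0, 0, 0], [0, 0, 0, 0, 0, 0, 0], [1, 0, -1, 0, 0, 0, 0], [-4, 0, 4, 0, 0, 0, 0], [6, 0, -6, 0, 0, 0, 0], [-4, 0, 4, 0, 0, 0, 0], [1, 0, -1, 0, 0, 0, 0], [0, 0, 0, 0, 0, 0, 0]]) v = (-1) * tI v ^ 2 + (1/3) * sI v ^ 1 * eI v ^ 1 := by
  have h := pr_w4_U1 hv h1
  have e : (fun a b => ev2 (rr a b) (yy a b) [[0, 0, 0, 0, 0, 0, 0], [0, 0, 0, 0, 0, 0, 0], [1, 0, -1, 0, 0, 0, 0], [-4, 0, 4, 0, 0, 0, 0], [6, 0, -6, 0, 0, 0, 0], [-4, 0, 4, 0, 0, 0, 0], [1, 0, -1, 0, 0, 0, 0], [0, 0, 0, 0, 0, 0, 0]]) =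
      fun a b => (rr a b - 1) ^ 4 * (rr a b ^ 2 * (1 - yy a b ^ 2)) ^ 1 := by
    funext a b
    simp only [ev2, evRows, ev]
    push_cast
    ring
  rw [e, h]
  try ring

lemma p12 {v : Fin 4 → ℝ} (hv : ∀ i, 0 ≤ v i) (h1 : avg v = 1) :
    pr (fun a b => ev2 (rr a b) (yy a b) [[0, 0, 0, 0, 0, 0, 0], [0, 0, 0, 0, 0, 0, 0], [0, 0, 0, 0, 0, 0, 0], [0, 0, 0, 0, 0, 0, 0], [1, 0, -2, 0, 1, 0, 0], [-2, 0, 4, 0, -2, 0, 0], [1, 0, -2, 0, 1, 0, 0], [0, 0, 0, 0, 0, 0, 0]]) v = 5 * tI v ^ 2 + (1/3) * sI v ^ 1 * eI v ^ 1 := by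
  have h := pr_w2_U2 hv h1
  have e : (fun a b => ev2 (rr a b) (yy a b) [[0, 0, 0, 0, 0, 0, 0], [0, 0, 0, 0, 0, 0, 0], [0, 0, 0, 0, 0, 0, 0], [0, 0, 0, 0, 0, 0, 0], [1, 0, -2, 0, 1, 0, 0], [-2, 0, 4, 0, -2, 0, 0], [1, 0, -2, 0, 1, 0, 0], [0, 0, 0, 0, 0, 0, 0]]) =
      fun a b => (rr a b - 1) ^ 2 * (rr a b ^ 2 * (1 - yy a b ^ 2)) ^ 2 := by
    funext a b
    simp only [ev2, evRows, ev]
    push_cast
    ring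
  rw [e, h]
  try ring

lemma p13 {v : Fin 4 → ℝ} (hv : ∀ i, 0 ≤ v i) (h1 : avg v = 1) :
    pr (fun a b => ev2 (rr a b) (yy a b) [[0, 0, 0, 0, 0, 0, 0], [0, 0, 0, 0, 0, 0, 0], [0, 0, 0, 0, 0, 0, 0], [0, 0, 0, 0, 0, 0, 0], [0, 0, 0, 0, 0, 0, 0], [0, 0, 0, 0, 0, 0, 0], [1, 0, -3, 0, 3, 0, -1], [0, 0, 0, 0, 0, 0, 0]]) v = (-13) * tI v ^ 2 + 3 * sI v ^ 1 * eI v ^ 1 + (2/3) * sI v ^ 3 := by
  have h := pr_w0_U3 hv h1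
  have e : (fun a b => ev2 (rr a b) (yy a b) [[0, 0, 0, 0, 0, 0, 0], [0, 0, 0, 0, 0, 0, 0], [0, 0, 0, 0, 0, 0, 0], [0, 0, 0, 0, 0, 0, 0], [0, 0, 0, 0, 0, 0, 0], [0, 0, 0, 0, 0, 0, 0], [1, 0, -3, 0, 3, 0, -1], [0, 0, 0, 0, 0, 0, 0]]) =
      fun a b => (rr a b - 1) ^ 0 * (rr a b ^ 2 * (1 - yy a b ^ 2)) ^ 3 := by
    funext a b
    simp only [ev2, evRows, ev]
    push_cast
    ring
  rw [e, h]
  try ring

lemma p14 {v : Fin 4 → ℝ} (hv : ∀ i, 0 ≤ v i) (h1 : avg v = 1) :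
    pr (fun a b => ev2 (rr a b) (yy a b) [[-1, 0, 0, 0, 0, 0, 0], [7, 0, 0, 0, 0, 0, 0], [-21, 0, 0, 0, 0, 0, 0], [35, 0, 0, 0, 0, 0, 0], [-35, 0, 0, 0, 0, 0, 0], [21, 0, 0, 0, 0, 0, 0], [-7, 0, 0, 0, 0, 0, 0], [1, 0, 0, 0, 0, 0, 0]]) v = 0 := by
  have h := pr_w7_U0 hv h1
  have e : (fun a b => ev2 (rr a b) (yy a b) [[-1, 0, 0, 0, 0, 0, 0], [7, 0, 0, 0, 0, 0, 0], [-21, 0, 0, 0, 0, 0, 0], [35, 0, 0, 0, 0, 0, 0], [-35, 0, 0, 0, 0, 0, 0], [21, 0, 0, 0, 0, 0, 0], [-7, 0, 0, 0, 0, 0, 0], [1, 0, 0, 0, 0, 0, 0]]) =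
      fun a b => (rr a b - 1) ^ 7 * (rr a b ^ 2 * (1 - yy a b ^ 2)) ^ 0 := by
    funext a b
    simp only [ev2, evRows, ev]
    push_cast
    ring
  rw [e, h]
  try ring

lemma p15 {v : Fin 4 → ℝ} (hv : ∀ i, 0 ≤ v i) (h1 : avg v = 1) :
    pr (fun a b => ev2 (rr a b) (yy a b) [[0, 0, 0, 0, 0, 0, 0], [0, 0, 0, 0, 0, 0, 0], [-1, 0, 1, 0, 0, 0, 0], [5, 0, -5, 0, 0, 0, 0], [-10, 0, 10, 0, 0, 0, 0], [10, 0, -10, 0, 0, 0, 0], [-5, 0, 5, 0, 0, 0, 0], [1, 0, -1, 0, 0, 0, 0]]) v = (-4/3) * tI v ^ 1 * eI v ^ 1 + (2/3) * sI v ^ 2 * tI v ^ 1 := by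
  have h := pr_w5_U1 hv h1
  have e : (fun a b => ev2 (rr a b) (yy a b) [[0, 0, 0, 0, 0, 0, 0], [0, 0, 0, 0, 0, 0, 0], [-1, 0, 1, 0, 0, 0, 0], [5, 0, -5, 0, 0, 0, 0], [-10, 0, 10, 0, 0, 0, 0], [10, 0, -10, 0, 0, 0, 0], [-5, 0, 5, 0, 0, 0, 0], [1, 0, -1, 0, 0, 0, 0]]) =
      fun a b => (rr a b - 1) ^ 5 * (rr a b ^ 2 * (1 - yy a b ^ 2)) ^ 1 := by
    funext a b
    simp only [ev2, evRows, ev]
    push_cast
    ring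
  rw [e, h]
  try ring

lemma p16 {v : Fin 4 → ℝ} (hv : ∀ i, 0 ≤ v i) (h1 : avg v = 1) :
    pr (fun a b => ev2 (rr a b) (yy a b) [[0, 0, 0, 0, 0, 0, 0], [0, 0, 0, 0, 0, 0, 0], [0, 0, 0, 0, 0, 0, 0], [0, 0, 0, 0, 0, 0, 0], [-1, 0, 2, 0, -1, 0, 0], [3, 0, -6, 0, 3, 0, 0], [-3, 0, 6, 0, -3, 0, 0], [1, 0, -2, 0, 1, 0, 0]]) v = (8/3) * tI v ^ 1 * eI v ^ 1 := by
  have h := pr_w3_U2 hv h1
  have e : (fun a b => ev2 (rr a b) (yy a b) [[0, 0, 0, 0, 0, 0, 0], [0, 0, 0, 0, 0, 0, 0], [0, 0, 0, 0, 0, 0, 0], [0, 0, 0, 0, 0, 0, 0], [-1, 0, 2, 0, -1, 0, 0], [3, 0, -6, 0, 3, 0, 0], [-3, 0, 6, 0, -3, 0, 0], [1, 0, -2, 0, 1, 0, 0]]) =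
      fun a b => (rr a b - 1) ^ 3 * (rr a b ^ 2 * (1 - yy a b ^ 2)) ^ 2 := by
    funext a b
    simp only [ev2, evRows, ev]
    push_cast
    ring
  rw [e, h]
  try ring

lemma p17 {v : Fin 4 → ℝ} (hv : ∀ i, 0 ≤ v i) (h1 : avg v = 1) :
    pr (fun a b => ev2 (rr a b) (yy a b) [[0, 0, 0, 0, 0, 0, 0], [0, 0, 0, 0, 0, 0, 0], [0, 0, 0, 0, 0, 0, 0], [0, 0, 0, 0, 0, 0, 0], [0, 0, 0, 0, 0, 0, 0], [0, 0, 0, 0, 0, 0, 0], [-1, 0, 3, 0, -3, 0, 1], [1, 0, -3, 0, 3, 0, -1]]) v = (-4/3) * tI v ^ 1 * eI v ^ 1 + 4 * sI v ^ 2 * tI v ^ 1 := by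
  have h := pr_w1_U3 hv h1
  have e : (fun a b => ev2 (rr a b) (yy a b) [[0, 0, 0, 0, 0, 0, 0], [0, 0, 0, 0, 0, 0, 0], [0, 0, 0, 0, 0, 0, 0], [0, 0, 0, 0, 0, 0, 0], [0, 0, 0, 0, 0, 0, 0], [0, 0, 0, 0, 0, 0, 0], [-1, 0, 3, 0, -3, 0, 1], [1, 0, -3, 0, 3, 0, -1]]) =
      fun a b => (rr a b - 1) ^ 1 * (rr a b ^ 2 * (1 - yy a b ^ 2)) ^ 3 := by
    funext a b
    simp only [ev2, evRows, ev]
    push_cast
    ring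
  rw [e, h]
  try ring

lemma p18 (v : Fin 4 → ℝ) :
    pr (fun a b => ev2 (rr a b) (yy a b) [[0, 0, 0, 0, 0, 0, 0], [1, -1, 0, 0, 0, 0, 0], [0, 0, 0, 0, 0, 0, 0], [0, 0, 0, 0, 0, 0, 0], [0, 0, 0, 0, 0, 0, 0], [0, 0, 0, 0, 0, 0, 0], [0, 0, 0, 0, 0, 0, 0], [0, 0, 0, 0, 0, 0, 0]]) v = eta4 v := by
  have e : (fun a b => ev2 (rr a b) (yy a b) [[0, 0, 0, 0, 0, 0, 0], [1, -1, 0, 0, 0, 0, 0], [0, 0, 0, 0, 0, 0, 0], [0, 0, 0, 0, 0, 0, 0], [0, 0, 0, 0, 0, 0, 0], [0, 0, 0, 0, 0, 0, 0], [0, 0, 0, 0, 0, 0, 0], [0, 0, 0, 0, 0, 0, 0]]) =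
      fun a b => rr a b * (1 - yy a b) := by
    funext a b
    simp only [ev2, evRows, ev]
    push_cast
    ring
  rw [e]
  rfl

lemma p19 (v : Fin 4 → ℝ) :
    pr (fun a b => ev2 (rr a b) (yy a b) [[0, 0, 0, 0, 0, 0, 0], [1, 0, -1, 0, 0, 0, 0], [0, 0, 0, 0, 0, 0, 0], [0, 0, 0, 0, 0, 0, 0], [0, 0, 0, 0, 0, 0, 0], [0, 0, 0, 0, 0, 0, 0], [0, 0, 0, 0, 0, 0, 0], [0, 0, 0, 0, 0, 0, 0]]) v = L2f v := by
  have e : (fun a b => ev2 (rr a b) (yy a b) [[0, 0, 0, 0, 0, 0, 0], [1, 0, -1, 0, 0, 0, 0], [0, 0, 0, 0, 0, 0, 0], [0, 0, 0, 0, 0, 0, 0], [0, 0, 0, 0, 0, 0, 0], [0, 0, 0, 0, 0, 0, 0], [0, 0, 0, 0, 0, 0, 0], [0, 0, 0, 0, 0, 0, 0]]) =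
      fun a b => rr a b * (1 - yy a b ^ 2) := by
    funext a b
    simp only [ev2, evRows, ev]
    push_cast
    ring
  rw [e]
  rfl

lemma p20 (v : Fin 4 → ℝ) :
    pr (fun a b => ev2 (rr a b) (yy a b) [[0, 0, 0, 0, 0, 0, 0], [1, 0, -2, 0, 1, 0, 0], [0, 0, 0, 0, 0, 0, 0], [0, 0, 0, 0, 0, 0, 0], [0, 0, 0, 0, 0, 0, 0], [0, 0, 0, 0, 0, 0, 0], [0, 0, 0, 0, 0, 0, 0], [0, 0, 0, 0, 0, 0, 0]]) v = L4f v := by
  have e : (fun a b => ev2 (rr a b) (yy a b) [[0, 0, 0, 0, 0, 0, 0], [1, 0, -2, 0, 1, 0, 0], [0, 0, 0, 0, 0, 0, 0], [0, 0, 0, 0, 0, 0, 0], [0, 0, 0, 0, 0, 0, 0], [0, 0, 0, 0, 0, 0, 0], [0, 0, 0, 0, 0, 0, 0], [0, 0, 0, 0, 0, 0, 0]]) =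
      fun a b => rr a b * (1 - yy a b ^ 2) ^ 2 := by
    funext a b
    simp only [ev2, evRows, ev]
    push_cast
    ring
  rw [e]
  rfl

lemma p21 (v : Fin 4 → ℝ) :
    pr (fun a b => ev2 (rr a b) (yy a b) [[0, 0, 0, 0, 0, 0, 0], [1, 0, -3, 0, 3, 0, -1], [0, 0, 0, 0, 0, 0, 0], [0, 0, 0, 0, 0, 0, 0], [0, 0, 0, 0, 0, 0, 0], [0, 0, 0, 0, 0, 0, 0], [0, 0, 0, 0, 0, 0, 0], [0, 0, 0, 0, 0, 0, 0]]) v = L6f v := by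
  have e : (fun a b => ev2 (rr a b) (yy a b) [[0, 0, 0, 0, 0, 0, 0], [1, 0, -3, 0, 3, 0, -1], [0, 0, 0, 0, 0, 0, 0], [0, 0, 0, 0, 0, 0, 0], [0, 0, 0, 0, 0, 0, 0], [0, 0, 0, 0, 0, 0, 0], [0, 0, 0, 0, 0, 0, 0], [0, 0, 0, 0, 0, 0, 0]]) =
      fun a b => rr a b * (1 - yy a b ^ 2) ^ 3 := by
    funext a b
    simp only [ev2, evRows, ev]
    push_cast
    ring
  rw [e]
  rfl

lemma prs_eq {v : Fin 4 → ℝ} (hv : ∀ i, 0 ≤ v i) (h1 : avg v = 1) :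
    ((fs.map fun p a b => ev2 (rr a b) (yy a b) p).map fun f => pr f v) =
      PL (sI v) (tI v) (eI v) (eta4 v) (L2f v) (L4f v) (L6f v) := by
  simp only [fs, List.map_cons, List.map_nil, PL]
  rw [p0 hv h1, p1 hv h1, p2 hv h1, p3 hv h1, p4 hv h1, p5 hv h1, p6 hv h1, p7 hv h1, p8 hv h1, p9 hv h1, p10 hv h1, p11 hv h1, p12 hv h1, p13 hv h1, p14 hv h1, p15 hv h1, p16 hv h1, p17 hv h1, p18 v, p19 v, p20 v, p21 v]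

/-! #### one-variable inequalities -/

lemma one_a {x : ℝ} (h0 : (-1) ≤ x) (h1 : x ≤ 3) : 0 ≤ (10895/65536) * x ^ 0 + (-20453/65536) * x ^ 1 + (393/2048) * x ^ 2 + (-1069/32768) * x ^ 3 + (-27/32768) * x ^ 4 := by
  rcases le_total x 1 with hx | hx
  · have e : (10895/65536) * x ^ 0 + (-20453/65536) * x ^ 1 + (393/2048) * x ^ 2 + (-1069/32768) * x ^ 3 + (-27/32768) * x ^ 4 = (5751/131072) * ((x - (-1)) ^ 0 * (1 - x) ^ 4) + (40213/524288) * ((x - (-1)) ^ 1 * (1 - x) ^ 3) + (19947/524288) * ((x - (-1)) ^ 2 * (1 - x) ^ 2) + (3583/524288) * ((x - (-1)) ^ 3 * (1 - x) ^ 1) + (413/524288) * ((x - (-1)) ^ 4 * (1 - x) ^ 0) := by ring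
    have k1 : 0 ≤ x - (-1) := by linarith
    have k2 : 0 ≤ 1 - x := by linarith
    rw [e]
    positivity
  have e : (10895/65536) * x ^ 0 + (-20453/65536) * x ^ 1 + (393/2048) * x ^ 2 + (-1069/32768) * x ^ 3 + (-27/32768) * x ^ 4 = (413/1048576) * ((x - 1) ^ 0 * (3 - x) ^ 5) + (67/524288) * ((x - 1) ^ 1 * (3 - x) ^ 4) + (4041/524288) * ((x - 1) ^ 2 * (3 - x) ^ 3) + (4539/262144) * ((x - 1) ^ 3 * (3 - x) ^ 2) + (10105/1048576) * ((x - 1) ^ 4 * (3 - x) ^ 1) + (155/524288) * ((x - 1) ^ 5 * (3 - x) ^ 0) := by ring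
  have k1 : 0 ≤ x - 1 := by linarith
  have k2 : 0 ≤ 3 - x := by linarith
  rw [e]
  positivity

lemma one_b {x : ℝ} (h0 : (-1) ≤ x) (h1 : x ≤ 3) : 0 ≤ (4187/65536) * x ^ 0 + (-467/65536) * x ^ 1 + (-7131/16384) * x ^ 2 + (3299/32768) * x ^ 3 + (28797/32768) * x ^ 4 + (-9441/32768) * x ^ 5 := by
  rcases le_total x (-1/2) with hx | hx
  · have e : (4187/65536) * x ^ 0 + (-467/65536) * x ^ 1 + (-7131/16384) * x ^ 2 + (3299/32768) * x ^ 3 + (28797/32768) * x ^ 4 + (-9441/32768) * x ^ 5 = (5751/256) * ((x - (-1)) ^ 0 * ((-1/2) - x) ^ 5) + (211669/4096) * ((x - (-1)) ^ 1 * ((-1/2) - x) ^ 4) + (169549/4096) * ((x - (-1)) ^ 2 * ((-1/2) - x) ^ 3) + (111287/8192) * ((x - (-1)) ^ 3 * ((-1/2) - x) ^ 2) + (16473/8192) * ((x - (-1)) ^ 4 * ((-1/2) - x) ^ 1) + (10471/32768) * ((x - (-1)) ^ 5 * ((-1/2) - x) ^ 0) := by ring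
    have k1 : 0 ≤ x - (-1) := by linarith
    have k2 : 0 ≤ (-1/2) - x := by linarith
    rw [e]
    positivity
  rcases le_total x 0 with hx | hx
  · have e : (4187/65536) * x ^ 0 + (-467/65536) * x ^ 1 + (-7131/16384) * x ^ 2 + (3299/32768) * x ^ 3 + (28797/32768) * x ^ 4 + (-9441/32768) * x ^ 5 = (10471/32768) * ((x - (-1/2)) ^ 0 * (0 - x) ^ 5) + (19409/16384) * ((x - (-1/2)) ^ 1 * (0 - x) ^ 4) + (84213/8192) * ((x - (-1/2)) ^ 2 * (0 - x) ^ 3) + (35673/2048) * ((x - (-1/2)) ^ 3 * (0 - x) ^ 2) + (42337/4096) * ((x - (-1/2)) ^ 4 * (0 - x) ^ 1) + (4187/2048) * ((x - (-1/2)) ^ 5 * (0 - x) ^ 0) := by ring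
    have k1 : 0 ≤ x - (-1/2) := by linarith
    have k2 : 0 ≤ 0 - x := by linarith
    rw [e]
    positivity
  rcases le_total x (1/2) with hx | hx
  · have e : (4187/65536) * x ^ 0 + (-467/65536) * x ^ 1 + (-7131/16384) * x ^ 2 + (3299/32768) * x ^ 3 + (28797/32768) * x ^ 4 + (-9441/32768) * x ^ 5 = (4187/2048) * ((x - 0) ^ 0 * ((1/2) - x) ^ 5) + (41403/4096) * ((x - 0) ^ 1 * ((1/2) - x) ^ 4) + (33805/2048) * ((x - 0) ^ 2 * ((1/2) - x) ^ 3) + (79603/8192) * ((x - 0) ^ 3 * ((1/2) - x) ^ 2) + (30857/16384) * ((x - 0) ^ 4 * ((1/2) - x) ^ 1) + (10509/32768) * ((x - 0) ^ 5 * ((1/2) - x) ^ 0) := by ring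
    have k1 : 0 ≤ x - 0 := by linarith
    have k2 : 0 ≤ (1/2) - x := by linarith
    rw [e]
    positivity
  rcases le_total x 1 with hx | hx
  · have e : (4187/65536) * x ^ 0 + (-467/65536) * x ^ 1 + (-7131/16384) * x ^ 2 + (3299/32768) * x ^ 3 + (28797/32768) * x ^ 4 + (-9441/32768) * x ^ 5 = (10509/32768) * ((x - (1/2)) ^ 0 * (1 - x) ^ 5) + (2711/2048) * ((x - (1/2)) ^ 1 * (1 - x) ^ 4) + (61265/8192) * ((x - (1/2)) ^ 2 * (1 - x) ^ 3) + (91147/4096) * ((x - (1/2)) ^ 3 * (1 - x) ^ 2) + (106815/4096) * ((x - (1/2)) ^ 4 * (1 - x) ^ 1) + (10253/1024) * ((x - (1/2)) ^ 5 * (1 - x) ^ 0) := by ring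
    have k1 : 0 ≤ x - (1/2) := by linarith
    have k2 : 0 ≤ 1 - x := by linarith
    rw [e]
    positivity
  have e : (4187/65536) * x ^ 0 + (-467/65536) * x ^ 1 + (-7131/16384) * x ^ 2 + (3299/32768) * x ^ 3 + (28797/32768) * x ^ 4 + (-9441/32768) * x ^ 5 = (10253/1048576) * ((x - 1) ^ 0 * (3 - x) ^ 5) + (74755/524288) * ((x - 1) ^ 1 * (3 - x) ^ 4) + (395769/524288) * ((x - 1) ^ 2 * (3 - x) ^ 3) + (443175/262144) * ((x - 1) ^ 3 * (3 - x) ^ 2) + (1423033/1048576) * ((x - 1) ^ 4 * (3 - x) ^ 1) + (251/524288) * ((x - 1) ^ 5 * (3 - x) ^ 0) := by ring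
  have k1 : 0 ≤ x - 1 := by linarith
  have k2 : 0 ≤ 3 - x := by linarith
  rw [e]
  positivity

/-- the polynomial `P1(Z) - Z`, `x = Z - 1` -/
noncomputable def A1 (x : ℝ) : ℝ := 3 + 3 * x + ((-10895/65536) * x ^ 2 + (20453/65536) * x ^ 3 + (-393/2048) * x ^ 4 + (1069/32768) * x ^ 5 + (27/32768) * x ^ 6)

/-- the polynomial `-P2(Z)`, `x = Z - 1` -/
noncomputable def B1 (x : ℝ) : ℝ := 1 - x - ((-15825/16384) * x ^ 2 + (27201/32768) * x ^ 3 + (-7951/16384) * x ^ 4 + (3147/32768) * x ^ 5)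

lemma A1_le {Z : ℝ} (h0 : 0 ≤ Z) (h4 : Z ≤ 4) : A1 (Z - 1) ≤ 3 * Z := by
  have h := one_a (x := Z - 1) (by linarith) (by linarith)
  set x := Z - 1 with hx
  have e : 3 * Z - A1 x = x ^ 2 * ((10895/65536) * x ^ 0 + (-20453/65536) * x ^ 1 + (393/2048) * x ^ 2 + (-1069/32768) * x ^ 3 + (-27/32768) * x ^ 4) := by
    rw [show Z = x + 1 by rw [hx]; ring]
    unfold A1
    ring
  have := mul_nonneg (sq_nonneg x) h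
  linarith

lemma A1_le' {Z : ℝ} (h0 : 0 ≤ Z) (h4 : Z ≤ 4) : A1 (Z - 1) ≤ 3 * Z ^ 2 * B1 (Z - 1) := by
  have h := one_b (x := Z - 1) (by linarith) (by linarith)
  set x := Z - 1 with hx
  have e : 3 * Z ^ 2 * B1 x - A1 x = x ^ 2 * ((4187/65536) * x ^ 0 + (-467/65536) * x ^ 1 + (-7131/16384) * x ^ 2 + (3299/32768) * x ^ 3 + (28797/32768) * x ^ 4 + (-9441/32768) * x ^ 5) := by
    rw [show Z = x + 1 by rw [hx]; ring]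
    unfold A1 B1
    ring
  have := mul_nonneg (sq_nonneg x) h
  linarith

lemma pr2_mrgB {u v : Fin 4 → ℝ} (hu1 : avg u = 1) (hv1 : avg v = 1) :
    pr2 mrgB u v = 6 / 5 * (eta4 u + eta4 v - eta4 u * eta4 v) +
      9 / 10 * (L2f u + L2f v - L2f u * L2f v - (L2f u - L4f u) * (L2f v - L4f v)) +
      3 / 10 * (L4f u + L4f v - L4f u * L4f v +
        6 * (L2f u - 2 * L4f u + L6f u) * (L2f v - 2 * L4f v + L6f v) +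
        13 * (L4f u - L6f u) * (L4f v - L6f v)) := by
  have r1 : ∀ w : Fin 4 → ℝ, avg w = 1 → pr (fun a b => rr a b) w = 1 := fun w hw => by
    have := pr_rr w
    rw [hw] at this
    exact this
  have e1 : ∀ w : Fin 4 → ℝ, pr (fun a b => rr a b * yy a b) w = avg w - eta4 w := fun w => by
    rw [← pr_rr, eta4, ← pr_sub]
    congr 1
    funext a b
    ring
  have e2 : ∀ w : Fin 4 → ℝ, pr (fun a b => rr a b * (1 - yy a b ^ 2) * yy a b ^ 2) w =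
      L2f w - L4f w := fun w => by
    rw [L2f, L4f, ← pr_sub]
    congr 1
    funext a b
    ring
  have e3 : ∀ w : Fin 4 → ℝ, pr (fun a b => rr a b * (1 - yy a b ^ 2) * (yy a b ^ 2) ^ 2) w =
      L2f w - 2 * L4f w + L6f w := fun w => by
    rw [L2f, L4f, L6f, ← pr_const_mul, ← pr_sub, ← pr_add]
    congr 1
    funext a b
    ring
  have e4 : ∀ w : Fin 4 → ℝ, pr (fun a b => rr a b * (1 - yy a b ^ 2) ^ 2 * yy a b ^ 2) w =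
      L4f w - L6f w := fun w => by
    rw [L4f, L6f, ← pr_sub]
    congr 1
    funext a b
    ring
  have key : mrgB = fun a b c d =>
      6 / 5 * (rr a b * rr c d) - 6 / 5 * (rr a b * yy a b * (rr c d * yy c d)) +
      9 / 10 * (rr a b * (1 - yy a b ^ 2) * rr c d) + 9 / 10 * (rr a b * (rr c d * (1 - yy c d ^ 2))) -
      9 / 10 * (rr a b * (1 - yy a b ^ 2) * (rr c d * (1 - yy c d ^ 2))) -
      9 / 10 * (rr a b * (1 - yy a b ^ 2) * yy a b ^ 2 * (rr c d * (1 - yy c d ^ 2) * yy c d ^ 2)) +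
      3 / 10 * (rr a b * (1 - yy a b ^ 2) ^ 2 * rr c d) +
      3 / 10 * (rr a b * (rr c d * (1 - yy c d ^ 2) ^ 2)) -
      3 / 10 * (rr a b * (1 - yy a b ^ 2) ^ 2 * (rr c d * (1 - yy c d ^ 2) ^ 2)) +
      18 / 10 * (rr a b * (1 - yy a b ^ 2) * (yy a b ^ 2) ^ 2 *
        (rr c d * (1 - yy c d ^ 2) * (yy c d ^ 2) ^ 2)) +
      39 / 10 * (rr a b * (1 - yy a b ^ 2) ^ 2 * yy a b ^ 2 *
        (rr c d * (1 - yy c d ^ 2) ^ 2 * yy c d ^ 2)) := by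
    funext a b c d
    unfold mrgB
    ring
  rw [key]
  simp only [pr2_add, pr2_sub, pr2_const_mul]
  rw [pr2_mul (fun a b => rr a b) (fun a b => rr a b),
    pr2_mul (fun a b => rr a b * yy a b) (fun a b => rr a b * yy a b),
    pr2_mul (fun a b => rr a b * (1 - yy a b ^ 2)) (fun a b => rr a b),
    pr2_mul (fun a b => rr a b) (fun a b => rr a b * (1 - yy a b ^ 2)),
    pr2_mul (fun a b => rr a b * (1 - yy a b ^ 2)) (fun a b => rr a b * (1 - yy a b ^ 2)),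
    pr2_mul (fun a b => rr a b * (1 - yy a b ^ 2) * yy a b ^ 2)
      (fun a b => rr a b * (1 - yy a b ^ 2) * yy a b ^ 2),
    pr2_mul (fun a b => rr a b * (1 - yy a b ^ 2) ^ 2) (fun a b => rr a b),
    pr2_mul (fun a b => rr a b) (fun a b => rr a b * (1 - yy a b ^ 2) ^ 2),
    pr2_mul (fun a b => rr a b * (1 - yy a b ^ 2) ^ 2) (fun a b => rr a b * (1 - yy a b ^ 2) ^ 2),
    pr2_mul (fun a b => rr a b * (1 - yy a b ^ 2) * (yy a b ^ 2) ^ 2)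
      (fun a b => rr a b * (1 - yy a b ^ 2) * (yy a b ^ 2) ^ 2),
    pr2_mul (fun a b => rr a b * (1 - yy a b ^ 2) ^ 2 * yy a b ^ 2)
      (fun a b => rr a b * (1 - yy a b ^ 2) ^ 2 * yy a b ^ 2),
    e1, e1, e2, e2, e3, e3, e4, e4, r1 u hu1, r1 v hv1, hu1, hv1]
  have f1 : ∀ w : Fin 4 → ℝ, pr (fun a b => rr a b * (1 - yy a b ^ 2)) w = L2f w := fun _ => rfl
  have f2 : ∀ w : Fin 4 → ℝ, pr (fun a b => rr a b * (1 - yy a b ^ 2) ^ 2) w = L4f w := fun _ => rfl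
  rw [f1, f1, f2, f2]
  ring

/-- closure inequality for vectors of mean one -/
theorem closure4 {u v : Fin 4 → ℝ} (hu : ∀ i, 0 ≤ u i) (hv : ∀ i, 0 ≤ v i) (hu1 : avg u = 1)
    (hv1 : avg v = 1) :
    (1 - al (sI v) (tI v) (eI v)) * psi4 u + (1 - al (sI u) (tI u) (eI u)) * psi4 v +
      (1/500) * chi u * chi v ≤ orb psi4 u v := by
  have h1 := orb_psi4_ge2 (A := fun Z => A1 (Z - 1)) (B := fun Z => B1 (Z - 1))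
    (fun Z h0 h4 => A1_le h0 h4) (fun Z h0 h4 => A1_le' h0 h4) hu hv hu1 hv1
  have h2 : orb (fun w => A1 (avg w - 1) - EE w * B1 (avg w - 1)) u v =
      gP (sI u) (tI u) (eI u) (sI v) (tI v) (eI v) := by
    have h3 := orb_poly 3 3 (-10895/65536) (20453/65536) (-393/2048) (1069/32768) (27/32768) 0
      (-1) 1 (-15825/16384) (27201/32768) (-7951/16384) (3147/32768) hu1 hv1
    have e : (fun w : Fin 4 → ℝ => A1 (avg w - 1) - EE w * B1 (avg w - 1)) = fun w =>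
        3 * (avg w - 1) ^ 0 + 3 * (avg w - 1) ^ 1 + (-10895/65536) * (avg w - 1) ^ 2 +
        (20453/65536) * (avg w - 1) ^ 3 + (-393/2048) * (avg w - 1) ^ 4 +
        (1069/32768) * (avg w - 1) ^ 5 + (27/32768) * (avg w - 1) ^ 6 + 0 * (avg w - 1) ^ 7 +
        EE w * ((-1) * (avg w - 1) ^ 0 + 1 * (avg w - 1) ^ 1 + (-15825/16384) * (avg w - 1) ^ 2 +
        (27201/32768) * (avg w - 1) ^ 3 + (-7951/16384) * (avg w - 1) ^ 4 +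
        (3147/32768) * (avg w - 1) ^ 5) := by
      funext w
      unfold A1 B1
      ring
    rw [e, h3]
    unfold gP
    ring
  rw [h2, pr2_mrgB hu1 hv1] at h1
  have h4 : 0 ≤ pr2 (fun a b c d => bil C ((fs.map fun p a b => ev2 (rr a b) (yy a b) p).map
      fun f => f a b) ((fs.map fun p a b => ev2 (rr a b) (yy a b) p).map fun g => g c d)) u v := by
    refine pr2_nonneg (by norm_num) fun x y x' y' hxy hxy' => ?_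
    have h5 := nonneg (r := rr (u x) (u y)) (y := yy (u x) (u y)) (r2 := rr (v x') (v y'))
      (y2 := yy (v x') (v y')) (rr_nonneg (hu x) (hu y)) (rr_le_two hu hu1 hxy)
      (yy_nonneg (hu x) (hu y)) (yy_le_one (hu x) (hu y)) (rr_nonneg (hv x') (hv y'))
      (rr_le_two hv hv1 hxy') (yy_nonneg (hv x') (hv y')) (yy_le_one (hv x') (hv y'))
    rw [List.map_map, List.map_map]
    exact h5
  rw [pr2_bil, prs_eq hu hu1, prs_eq hv hv1, ident] at h4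
  have h6 : psi4 u = psiI (sI u) (eta4 u) (L2f u) (L4f u) := by
    unfold psi4 psiI
    rw [chi_eq_sI hu1]
  have h7 : psi4 v = psiI (sI v) (eta4 v) (L2f v) (L4f v) := by
    unfold psi4 psiI
    rw [chi_eq_sI hv1]
  rw [h6, h7, chi_eq_sI hu1, chi_eq_sI hv1]
  have h8 := nonneg_of_mul_nonneg_right h4 (by norm_num)
  linarith

end Crest.Agent.R163.Q4Clo
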