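import Mathlib
import Crest.Agent.R163.Bern5

/-! Row 163, q = 4: exact data of the pointwise inequality (ii) (chi^2 subadditivity), found by helper857; kernel check of the nonnegativity by Bernstein coefficients. -/

set_option autoImplicit false
set_option maxRecDepth 1000000

namespace Crest.Agent.R163.Q4Sub

open Crest.Agent.R163.Bern

/-- the functions (`fs[a][i][j]` = coefficient of `r^i y^j`) -/
def fs : List (List (List Int)) :=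
  [[[1, 0, 0, 0, 0, 0, 0], [-2, 0, 0, 0, 0, 0, 0], [1, 0, 0, 0, 0, 0, 0], [0, 0, 0, 0, 0, 0, 0], [0, 0, 0, 0, 0, 0, 0], [0, 0, 0, 0, 0, 0, 0], [0, 0, 0, 0, 0, 0, 0], [0, 0, 0, 0, 0, 0, 0]], [[0, 0, 0, 0, 0, 0, 0], [0, 0, 0, 0, 0, 0, 0], [1, 0, -1, 0, 0, 0, 0], [0, 0, 0, 0, 0, 0, 0], [0, 0, 0, 0, 0, 0, 0], [0, 0, 0, 0, 0, 0, 0], [0, 0, 0, 0, 0, 0, 0], [0, 0, 0, 0, 0, 0, 0]], [[-1, 0, 0, 0, 0, 0, 0], [3, 0, 0, 0, 0, 0, 0], [-3, 0, 0, 0, 0, 0, 0], [1, 0, 0, 0, 0, 0, 0], [0, 0, 0, 0, 0, 0, 0], [0, 0, 0, 0, 0, 0, 0], [0, 0, 0, 0, 0, 0, 0], [0, 0, 0, 0, 0, 0, 0]], [[0, 0, 0, 0, 0, 0, 0], [0, 0, 0, 0, 0, 0, 0], [-1, 0, 1, 0, 0, 0, 0], [1, 0, -1, 0, 0, 0, 0], [0, 0, 0, 0, 0, 0, 0], [0, 0, 0, 0, 0, 0, 0], [0, 0, 0, 0, 0, 0, 0], [0, 0, 0, 0, 0, 0, 0]], [[1, 0, 0, 0, 0, 0, 0], [-4, 0, 0, 0, 0, 0, 0], [6, 0, 0, 0, 0, 0, 0], [-4, 0, 0, 0, 0, 0, 0], [1, 0, 0, 0, 0, 0,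 0], [0, 0, 0, 0, 0, 0, 0], [0, 0, 0, 0, 0, 0, 0], [0, 0, 0, 0, 0, 0, 0]], [[0, 0, 0, 0, 0, 0, 0], [0, 0, 0, 0, 0, 0, 0], [1, 0, -1, 0, 0, 0, 0], [-2, 0, 2, 0, 0, 0, 0], [1, 0, -1, 0, 0, 0, 0], [0, 0, 0, 0, 0, 0, 0], [0, 0, 0, 0, 0, 0, 0], [0, 0, 0, 0, 0, 0, 0]], [[0, 0, 0, 0, 0, 0, 0], [0, 0, 0, 0, 0, 0, 0], [0, 0, 0, 0, 0, 0, 0], [0, 0, 0, 0, 0, 0, 0], [1, 0, -2, 0, 1, 0, 0], [0, 0, 0, 0, 0, 0, 0], [0, 0, 0, 0, 0, 0, 0], [0, 0, 0, 0, 0, 0, 0]], [[-1, 0, 0, 0, 0, 0, 0], [5, 0, 0, 0, 0, 0, 0], [-10, 0, 0, 0, 0, 0, 0], [10, 0, 0, 0, 0, 0, 0], [-5, 0, 0, 0, 0, 0, 0], [1, 0, 0, 0, 0, 0, 0], [0, 0, 0, 0, 0, 0, 0], [0, 0, 0, 0, 0, 0, 0]], [[0, 0, 0, 0, 0, 0, 0], [0, 0, 0, 0, 0, 0, 0], [-1, 0, 1, 0, 0, 0, 0], [3, 0, -3, 0, 0, 0, 0], [-3, 0, 3, 0, 0, 0, 0], [1, 0, -1, 0, 0, 0, 0], [0, 0, 0, 0, 0, 0, 0], [0, 0, 0, 0, 0, 0, 0]], [[0, 0, 0, 0, 0, 0, 0], [0, 0, 0, 0,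 0, 0, 0], [0, 0, 0, 0, 0, 0, 0], [0, 0, 0, 0, 0, 0, 0], [-1, 0, 2, 0, -1, 0, 0], [1, 0, -2, 0, 1, 0, 0], [0, 0, 0, 0, 0, 0, 0], [0, 0, 0, 0, 0, 0, 0]], [[1, 0, 0, 0, 0, 0, 0], [-6, 0, 0, 0, 0, 0, 0], [15, 0, 0, 0, 0, 0, 0], [-20, 0, 0, 0, 0, 0, 0], [15, 0, 0, 0, 0, 0, 0], [-6, 0, 0, 0, 0, 0, 0], [1, 0, 0, 0, 0, 0, 0], [0, 0, 0, 0, 0, 0, 0]], [[0, 0, 0, 0, 0, 0, 0], [0, 0, 0, 0, 0, 0, 0], [1, 0, -1, 0, 0, 0, 0], [-4, 0, 4, 0, 0, 0, 0], [6, 0, -6, 0, 0, 0, 0], [-4, 0, 4, 0, 0, 0, 0], [1, 0, -1, 0, 0, 0, 0], [0, 0, 0, 0, 0, 0, 0]], [[0, 0, 0, 0, 0, 0, 0], [0, 0, 0, 0, 0, 0, 0], [0, 0, 0, 0, 0, 0, 0], [0, 0, 0, 0, 0, 0, 0], [1, 0, -2, 0, 1, 0, 0], [-2, 0, 4, 0, -2, 0, 0], [1, 0, -2, 0, 1, 0, 0], [0, 0, 0, 0, 0, 0, 0]], [[0, 0, 0, 0, 0, 0, 0], [0, 0, 0, 0, 0, 0, 0], [0, 0, 0, 0, 0, 0, 0], [0, 0, 0, 0, 0, 0, 0], [0, 0, 0, 0, 0, 0, 0], [0, 0, 0, 0, 0, 0, 0], [1,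 0, -3, 0, 3, 0, -1], [0, 0, 0, 0, 0, 0, 0]], [[-1, 0, 0, 0, 0, 0, 0], [7, 0, 0, 0, 0, 0, 0], [-21, 0, 0, 0, 0, 0, 0], [35, 0, 0, 0, 0, 0, 0], [-35, 0, 0, 0, 0, 0, 0], [21, 0, 0, 0, 0, 0, 0], [-7, 0, 0, 0, 0, 0, 0], [1, 0, 0, 0, 0, 0, 0]], [[0, 0, 0, 0, 0, 0, 0], [0, 0, 0, 0, 0, 0, 0], [-1, 0, 1, 0, 0, 0, 0], [5, 0, -5, 0, 0, 0, 0], [-10, 0, 10, 0, 0, 0, 0], [10, 0, -10, 0, 0, 0, 0], [-5, 0, 5, 0, 0, 0, 0], [1, 0, -1, 0, 0, 0, 0]], [[0, 0, 0, 0, 0, 0, 0], [0, 0, 0, 0, 0, 0, 0], [0, 0, 0, 0, 0, 0, 0], [0, 0, 0, 0, 0, 0, 0], [-1, 0, 2, 0, -1, 0, 0], [3, 0, -6, 0, 3, 0, 0], [-3, 0, 6, 0, -3, 0, 0], [1, 0, -2, 0, 1, 0, 0]], [[0, 0, 0, 0, 0, 0, 0], [0, 0, 0, 0, 0, 0, 0], [0, 0, 0, 0, 0, 0, 0], [0, 0, 0, 0, 0, 0, 0], [0, 0, 0, 0, 0, 0, 0], [0, 0, 0, 0, 0, 0, 0], [-1, 0, 3, 0, -3, 0, 1], [1, 0, -3, 0, 3, 0, -1]], [[0, 0, 0, 0, 0, 0, 0], [1, -1, 0, 0, 0, 0, 0], [0,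 0, 0, 0, 0, 0, 0], [0, 0, 0, 0, 0, 0, 0], [0, 0, 0, 0, 0, 0, 0], [0, 0, 0, 0, 0, 0, 0], [0, 0, 0, 0, 0, 0, 0], [0, 0, 0, 0, 0, 0, 0]], [[0, 0, 0, 0, 0, 0, 0], [1, 0, -1, 0, 0, 0, 0], [0, 0, 0, 0, 0, 0, 0], [0, 0, 0, 0, 0, 0, 0], [0, 0, 0, 0, 0, 0, 0], [0, 0, 0, 0, 0, 0, 0], [0, 0, 0, 0, 0, 0, 0], [0, 0, 0, 0, 0, 0, 0]], [[0, 0, 0, 0, 0, 0, 0], [1, 0, -2, 0, 1, 0, 0], [0, 0, 0, 0, 0, 0, 0], [0, 0, 0, 0, 0, 0, 0], [0, 0, 0, 0, 0, 0, 0], [0, 0, 0, 0, 0, 0, 0], [0, 0, 0, 0, 0, 0, 0], [0, 0, 0, 0, 0, 0, 0]]]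

/-- the symmetric matrix -/
def C : List (List Int) :=
  [[0, -687888, 0, 687888, 576, 849024, 139032, 0, -1185048, -528624, 72000, -1203056, 730808, -14328, 69768, 1018152, -210378, -8736, 391104, 492336, -173760], [-687888, -2192112, 771984, 1456056, 899280, 3781800, -784260, -2334240, -3010068, 684360, -442512, -2447312, -365404, 210420, 1700244, 1201644, 817989, -280752, 956448, 617832, 374880], [0, 771984, 0, -771984, 0, 1966608, 555552, 0, -2200752, -2057904, 254496, -104592, 2814384, -32208, 254496, 88560, -956754, -15552, 868464, -1206216, -615216], [687888, 1456056, -771984, -720000, -898944, -4228416, 449472, 2334480, 2514240, -88560, 475392, 3565440, 0, -237696, -1668792, -1824624, -760260, 304104, -288000, -216000, -72000], [576, 899280, 0, -898944, 1338240, -1523232, -482352, 1469472, -471504, 1302528, -670848, 2160032, -471056, -67920, -827040,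 -1039824, -59532, 38976, 351168, -1074336, 560832], [849024, 3781800, 1966608, -4228416, -1523232, 1329264, -1028232, -3934584, 5999688, 1357056, 72864, -1896432, -1246584, 168552, 1395144, -1429272, -34938, 36720, -1470816, -3109680, 341856], [139032, -784260, 555552, 449472, -482352, -1028232, 597792, -1085664, 1788648, -679488, 231024, 1646984, 235528, -183840, 390048, -1158840, -669714, 260304, -251616, 480144, -299424], [0, -2334240, 0, 2334480, 1469472, -3934584, -1085664, 2515968, 1766736, 3486384, -324864, -2809184, -3159184, 23184, -1394304, 1443672, 1389966, -101328, -300960, 2484768, 1112832], [-1185048, -3010068, -2200752, 2514240, -471504, 5999688, 1788648, 1766736, -8552064, -7621656, 885792, -6854032, 11585152, 802416, -57624, 8589744, -4529220, -1089624, -1200000, 2159328, 234720], [-528624, 684360, -2057904, -88560, 1302528, 1357056, -679488,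 3486384, -7621656, 4592832, -193728, 841408, -3976288, -214464, -919776, 1032264, 2494680, -182544, 684480, -251472, 37440], [72000, -442512, 254496, 475392, -670848, 72864, 231024, -324864, 885792, -193728, 1560768, -1112656, -478832, -42528, 1043712, -625824, 333180, 82080, 371616, 306336, -451776], [-1203056, -2447312, -104592, 3565440, 2160032, -1896432, 1646984, -2809184, -6854032, 841408, -1112656, 21306960, -5451240, -1199752, 1330320, -11608128, 1267830, 1468008, 2787120, 2297520, -3388320], [730808, -365404, 2814384, 0, -471056, -1246584, 235528, -3159184, 11585152, -3976288, -478832, -5451240, 780000, 239416, 537072, -1433808, 302580, 238968, 0, 0, 0], [-14328, 210420, -32208, -237696, -67920, 168552, -183840, 23184, 802416, -214464, -42528, -1199752, 239416, 102336, -33840, 686736, -160830, -43344, -185808, -153168, 225888], [69768, 1700244, 254496,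 -1668792, -827040, 1395144, 390048, -1394304, -57624, -919776, 1043712, 1330320, 537072, -33840, 1456896, -2129544, 76218, 34032, 372384, -1838304, -569424], [1018152, 1201644, 88560, -1824624, -1039824, -1429272, -1158840, 1443672, 8589744, 1032264, -625824, -11608128, -1433808, 686736, -2129544, 3648384, 3105540, -949824, -1061568, -1070784, 1637856], [-210378, 817989, -956754, -760260, -59532, -34938, -669714, 1389966, -4529220, 2494680, 333180, 1267830, 302580, -160830, 76218, 3105540, -1995450, 140010, -442320, -446160, 682440], [-8736, -280752, -15552, 304104, 38976, 36720, 260304, -101328, -1089624, -182544, 82080, 1468008, 238968, -43344, 34032, -949824, 140010, -44736, 176928, 178464, -272976], [391104, 956448, 868464, -288000, 351168, -1470816, -251616, -300960, -1200000, 684480, 371616, 2787120, 0, -185808, 372384, -1061568, -442320, 176928, 0,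 0, 0], [492336, 617832, -1206216, -216000, -1074336, -3109680, 480144, 2484768, 2159328, -251472, 306336, 2297520, 0, -153168, -1838304, -1070784, -446160, 178464, 0, 0, 0], [-173760, 374880, -615216, -72000, 560832, 341856, -299424, 1112832, 234720, 37440, -451776, -3388320, 0, 225888, -569424, 1637856, 682440, -272976, 0, 0, 0]]

/-- data of the check -/
def D : Data where
  k := 106
  n := 8
  m := 7
  n' := 8
  m' := 7
  XM := 3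
  YM := 10
  XM' := 3
  YM' := 10
  S := 128
  S' := 128
  SC := 538839232
  cr := 1
  cy := 5
  cr' := 1
  cy' := 5
  C := C
  fs := fs
  gs := fs

/-- the cells -/
def cells : List ((Int × Int) × List (Int × Int)) :=
  [((0, 1), [(0, 2), (2, 5)]), ((1, 2), [(0, 2), (2, 5)])]

theorem D_ok : D.ok = true := by decide +kernel

theorem D_sym : symOK D.fs.length D.C = true := by decide +kernel

theorem cov : covOK 0 2 0 5 cells = true := by decide +kernel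

theorem row_0_0 : D.row 0 2 0 5 (0, 1) (0, 2)
    [((0, 1), [(0, 2), (2, 5)]), ((1, 2), [(0, 2), (2, 5)])] = true := by decide +kernel

theorem row_0_1 : D.row 0 2 0 5 (0, 1) (2, 5)
    [((0, 1), [(0, 2), (2, 5)]), ((1, 2), [(0, 2), (2, 5)])] = true := by decide +kernel

theorem row_1_0 : D.row 1 2 0 5 (1, 2) (0, 2)
    [((1, 2), [(0, 2), (2, 5)])] = true := by decide +kernel

theorem row_1_1 : D.row 1 2 0 5 (1, 2) (2, 5)
    [((1, 2), [(0, 2), (2, 5)])] = true := by decide +kernel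

theorem rows : ∀ I' ∈ cells, ∀ J' ∈ I'.2, ∃ left,
    D.row I'.1.1 2 0 5 I'.1 J' left = true := by
  simp only [cells, List.forall_mem_cons, List.not_mem_nil, false_imp_iff, implies_true, and_true]
  exact ⟨⟨⟨_, row_0_0⟩, ⟨_, row_0_1⟩⟩, ⟨⟨_, row_1_0⟩, ⟨_, row_1_1⟩⟩⟩

/-- **the inequality** -/
theorem nonneg {r y r2 y2 : ℝ} (hr0 : 0 ≤ r) (hr1 : r ≤ 2) (hy0 : 0 ≤ y) (hy1 : y ≤ 1)
    (hr0' : 0 ≤ r2) (hr1' : r2 ≤ 2) (hy0' : 0 ≤ y2) (hy1' : y2 ≤ 1) :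
    0 ≤ bil C (fs.map (ev2 r y)) (fs.map (ev2 r2 y2)) := by
  have e1 : (((0 : Int) : ℝ) / ((D.cr : Int) : ℝ)) = 0 := by
    show (((0 : Int) : ℝ) / (((1 : Int)) : ℝ)) = 0
    norm_num
  have e2 : (((2 : Int) : ℝ) / ((D.cr : Int) : ℝ)) = 2 := by
    show (((2 : Int) : ℝ) / (((1 : Int)) : ℝ)) = 2
    norm_num
  have e3 : (((0 : Int) : ℝ) / ((D.cy : Int) : ℝ)) = 0 := by
    show (((0 : Int) : ℝ) / (((5 : Int)) : ℝ)) = 0
    norm_num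
  have e4 : (((5 : Int) : ℝ) / ((D.cy : Int) : ℝ)) = 1 := by
    show (((5 : Int) : ℝ) / (((5 : Int)) : ℝ)) = 1
    norm_num
  exact Data.sym_sound D_ok rfl rfl rfl D_sym cov rows (e1.trans_le hr0) (hr1.trans_eq e2.symm)
    (e3.trans_le hy0) (hy1.trans_eq e4.symm) (e1.trans_le hr0') (hr1'.trans_eq e2.symm)
    (e3.trans_le hy0') (hy1'.trans_eq e4.symm)

end Crest.Agent.R163.Q4Sub
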