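import Crest.Agent.R163.Q4Sub0
import Crest.Agent.R163.Q4Sym
import Crest.Agent.R163.Q4SubData

/-!
Row 163, `q = 4`: subadditivity of `χ²` on the class `ψ₄` (field `chisub` of `PairHyp`).
-/

set_option autoImplicit false

namespace Crest.Agent.R163.Q4Sub

open Bern

/-- the pair functions of the certificate -/
noncomputable def F : List (ℝ → ℝ → ℝ) :=
  [fun r y => (r - 1) ^ 2 * (r ^ 2 * (1 - y ^ 2)) ^ 0, fun r y => (r - 1) ^ 0 * (r ^ 2 * (1 - y ^ 2)) ^ 1, fun r y => (r - 1) ^ 3 * (r ^ 2 * (1 - y ^ 2)) ^ 0, fun r y => (r - 1) ^ 1 * (r ^ 2 * (1 - y ^ 2)) ^ 1, fun r y => (r - 1) ^ 4 * (r ^ 2 * (1 - y ^ 2)) ^ 0, fun r y => (r - 1) ^ 2 * (r ^ 2 * (1 - y ^ 2)) ^ 1, fun r y => (r - 1) ^ 0 * (r ^ 2 * (1 - y ^ 2)) ^ 2, fun r y => (r - 1) ^ 5 * (r ^ 2 * (1 - y ^ 2)) ^ 0, fun r y => (r - 1) ^ 3 * (r ^ 2 * (1 - y ^ 2)) ^ 1, fun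 r y => (r - 1) ^ 1 * (r ^ 2 * (1 - y ^ 2)) ^ 2, fun r y => (r - 1) ^ 6 * (r ^ 2 * (1 - y ^ 2)) ^ 0, fun r y => (r - 1) ^ 4 * (r ^ 2 * (1 - y ^ 2)) ^ 1, fun r y => (r - 1) ^ 2 * (r ^ 2 * (1 - y ^ 2)) ^ 2, fun r y => (r - 1) ^ 0 * (r ^ 2 * (1 - y ^ 2)) ^ 3, fun r y => (r - 1) ^ 7 * (r ^ 2 * (1 - y ^ 2)) ^ 0, fun r y => (r - 1) ^ 5 * (r ^ 2 * (1 - y ^ 2)) ^ 1, fun r y => (r - 1) ^ 3 * (r ^ 2 * (1 - y ^ 2)) ^ 2, fun r y => (r - 1) ^ 1 * (r ^ 2 * (1 - y ^ 2)) ^ 3, fun r y => r * (1 - y), fun r y => r * (1 - y ^ 2), fun r y => r * (1 - y ^ 2) ^ 2]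

lemma fs_map (r y : ℝ) : fs.map (ev2 r y) = F.map fun f => f r y := by
  simp only [fs, F, List.map_cons, List.map_nil, ev2, evRows, ev]
  push_cast
  refine congrArg₂ List.cons (by ring) ?_
  iterate 19 refine congrArg₂ List.cons (by ring) ?_
  exact congrArg₂ List.cons (by ring) rfl

lemma F_pav {v : Fin 4 → ℝ} (hv : ∀ i, 0 ≤ v i) (h1 : avg v = 1) :
    (F.map fun f => pav f v) =
      [(1/3) * sI v, (2/3) * sI v, 0, (2) * tI v, (-2/3) * eI v + (1/3) * sI v ^ 2, (2/3) * eI v, (2/3) * eI v + (2/3) * sI v ^ 2, 0, (2/3) * sI v * tI v, (8/3) * sI v * tI v, (1) * tI v ^ 2 + (-1) * sI v * eI v + (1/3) * sI v ^ 3, (-1) * tI v ^ 2 + (1/3) * sI v * eI v, (5) * tI v ^ 2 + (1/3) * sI v * eI v, (-13) * tI v ^ 2 + (3) * sI v * eI v + (2/3) * sI v ^ 3, 0, (-4/3) * tI v * eI v + (2/3) * sI v ^ 2 * tI v, (8/3) * tI v * eI v, (-4/3)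 * tI v * eI v + (4) * sI v ^ 2 * tI v, eta4 v, L2f v, L4f v] := by
  simp only [F, List.map_cons, List.map_nil, pav]
  rw [pr_w2_U0 hv h1, pr_w0_U1 hv h1, pr_w3_U0 hv h1, pr_w1_U1 hv h1, pr_w4_U0 hv h1, pr_w2_U1 hv h1, pr_w0_U2 hv h1, pr_w5_U0 hv h1, pr_w3_U1 hv h1, pr_w1_U2 hv h1, pr_w6_U0 hv h1, pr_w4_U1 hv h1, pr_w2_U2 hv h1, pr_w0_U3 hv h1, pr_w7_U0 hv h1, pr_w5_U1 hv h1, pr_w3_U2 hv h1, pr_w1_U3 hv h1]
  rfl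

/-- the multiplier of the subadditivity inequality, on vectors of mean one -/
noncomputable def B0 (v : Fin 4 → ℝ) : ℝ :=
  4 / 3 * sI v - tI v - 11 / 125 * sI v ^ 2 - 12 / 5 * eI v + 89 / 50 * sI v * tI v

lemma key_identity {u v : Fin 4 → ℝ} (hu : ∀ i, 0 ≤ u i) (hv : ∀ i, 0 ≤ v i) (hu1 : avg u = 1)
    (hv1 : avg v = 1) :
    bil C (F.map fun f => pav f u) (F.map fun f => pav f v) =
      480000 * (sI u + sI v - 3 +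
        (1 * gG0 (sI u) (tI u) (eI u) (sI v) (tI v) (eI v) +
        (-1) * gG1 (sI u) (tI u) (eI u) (sI v) (tI v) (eI v) +
        1 * gG2 (sI u) (tI u) (eI u) (sI v) (tI v) (eI v) +
        (-1) * gG3 (sI u) (tI u) (eI u) (sI v) (tI v) (eI v) +
        (3 / 4) * gG4 (sI u) (tI u) (eI u) (sI v) (tI v) (eI v) +
        (-1 / 4) * gG5 (sI u) (tI u) (eI u) (sI v) (tI v) (eI v)) -
        B0 v * (sI u - 6 / 5 * eta4 u - 9 / 10 * L2f u - 3 / 10 * L4f u) -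
        B0 u * (sI v - 6 / 5 * eta4 v - 9 / 10 * L2f v - 3 / 10 * L4f v)) := by
  rw [F_pav hu hu1, F_pav hv hv1]
  unfold B0 gG0 gG1 gG2 gG3 gG4 gG5 gE0 gE1 gE2 gE3 gE4 gE5 gE6 gE7 gF0 gF1 gF2 gF3 gF4 gF5
  generalize sI u = s
  generalize tI u = t
  generalize eI u = e
  generalize sI v = s'
  generalize tI v = t'
  generalize eI v = e'
  generalize eta4 u = n
  generalize L2f u = l2
  generalize L4f u = l4
  generalize eta4 v = n'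
  generalize L2f v = l2'
  generalize L4f v = l4'
  simp only [C, bil, dotR]
  push_cast
  ring

/-- polynomial minorant of `1 / (1 + z)` -/
lemma chi_le_trunc (w : Fin 4 → ℝ) (hw : ∀ i, 0 ≤ w i) :
    chi w ≤ 3 * (avg w - 1) ^ 0 + 3 * (avg w - 1) ^ 1 + 0 * (avg w - 1) ^ 2 +
      0 * (avg w - 1) ^ 3 + 0 * (avg w - 1) ^ 4 + 0 * (avg w - 1) ^ 5 + 0 * (avg w - 1) ^ 6 +
      0 * (avg w - 1) ^ 7 + EE w * ((-1) * (avg w - 1) ^ 0 + 1 * (avg w - 1) ^ 1 +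
      (-1) * (avg w - 1) ^ 2 + 1 * (avg w - 1) ^ 3 + (-3 / 4) * (avg w - 1) ^ 4 +
      (1 / 4) * (avg w - 1) ^ 5) := by
  have h := chi_le_poly hw
    (p := 1 - (avg w - 1) + (avg w - 1) ^ 2 - (avg w - 1) ^ 3 + 3 / 4 * (avg w - 1) ^ 4 -
      1 / 4 * (avg w - 1) ^ 5)
    (ρ := ((avg w - 1) ^ 2 * (1 - (avg w - 1)) / 2) ^ 2) (sq_nonneg _) (by ring)
  refine h.trans (le_of_eq ?_)
  ring

/-- **subadditivity of `χ²`** (field `chisub`) for vectors of mean one -/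
theorem chisub {u v : Fin 4 → ℝ} (hu : ∀ i, 0 ≤ u i) (hv : ∀ i, 0 ≤ v i) (hu1 : avg u = 1)
    (hv1 : avg v = 1) :
    orb chi u v ≤ chi u + chi v - B0 v * psi4 u - B0 u * psi4 v := by
  have h1 := orb_le chi_le_trunc hu hv
  rw [orb_poly 3 3 0 0 0 0 0 0 (-1) 1 (-1) 1 (-3 / 4) (1 / 4) hu1 hv1] at h1
  have h2 := bil_pav_nonneg C F (fun r y r2 y2 a1 a2 a3 a4 a5 a6 a7 a8 => by
    rw [← fs_map, ← fs_map]
    exact nonneg a1 a2 a3 a4 a5 a6 a7 a8) hu hv hu1 hv1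
  rw [key_identity hu hv hu1 hv1] at h2
  have e0 : gE0 (sI u) (tI u) (eI u) (sI v) (tI v) (eI v) = 1 := by unfold gE0; ring
  have e1 : gE1 (sI u) (tI u) (eI u) (sI v) (tI v) (eI v) = 0 := rfl
  rw [e0, e1] at h1
  unfold psi4
  rw [chi_eq_sI hu1, chi_eq_sI hv1]
  linarith

/-! #### the multiplier `B` is bounded below by a multiple of `χ²` -/

/-- pair polynomial of `B0 - chi / 50` -/
noncomputable def Tp (r x : ℝ) : ℝ :=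
  1 / 2 * ((r - 1) ^ 2 * (r ^ 2 * x) ^ 0) + 43 / 25 * ((r - 1) ^ 0 * (r ^ 2 * x) ^ 1) +
    (-1 / 2) * ((r - 1) ^ 1 * (r ^ 2 * x) ^ 1) + 167 / 125 * ((r - 1) ^ 4 * (r ^ 2 * x) ^ 0) +
    (-183 / 125) * ((r - 1) ^ 2 * (r ^ 2 * x) ^ 1) +
    (-133 / 100) * ((r - 1) ^ 3 * (r ^ 2 * x) ^ 1) +
    1 / 2 * ((r - 1) ^ 3 * (r ^ 2 * x) ^ 0) + (-4 / 5) * ((r - 1) ^ 0 * (r ^ 2 * x) ^ 2) +
    9 / 8 * ((r - 1) ^ 5 * (r ^ 2 * x) ^ 0) + 1 * ((r - 1) ^ 1 * (r ^ 2 * x) ^ 2)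

lemma Tp_nonneg {r x : ℝ} (hr0 : 0 ≤ r) (hr2 : r ≤ 2) (hx0 : 0 ≤ x) (hx1 : x ≤ 1) :
    0 ≤ Tp r x := by
  have hx : 0 ≤ 1 - x := by linarith
  rcases le_total r 1 with h | h
  · have h1 : 0 ≤ 1 - r := by linarith
    have e : Tp r x = (211/1000) * (r ^ 0 * (1 - r) ^ 5 * (x ^ 0 * (1 - x) ^ 2)) +
      (211/500) * (r ^ 0 * (1 - r) ^ 5 * (x ^ 1 * (1 - x) ^ 1)) +
      (211/1000) * (r ^ 0 * (1 - r) ^ 5 * (x ^ 2 * (1 - x) ^ 0)) +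
      (459/250) * (r ^ 1 * (1 - r) ^ 4 * (x ^ 0 * (1 - x) ^ 2)) +
      (459/125) * (r ^ 1 * (1 - r) ^ 4 * (x ^ 1 * (1 - x) ^ 1)) +
      (459/250) * (r ^ 1 * (1 - r) ^ 4 * (x ^ 2 * (1 - x) ^ 0)) +
      1 * (r ^ 2 * (1 - r) ^ 3 * (x ^ 0 * (1 - x) ^ 2)) +
      (2043/500) * (r ^ 2 * (1 - r) ^ 3 * (x ^ 1 * (1 - x) ^ 1)) +
      (1543/500) * (r ^ 2 * (1 - r) ^ 3 * (x ^ 2 * (1 - x) ^ 0)) +
      (1/2) * (r ^ 3 * (1 - r) ^ 2 * (x ^ 0 * (1 - x) ^ 2)) +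
      (712/125) * (r ^ 3 * (1 - r) ^ 2 * (x ^ 1 * (1 - x) ^ 1)) +
      (1299/250) * (r ^ 3 * (1 - r) ^ 2 * (x ^ 2 * (1 - x) ^ 0)) +
      (283/50) * (r ^ 4 * (1 - r) ^ 1 * (x ^ 1 * (1 - x) ^ 1)) +
      (193/50) * (r ^ 4 * (1 - r) ^ 1 * (x ^ 2 * (1 - x) ^ 0)) +
      (43/25) * (r ^ 5 * (1 - r) ^ 0 * (x ^ 1 * (1 - x) ^ 1)) +
      (23/25) * (r ^ 5 * (1 - r) ^ 0 * (x ^ 2 * (1 - x) ^ 0)) := by
      unfold Tp; ring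
    rw [e]
    positivity
  · have h1 : 0 ≤ r - 1 := by linarith
    have h2 : 0 ≤ 2 - r := by linarith
    have e : Tp r x = (43/25) * ((r - 1) ^ 0 * (2 - r) ^ 5 * (x ^ 1 * (1 - x) ^ 1)) +
      (23/25) * ((r - 1) ^ 0 * (2 - r) ^ 5 * (x ^ 2 * (1 - x) ^ 0)) +
      (577/50) * ((r - 1) ^ 1 * (2 - r) ^ 4 * (x ^ 1 * (1 - x) ^ 1)) +
      (267/50) * ((r - 1) ^ 1 * (2 - r) ^ 4 * (x ^ 2 * (1 - x) ^ 0)) +
      (1/2) * ((r - 1) ^ 2 * (2 - r) ^ 3 * (x ^ 0 * (1 - x) ^ 2)) +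
      (3652/125) * ((r - 1) ^ 2 * (2 - r) ^ 3 * (x ^ 1 * (1 - x) ^ 1)) +
      (2779/250) * ((r - 1) ^ 2 * (2 - r) ^ 3 * (x ^ 2 * (1 - x) ^ 0)) +
      2 * ((r - 1) ^ 3 * (2 - r) ^ 2 * (x ^ 0 * (1 - x) ^ 2)) +
      (637/20) * ((r - 1) ^ 3 * (2 - r) ^ 2 * (x ^ 1 * (1 - x) ^ 1)) +
      (181/20) * ((r - 1) ^ 3 * (2 - r) ^ 2 * (x ^ 2 * (1 - x) ^ 0)) +
      (959/250) * ((r - 1) ^ 4 * (2 - r) ^ 1 * (x ^ 0 * (1 - x) ^ 2)) +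
      (304/25) * ((r - 1) ^ 4 * (2 - r) ^ 1 * (x ^ 1 * (1 - x) ^ 1)) +
      (481/250) * ((r - 1) ^ 4 * (2 - r) ^ 1 * (x ^ 2 * (1 - x) ^ 0)) +
      (3461/1000) * ((r - 1) ^ 5 * (2 - r) ^ 0 * (x ^ 0 * (1 - x) ^ 2)) +
      (313/500) * ((r - 1) ^ 5 * (2 - r) ^ 0 * (x ^ 1 * (1 - x) ^ 1)) +
      (73/200) * ((r - 1) ^ 5 * (2 - r) ^ 0 * (x ^ 2 * (1 - x) ^ 0)) := by
      unfold Tp; ring
    rw [e]
    positivity

lemma B0_ge {v : Fin 4 → ℝ} (hv : ∀ i, 0 ≤ v i) (h1 : avg v = 1) :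
    1 / 50 * chi v ≤ B0 v := by
  have h : 0 ≤ pr (fun a b => Tp (rr a b) (1 - yy a b ^ 2)) v := by
    refine pr_nonneg (by norm_num) fun x y hxy => ?_
    have hy0 := yy_nonneg (hv x) (hv y)
    have hy1 := yy_le_one (hv x) (hv y)
    exact Tp_nonneg (rr_nonneg (hv _) (hv _)) (rr_le_two hv h1 hxy) (by nlinarith) (by nlinarith)
  unfold Tp at h
  simp only [pr_add, pr_const_mul] at h
  rw [pr_w2_U0 hv h1, pr_w0_U1 hv h1, pr_w1_U1 hv h1, pr_w4_U0 hv h1, pr_w2_U1 hv h1,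
    pr_w3_U1 hv h1, pr_w3_U0 hv h1, pr_w0_U2 hv h1, pr_w5_U0 hv h1, pr_w1_U2 hv h1] at h
  rw [chi_eq_sI h1]
  unfold B0
  linarith

lemma abs_m_le {v : Fin 4 → ℝ} (hv : ∀ i, 0 ≤ v i) (h1 : avg v = 1) :
    |mA v| ≤ 1 ∧ |mB v| ≤ 1 ∧ |mC v| ≤ 1 := by
  rw [avg_four] at h1
  have h0 := hv 0
  have h2 := hv 1
  have h3 := hv 2
  have h4 := hv 3
  unfold mA mB mC
  refine ⟨abs_le.2 ⟨by linarith, by linarith⟩, abs_le.2 ⟨by linarith, by linarith⟩,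
    abs_le.2 ⟨by linarith, by linarith⟩⟩

lemma B0_bdd {v : Fin 4 → ℝ} (hv : ∀ i, 0 ≤ v i) (h1 : avg v = 1) : |B0 v| ≤ 20 := by
  obtain ⟨ha, hb, hc⟩ := abs_m_le hv h1
  have ha2 : mA v ^ 2 ≤ 1 := by rw [← sq_abs]; exact pow_le_one₀ (abs_nonneg _) ha
  have hb2 : mB v ^ 2 ≤ 1 := by rw [← sq_abs]; exact pow_le_one₀ (abs_nonneg _) hb
  have hc2 : mC v ^ 2 ≤ 1 := by rw [← sq_abs]; exact pow_le_one₀ (abs_nonneg _) hc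
  have pa := sq_nonneg (mA v)
  have pb := sq_nonneg (mB v)
  have pc := sq_nonneg (mC v)
  have hs0 : 0 ≤ sI v := by unfold sI; linarith
  have hs : sI v ≤ 3 := by unfold sI; linarith
  have he0 : 0 ≤ eI v := by unfold eI; positivity
  have he : eI v ≤ 3 := by
    unfold eI
    have e1 := mul_le_one₀ ha2 pb hb2
    have e2 := mul_le_one₀ ha2 pc hc2
    have e3 := mul_le_one₀ hb2 pc hc2
    linarith
  have ht : |tI v| ≤ 1 := by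
    unfold tI
    rw [abs_mul, abs_mul]
    exact mul_le_one₀ (mul_le_one₀ ha (abs_nonneg _) hb) (abs_nonneg _) hc
  obtain ⟨ht1, ht2⟩ := abs_le.1 ht
  have hst1 : -3 ≤ sI v * tI v := by nlinarith
  have hst2 : sI v * tI v ≤ 3 := by nlinarith
  have hss : sI v ^ 2 ≤ 9 := by nlinarith
  have hss0 := sq_nonneg (sI v)
  have e : B0 v = 4 / 3 * sI v - tI v - 11 / 125 * sI v ^ 2 - 12 / 5 * eI v +
      89 / 50 * (sI v * tI v) := by unfold B0; ring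
  rw [e, abs_le]
  constructor <;> linarith

/-- the multiplier `B` -/
noncomputable def BB : (Fin 4 → ℝ) → ℝ := hm B0

lemma hom_BB : Hom BB := hom_hm B0

lemma bdd_BB : Bdd BB := by
  refine bdd_of_norm hom_BB (K := 20) (by norm_num) fun v hv h1 => ?_
  unfold BB
  rw [hm_of_norm h1]
  exact B0_bdd hv h1

lemma BB_ge {v : Fin 4 → ℝ} (hv : ∀ i, 0 ≤ v i) (h1 : avg v = 1) :
    1 / 50 * chi v ≤ BB v := by
  unfold BB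
  rw [hm_of_norm h1]
  exact B0_ge hv h1

/-- **field `chisub` of `PairHyp 4 psi4 _ BB`** on vectors of mean one -/
theorem chisub_BB {u v : Fin 4 → ℝ} (hu : ∀ i, 0 ≤ u i) (hv : ∀ i, 0 ≤ v i) (hu1 : avg u = 1)
    (hv1 : avg v = 1) :
    orb chi u v ≤ chi u + chi v - BB v * psi4 u - BB u * psi4 v := by
  unfold BB
  rw [hm_of_norm hu1, hm_of_norm hv1]
  exact chisub hu hv hu1 hv1

end Crest.Agent.R163.Q4Sub
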