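import Crest.Agent.R163.Q4CloFin
import Crest.Agent.R163.Q4Sub
import Crest.Agent.R163.Q4CertA
import Crest.Agent.R163.Pair

/-! Row 163: `PairHyp 4`. -/

set_option autoImplicit false
set_option maxRecDepth 1000000

namespace Crest.Agent.R163.Q4Clo

open Bern

/-- the multiplier `θ` on vectors of mean one -/
noncomputable def th0 (v : Fin 4 → ℝ) : ℝ := 1 - al (sI v) (tI v) (eI v)

/-- the multiplier `θ` -/
noncomputable def th4 : (Fin 4 → ℝ) → ℝ := hm th0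

lemma th0_nonneg {v : Fin 4 → ℝ} (hv : ∀ i, 0 ≤ v i) (h1 : avg v = 1) : 0 ≤ th0 v := by
  have h : 0 ≤ pr (fun a b => ev2 (rr a b) (yy a b) Q4CertI.pa) v :=
    pr_nonneg (by norm_num) fun x y hxy => Q4CertI.pa_nonneg (rr_nonneg (hv _) (hv _))
      (rr_le_two hv h1 hxy) (yy_nonneg (hv x) (hv y)) (yy_le_one (hv x) (hv y))
  have e : (fun a b => ev2 (rr a b) (yy a b) Q4CertI.pa) = fun a b => 65536 * (rr a b + ((-68731/65536) * ((rr a b - 1) ^ 0 * (rr a b ^ 2 * (1 - yy a b ^ 2)) ^ 1) + (3871/65536) * ((rr a b - 1) ^ 0 * (rr a b ^ 2 * (1 - yy a b ^ 2)) ^ 2) + (-207/32768) * ((rr a b - 1) ^ 0 * (rr a b ^ 2 * (1 - yy a b ^ 2)) ^ 3) + (55967/65536) * ((rr a b - 1) ^ 1 * (rr a b ^ 2 * (1 - yy a b ^ 2)) ^ 1) + (2973/65536) * ((rr a b - 1) ^ 1 * (rr a b ^ 2 * (1 - yy a b ^ 2)) ^ 2) + (-7/32768) * ((rr a b - 1) ^ 1 * (rr a b ^ 2 * (1 - yy a b ^ 2)) ^ 3) + (-54413/65536)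 * ((rr a b - 1) ^ 2 * (rr a b ^ 2 * (1 - yy a b ^ 2)) ^ 0) + (-13345/65536) * ((rr a b - 1) ^ 2 * (rr a b ^ 2 * (1 - yy a b ^ 2)) ^ 1) + (-4885/8192) * ((rr a b - 1) ^ 3 * (rr a b ^ 2 * (1 - yy a b ^ 2)) ^ 0) + (-2973/16384) * ((rr a b - 1) ^ 3 * (rr a b ^ 2 * (1 - yy a b ^ 2)) ^ 1) + (35/65536) * ((rr a b - 1) ^ 3 * (rr a b ^ 2 * (1 - yy a b ^ 2)) ^ 2) + (2727/16384) * ((rr a b - 1) ^ 4 * (rr a b ^ 2 * (1 - yy a b ^ 2)) ^ 0) + (3105/32768) * ((rr a b - 1) ^ 4 * (rr a b ^ 2 * (1 - yy a b ^ 2)) ^ 1) + (-9247/65536) * ((rr a b - 1) ^ 5 * (rr a b ^ 2 * (1 - yy a b ^ 2)) ^ 0) + (21/16384) * ((rr a b - 1) ^ 5 * (rr a b ^ 2 * (1 - yy a b ^ 2)) ^ 1) + (207/16384) * ((rr a b - 1) ^ 6 * (rr a b ^ 2 * (1 - yy a b ^ 2)) ^ 0) + (1347/16384) * ((rr a b - 1) ^ 7 * (rr a b ^ 2 * (1 - yy a b ^ 2)) ^ 0))) := by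
    funext a b
    simp only [Q4CertI.pa, ev2, evRows, ev]
    push_cast
    ring
  rw [e] at h
  have r1 : pr (fun a b => rr a b) v = 1 := by
    have := pr_rr v
    rw [h1] at this
    exact this
  simp only [pr_add, pr_const_mul] at h
  rw [r1, pr_w0_U1 hv h1, pr_w0_U2 hv h1, pr_w0_U3 hv h1, pr_w1_U1 hv h1, pr_w1_U2 hv h1, pr_w1_U3 hv h1, pr_w2_U0 hv h1, pr_w2_U1 hv h1, pr_w3_U0 hv h1, pr_w3_U1 hv h1, pr_w3_U2 hv h1, pr_w4_U0 hv h1, pr_w4_U1 hv h1, pr_w5_U0 hv h1, pr_w5_U1 hv h1, pr_w6_U0 hv h1, pr_w7_U0 hv h1] at h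
  unfold th0 al
  linarith

lemma th0_ge {v : Fin 4 → ℝ} (hv : ∀ i, 0 ≤ v i) (h1 : avg v = 1) :
    1 - 5 * chi v ≤ th0 v := by
  obtain ⟨ha, hb, hc⟩ := Q4Sub.abs_m_le hv h1
  have ha2 : mA v ^ 2 ≤ 1 := by rw [← sq_abs]; exact pow_le_one₀ (abs_nonneg _) ha
  have hb2 : mB v ^ 2 ≤ 1 := by rw [← sq_abs]; exact pow_le_one₀ (abs_nonneg _) hb
  have pa := sq_nonneg (mA v)
  have pb := sq_nonneg (mB v)
  have pc := sq_nonneg (mC v)
  have he : eI v ≤ 2 * sI v := by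
    unfold eI sI
    nlinarith [mul_nonneg pa (sub_nonneg.2 hb2), mul_nonneg pb (sub_nonneg.2 ha2),
      mul_nonneg pc (sub_nonneg.2 ha2), mul_nonneg pc (sub_nonneg.2 hb2)]
  have he0 : 0 ≤ eI v := by unfold eI; positivity
  have ht : -(sI v) ≤ tI v := by
    unfold tI sI
    obtain ⟨c1, c2⟩ := abs_le.1 hc
    nlinarith [sq_nonneg (mA v + mB v), sq_nonneg (mA v - mB v), mul_nonneg (sub_nonneg.2 c2) pa,
      mul_nonneg (sub_nonneg.2 c2) pb,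
      mul_nonneg (by linarith : (0 : ℝ) ≤ 1 + mC v) (sq_nonneg (mA v + mB v)),
      mul_nonneg (by linarith : (0 : ℝ) ≤ 1 - mC v) (sq_nonneg (mA v - mB v)),
      mul_nonneg (by linarith : (0 : ℝ) ≤ 1 + mC v) (sq_nonneg (mA v - mB v)),
      mul_nonneg (by linarith : (0 : ℝ) ≤ 1 - mC v) (sq_nonneg (mA v + mB v))]
  have hs2 := sq_nonneg (sI v)
  rw [chi_eq_sI h1]
  unfold th0 al
  have hs0 : 0 ≤ sI v := by unfold sI; linarith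
  nlinarith

lemma th0_bdd {v : Fin 4 → ℝ} (hv : ∀ i, 0 ≤ v i) (h1 : avg v = 1) : |th0 v| ≤ 20 := by
  have h0 := th0_nonneg hv h1
  obtain ⟨ha, hb, hc⟩ := Q4Sub.abs_m_le hv h1
  have ha2 : mA v ^ 2 ≤ 1 := by rw [← sq_abs]; exact pow_le_one₀ (abs_nonneg _) ha
  have hb2 : mB v ^ 2 ≤ 1 := by rw [← sq_abs]; exact pow_le_one₀ (abs_nonneg _) hb
  have hc2 : mC v ^ 2 ≤ 1 := by rw [← sq_abs]; exact pow_le_one₀ (abs_nonneg _) hc
  have pa := sq_nonneg (mA v)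
  have pb := sq_nonneg (mB v)
  have pc := sq_nonneg (mC v)
  have hs0 : 0 ≤ sI v := by unfold sI; linarith
  have hs : sI v ≤ 3 := by unfold sI; linarith
  have he0 : 0 ≤ eI v := by unfold eI; positivity
  have ht : |tI v| ≤ 1 := by
    unfold tI
    rw [abs_mul, abs_mul]
    exact mul_le_one₀ (mul_le_one₀ ha (abs_nonneg _) hb) (abs_nonneg _) hc
  obtain ⟨ht1, ht2⟩ := abs_le.1 ht
  have hss : sI v ^ 2 ≤ 9 := by nlinarith
  rw [abs_of_nonneg h0]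
  unfold th0 al
  nlinarith

lemma hom_th4 : Hom th4 := hom_hm th0

lemma bdd_th4 : Bdd th4 := by
  refine bdd_of_norm hom_th4 (K := 20) (by norm_num) fun v hv h1 => ?_
  unfold th4
  rw [hm_of_norm h1]
  exact th0_bdd hv h1

/-- **the pointwise hypotheses for `q = 4`** -/
theorem pairHyp4 : PairHyp 4 psi4 th4 Q4Sub.BB (1 / 500) 5 (1 / 50) := by
  refine PairHyp.of_norm bdd_psi4 bdd_th4 Q4Sub.bdd_BB hom_psi4 hom_th4 Q4Sub.hom_BB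
    (by norm_num) (by norm_num) (by norm_num) psi4_one.ge psi4_perfect
    (fun lam h0 h1 v hv hv1 => psi4_edge h0 h1 hv hv1) ?_ ?_ ?_ ?_ ?_
  · intro v hv h1
    unfold th4
    rw [hm_of_norm h1]
    exact th0_nonneg hv h1
  · intro v hv h1
    unfold th4
    rw [hm_of_norm h1]
    exact th0_ge hv h1
  · intro v hv h1
    exact Q4Sub.BB_ge hv h1
  · intro u v hu hv hu1 hv1
    unfold th4
    rw [hm_of_norm hu1, hm_of_norm hv1]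
    exact closure4 hu hv hu1 hv1
  · intro u v hu hv hu1 hv1
    exact Q4Sub.chisub_BB hu hv hu1 hv1

end Crest.Agent.R163.Q4Clo
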