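import Crest.Agent.R163.Norm

/-!
Row 163, `q = 4`: the class functional `ψ = χ² - (6/5) η - (9/10) L₂ - (3/10) L₄` and its
elementary properties; Ising-type merge bounds for the two-point functionals.
-/

set_option autoImplicit false

namespace Crest.Agent.R163

/-- pair mean -/
noncomputable def rr (a b : ℝ) : ℝ := (a + b) / 2

/-- pair Bhattacharyya coefficient (normalised) -/
noncomputable def yy (a b : ℝ) : ℝ := 2 * Real.sqrt (a * b) / (a + b)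

lemma rr_nonneg {a b : ℝ} (ha : 0 ≤ a) (hb : 0 ≤ b) : 0 ≤ rr a b := by
  unfold rr; linarith

lemma yy_nonneg {a b : ℝ} (ha : 0 ≤ a) (hb : 0 ≤ b) : 0 ≤ yy a b := by
  unfold yy; positivity

lemma sqrt_mul_le {a b : ℝ} (ha : 0 ≤ a) (hb : 0 ≤ b) : 2 * Real.sqrt (a * b) ≤ a + b := by
  have h1 : (2 * Real.sqrt (a * b)) ^ 2 ≤ (a + b) ^ 2 := by
    rw [mul_pow, Real.sq_sqrt (mul_nonneg ha hb)]
    nlinarith [sq_nonneg (a - b)]
  exact (abs_le_of_sq_le_sq' h1 (by linarith)).2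

lemma yy_le_one {a b : ℝ} (ha : 0 ≤ a) (hb : 0 ≤ b) : yy a b ≤ 1 := by
  unfold yy
  exact div_le_one_of_le₀ (sqrt_mul_le ha hb) (by linarith)

lemma rr_mul_yy {a b : ℝ} (ha : 0 ≤ a) (hb : 0 ≤ b) : rr a b * yy a b = Real.sqrt (a * b) := by
  unfold rr yy
  rcases eq_or_ne (a + b) 0 with h | h
  · have ha0 : a = 0 := by linarith
    have hb0 : b = 0 := by linarith
    subst ha0; subst hb0
    simp
  · field_simp

lemma rr_x {a b : ℝ} (ha : 0 ≤ a) (hb : 0 ≤ b) :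
    rr a b * (1 - yy a b ^ 2) = (a - b) ^ 2 / (2 * (a + b)) := by
  rcases eq_or_ne (a + b) 0 with h | h
  · simp [rr, h]
  · unfold rr yy
    rw [div_pow, mul_pow, Real.sq_sqrt (mul_nonneg ha hb)]
    field_simp
    ring

lemma rr_x2 {a b : ℝ} (ha : 0 ≤ a) (hb : 0 ≤ b) :
    rr a b * (1 - yy a b ^ 2) ^ 2 = (a - b) ^ 4 / (2 * (a + b) ^ 3) := by
  rcases eq_or_ne (a + b) 0 with h | h
  · simp [rr, h]
  · unfold rr yy
    rw [div_pow, mul_pow, Real.sq_sqrt (mul_nonneg ha hb)]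
    field_simp
    ring

lemma rr_u2 {a b : ℝ} (ha : 0 ≤ a) (hb : 0 ≤ b) :
    rr a b ^ 2 * (1 - yy a b ^ 2) = (a - b) ^ 2 / 4 := by
  rcases eq_or_ne (a + b) 0 with h | h
  · have ha0 : a = 0 := by linarith
    have hb0 : b = 0 := by linarith
    subst ha0; subst hb0
    simp [rr]
  · unfold rr yy
    rw [div_pow, div_pow, mul_pow, Real.sq_sqrt (mul_nonneg ha hb)]
    field_simp
    ring

/-! #### merging two-point quantities -/

lemma merge2 {s t : ℝ} (hs : s ^ 2 ≤ 1) (ht : t ^ 2 ≤ 1) :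
    ((s + t) ^ 2 / (1 + s * t) + (s - t) ^ 2 / (1 - s * t)) / 2 ≤
      s ^ 2 + t ^ 2 - s ^ 2 * t ^ 2 - s ^ 2 * (1 - s ^ 2) * (t ^ 2 * (1 - t ^ 2)) := by
  have hst : (s * t) ^ 2 ≤ 1 := by
    rw [mul_pow]
    calc s ^ 2 * t ^ 2 ≤ 1 * 1 := mul_le_mul hs ht (sq_nonneg _) zero_le_one
      _ = 1 := one_mul 1
  have h1 : -1 ≤ s * t := by nlinarith
  have h2 : s * t ≤ 1 := by nlinarith
  rcases eq_or_lt_of_le h1 with h | h
  · have e : 1 + s * t = 0 := by linarith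
    have e2 : 1 - s * t = 2 := by linarith
    have hs1 : s ^ 2 = 1 := by nlinarith [sq_nonneg (s * t)]
    have ht1 : t ^ 2 = 1 := by nlinarith [sq_nonneg (s * t)]
    rw [e, e2, hs1, ht1]
    have : (s - t) ^ 2 = 4 := by nlinarith
    rw [this]; norm_num
  rcases eq_or_lt_of_le h2 with h' | h'
  · have e : 1 - s * t = 0 := by linarith
    have e2 : 1 + s * t = 2 := by linarith
    have hs1 : s ^ 2 = 1 := by nlinarith [sq_nonneg (s * t)]
    have ht1 : t ^ 2 = 1 := by nlinarith [sq_nonneg (s * t)]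
    rw [e, e2, hs1, ht1]
    have : (s + t) ^ 2 = 4 := by nlinarith
    rw [this]; norm_num
  have p1 : 0 < 1 + s * t := by linarith
  have p2 : 0 < 1 - s * t := by linarith
  rw [div_add_div _ _ p1.ne' p2.ne', div_div, div_le_iff₀ (by positivity)]
  have key : (s ^ 2 + t ^ 2 - s ^ 2 * t ^ 2 - s ^ 2 * (1 - s ^ 2) * (t ^ 2 * (1 - t ^ 2))) *
      ((1 + s * t) * (1 - s * t) * 2) - ((s + t) ^ 2 * (1 - s * t) + (1 + s * t) * (s - t) ^ 2) =
      2 * (s ^ 4 * t ^ 4 * ((1 - s ^ 2) * (1 - t ^ 2))) := by ring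
  have : 0 ≤ s ^ 4 * t ^ 4 * ((1 - s ^ 2) * (1 - t ^ 2)) := by
    have := mul_nonneg (sub_nonneg.2 hs) (sub_nonneg.2 ht)
    positivity
  linarith

lemma merge4_poly {x y : ℝ} (hx0 : 0 ≤ x) (hx : x ≤ 1) (hy0 : 0 ≤ y) (hy : y ≤ 1) :
    (x + y) ^ 2 * (1 + 3 * (x * y)) - 4 * (x + y) * (x * y) * (3 + x * y) +
      4 * (x * y) * (1 + 3 * (x * y)) ≤
      (1 - x * y) ^ 3 * (x ^ 2 + y ^ 2 - x ^ 2 * y ^ 2 + 6 * (x * (1 - x) ^ 2) * (y * (1 - y) ^ 2) +
        13 * (x ^ 2 * (1 - x)) * (y ^ 2 * (1 - y))) := by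
  have key : (1 - x * y) ^ 3 * (x ^ 2 + y ^ 2 - x ^ 2 * y ^ 2 +
        6 * (x * (1 - x) ^ 2) * (y * (1 - y) ^ 2) +
        13 * (x ^ 2 * (1 - x)) * (y ^ 2 * (1 - y))) -
      ((x + y) ^ 2 * (1 + 3 * (x * y)) - 4 * (x + y) * (x * y) * (3 + x * y) +
      4 * (x * y) * (1 + 3 * (x * y))) =
      x * y * ((1 - x) * (1 - y)) * (
      15 * (x ^ 1 * (1 - x) ^ 3 * (y ^ 2 * (1 - y) ^ 2)) +
      30 * (x ^ 1 * (1 - x) ^ 3 * (y ^ 3 * (1 - y) ^ 1)) +
      15 * (x ^ 1 * (1 - x) ^ 3 * (y ^ 4 * (1 - y) ^ 0)) +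
      15 * (x ^ 2 * (1 - x) ^ 2 * (y ^ 1 * (1 - y) ^ 3)) +
      49 * (x ^ 2 * (1 - x) ^ 2 * (y ^ 2 * (1 - y) ^ 2)) +
      36 * (x ^ 2 * (1 - x) ^ 2 * (y ^ 3 * (1 - y) ^ 1)) +
      2 * (x ^ 2 * (1 - x) ^ 2 * (y ^ 4 * (1 - y) ^ 0)) +
      30 * (x ^ 3 * (1 - x) ^ 1 * (y ^ 1 * (1 - y) ^ 3)) +
      36 * (x ^ 3 * (1 - x) ^ 1 * (y ^ 2 * (1 - y) ^ 2)) +
      15 * (x ^ 4 * (1 - x) ^ 0 * (y ^ 1 * (1 - y) ^ 3)) +
      2 * (x ^ 4 * (1 - x) ^ 0 * (y ^ 2 * (1 - y) ^ 2))) := by ring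
  have h1 : 0 ≤ 1 - x := by linarith
  have h2 : 0 ≤ 1 - y := by linarith
  have : 0 ≤ x * y * ((1 - x) * (1 - y)) * (
      15 * (x ^ 1 * (1 - x) ^ 3 * (y ^ 2 * (1 - y) ^ 2)) +
      30 * (x ^ 1 * (1 - x) ^ 3 * (y ^ 3 * (1 - y) ^ 1)) +
      15 * (x ^ 1 * (1 - x) ^ 3 * (y ^ 4 * (1 - y) ^ 0)) +
      15 * (x ^ 2 * (1 - x) ^ 2 * (y ^ 1 * (1 - y) ^ 3)) +
      49 * (x ^ 2 * (1 - x) ^ 2 * (y ^ 2 * (1 - y) ^ 2)) +
      36 * (x ^ 2 * (1 - x) ^ 2 * (y ^ 3 * (1 - y) ^ 1)) +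
      2 * (x ^ 2 * (1 - x) ^ 2 * (y ^ 4 * (1 - y) ^ 0)) +
      30 * (x ^ 3 * (1 - x) ^ 1 * (y ^ 1 * (1 - y) ^ 3)) +
      36 * (x ^ 3 * (1 - x) ^ 1 * (y ^ 2 * (1 - y) ^ 2)) +
      15 * (x ^ 4 * (1 - x) ^ 0 * (y ^ 1 * (1 - y) ^ 3)) +
      2 * (x ^ 4 * (1 - x) ^ 0 * (y ^ 2 * (1 - y) ^ 2))) := by positivity
  linarith

lemma merge4 {s t : ℝ} (hs : s ^ 2 ≤ 1) (ht : t ^ 2 ≤ 1) :
    ((s + t) ^ 4 / (1 + s * t) ^ 3 + (s - t) ^ 4 / (1 - s * t) ^ 3) / 2 ≤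
      (s ^ 2) ^ 2 + (t ^ 2) ^ 2 - (s ^ 2) ^ 2 * (t ^ 2) ^ 2 +
        6 * (s ^ 2 * (1 - s ^ 2) ^ 2) * (t ^ 2 * (1 - t ^ 2) ^ 2) +
        13 * ((s ^ 2) ^ 2 * (1 - s ^ 2)) * ((t ^ 2) ^ 2 * (1 - t ^ 2)) := by
  have hst : (s * t) ^ 2 ≤ 1 := by
    rw [mul_pow]
    calc s ^ 2 * t ^ 2 ≤ 1 * 1 := mul_le_mul hs ht (sq_nonneg _) zero_le_one
      _ = 1 := one_mul 1
  have h1 : -1 ≤ s * t := by nlinarith
  have h2 : s * t ≤ 1 := by nlinarith
  rcases eq_or_lt_of_le h1 with h | h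
  · have e : 1 + s * t = 0 := by linarith
    have e2 : 1 - s * t = 2 := by linarith
    have hs1 : s ^ 2 = 1 := by nlinarith [sq_nonneg (s * t)]
    have ht1 : t ^ 2 = 1 := by nlinarith [sq_nonneg (s * t)]
    rw [e, e2, hs1, ht1]
    have : (s - t) ^ 4 = 16 := by
      have h3 : (s - t) ^ 2 = 4 := by nlinarith
      calc (s - t) ^ 4 = ((s - t) ^ 2) ^ 2 := by ring
        _ = 16 := by rw [h3]; norm_num
    rw [this]; norm_num
  rcases eq_or_lt_of_le h2 with h' | h'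
  · have e : 1 - s * t = 0 := by linarith
    have e2 : 1 + s * t = 2 := by linarith
    have hs1 : s ^ 2 = 1 := by nlinarith [sq_nonneg (s * t)]
    have ht1 : t ^ 2 = 1 := by nlinarith [sq_nonneg (s * t)]
    rw [e, e2, hs1, ht1]
    have : (s + t) ^ 4 = 16 := by
      have h3 : (s + t) ^ 2 = 4 := by nlinarith
      calc (s + t) ^ 4 = ((s + t) ^ 2) ^ 2 := by ring
        _ = 16 := by rw [h3]; norm_num
    rw [this]; norm_num
  have p1 : 0 < 1 + s * t := by linarith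
  have p2 : 0 < 1 - s * t := by linarith
  rw [div_add_div _ _ (by positivity) (by positivity), div_div, div_le_iff₀ (by positivity)]
  have key := merge4_poly (sq_nonneg s) hs (sq_nonneg t) ht
  have e : ((s ^ 2) ^ 2 + (t ^ 2) ^ 2 - (s ^ 2) ^ 2 * (t ^ 2) ^ 2 +
        6 * (s ^ 2 * (1 - s ^ 2) ^ 2) * (t ^ 2 * (1 - t ^ 2) ^ 2) +
        13 * ((s ^ 2) ^ 2 * (1 - s ^ 2)) * ((t ^ 2) ^ 2 * (1 - t ^ 2))) *
      ((1 + s * t) ^ 3 * (1 - s * t) ^ 3 * 2) -
      ((s + t) ^ 4 * (1 - s * t) ^ 3 + (1 + s * t) ^ 3 * (s - t) ^ 4) =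
      2 * ((1 - s ^ 2 * t ^ 2) ^ 3 * ((s ^ 2) ^ 2 + (t ^ 2) ^ 2 - (s ^ 2) ^ 2 * (t ^ 2) ^ 2 +
        6 * (s ^ 2 * (1 - s ^ 2) ^ 2) * (t ^ 2 * (1 - t ^ 2) ^ 2) +
        13 * ((s ^ 2) ^ 2 * (1 - s ^ 2)) * ((t ^ 2) ^ 2 * (1 - t ^ 2))) -
      ((s ^ 2 + t ^ 2) ^ 2 * (1 + 3 * (s ^ 2 * t ^ 2)) -
        4 * (s ^ 2 + t ^ 2) * (s ^ 2 * t ^ 2) * (3 + s ^ 2 * t ^ 2) +
      4 * (s ^ 2 * t ^ 2) * (1 + 3 * (s ^ 2 * t ^ 2)))) := by ring
  linarith

/-- polar coordinates of a nonzero pair -/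
lemma exists_polar {a b : ℝ} (ha : 0 ≤ a) (hb : 0 ≤ b) (h : a + b ≠ 0) :
    ∃ t : ℝ, t ^ 2 ≤ 1 ∧ a = rr a b * (1 + t) ∧ b = rr a b * (1 - t) ∧
      yy a b ^ 2 = 1 - t ^ 2 := by
  have hp : 0 < a + b := lt_of_le_of_ne (by linarith) (Ne.symm h)
  refine ⟨(a - b) / (a + b), ?_, ?_, ?_, ?_⟩
  · rw [div_pow, div_le_one (by positivity)]
    nlinarith [mul_nonneg ha hb]
  · unfold rr; field_simp; ring
  · unfold rr; field_simp; ring
  · unfold yy
    rw [div_pow, mul_pow, Real.sq_sqrt (mul_nonneg ha hb)]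
    field_simp
    ring

lemma merge_rr_x {a b c d : ℝ} (ha : 0 ≤ a) (hb : 0 ≤ b) (hc : 0 ≤ c) (hd : 0 ≤ d) :
    (rr (a * c) (b * d) * (1 - yy (a * c) (b * d) ^ 2) +
      rr (a * d) (b * c) * (1 - yy (a * d) (b * c) ^ 2)) / 2 ≤
    rr a b * rr c d * ((1 - yy a b ^ 2) + (1 - yy c d ^ 2) - (1 - yy a b ^ 2) * (1 - yy c d ^ 2) -
      (1 - yy a b ^ 2) * yy a b ^ 2 * ((1 - yy c d ^ 2) * yy c d ^ 2)) := by
  rw [rr_x (mul_nonneg ha hc) (mul_nonneg hb hd), rr_x (mul_nonneg ha hd) (mul_nonneg hb hc)]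
  rcases eq_or_ne (a + b) 0 with h | h
  · have ha0 : a = 0 := by linarith
    have hb0 : b = 0 := by linarith
    subst ha0; subst hb0
    simp [rr]
  rcases eq_or_ne (c + d) 0 with h' | h'
  · have ha0 : c = 0 := by linarith
    have hb0 : d = 0 := by linarith
    subst ha0; subst hb0
    simp [rr]
  obtain ⟨s, hs, ea, eb, ey⟩ := exists_polar ha hb h
  obtain ⟨t, ht, ec, ed, ey'⟩ := exists_polar hc hd h'
  rw [ey, ey']
  have hr : 0 < rr a b := by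
    unfold rr
    have : 0 < a + b := lt_of_le_of_ne (by linarith) (Ne.symm h)
    linarith
  have hr' : 0 < rr c d := by
    unfold rr
    have : 0 < c + d := lt_of_le_of_ne (by linarith) (Ne.symm h')
    linarith
  have key := merge2 hs ht
  generalize rr a b = r at *
  generalize rr c d = r' at *
  subst ea; subst eb; subst ec; subst ed
  have e1 : (r * (1 + s) * (r' * (1 + t)) - r * (1 - s) * (r' * (1 - t))) ^ 2 /
      (2 * (r * (1 + s) * (r' * (1 + t)) + r * (1 - s) * (r' * (1 - t)))) =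
      r * r' * ((s + t) ^ 2 / (1 + s * t)) := by
    rcases eq_or_ne (1 + s * t) 0 with h0 | h0
    · have : r * (1 + s) * (r' * (1 + t)) + r * (1 - s) * (r' * (1 - t)) =
        2 * (r * r') * (1 + s * t) := by ring
      rw [this, h0]; simp
    · have e : r * (1 + s) * (r' * (1 + t)) + r * (1 - s) * (r' * (1 - t)) =
        2 * (r * r') * (1 + s * t) := by ring
      rw [e]
      field_simp
      ring
  have e2 : (r * (1 + s) * (r' * (1 - t)) - r * (1 - s) * (r' * (1 + t))) ^ 2 /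
      (2 * (r * (1 + s) * (r' * (1 - t)) + r * (1 - s) * (r' * (1 + t)))) =
      r * r' * ((s - t) ^ 2 / (1 - s * t)) := by
    rcases eq_or_ne (1 - s * t) 0 with h0 | h0
    · have : r * (1 + s) * (r' * (1 - t)) + r * (1 - s) * (r' * (1 + t)) =
        2 * (r * r') * (1 - s * t) := by ring
      rw [this, h0]; simp
    · have e : r * (1 + s) * (r' * (1 - t)) + r * (1 - s) * (r' * (1 + t)) =
        2 * (r * r') * (1 - s * t) := by ring
      rw [e]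
      field_simp
      ring
  rw [e1, e2]
  calc (r * r' * ((s + t) ^ 2 / (1 + s * t)) + r * r' * ((s - t) ^ 2 / (1 - s * t))) / 2
      = r * r' * (((s + t) ^ 2 / (1 + s * t) + (s - t) ^ 2 / (1 - s * t)) / 2) := by ring
    _ ≤ r * r' * (s ^ 2 + t ^ 2 - s ^ 2 * t ^ 2 - s ^ 2 * (1 - s ^ 2) * (t ^ 2 * (1 - t ^ 2))) :=
        mul_le_mul_of_nonneg_left key (by positivity)
    _ = _ := by ring

lemma merge_rr_x2 {a b c d : ℝ} (ha : 0 ≤ a) (hb : 0 ≤ b) (hc : 0 ≤ c) (hd : 0 ≤ d) :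
    (rr (a * c) (b * d) * (1 - yy (a * c) (b * d) ^ 2) ^ 2 +
      rr (a * d) (b * c) * (1 - yy (a * d) (b * c) ^ 2) ^ 2) / 2 ≤
    rr a b * rr c d * ((1 - yy a b ^ 2) ^ 2 + (1 - yy c d ^ 2) ^ 2 -
      (1 - yy a b ^ 2) ^ 2 * (1 - yy c d ^ 2) ^ 2 +
      6 * ((1 - yy a b ^ 2) * (yy a b ^ 2) ^ 2) * ((1 - yy c d ^ 2) * (yy c d ^ 2) ^ 2) +
      13 * ((1 - yy a b ^ 2) ^ 2 * yy a b ^ 2) * ((1 - yy c d ^ 2) ^ 2 * yy c d ^ 2)) := by
  rw [rr_x2 (mul_nonneg ha hc) (mul_nonneg hb hd), rr_x2 (mul_nonneg ha hd) (mul_nonneg hb hc)]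
  rcases eq_or_ne (a + b) 0 with h | h
  · have ha0 : a = 0 := by linarith
    have hb0 : b = 0 := by linarith
    subst ha0; subst hb0
    simp [rr]
  rcases eq_or_ne (c + d) 0 with h' | h'
  · have ha0 : c = 0 := by linarith
    have hb0 : d = 0 := by linarith
    subst ha0; subst hb0
    simp [rr]
  obtain ⟨s, hs, ea, eb, ey⟩ := exists_polar ha hb h
  obtain ⟨t, ht, ec, ed, ey'⟩ := exists_polar hc hd h'
  rw [ey, ey']
  have hr : 0 < rr a b := by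
    unfold rr
    have : 0 < a + b := lt_of_le_of_ne (by linarith) (Ne.symm h)
    linarith
  have hr' : 0 < rr c d := by
    unfold rr
    have : 0 < c + d := lt_of_le_of_ne (by linarith) (Ne.symm h')
    linarith
  have key := merge4 hs ht
  generalize rr a b = r at *
  generalize rr c d = r' at *
  subst ea; subst eb; subst ec; subst ed
  have e1 : (r * (1 + s) * (r' * (1 + t)) - r * (1 - s) * (r' * (1 - t))) ^ 4 /
      (2 * (r * (1 + s) * (r' * (1 + t)) + r * (1 - s) * (r' * (1 - t))) ^ 3) =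
      r * r' * ((s + t) ^ 4 / (1 + s * t) ^ 3) := by
    have e : r * (1 + s) * (r' * (1 + t)) + r * (1 - s) * (r' * (1 - t)) =
        2 * (r * r') * (1 + s * t) := by ring
    rcases eq_or_ne (1 + s * t) 0 with h0 | h0
    · rw [e, h0]; simp
    · rw [e]
      field_simp
      ring
  have e2 : (r * (1 + s) * (r' * (1 - t)) - r * (1 - s) * (r' * (1 + t))) ^ 4 /
      (2 * (r * (1 + s) * (r' * (1 - t)) + r * (1 - s) * (r' * (1 + t))) ^ 3) =
      r * r' * ((s - t) ^ 4 / (1 - s * t) ^ 3) := by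
    have e : r * (1 + s) * (r' * (1 - t)) + r * (1 - s) * (r' * (1 + t)) =
        2 * (r * r') * (1 - s * t) := by ring
    rcases eq_or_ne (1 - s * t) 0 with h0 | h0
    · rw [e, h0]; simp
    · rw [e]
      field_simp
      ring
  rw [e1, e2]
  calc (r * r' * ((s + t) ^ 4 / (1 + s * t) ^ 3) + r * r' * ((s - t) ^ 4 / (1 - s * t) ^ 3)) / 2
      = r * r' * (((s + t) ^ 4 / (1 + s * t) ^ 3 + (s - t) ^ 4 / (1 - s * t) ^ 3) / 2) := by ring
    _ ≤ r * r' * ((s ^ 2) ^ 2 + (t ^ 2) ^ 2 - (s ^ 2) ^ 2 * (t ^ 2) ^ 2 +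
        6 * (s ^ 2 * (1 - s ^ 2) ^ 2) * (t ^ 2 * (1 - t ^ 2) ^ 2) +
        13 * ((s ^ 2) ^ 2 * (1 - s ^ 2)) * ((t ^ 2) ^ 2 * (1 - t ^ 2))) :=
        mul_le_mul_of_nonneg_left key (by positivity)
    _ = _ := by ring

lemma merge_eta {a b c d : ℝ} (ha : 0 ≤ a) (hb : 0 ≤ b) (hc : 0 ≤ c) (hd : 0 ≤ d) :
    (rr (a * c) (b * d) * (1 - yy (a * c) (b * d)) +
      rr (a * d) (b * c) * (1 - yy (a * d) (b * c))) / 2 =
    rr a b * rr c d * (1 - yy a b * yy c d) := by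
  have h1 := rr_mul_yy (mul_nonneg ha hc) (mul_nonneg hb hd)
  have h2 := rr_mul_yy (mul_nonneg ha hd) (mul_nonneg hb hc)
  have h3 := rr_mul_yy ha hb
  have h4 := rr_mul_yy hc hd
  have e1 : Real.sqrt (a * c * (b * d)) = Real.sqrt (a * b) * Real.sqrt (c * d) := by
    rw [← Real.sqrt_mul (mul_nonneg ha hb)]
    congr 1; ring
  have e2 : Real.sqrt (a * d * (b * c)) = Real.sqrt (a * b) * Real.sqrt (c * d) := by
    rw [← Real.sqrt_mul (mul_nonneg ha hb)]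
    congr 1; ring
  rw [e1] at h1
  rw [e2] at h2
  rw [mul_sub, mul_sub, mul_one, mul_one, h1, h2]
  have e3 : rr a b * rr c d * (1 - yy a b * yy c d) =
      rr a b * rr c d - (rr a b * yy a b) * (rr c d * yy c d) := by ring
  rw [e3, h3, h4]
  unfold rr
  ring


/-! #### the class functional -/

/-- Bhattacharyya information -/
noncomputable def eta4 : (Fin 4 → ℝ) → ℝ := pr fun a b => rr a b * (1 - yy a b)
/-- pair second moment -/
noncomputable def L2f : (Fin 4 → ℝ) → ℝ := pr fun a b => rr a b * (1 - yy a b ^ 2)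
/-- pair fourth moment -/
noncomputable def L4f : (Fin 4 → ℝ) → ℝ := pr fun a b => rr a b * (1 - yy a b ^ 2) ^ 2

/-- the class functional for `q = 4` -/
noncomputable def psi4 (v : Fin 4 → ℝ) : ℝ :=
  chi v - 6 / 5 * eta4 v - 9 / 10 * L2f v - 3 / 10 * L4f v

lemma pr_rr (v : Fin 4 → ℝ) : pr rr v = avg v := by
  rw [pr_four, avg_four]
  unfold rr
  ring

lemma bdd_pr4 {Φ : ℝ → ℝ → ℝ} (h : ∀ a b : ℝ, 0 ≤ a → 0 ≤ b → 0 ≤ Φ a b ∧ Φ a b ≤ rr a b) :
    Bdd (pr (q := 4) Φ) := by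
  refine ⟨1, zero_le_one, fun v hv => ?_⟩
  rw [abs_of_nonneg (pr_nonneg (by norm_num) fun x y _ => (h _ _ (hv x) (hv y)).1), one_mul,
    ← pr_rr]
  exact pr_le (by norm_num) fun x y _ => (h _ _ (hv x) (hv y)).2

lemma one_sub_yy_mem {a b : ℝ} (ha : 0 ≤ a) (hb : 0 ≤ b) : 0 ≤ 1 - yy a b ∧ 1 - yy a b ≤ 1 :=
  ⟨by linarith [yy_le_one ha hb], by linarith [yy_nonneg ha hb]⟩

lemma one_sub_yy2_mem {a b : ℝ} (ha : 0 ≤ a) (hb : 0 ≤ b) :
    0 ≤ 1 - yy a b ^ 2 ∧ 1 - yy a b ^ 2 ≤ 1 := by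
  have h1 := yy_le_one ha hb
  have h2 := yy_nonneg ha hb
  constructor <;> nlinarith

lemma bdd_eta4 : Bdd eta4 := bdd_pr4 fun a b ha hb => by
  have h1 := one_sub_yy_mem ha hb
  have h2 := rr_nonneg ha hb
  exact ⟨mul_nonneg h2 h1.1, mul_le_of_le_one_right h2 h1.2⟩

lemma bdd_L2f : Bdd L2f := bdd_pr4 fun a b ha hb => by
  have h1 := one_sub_yy2_mem ha hb
  have h2 := rr_nonneg ha hb
  exact ⟨mul_nonneg h2 h1.1, mul_le_of_le_one_right h2 h1.2⟩

lemma bdd_L4f : Bdd L4f := bdd_pr4 fun a b ha hb => by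
  have h1 := one_sub_yy2_mem ha hb
  have h2 := rr_nonneg ha hb
  exact ⟨mul_nonneg h2 (sq_nonneg _), mul_le_of_le_one_right h2 (pow_le_one₀ h1.1 h1.2)⟩

lemma bdd_psi4 : Bdd psi4 :=
  ((bdd_chi.sub (bdd_eta4.const_mul _)).sub (bdd_L2f.const_mul _)).sub (bdd_L4f.const_mul _)

lemma rr_smul (a x y : ℝ) : rr (a * x) (a * y) = a * rr x y := by unfold rr; ring

lemma yy_smul {a : ℝ} (ha : 0 < a) (x y : ℝ) : yy (a * x) (a * y) = yy x y := by
  unfold yy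
  have e : a * x * (a * y) = a ^ 2 * (x * y) := by ring
  rw [e, Real.sqrt_mul (by positivity), Real.sqrt_sq ha.le, ← mul_add]
  rw [show 2 * (a * Real.sqrt (x * y)) = a * (2 * Real.sqrt (x * y)) by ring,
    mul_div_mul_left _ _ ha.ne']

lemma hom_pr_rr (f : ℝ → ℝ) : Hom (pr (q := 4) fun a b => rr a b * f (yy a b)) := by
  refine hom_pr fun a x y ha _ _ => ?_
  rcases ha.eq_or_lt with h | h
  · rw [← h]; simp [rr]
  · rw [rr_smul, yy_smul h]; ring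

lemma hom_eta4 : Hom eta4 := hom_pr_rr fun y => 1 - y
lemma hom_L2f : Hom L2f := hom_pr_rr fun y => 1 - y ^ 2
lemma hom_L4f : Hom L4f := hom_pr_rr fun y => (1 - y ^ 2) ^ 2

lemma hom_psi4 : Hom psi4 := by
  intro a v ha hv
  unfold psi4
  rw [hom_chi a v ha hv, hom_eta4 a v ha hv, hom_L2f a v ha hv, hom_L4f a v ha hv]
  ring

lemma yy_self {a : ℝ} (ha : 0 < a) : yy a a = 1 := by
  unfold yy
  rw [Real.sqrt_mul_self ha.le]
  field_simp
  ring

lemma psi4_one : psi4 (fun _ => 1) = 0 := by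
  unfold psi4 eta4 L2f L4f
  rw [chi_one, pr_four, pr_four, pr_four]
  simp [yy_self one_pos]

lemma psi4_perfect : 0 < ∑ o : Fin 4, psi4 (fun i => if o = i then 1 else 0) := by
  have h : ∀ o : Fin 4, psi4 (fun i => if o = i then 1 else 0) = 3 / 20 := by
    have y0 : yy 0 0 = 0 := by simp [yy]
    have y1 : yy 1 0 = 0 := by simp [yy]
    have y2 : yy 0 1 = 0 := by simp [yy]
    intro o
    unfold psi4 eta4 L2f L4f chi
    rw [pr_four, pr_four, pr_four, avg_four, avg_four]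
    fin_cases o <;> simp [y0, y1, y2, rr] <;> norm_num
  rw [Finset.sum_congr rfl fun o _ => h o]
  norm_num

/-- χ² of a vector of mean one as a pair average -/
lemma chi_eq_pr {v : Fin 4 → ℝ} (h1 : avg v = 1) :
    chi v = pr (fun a b => 3 / 8 * (a - b) ^ 2) v := by
  unfold chi
  rw [h1, pr_four, avg_four]
  rw [avg_four] at h1
  have e : v 3 = 4 - v 0 - v 1 - v 2 := by linarith
  rw [e]
  ring

lemma chi_eq_pr' {v : Fin 4 → ℝ} (hv : ∀ i, 0 ≤ v i) (h1 : avg v = 1) :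
    chi v = pr (fun a b => 3 / 2 * (rr a b ^ 2 * (1 - yy a b ^ 2))) v := by
  rw [chi_eq_pr h1]
  refine pr_congr fun x y _ => ?_
  rw [rr_u2 (hv x) (hv y)]
  ring

/-! #### edge closure -/

lemma edge_aux {lam w : ℝ} (hw : -1 ≤ w) (hw0 : w ≤ 0) :
    0 ≤ 1 - 3 * lam * w ^ 2 - lam * (1 + lam) * w ^ 3 := by
  set x := -w with hx
  have hx0 : 0 ≤ x := by linarith
  have hx1 : x ≤ 1 := by linarith
  have ew : w = -x := by rw [hx]; ring
  rw [ew]
  rcases hx0.eq_or_lt with h | h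
  · rw [← h]; norm_num
  · have key : 4 * x ^ 3 * (1 - 3 * lam * (-x) ^ 2 - lam * (1 + lam) * (-x) ^ 3) =
        (2 * x ^ 3 * lam + x ^ 3 - 3 * x ^ 2) ^ 2 + x ^ 3 * (x - 1) ^ 2 * (4 - x) := by ring
    have h2 : 0 ≤ 4 * x ^ 3 * (1 - 3 * lam * (-x) ^ 2 - lam * (1 + lam) * (-x) ^ 3) := by
      rw [key]
      have : 0 ≤ 4 - x := by linarith
      positivity
    exact nonneg_of_mul_nonneg_right h2 (by positivity)

lemma edge_pair24 {lam r U : ℝ} (h0 : 0 ≤ lam) (h1 : lam ≤ 1) (hr : 0 < r) (hU0 : 0 ≤ U)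
    (hU : U ≤ r ^ 2) :
    9 / 10 * (lam ^ 2 * U / (lam * r + (1 - lam))) +
      3 / 10 * ((lam ^ 2 * U) ^ 2 / (lam * r + (1 - lam)) ^ 3) ≤
    lam ^ 3 * (9 / 10 * (U / r) + 3 / 10 * (U ^ 2 / r ^ 3)) + lam ^ 2 * (1 - lam) * (9 / 10 * U) := by
  have hR : 0 < lam * r + (1 - lam) := by
    rcases h1.eq_or_lt with h | h
    · rw [h]; linarith
    · have : 0 ≤ lam * r := by positivity
      linarith
  set R := lam * r + (1 - lam) with hRdef
  set w := r - 1 with hw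
  have hN : 0 ≤ 9 / 10 * (w ^ 2 * r ^ 2 * R ^ 2) +
      3 / 10 * U * (1 - 3 * lam * w ^ 2 - lam * (1 + lam) * w ^ 3) := by
    rcases le_total 0 (1 - 3 * lam * w ^ 2 - lam * (1 + lam) * w ^ 3) with h | h
    · positivity
    · have hw0 : 0 ≤ w := by
        by_contra hc
        push Not at hc
        have := edge_aux (lam := lam) (by rw [hw]; linarith) hc.le
        -- then the bracket is zero; treat by U-monotonicity below
        have h3 : 1 - 3 * lam * w ^ 2 - lam * (1 + lam) * w ^ 3 = 0 := le_antisymm h this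
        -- derive contradiction is not needed: use w ≥ 0 or bracket zero
        exact absurd hc (not_lt.2 (by
          by_contra hc2
          push Not at hc2
          -- strict negativity of w gives strict positivity unless equality case
          exact (by
            have hx : 0 < -w := by linarith
            have hx1 : -w < 1 := by rw [hw]; linarith
            have key : 4 * (-w) ^ 3 * (1 - 3 * lam * w ^ 2 - lam * (1 + lam) * w ^ 3) =
              (2 * (-w) ^ 3 * lam + (-w) ^ 3 - 3 * (-w) ^ 2) ^ 2 +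
                (-w) ^ 3 * (-w - 1) ^ 2 * (4 + w) := by ring
            rw [h3, mul_zero] at key
            have p1 : 0 < (-w) ^ 3 * (-w - 1) ^ 2 * (4 + w) := by
              have : 0 < (-w - 1) ^ 2 := by
                have : -w - 1 ≠ 0 := by linarith
                positivity
              have : 0 < 4 + w := by linarith
              positivity
            nlinarith [sq_nonneg (2 * (-w) ^ 3 * lam + (-w) ^ 3 - 3 * (-w) ^ 2)])))
      have h2 : r ^ 2 * (1 - 3 * lam * w ^ 2 - lam * (1 + lam) * w ^ 3) ≤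
          U * (1 - 3 * lam * w ^ 2 - lam * (1 + lam) * w ^ 3) :=
        mul_le_mul_of_nonpos_right hU h
      have h3 : 9 / 10 * (w ^ 2 * r ^ 2 * R ^ 2) +
          3 / 10 * (r ^ 2 * (1 - 3 * lam * w ^ 2 - lam * (1 + lam) * w ^ 3)) =
          3 / 10 * r ^ 2 * (1 + 3 * (1 - lam) * w ^ 2 + lam * (5 - lam) * w ^ 3 +
            3 * lam ^ 2 * w ^ 4) := by
        rw [hRdef]
        have : r = w + 1 := by rw [hw]; ring
        rw [this]; ring
      have h4 : 0 ≤ 3 / 10 * r ^ 2 * (1 + 3 * (1 - lam) * w ^ 2 + lam * (5 - lam) * w ^ 3 +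
            3 * lam ^ 2 * w ^ 4) := by
        have : 0 ≤ 1 - lam := by linarith
        have : 0 ≤ 5 - lam := by linarith
        positivity
      linarith
  have key : lam ^ 3 * (9 / 10 * (U / r) + 3 / 10 * (U ^ 2 / r ^ 3)) +
      lam ^ 2 * (1 - lam) * (9 / 10 * U) -
      (9 / 10 * (lam ^ 2 * U / R) + 3 / 10 * ((lam ^ 2 * U) ^ 2 / R ^ 3)) =
      lam ^ 3 * (1 - lam) * U * (9 / 10 * (w ^ 2 * r ^ 2 * R ^ 2) +
      3 / 10 * U * (1 - 3 * lam * w ^ 2 - lam * (1 + lam) * w ^ 3)) / (r ^ 3 * R ^ 3) := by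
    field_simp
    rw [hRdef, hw]
    ring
  have : 0 ≤ lam ^ 3 * (1 - lam) * U * (9 / 10 * (w ^ 2 * r ^ 2 * R ^ 2) +
      3 / 10 * U * (1 - 3 * lam * w ^ 2 - lam * (1 + lam) * w ^ 3)) / (r ^ 3 * R ^ 3) := by
    have : 0 ≤ 1 - lam := by linarith
    positivity
  linarith


lemma edge_pair_eta {lam a b : ℝ} (h0 : 0 ≤ lam) (h1 : lam ≤ 1) (ha : 0 ≤ a) (hb : 0 ≤ b)
    (hab : 0 < a + b) :
    rr (lam * a + (1 - lam)) (lam * b + (1 - lam)) -
      Real.sqrt ((lam * a + (1 - lam)) * (lam * b + (1 - lam))) ≤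
    lam ^ 3 * (rr a b - Real.sqrt (a * b)) + lam ^ 2 * (1 - lam) * ((a - b) ^ 2 / 8) := by
  have hl : 0 ≤ 1 - lam := by linarith
  have ha' : 0 ≤ lam * a + (1 - lam) := by positivity
  have hb' : 0 ≤ lam * b + (1 - lam) := by positivity
  set a' := lam * a + (1 - lam) with ea
  set b' := lam * b + (1 - lam) with eb
  set S := Real.sqrt (a * b) with hS
  set S' := Real.sqrt (a' * b') with hS'
  have hS0 : 0 ≤ S := Real.sqrt_nonneg _
  have hS0' : 0 ≤ S' := Real.sqrt_nonneg _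
  have sS : S ^ 2 = a * b := Real.sq_sqrt (mul_nonneg ha hb)
  have sS' : S' ^ 2 = a' * b' := Real.sq_sqrt (mul_nonneg ha' hb')
  have h2S : 2 * S ≤ a + b := sqrt_mul_le ha hb
  -- concavity of the geometric mean
  have hconc : (1 - lam) + lam * S ≤ S' := by
    have : ((1 - lam) + lam * S) ^ 2 ≤ S' ^ 2 := by
      rw [sS']
      have e : a' * b' - ((1 - lam) + lam * S) ^ 2 = lam * (1 - lam) * (a + b - 2 * S) +
          lam ^ 2 * (a * b - S ^ 2) := by rw [ea, eb]; ring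
      rw [sS, sub_self, mul_zero, add_zero] at e
      have : 0 ≤ lam * (1 - lam) * (a + b - 2 * S) := by
        have : 0 ≤ a + b - 2 * S := by linarith
        positivity
      linarith
    exact (abs_le_of_sq_le_sq' this hS0').2
  set R := rr a b + S with hR
  set R' := rr a' b' + S' with hR'
  have hR0 : 0 < R := by
    have : 0 < rr a b := by unfold rr; linarith
    linarith
  have hRR : (1 - lam) * 2 + lam * R ≤ R' := by
    have : rr a' b' = lam * rr a b + (1 - lam) := by unfold rr; rw [ea, eb]; ring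
    rw [hR', this, hR]
    linarith
  have hmid : 0 < (1 - lam) * 2 + lam * R := by
    rcases h1.eq_or_lt with h | h
    · rw [h]; linarith
    · have : 0 ≤ lam * R := by positivity
      linarith
  have hR0' : 0 < R' := lt_of_lt_of_le hmid hRR
  have e1 : rr a b - S = ((a - b) / 2) ^ 2 / R := by
    rw [eq_div_iff hR0.ne', hR]
    have : (rr a b - S) * (rr a b + S) = rr a b ^ 2 - S ^ 2 := by ring
    rw [this, sS]; unfold rr; ring
  have e2 : rr a' b' - S' = lam ^ 2 * ((a - b) / 2) ^ 2 / R' := by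
    rw [eq_div_iff hR0'.ne', hR']
    have : (rr a' b' - S') * (rr a' b' + S') = rr a' b' ^ 2 - S' ^ 2 := by ring
    rw [this, sS']; unfold rr; rw [ea, eb]; ring
  rw [e1, e2]
  have hconv : 1 / R' ≤ (1 - lam) / 2 + lam / R := by
    have h3 : 1 / R' ≤ 1 / ((1 - lam) * 2 + lam * R) := one_div_le_one_div_of_le hmid hRR
    refine h3.trans ?_
    rw [div_le_iff₀ hmid]
    have e : ((1 - lam) / 2 + lam / R) * ((1 - lam) * 2 + lam * R) =
        1 + lam * (1 - lam) * ((R - 2) ^ 2 / (2 * R)) := by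
      field_simp
      ring
    rw [e]
    have : 0 ≤ lam * (1 - lam) * ((R - 2) ^ 2 / (2 * R)) := by positivity
    linarith
  calc lam ^ 2 * ((a - b) / 2) ^ 2 / R' = lam ^ 2 * ((a - b) / 2) ^ 2 * (1 / R') := by ring
    _ ≤ lam ^ 2 * ((a - b) / 2) ^ 2 * ((1 - lam) / 2 + lam / R) :=
        mul_le_mul_of_nonneg_left hconv (by positivity)
    _ = _ := by ring

/-- the pair version of `ψ` minus its `χ²` part -/
noncomputable def pf (a b : ℝ) : ℝ :=
  6 / 5 * (rr a b * (1 - yy a b)) + 9 / 10 * (rr a b * (1 - yy a b ^ 2)) +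
    3 / 10 * (rr a b * (1 - yy a b ^ 2) ^ 2)

lemma psi4_eq (v : Fin 4 → ℝ) : psi4 v = chi v - pr pf v := by
  unfold psi4 eta4 L2f L4f pf
  rw [pr_add, pr_add, pr_const_mul, pr_const_mul, pr_const_mul]
  ring

lemma x_form {d R : ℝ} (hR : R ≠ 0) : d ^ 2 / (2 * (2 * R)) = (d / 2) ^ 2 / R := by
  field_simp

lemma x2_form {d R : ℝ} (hR : R ≠ 0) : d ^ 4 / (2 * (2 * R) ^ 3) = ((d / 2) ^ 2) ^ 2 / R ^ 3 := by
  field_simp

lemma edge_pair {lam a b : ℝ} (h0 : 0 ≤ lam) (h1 : lam ≤ 1) (ha : 0 ≤ a) (hb : 0 ≤ b) :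
    pf (lam * a + (1 - lam)) (lam * b + (1 - lam)) ≤
      lam ^ 3 * pf a b + lam ^ 2 * (1 - lam) * (3 / 8 * (a - b) ^ 2) := by
  have hl : 0 ≤ 1 - lam := by linarith
  have ha' : 0 ≤ lam * a + (1 - lam) := by positivity
  have hb' : 0 ≤ lam * b + (1 - lam) := by positivity
  rcases eq_or_ne (a + b) 0 with h | h
  · have ha0 : a = 0 := by linarith
    have hb0 : b = 0 := by linarith
    subst ha0; subst hb0
    have e1 : pf 0 0 = 0 := by simp [pf, rr]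
    rw [e1]
    simp only [mul_zero, zero_add, sub_zero, ne_eq, OfNat.ofNat_ne_zero, not_false_eq_true,
      zero_pow]
    rcases hl.eq_or_lt with h2 | h2
    · rw [← h2, e1]
    · unfold pf
      rw [yy_self h2]
      norm_num
  have hab : 0 < a + b := lt_of_le_of_ne (by linarith) (Ne.symm h)
  have hr : 0 < rr a b := by unfold rr; linarith
  have k1 := edge_pair_eta h0 h1 ha hb hab
  have k2 := edge_pair24 (U := ((a - b) / 2) ^ 2) h0 h1 hr (sq_nonneg _) (by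
    unfold rr; nlinarith [mul_nonneg ha hb])
  have e1 : rr a b * (1 - yy a b) = rr a b - Real.sqrt (a * b) := by
    rw [mul_sub, mul_one, rr_mul_yy ha hb]
  have e1' : rr (lam * a + (1 - lam)) (lam * b + (1 - lam)) *
      (1 - yy (lam * a + (1 - lam)) (lam * b + (1 - lam))) =
      rr (lam * a + (1 - lam)) (lam * b + (1 - lam)) -
        Real.sqrt ((lam * a + (1 - lam)) * (lam * b + (1 - lam))) := by
    rw [mul_sub, mul_one, rr_mul_yy ha' hb']
  have hrr : rr (lam * a + (1 - lam)) (lam * b + (1 - lam)) = lam * rr a b + (1 - lam) := by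
    unfold rr; ring
  have hr' : 0 < lam * rr a b + (1 - lam) := by
    rcases h1.eq_or_lt with h | h
    · rw [h]; linarith
    · have : 0 ≤ lam * rr a b := by positivity
      linarith
  have hsum' : lam * a + (1 - lam) + (lam * b + (1 - lam)) = 2 * (lam * rr a b + (1 - lam)) := by
    unfold rr; ring
  have hsum : a + b = 2 * rr a b := by unfold rr; ring
  have e2 : rr a b * (1 - yy a b ^ 2) = ((a - b) / 2) ^ 2 / rr a b := by
    rw [rr_x ha hb, hsum, x_form hr.ne']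
  have e3 : rr a b * (1 - yy a b ^ 2) ^ 2 = (((a - b) / 2) ^ 2) ^ 2 / rr a b ^ 3 := by
    rw [rr_x2 ha hb, hsum, x2_form hr.ne']
  have hd : lam * a + (1 - lam) - (lam * b + (1 - lam)) = lam * (a - b) := by ring
  have hd2 : (lam * (a - b) / 2) ^ 2 = lam ^ 2 * ((a - b) / 2) ^ 2 := by ring
  have e2' : rr (lam * a + (1 - lam)) (lam * b + (1 - lam)) *
      (1 - yy (lam * a + (1 - lam)) (lam * b + (1 - lam)) ^ 2) =
      lam ^ 2 * ((a - b) / 2) ^ 2 / (lam * rr a b + (1 - lam)) := by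
    rw [rr_x ha' hb', hsum', hd, x_form hr'.ne', hd2]
  have e3' : rr (lam * a + (1 - lam)) (lam * b + (1 - lam)) *
      (1 - yy (lam * a + (1 - lam)) (lam * b + (1 - lam)) ^ 2) ^ 2 =
      (lam ^ 2 * ((a - b) / 2) ^ 2) ^ 2 / (lam * rr a b + (1 - lam)) ^ 3 := by
    rw [rr_x2 ha' hb', hsum', hd, x2_form hr'.ne', hd2]
  unfold pf
  rw [e1, e1', e2, e2', e3, e3']
  linarith

lemma pr_W (Φ : ℝ → ℝ → ℝ) (lam : ℝ) {v : Fin 4 → ℝ} (hv1 : avg v = 1) :
    pr Φ (W lam v) = pr (fun a b => Φ (lam * a + (1 - lam)) (lam * b + (1 - lam))) v := by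
  have : W lam v = fun i => lam * v i + (1 - lam) := by
    funext i
    unfold W
    rw [hv1, mul_one]
  rw [this]
  rfl

lemma psi4_edge {lam : ℝ} (h0 : 0 ≤ lam) (h1 : lam ≤ 1) {v : Fin 4 → ℝ} (hv : ∀ i, 0 ≤ v i)
    (hv1 : avg v = 1) : lam ^ 3 * psi4 v ≤ psi4 (W lam v) := by
  have hW : avg (W lam v) = 1 := by rw [avg_W, hv1]
  have e1 : chi (W lam v) = lam ^ 2 * chi v := by
    rw [chi_eq_pr hW, chi_eq_pr hv1, ← pr_const_mul, pr_W _ _ hv1]
    refine pr_congr fun x y _ => ?_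
    ring
  have e2 : pr pf (W lam v) ≤ lam ^ 3 * pr pf v + lam ^ 2 * (1 - lam) * chi v := by
    rw [chi_eq_pr hv1, ← pr_const_mul, ← pr_const_mul, ← pr_add, pr_W _ _ hv1]
    exact pr_le (by norm_num) fun x y _ => edge_pair h0 h1 (hv x) (hv y)
  rw [psi4_eq, psi4_eq, e1]
  linarith


/-! #### orbit averages of the two-point functionals -/

lemma orb_pr_sym (Φ : ℝ → ℝ → ℝ) (u v : Fin 4 → ℝ) :
    orb (pr Φ) u v = pr2 (fun a b c d => (Φ (a * c) (b * d) + Φ (a * d) (b * c)) / 2) u v := by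
  rw [orb_pr (by norm_num)]
  have h1 := pr2_swap_right (fun a b c d => Φ (a * c) (b * d)) u v
  have h2 := pr2_add (fun a b c d => Φ (a * c) (b * d)) (fun a b c d => Φ (a * d) (b * c)) u v
  have h3 := pr2_const_mul (1 / 2) (fun a b c d => Φ (a * c) (b * d) + Φ (a * d) (b * c)) u v
  rw [h2, h1] at h3
  have e : (fun a b c d : ℝ => (Φ (a * c) (b * d) + Φ (a * d) (b * c)) / 2) =
      fun a b c d => 1 / 2 * (Φ (a * c) (b * d) + Φ (a * d) (b * c)) := by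
    funext a b c d; ring
  rw [e, h3]
  ring

lemma orb_eta4 {u v : Fin 4 → ℝ} (hu : ∀ i, 0 ≤ u i) (hv : ∀ i, 0 ≤ v i) :
    orb eta4 u v = pr2 (fun a b c d => rr a b * rr c d * (1 - yy a b * yy c d)) u v := by
  unfold eta4
  rw [orb_pr_sym]
  exact pr2_congr fun x y x' y' _ _ => merge_eta (hu x) (hu y) (hv x') (hv y')

lemma orb_L2f_le {u v : Fin 4 → ℝ} (hu : ∀ i, 0 ≤ u i) (hv : ∀ i, 0 ≤ v i) :
    orb L2f u v ≤ pr2 (fun a b c d => rr a b * rr c d *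
      ((1 - yy a b ^ 2) + (1 - yy c d ^ 2) - (1 - yy a b ^ 2) * (1 - yy c d ^ 2) -
      (1 - yy a b ^ 2) * yy a b ^ 2 * ((1 - yy c d ^ 2) * yy c d ^ 2))) u v := by
  unfold L2f
  rw [orb_pr_sym]
  exact pr2_le (by norm_num) fun x y x' y' _ _ => merge_rr_x (hu x) (hu y) (hv x') (hv y')

lemma orb_L4f_le {u v : Fin 4 → ℝ} (hu : ∀ i, 0 ≤ u i) (hv : ∀ i, 0 ≤ v i) :
    orb L4f u v ≤ pr2 (fun a b c d => rr a b * rr c d *
      ((1 - yy a b ^ 2) ^ 2 + (1 - yy c d ^ 2) ^ 2 -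
      (1 - yy a b ^ 2) ^ 2 * (1 - yy c d ^ 2) ^ 2 +
      6 * ((1 - yy a b ^ 2) * (yy a b ^ 2) ^ 2) * ((1 - yy c d ^ 2) * (yy c d ^ 2) ^ 2) +
      13 * ((1 - yy a b ^ 2) ^ 2 * yy a b ^ 2) * ((1 - yy c d ^ 2) ^ 2 * yy c d ^ 2))) u v := by
  unfold L4f
  rw [orb_pr_sym]
  exact pr2_le (by norm_num) fun x y x' y' _ _ => merge_rr_x2 (hu x) (hu y) (hv x') (hv y')

/-- half of the second elementary symmetric polynomial -/
noncomputable def EE (v : Fin 4 → ℝ) : ℝ :=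
  (v 0 * v 1 + v 0 * v 2 + v 0 * v 3 + v 1 * v 2 + v 1 * v 3 + v 2 * v 3) / 2

lemma avg_sq_four (v : Fin 4 → ℝ) : avg (fun i => v i ^ 2) = 4 * avg v ^ 2 - EE v := by
  rw [avg_four, avg_four]
  unfold EE
  ring

lemma EE_le (v : Fin 4 → ℝ) : EE v ≤ 3 * avg v ^ 2 := by
  rw [avg_four]
  unfold EE
  nlinarith [sq_nonneg (v 0 - v 1), sq_nonneg (v 0 - v 2), sq_nonneg (v 0 - v 3),
    sq_nonneg (v 1 - v 2), sq_nonneg (v 1 - v 3), sq_nonneg (v 2 - v 3)]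

lemma EE_nonneg {v : Fin 4 → ℝ} (hv : ∀ i, 0 ≤ v i) : 0 ≤ EE v := by
  unfold EE
  have := mul_nonneg (hv 0) (hv 1)
  have := mul_nonneg (hv 0) (hv 2)
  have := mul_nonneg (hv 0) (hv 3)
  have := mul_nonneg (hv 1) (hv 2)
  have := mul_nonneg (hv 1) (hv 3)
  have := mul_nonneg (hv 2) (hv 3)
  linarith

/-- lower bound of χ² through a polynomial minorant of `1/Z` -/
lemma chi_ge {v : Fin 4 → ℝ} (hv : ∀ i, 0 ≤ v i) {p : ℝ} (hp : avg v * p ≤ 1) :
    (3 * avg v ^ 2 - EE v) * p ≤ chi v := by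
  by_cases h : avg v = 0
  · have h0 := eq_zero_of_avg hv h
    rw [h0]
    simp [chi, avg, EE]
  · have hpos : 0 < avg v := lt_of_le_of_ne (avg_nonneg hv) (Ne.symm h)
    have e : chi v = (3 * avg v ^ 2 - EE v) * (1 / avg v) := by
      unfold chi
      rw [avg_sq_four]
      field_simp
      ring
    rw [e]
    apply mul_le_mul_of_nonneg_left _ (by linarith [EE_le v])
    rw [le_div_iff₀ hpos]
    linarith

/-- upper bound of χ² through a polynomial majorant of `1/Z` -/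
lemma chi_le_poly {v : Fin 4 → ℝ} (hv : ∀ i, 0 ≤ v i) {p ρ : ℝ} (hρ : 0 ≤ ρ)
    (hp : avg v * p = 1 - ρ) :
    chi v ≤ (4 * avg v ^ 2 - EE v) * p + 4 * avg v * ρ - avg v := by
  by_cases h : avg v = 0
  · have h0 := eq_zero_of_avg hv h
    rw [h0]
    simp [chi, avg, EE]
  · have hpos : 0 < avg v := lt_of_le_of_ne (avg_nonneg hv) (Ne.symm h)
    have hE := EE_nonneg hv
    have e : chi v = (4 * avg v ^ 2 - EE v) / avg v - avg v := by
      unfold chi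
      rw [avg_sq_four]
    rw [e]
    have e2 : (4 * avg v ^ 2 - EE v) / avg v =
        (4 * avg v ^ 2 - EE v) * p + (4 * avg v ^ 2 - EE v) / avg v * ρ := by
      have : ρ = 1 - avg v * p := by linarith
      rw [this]
      field_simp
      ring
    have h2 : (4 * avg v ^ 2 - EE v) / avg v ≤ 4 * avg v := by
      rw [div_le_iff₀ hpos]
      nlinarith
    have h3 : (4 * avg v ^ 2 - EE v) / avg v * ρ ≤ 4 * avg v * ρ :=
      mul_le_mul_of_nonneg_right h2 hρ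
    linarith

lemma orb_avg [NeZero (4 : ℕ)] (u v : Fin 4 → ℝ) : orb avg u v = avg u * avg v := by
  have e : (avg : (Fin 4 → ℝ) → ℝ) = msym ![1, 0, 0, 0] := by
    funext w
    rw [msym_four', avg_four]
    ring
  rw [e, orb_msym]

lemma rr_le_two {v : Fin 4 → ℝ} (hv : ∀ i, 0 ≤ v i) (h1 : avg v = 1) {x y : Fin 4} (h : x ≠ y) :
    rr (v x) (v y) ≤ 2 := by
  have h2 : v x + v y ≤ ∑ i, v i := by
    have : ∑ i ∈ ({x, y} : Finset (Fin 4)), v i ≤ ∑ i, v i :=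
      Finset.sum_le_sum_of_subset_of_nonneg (Finset.subset_univ _) fun i _ _ => hv i
    rwa [Finset.sum_pair h] at this
  have h3 : ∑ i, v i = 4 := by
    unfold avg at h1
    norm_num at h1
    linarith
  unfold rr
  linarith

end Crest.Agent.R163
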