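import Crest.Agent.R163.Q4Psi
import Crest.Agent.R163.Bern2

/-!
Row 163, `q = 4`: averages over pairs of the bilinear forms of the Bernstein checker.
-/

set_option autoImplicit false

namespace Crest.Agent.R163

open Bern

variable {q : ℕ}

/-- pair average of a function of `(rr, yy)` -/
noncomputable def pav (f : ℝ → ℝ → ℝ) (v : Fin q → ℝ) : ℝ :=
  pr (fun a b => f (rr a b) (yy a b)) v

lemma pr_zero (v : Fin q → ℝ) : pr (fun _ _ => (0 : ℝ)) v = 0 := by simp [pr]

lemma dotR_pr (c : List Int) (gs : List (ℝ → ℝ → ℝ)) (v : Fin q → ℝ) :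
    pr (fun a b => dotR c (gs.map fun f => f (rr a b) (yy a b))) v =
      dotR c (gs.map fun f => pav f v) := by
  induction gs generalizing c with
  | nil =>
    cases c with
    | nil => simp [dotR, pr_zero]
    | cons x xs => simp [dotR, pr_zero]
  | cons g gs ih =>
    cases c with
    | nil => simp [dotR, pr_zero]
    | cons x xs =>
      simp only [List.map_cons, dotR]
      rw [pr_add, pr_const_mul, ih]
      rfl

/-- the double pair average of a bilinear form is the bilinear form of the pair averages -/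
lemma bil_pr2 (C : List (List Int)) (fs gs : List (ℝ → ℝ → ℝ)) (u v : Fin q → ℝ) :
    pr2 (fun a b c d => bil C (fs.map fun f => f (rr a b) (yy a b))
      (gs.map fun f => f (rr c d) (yy c d))) u v =
      bil C (fs.map fun f => pav f u) (gs.map fun f => pav f v) := by
  induction C generalizing fs with
  | nil => simp [bil, pr2]
  | cons c C ih =>
    cases fs with
    | nil => simp [bil, pr2]
    | cons f fs =>
      simp only [List.map_cons, bil]
      rw [pr2_add, ih, pr2_mul (fun a b => f (rr a b) (yy a b))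
        (fun a b => dotR c (gs.map fun f => f (rr a b) (yy a b))), dotR_pr]
      rfl

/-- nonnegativity of the bilinear form on boxes passes to pair averages of vectors of mean one -/
lemma bil_pav_nonneg (C : List (List Int)) (fs : List (ℝ → ℝ → ℝ))
    (h : ∀ r y r2 y2 : ℝ, 0 ≤ r → r ≤ 2 → 0 ≤ y → y ≤ 1 → 0 ≤ r2 → r2 ≤ 2 → 0 ≤ y2 → y2 ≤ 1 →
      0 ≤ bil C (fs.map fun f => f r y) (fs.map fun f => f r2 y2))
    {u v : Fin 4 → ℝ} (hu : ∀ i, 0 ≤ u i) (hv : ∀ i, 0 ≤ v i) (hu1 : avg u = 1)
    (hv1 : avg v = 1) :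
    0 ≤ bil C (fs.map fun f => pav f u) (fs.map fun f => pav f v) := by
  rw [← bil_pr2]
  refine pr2_nonneg (by norm_num) fun x y x' y' hxy hxy' => ?_
  exact h _ _ _ _ (rr_nonneg (hu _) (hu _)) (rr_le_two hu hu1 hxy) (yy_nonneg (hu _) (hu _))
    (yy_le_one (hu _) (hu _)) (rr_nonneg (hv _) (hv _)) (rr_le_two hv hv1 hxy')
    (yy_nonneg (hv _) (hv _)) (yy_le_one (hv _) (hv _))

end Crest.Agent.R163
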