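import Crest.Agent.R163.Mult

/-!
Row 163, (C1): for `φ v = ∑ μ_j (avg v - ∏ v_i ^ a_{ji})`, the infinitesimal inequality
`z · ∇φ ≥ 2 φ` implies `φ (W ρ v) ≤ ρ ^ 2 φ v` for `0 ≤ ρ ≤ 1`.
-/

set_option autoImplicit false

namespace Crest.Agent.R163

variable {q : ℕ} {ι : Type*}

/-- the law-linear potential -/
noncomputable def lin (s : Finset ι) (μ : ι → ℝ) (a : ι → Fin q → ℝ) (v : Fin q → ℝ) : ℝ :=
  ∑ j ∈ s, μ j * (avg v - mon (a j) v)

/-- the radial expression `z·∇φ - 2φ` at an interior point of mean one -/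
noncomputable def radJ (s : Finset ι) (μ : ι → ℝ) (a : ι → Fin q → ℝ) (f : Fin q → ℝ) : ℝ :=
  ∑ j ∈ s, μ j * (mon (a j) f * (1 + ∑ i, a j i / f i) - 2)

lemma mon_pos {a f : Fin q → ℝ} (hf : ∀ i, 0 < f i) : 0 < mon a f :=
  Finset.prod_pos fun i _ => Real.rpow_pos_of_pos (hf i) _

lemma mon_eq_exp {a f : Fin q → ℝ} (hf : ∀ i, 0 < f i) :
    mon a f = Real.exp (∑ i, a i * Real.log (f i)) := by
  unfold mon
  rw [Real.exp_sum]
  refine Finset.prod_congr rfl fun i _ => ?_
  rw [Real.rpow_def_of_pos (hf i), mul_comm]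

lemma mon_line_hasDerivAt {a z : Fin q → ℝ} {r : ℝ} (hf : ∀ i, 0 < 1 + r * z i) :
    HasDerivAt (fun t => mon a (fun i => 1 + t * z i))
      (mon a (fun i => 1 + r * z i) * ∑ i, a i * (z i / (1 + r * z i))) r := by
  have hev : ∀ᶠ t in nhds r, ∀ i, 0 < 1 + t * z i := by
    rw [Filter.eventually_all]
    intro i
    have hc : Continuous fun t : ℝ => 1 + t * z i := by fun_prop
    exact (isOpen_lt continuous_const hc).mem_nhds (hf i)
  have h1 : HasDerivAt (fun t => Real.exp (∑ i, a i * Real.log (1 + t * z i)))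
      (Real.exp (∑ i, a i * Real.log (1 + r * z i)) * ∑ i, a i * (z i / (1 + r * z i))) r := by
    refine HasDerivAt.exp ?_
    refine HasDerivAt.fun_sum fun i _ => ?_
    refine HasDerivAt.const_mul _ ?_
    have h2 : HasDerivAt (fun t : ℝ => 1 + t * z i) (z i) r := by
      simpa using ((hasDerivAt_id r).mul_const (z i)).const_add 1
    exact h2.log (hf i).ne'
  rw [← mon_eq_exp hf] at h1
  refine h1.congr_of_eventuallyEq ?_
  filter_upwards [hev] with t ht
  exact mon_eq_exp ht

lemma mon_line_continuous {a : Fin q → ℝ} (ha : ∀ i, 0 ≤ a i) (z : Fin q → ℝ) :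
    Continuous fun t : ℝ => mon a (fun i => 1 + t * z i) := by
  unfold mon
  refine continuous_finsetProd _ fun i _ => ?_
  exact (Real.continuous_rpow_const (ha i)).comp (by fun_prop)

lemma W_line {v : Fin q → ℝ} (h : avg v = 1) (t : ℝ) : W t v = fun i => 1 + t * (v i - 1) := by
  funext i
  simp only [W, h]; ring

theorem lin_W_le_norm [NeZero q] {s : Finset ι} {μ : ι → ℝ} {a : ι → Fin q → ℝ}
    (ha : ∀ j i, 0 ≤ a j i) (hs : ∀ j, ∑ i, a j i = 1)
    (hJ : ∀ f : Fin q → ℝ, (∀ i, 0 < f i) → avg f = 1 → 0 ≤ radJ s μ a f)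
    {v : Fin q → ℝ} (hv : ∀ i, 0 ≤ v i) (h1 : avg v = 1) {ρ : ℝ} (hρ : 0 < ρ) (hρ1 : ρ ≤ 1) :
    lin s μ a (W ρ v) ≤ ρ ^ 2 * lin s μ a v := by
  set z : Fin q → ℝ := fun i => v i - 1 with hz
  set F : ℝ → ℝ := fun t => ∑ j ∈ s, μ j * (1 - mon (a j) (fun i => 1 + t * z i)) with hF
  have hFW : ∀ t, lin s μ a (W t v) = F t := fun t => by
    simp only [lin, hF]
    rw [avg_W, h1, W_line h1]
  have hpos : ∀ t : ℝ, 0 < t → t < 1 → ∀ i, 0 < 1 + t * z i := fun t ht ht1 i => by
    have : 0 ≤ t * v i := mul_nonneg ht.le (hv i)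
    simp only [hz]; nlinarith
  have hder : ∀ t : ℝ, 0 < t → t < 1 → HasDerivAt F
      (∑ j ∈ s, μ j * (-(mon (a j) (fun i => 1 + t * z i) *
        ∑ i, a j i * (z i / (1 + t * z i))))) t := fun t ht ht1 => by
    refine HasDerivAt.fun_sum fun j _ => ?_
    refine HasDerivAt.const_mul _ ?_
    exact (mon_line_hasDerivAt (hpos t ht ht1)).const_sub 1
  have hcont : Continuous F := by
    refine continuous_finsetSum _ fun j _ => ?_
    exact continuous_const.mul (continuous_const.sub (mon_line_continuous (ha j) z))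
  have hmono : MonotoneOn (fun t => F t / t ^ 2) (Set.Icc ρ 1) := by
    refine monotoneOn_of_deriv_nonneg (convex_Icc _ _) ?_ ?_ ?_
    · refine hcont.continuousOn.div (by fun_prop) fun t ht => ?_
      have : 0 < t := lt_of_lt_of_le hρ ht.1
      positivity
    · intro t ht
      rw [interior_Icc] at ht
      have ht0 : 0 < t := lt_trans hρ ht.1
      have hd := (hder t ht0 ht.2).fun_div (hasDerivAt_pow 2 t) (by positivity)
      exact hd.differentiableAt.differentiableWithinAt
    · intro t ht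
      rw [interior_Icc] at ht
      have ht0 : 0 < t := lt_trans hρ ht.1
      have hd := (hder t ht0 ht.2).fun_div (hasDerivAt_pow 2 t) (by positivity)
      rw [hd.deriv]
      have havg : avg (fun i => 1 + t * z i) = 1 := by
        rw [← W_line h1 t, avg_W, h1]
      have hJt := hJ _ (hpos t ht0 ht.2) havg
      have key : (∑ j ∈ s, μ j * (-(mon (a j) (fun i => 1 + t * z i) *
          ∑ i, a j i * (z i / (1 + t * z i))))) * t - 2 * F t
          = radJ s μ a (fun i => 1 + t * z i) := by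
        simp only [radJ, hF]
        rw [Finset.sum_mul, Finset.mul_sum, ← Finset.sum_sub_distrib]
        refine Finset.sum_congr rfl fun j _ => ?_
        have e1 : (∑ i, a j i * (z i / (1 + t * z i))) * t
            = ∑ i, a j i - ∑ i, a j i / (1 + t * z i) := by
          rw [Finset.sum_mul, ← Finset.sum_sub_distrib]
          refine Finset.sum_congr rfl fun i _ => ?_
          have hw := (hpos t ht0 ht.2 i).ne'
          have hz1 : t * z i = (1 + t * z i) - 1 := by ring
          calc a j i * (z i / (1 + t * z i)) * t = a j i * ((t * z i) / (1 + t * z i)) := by ring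
            _ = a j i * (((1 + t * z i) - 1) / (1 + t * z i)) := by
                conv_lhs => rw [hz1]
                simp
            _ = a j i - a j i / (1 + t * z i) := by
                rw [sub_div, div_self hw]; ring
        rw [hs j] at e1
        have e2 : μ j * (-(mon (a j) (fun i => 1 + t * z i) *
            ∑ i, a j i * (z i / (1 + t * z i)))) * t
            = - (μ j * mon (a j) (fun i => 1 + t * z i)) *
              ((∑ i, a j i * (z i / (1 + t * z i))) * t) := by ring
        rw [e2, e1]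
        ring
      have h3 : 0 < t ^ 3 := by positivity
      have h4 : ((∑ j ∈ s, μ j * (-(mon (a j) (fun i => 1 + t * z i) *
          ∑ i, a j i * (z i / (1 + t * z i))))) * t ^ 2 - F t * ((2 : ℕ) * t ^ (2 - 1)))
          = t * radJ s μ a (fun i => 1 + t * z i) := by
        rw [← key]; push_cast; ring
      rw [h4]
      positivity
  have := hmono (Set.left_mem_Icc.2 hρ1) (Set.right_mem_Icc.2 hρ1) hρ1
  simp only [one_pow, div_one] at this
  rw [div_le_iff₀ (by positivity)] at this
  have hF1 : F 1 = lin s μ a v := by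
    rw [← hFW 1]
    congr 1
    funext i
    simp only [W]; ring
  rw [hFW, ← hF1]
  linarith

lemma lin_smul [NeZero q] {s : Finset ι} {μ : ι → ℝ} {a : ι → Fin q → ℝ}
    (ha : ∀ j i, 0 ≤ a j i) (hs : ∀ j, ∑ i, a j i = 1) {k : ℝ} (hk : 0 ≤ k) {v : Fin q → ℝ}
    (hv : ∀ i, 0 ≤ v i) : lin s μ a (fun i => k * v i) = k * lin s μ a v := by
  have h1 : avg (fun i => k * v i) = k * avg v := by
    unfold avg; rw [← Finset.mul_sum, mul_div_assoc]
  simp only [lin, h1, Finset.mul_sum]
  refine Finset.sum_congr rfl fun j _ => ?_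
  have := (mon_mulFun (ha j) (hs j)).hom k v hk hv
  simp only [RCLike.ofReal_real_eq_id, id_eq] at this
  rw [this]; ring

/-- (C1), pointwise form on all nonnegative vectors -/
theorem lin_W_le [NeZero q] {s : Finset ι} {μ : ι → ℝ} {a : ι → Fin q → ℝ}
    (ha : ∀ j i, 0 ≤ a j i) (hs : ∀ j, ∑ i, a j i = 1)
    (hJ : ∀ f : Fin q → ℝ, (∀ i, 0 < f i) → avg f = 1 → 0 ≤ radJ s μ a f)
    {v : Fin q → ℝ} (hv : ∀ i, 0 ≤ v i) {ρ : ℝ} (hρ : 0 ≤ ρ) (hρ1 : ρ ≤ 1) :
    lin s μ a (W ρ v) ≤ ρ ^ 2 * lin s μ a v := by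
  have hmon1 : ∀ j, mon (a j) (fun _ => (1 : ℝ)) = 1 := fun j => by simp [mon]
  by_cases hm : avg v = 0
  · have h0 := eq_zero_of_avg hv hm
    have hz : ∀ j, mon (a j) (fun _ : Fin q => (0 : ℝ)) = 0 := fun j => by
      have := (mon_mulFun (ha j) (hs j)).hom 0 (fun _ => 0) le_rfl (fun _ => le_rfl)
      simpa using this
    have hl : lin s μ a (fun _ : Fin q => (0 : ℝ)) = 0 := by
      simp [lin, hz, avg]
    have hW : W ρ v = fun _ => 0 := by
      funext i; simp [W, h0, avg]
    rw [hW, h0, hl]; simp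
  · have hpos : 0 < avg v := lt_of_le_of_ne (avg_nonneg hv) (Ne.symm hm)
    set f : Fin q → ℝ := fun i => (avg v)⁻¹ * v i with hf
    have hf0 : ∀ i, 0 ≤ f i := fun i => mul_nonneg (inv_nonneg.2 hpos.le) (hv i)
    have hf1 : avg f = 1 := by
      have h1 : avg (fun i => (avg v)⁻¹ * v i) = (avg v)⁻¹ * avg v := by
        conv_lhs => unfold avg
        rw [← Finset.mul_sum, mul_div_assoc]; rfl
      rw [hf, h1, inv_mul_cancel₀ hm]
    have hvf : v = fun i => avg v * f i := by
      funext i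
      simp only [hf]
      rw [← mul_assoc, mul_inv_cancel₀ hm, one_mul]
    have hWf : W ρ v = fun i => avg v * W ρ f i := by
      funext i
      simp only [W, hf1]
      simp only [hf]
      field_simp
    have key : lin s μ a (W ρ f) ≤ ρ ^ 2 * lin s μ a f := by
      rcases hρ.eq_or_lt with h0 | h0
      · subst h0
        have : W 0 f = fun _ => 1 := by funext i; simp [W, hf1]
        rw [this]
        have h2 : avg (fun _ : Fin q => (1 : ℝ)) = 1 := by
          have hq : (q : ℝ) ≠ 0 := Nat.cast_ne_zero.mpr (NeZero.ne q)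
          simp [avg, hq]
        simp [lin, hmon1, h2]
      · exact lin_W_le_norm ha hs hJ hf0 hf1 h0 hρ1
    have hWpos : ∀ i, 0 ≤ W ρ f i := fun i => by
      have := hf0 i
      have h2 : 0 ≤ 1 - ρ := by linarith
      simp only [W, hf1]; positivity
    have hl1 : lin s μ a (W ρ v) = avg v * lin s μ a (W ρ f) := by
      rw [hWf]; exact lin_smul ha hs hpos.le hWpos
    have hl2 : lin s μ a v = avg v * lin s μ a f := by
      conv_lhs => rw [hvf]
      exact lin_smul ha hs hpos.le hf0
    rw [hl1, hl2]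
    calc avg v * lin s μ a (W ρ f) ≤ avg v * (ρ ^ 2 * lin s μ a f) :=
          mul_le_mul_of_nonneg_left key hpos.le
      _ = _ := by ring

/-- (C1) for channels -/
theorem J_lin_W_le [NeZero q] {s : Finset ι} {μ : ι → ℝ} {a : ι → Fin q → ℝ}
    (ha : ∀ j i, 0 ≤ a j i) (hs : ∀ j, ∑ i, a j i = 1)
    (hJ : ∀ f : Fin q → ℝ, (∀ i, 0 < f i) → avg f = 1 → 0 ≤ radJ s μ a f)
    {Ω : Type*} {L : Ω → Fin q → ℝ} (hL : IsChan L) {ρ : ℝ} (hρ : 0 ≤ ρ) (hρ1 : ρ ≤ 1) :
    J (lin s μ a) (fun o => W ρ (L o)) ≤ ρ ^ 2 * J (lin s μ a) L := by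
  have hadm : Adm q ρ := ⟨hρ1, by
    have : 0 ≤ 1 - ρ := by linarith
    positivity⟩
  have hb : Bdd (lin s μ a) := by
    classical
    have : ∀ t : Finset ι, Bdd (fun v => ∑ j ∈ t, μ j * (avg v - mon (a j) v)) := by
      intro t
      induction t using Finset.induction_on with
      | empty => exact ⟨0, le_rfl, fun v _ => by simp⟩
      | insert j t hj ih =>
        have hm : Bdd (mon (a j)) := by
          obtain ⟨K, hK, h⟩ := (mon_mulFun (ha j) (hs j)).bdd
          exact ⟨K, hK, fun v hv => by simpa [Real.norm_eq_abs] using h v hv⟩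
        have h2 := ((bdd_avg.sub hm).const_mul (μ j)).add ih
        refine h2.congr fun v _ => ?_
        rw [Finset.sum_insert hj]
    exact this s
  rw [← J_const_mul]
  unfold J
  refine Summable.tsum_le_tsum (fun o => lin_W_le ha hs hJ (hL.nonneg o) hρ hρ1)
    ((hL.edge hadm).summable hb) (hL.summable (hb.const_mul _))

end Crest.Agent.R163
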