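import Crest.Agent.R163.Pot

/-!
Row 163: the symmetrised relative entropy `skl` (Jeffreys divergence between the likelihoods),
exactly additive under merging; hence a linear term of potentials for the critical
antiferromagnetic trees.
-/

set_option autoImplicit false

namespace Crest.Agent.R163

variable {q : ℕ}

/-- weighted log-likelihood ratio -/
noncomputable def lr (k i j : Fin q) (v : Fin q → ℝ) : ℝ := v k * Real.log (v i / v j)

/-- zero or strictly positive vectors -/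
def ZP (v : Fin q → ℝ) : Prop := (∀ i, v i = 0) ∨ ∀ i, 0 < v i

lemma lr_mul {u v : Fin q → ℝ} (hu : ZP u) (hv : ZP v) (k i j : Fin q) :
    lr k i j (fun l => u l * v l) = lr k i j u * v k + u k * lr k i j v := by
  unfold lr
  rcases hu with hu | hu
  · simp [hu]
  rcases hv with hv | hv
  · simp [hv]
  have h1 : u i * v i / (u j * v j) = (u i / u j) * (v i / v j) := by
    rw [mul_div_mul_comm]
  rw [h1, Real.log_mul (div_pos (hu i) (hu j)).ne' (div_pos (hv i) (hv j)).ne']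
  ring

lemma ZP.mul {u v : Fin q → ℝ} (hu : ZP u) (hv : ZP v) : ZP (fun l => u l * v l) := by
  rcases hu with hu | hu
  · exact Or.inl fun i => by simp [hu]
  rcases hv with hv | hv
  · exact Or.inl fun i => by simp [hv]
  · exact Or.inr fun i => mul_pos (hu i) (hv i)

lemma ZP.const_mul {v : Fin q → ℝ} (hv : ZP v) {c : ℝ} (hc : 0 ≤ c) : ZP (fun l => c * v l) := by
  rcases hc.eq_or_lt with h | h
  · exact Or.inl fun i => by simp [← h]
  rcases hv with hv | hv
  · exact Or.inl fun i => by simp [hv]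
  · exact Or.inr fun i => mul_pos h (hv i)

lemma lr_const_mul (k i j : Fin q) (c : ℝ) (v : Fin q → ℝ) :
    lr k i j (fun l => c * v l) = c * lr k i j v := by
  unfold lr
  by_cases h : c = 0
  · simp [h]
  · rw [mul_div_mul_left _ _ h]; ring

/-- channels with finite log-likelihood ratios -/
structure LS {Ω : Type*} (L : Ω → Fin q → ℝ) : Prop where
  chan : IsChan L
  zp : ∀ o, ZP (L o)
  summ : ∀ k i j, Summable (fun o => lr k i j (L o))

section

variable {Ω Ω₁ Ω₂ : Type*}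

lemma LS.summ_abs {L : Ω → Fin q → ℝ} (h : LS L) (k i j : Fin q) :
    Summable (fun o => |lr k i j (L o)|) := by
  simpa [Real.norm_eq_abs] using (h.summ k i j).norm

lemma LS.reindex {L : Ω → Fin q → ℝ} (h : LS L) {Ω' : Type*} (e : Ω' ≃ Ω) :
    LS (fun o => L (e o)) where
  chan := h.chan.reindex e
  zp o := h.zp (e o)
  summ k i j := (e.summable_iff (f := fun o => lr k i j (L o))).2 (h.summ k i j)

lemma hasSum_mul_of {f : Ω₁ → ℝ} {g : Ω₂ → ℝ} {a b : ℝ} (hf : HasSum f a) (hg : HasSum g b) :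
    HasSum (fun p : Ω₁ × Ω₂ => f p.1 * g p.2) (a * b) := by
  have hs : Summable (fun p : Ω₁ × Ω₂ => f p.1 * g p.2) :=
    summable_mul_of_summable_norm hf.summable.norm hg.summable.norm
  have := hf.summable.tsum_mul_tsum hg.summable hs
  rw [hf.tsum_eq, hg.tsum_eq] at this
  rw [this]
  exact hs.hasSum

lemma LS.hasSum_mrg {L₁ : Ω₁ → Fin q → ℝ} {L₂ : Ω₂ → Fin q → ℝ} (h₁ : LS L₁) (h₂ : LS L₂)
    (k i j : Fin q) :
    HasSum (fun p => lr k i j (mrg L₁ L₂ p)) (J (lr k i j) L₁ + J (lr k i j) L₂) := by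
  have e1 := hasSum_mul_of (h₁.summ k i j).hasSum (h₂.chan.hasSum k)
  have e2 := hasSum_mul_of (h₁.chan.hasSum k) (h₂.summ k i j).hasSum
  have e3 := e1.add e2
  rw [mul_one, one_mul] at e3
  refine hasSum_cast e3 fun p => ?_
  exact lr_mul (h₁.zp _) (h₂.zp _) k i j

lemma LS.mrg {L₁ : Ω₁ → Fin q → ℝ} {L₂ : Ω₂ → Fin q → ℝ} (h₁ : LS L₁) (h₂ : LS L₂) :
    LS (mrg L₁ L₂) where
  chan := h₁.chan.mrg h₂.chan
  zp p := (h₁.zp _).mul (h₂.zp _)
  summ k i j := (h₁.hasSum_mrg h₂ k i j).summable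

lemma LS.J_mrg {L₁ : Ω₁ → Fin q → ℝ} {L₂ : Ω₂ → Fin q → ℝ} (h₁ : LS L₁) (h₂ : LS L₂)
    (k i j : Fin q) : J (lr k i j) (R163.mrg L₁ L₂) = J (lr k i j) L₁ + J (lr k i j) L₂ :=
  (h₁.hasSum_mrg h₂ k i j).tsum_eq

lemma pw_zero_eq (L : Ω → Fin q → ℝ) : pw L 0 = fun _ _ => 1 := by
  funext o i; simp [pw]

lemma LS.pw {L : Ω → Fin q → ℝ} (h : LS L) (c : ℕ) : LS (pw L c) := by
  induction c with
  | zero =>
    rw [pw_zero_eq]
    refine ⟨isChan_unit, fun o => Or.inr fun i => one_pos, fun k i j => ?_⟩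
    exact (hasSum_unique _).summable
  | succ c ih =>
    have h2 := (h.mrg ih).reindex (Fin.consEquiv (fun _ => Ω)).symm
    have h3 : (fun o => R163.mrg L (R163.pw L c) ((Fin.consEquiv (fun _ => Ω)).symm o)) =
        R163.pw L (c + 1) := by
      funext o
      rw [← pw_cons, Equiv.apply_symm_apply]
    rwa [h3] at h2

lemma LS.J_pw {L : Ω → Fin q → ℝ} (h : LS L) (c : ℕ) (k i j : Fin q) :
    J (lr k i j) (R163.pw L c) = c * J (lr k i j) L := by
  induction c with
  | zero =>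
    rw [J_pw_zero]
    simp [lr]
  | succ c ih =>
    rw [J_pw_succ, h.J_mrg (h.pw c), ih]
    push_cast
    ring

lemma LS.J_abs_mrg_le {L₁ : Ω₁ → Fin q → ℝ} {L₂ : Ω₂ → Fin q → ℝ} (h₁ : LS L₁) (h₂ : LS L₂)
    (k i j : Fin q) : J (fun v => |lr k i j v|) (R163.mrg L₁ L₂) ≤
      J (fun v => |lr k i j v|) L₁ + J (fun v => |lr k i j v|) L₂ := by
  have e1 := hasSum_mul_of (h₁.summ_abs k i j).hasSum (h₂.chan.hasSum k)
  have e2 := hasSum_mul_of (h₁.chan.hasSum k) (h₂.summ_abs k i j).hasSum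
  have e3 := e1.add e2
  rw [mul_one, one_mul] at e3
  refine hasSum_le (fun p => ?_) ((h₁.mrg h₂).summ_abs k i j).hasSum e3
  have : lr k i j (R163.mrg L₁ L₂ p) = lr k i j (L₁ p.1) * L₂ p.2 k + L₁ p.1 k * lr k i j (L₂ p.2) :=
    lr_mul (h₁.zp _) (h₂.zp _) k i j
  rw [this]
  refine (abs_add_le _ _).trans (le_of_eq ?_)
  rw [abs_mul, abs_mul, abs_of_nonneg (h₂.chan.nonneg _ _), abs_of_nonneg (h₁.chan.nonneg _ _)]

lemma LS.J_abs_pw_le {L : Ω → Fin q → ℝ} (h : LS L) (c : ℕ) (k i j : Fin q) :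
    J (fun v => |lr k i j v|) (R163.pw L c) ≤ c * J (fun v => |lr k i j v|) L := by
  induction c with
  | zero =>
    rw [J_pw_zero]
    simp [lr]
  | succ c ih =>
    rw [J_pw_succ]
    refine (h.J_abs_mrg_le (h.pw c) k i j).trans ?_
    push_cast
    linarith

lemma LS.hasSum_pois [NeZero q] {L : Ω → Fin q → ℝ} (h : LS L) {d : ℝ} (hd : 0 ≤ d)
    (k i j : Fin q) :
    HasSum (fun o => lr k i j (pois d L o)) (d * J (lr k i j) L) := by
  refine ((List.equivSigmaTuple (α := Ω)).symm.hasSum_iff).1 ?_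
  have h5 : (fun o => lr k i j (pois d L o)) ∘ (List.equivSigmaTuple (α := Ω)).symm =
      fun s : (n : ℕ) × (Fin n → Ω) => pwt d s.1 * lr k i j (R163.pw L s.1 s.2) := by
    funext s
    simp only [Function.comp]
    rw [pois_equiv, lr_const_mul]
  rw [h5]
  have hs : ∀ n, HasSum (fun f : Fin n → Ω => pwt d n * lr k i j (R163.pw L n f))
      (pwt d n * (n * J (lr k i j) L)) := fun n => by
    rw [← h.J_pw n k i j]
    exact ((h.pw n).summ k i j).hasSum.mul_left _
  have hnn : ∀ s : (n : ℕ) × (Fin n → Ω), 0 ≤ ‖pwt d s.1 * lr k i j (R163.pw L s.1 s.2)‖ :=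
    fun s => norm_nonneg _
  have habs : ∀ (n : ℕ) (f : Fin n → Ω), ‖pwt d n * lr k i j (R163.pw L n f)‖ =
      pwt d n * |lr k i j (R163.pw L n f)| := fun n f => by
    rw [Real.norm_eq_abs, abs_mul, abs_of_nonneg (pwt_nonneg hd n)]
  have hsum : Summable (fun s : (n : ℕ) × (Fin n → Ω) =>
      pwt d s.1 * lr k i j (R163.pw L s.1 s.2)) := by
    apply Summable.of_norm
    rw [summable_sigma_of_nonneg hnn]
    refine ⟨fun n => ?_, ?_⟩
    · simp only [habs]
      exact ((h.pw n).summ_abs k i j).mul_left _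
    · have hb : Summable (fun n : ℕ => pwt d n * (n * J (fun v => |lr k i j v|) L)) := by
        have := ((pwt_mean d).summable).mul_right (J (fun v => |lr k i j v|) L)
        refine this.congr fun n => ?_
        ring
      refine Summable.of_nonneg_of_le (fun n => tsum_nonneg fun f => norm_nonneg _) (fun n => ?_) hb
      simp only [habs]
      rw [tsum_mul_left]
      exact mul_le_mul_of_nonneg_left (h.J_abs_pw_le n k i j) (pwt_nonneg hd n)
  have h3 := hsum.hasSum
  have h4 := h3.sigma hs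
  have h6 : HasSum (fun n : ℕ => pwt d n * (n * J (lr k i j) L)) (d * J (lr k i j) L) := by
    refine hasSum_cast ((pwt_mean d).mul_right (J (lr k i j) L)) fun n => ?_
    ring
  rwa [h4.unique h6] at h3

lemma LS.pois [NeZero q] {L : Ω → Fin q → ℝ} (h : LS L) {d : ℝ} (hd : 0 ≤ d) :
    LS (pois d L) where
  chan := pois_isChan hd h.chan
  zp o := by
    have h1 := pois_equiv d L ((List.equivSigmaTuple (α := Ω)) o)
    rw [Equiv.symm_apply_apply] at h1
    rw [h1]
    exact ((h.pw _).zp _).const_mul (pwt_nonneg hd _)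
  summ k i j := (h.hasSum_pois hd k i j).summable

lemma LS.J_pois [NeZero q] {L : Ω → Fin q → ℝ} (h : LS L) {d : ℝ} (hd : 0 ≤ d)
    (k i j : Fin q) : J (lr k i j) (R163.pois d L) = d * J (lr k i j) L :=
  (h.hasSum_pois hd k i j).tsum_eq

/-- the edge image has bounded likelihood ratios when `-1/(q-1) < lam ≤ 0` -/
lemma W_lower [NeZero q] {lam : ℝ} (h0 : lam ≤ 0) {v : Fin q → ℝ} (hv : ∀ i, 0 ≤ v i)
    (i : Fin q) : (1 + (q - 1) * lam) * avg v ≤ W lam v i := by
  have hq : (0 : ℝ) < q := Nat.cast_pos.mpr (Nat.pos_of_ne_zero (NeZero.ne q))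
  have h1 : v i ≤ q * avg v := by
    have := le_avg hv i
    rw [div_le_iff₀ hq] at this
    linarith
  unfold W
  nlinarith

lemma W_upper [NeZero q] {lam : ℝ} (h0 : lam ≤ 0) {v : Fin q → ℝ} (hv : ∀ i, 0 ≤ v i)
    (i : Fin q) : W lam v i ≤ (1 - lam) * avg v := by
  unfold W
  nlinarith [hv i]

lemma LS.edge [NeZero q] {L : Ω → Fin q → ℝ} (h : IsChan L) {lam : ℝ} (hl : Adm q lam)
    (h0 : lam ≤ 0) (h1 : 0 < 1 + (q - 1) * lam) : LS (fun o => W lam (L o)) where
  chan := h.edge hl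
  zp o := by
    by_cases ha : avg (L o) = 0
    · left
      intro i
      have := eq_zero_of_avg (h.nonneg o) ha
      have e : avg (L o) = 0 := ha
      unfold W
      rw [e, this]
      simp
    · right
      intro i
      have hpos : 0 < avg (L o) := lt_of_le_of_ne (avg_nonneg (h.nonneg o)) (Ne.symm ha)
      exact lt_of_lt_of_le (mul_pos h1 hpos) (W_lower h0 (h.nonneg o) i)
  summ k i j := by
    set R : ℝ := (1 - lam) / (1 + (q - 1) * lam) with hR
    refine Summable.of_norm_bounded (((h.edge hl).hasSum k).summable.mul_left (Real.log R))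
      fun o => ?_
    rw [Real.norm_eq_abs]
    unfold lr
    have hW := W_nonneg hl (h.nonneg o)
    by_cases ha : avg (L o) = 0
    · have := eq_zero_of_avg (h.nonneg o) ha
      have e : ∀ i, W lam (L o) i = 0 := fun i => by
        unfold W
        rw [ha, this]
        simp
      simp [e]
    have hpos : 0 < avg (L o) := lt_of_le_of_ne (avg_nonneg (h.nonneg o)) (Ne.symm ha)
    have hWpos : ∀ i, 0 < W lam (L o) i := fun i =>
      lt_of_lt_of_le (mul_pos h1 hpos) (W_lower h0 (h.nonneg o) i)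
    have hle : ∀ i j, W lam (L o) i / W lam (L o) j ≤ R := fun i j => by
      rw [hR, div_le_div_iff₀ (hWpos j) h1]
      have e1 := W_lower h0 (h.nonneg o) j
      have e2 := W_upper h0 (h.nonneg o) i
      calc W lam (L o) i * (1 + (q - 1) * lam) ≤ ((1 - lam) * avg (L o)) * (1 + (q - 1) * lam) :=
            mul_le_mul_of_nonneg_right e2 h1.le
        _ = (1 - lam) * ((1 + (q - 1) * lam) * avg (L o)) := by ring
        _ ≤ (1 - lam) * W lam (L o) j := mul_le_mul_of_nonneg_left e1 (by linarith)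
    have hRpos : 0 < R := div_pos (by linarith) h1
    have hlog : |Real.log (W lam (L o) i / W lam (L o) j)| ≤ Real.log R := by
      rw [abs_le]
      constructor
      · rw [neg_le, ← Real.log_inv, inv_div]
        exact Real.log_le_log (div_pos (hWpos j) (hWpos i)) (hle j i)
      · exact Real.log_le_log (div_pos (hWpos i) (hWpos j)) (hle i j)
    rw [abs_mul, abs_of_pos (hWpos k), mul_comm]
    exact mul_le_mul_of_nonneg_right hlog (hWpos k).le

/-- symmetrised relative entropy -/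
noncomputable def skl (v : Fin q → ℝ) : ℝ :=
  (∑ i, ∑ j, (v i - v j) * Real.log (v i / v j)) / (4 * q)

lemma skl_eq (v : Fin q → ℝ) :
    skl v = (∑ i, ∑ j, (lr i i j v - lr j i j v)) / (4 * q) := by
  unfold skl lr
  congr 1
  refine Finset.sum_congr rfl fun i _ => Finset.sum_congr rfl fun j _ => ?_
  ring

lemma skl_const_mul (c : ℝ) (v : Fin q → ℝ) : skl (fun l => c * v l) = c * skl v := by
  rw [skl_eq, skl_eq]
  simp only [lr_const_mul, ← mul_sub, ← Finset.mul_sum]
  rw [mul_div_assoc]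

lemma skl_nonneg {v : Fin q → ℝ} (hv : ZP v) : 0 ≤ skl v := by
  unfold skl
  refine div_nonneg (Finset.sum_nonneg fun i _ => Finset.sum_nonneg fun j _ => ?_) (by positivity)
  rcases hv with hv | hv
  · simp [hv]
  rcases le_total (v j) (v i) with h | h
  · exact mul_nonneg (by linarith) (Real.log_nonneg (by rwa [one_le_div (hv j)]))
  · exact mul_nonneg_of_nonpos_of_nonpos (by linarith)
      (Real.log_nonpos (div_pos (hv i) (hv j)).le (by rwa [div_le_one (hv j)]))

lemma LS.summable_skl {L : Ω → Fin q → ℝ} (h : LS L) : Summable (fun o => skl (L o)) := by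
  simp only [skl_eq]
  refine Summable.div_const ?_ _
  refine summable_sum fun i _ => summable_sum fun j _ => (h.summ i i j).sub (h.summ j i j)

lemma LS.J_skl {L : Ω → Fin q → ℝ} (h : LS L) :
    J skl L = (∑ i, ∑ j, (J (lr i i j) L - J (lr j i j) L)) / (4 * q) := by
  unfold J
  simp only [skl_eq]
  refine HasSum.tsum_eq ?_
  refine HasSum.div_const ?_ _
  exact hasSum_sum fun i _ => hasSum_sum fun j _ => (h.summ i i j).hasSum.sub (h.summ j i j).hasSum

lemma LS.J_skl_nonneg {L : Ω → Fin q → ℝ} (h : LS L) : 0 ≤ J skl L :=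
  tsum_nonneg fun o => skl_nonneg (h.zp o)

lemma LS.J_skl_pw {L : Ω → Fin q → ℝ} (h : LS L) (c : ℕ) :
    J skl (R163.pw L c) = c * J skl L := by
  rw [(h.pw c).J_skl, h.J_skl]
  simp only [h.J_pw, ← mul_sub, ← Finset.mul_sum]
  rw [mul_div_assoc]

lemma LS.J_skl_pois [NeZero q] {L : Ω → Fin q → ℝ} (h : LS L) {d : ℝ} (hd : 0 ≤ d) :
    J skl (R163.pois d L) = d * J skl L := by
  rw [(h.pois hd).J_skl, h.J_skl]
  simp only [h.J_pois hd, ← mul_sub, ← Finset.mul_sum]
  rw [mul_div_assoc]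

end

/-! ### trees -/

section trees

variable [NeZero q] {lam : ℝ}

lemma ls_reg_succ (b : ℕ) (hl : Adm q lam) (h0 : lam ≤ 0) (h1 : 0 < 1 + (q - 1) * lam) (ℓ : ℕ) :
    LS (reg q b lam (ℓ + 1)) := by
  have h := ((LS.edge (reg_isChan b hl ℓ) hl h0 h1).pw b).reindex (regEquiv q b ℓ)
  have : (fun o => R163.pw (fun o => W lam (reg q b lam ℓ o)) b (regEquiv q b ℓ o)) =
      reg q b lam (ℓ + 1) := by
    funext o
    rw [reg_succ]
  rwa [this] at h

lemma J_skl_reg_succ (b : ℕ) (hl : Adm q lam) (h0 : lam ≤ 0) (h1 : 0 < 1 + (q - 1) * lam)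
    (ℓ : ℕ) : J skl (reg q b lam (ℓ + 1)) = b * J skl (fun o => W lam (reg q b lam ℓ o)) := by
  rw [R163.J_reg_succ, (LS.edge (reg_isChan b hl ℓ) hl h0 h1).J_skl_pw]

lemma ls_gw_succ {d : ℝ} (hd : 0 ≤ d) (hl : Adm q lam) (h0 : lam ≤ 0)
    (h1 : 0 < 1 + (q - 1) * lam) (ℓ : ℕ) : LS (gw q lam d (ℓ + 1)) := by
  rw [gw_succ]
  exact (LS.edge (gw_isChan hl hd ℓ) hl h0 h1).pois hd

lemma J_skl_gw_succ {d : ℝ} (hd : 0 ≤ d) (hl : Adm q lam) (h0 : lam ≤ 0)
    (h1 : 0 < 1 + (q - 1) * lam) (ℓ : ℕ) :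
    J skl (gw q lam d (ℓ + 1)) = d * J skl (fun o => W lam (gw q lam d ℓ o)) := by
  rw [gw_succ, (LS.edge (gw_isChan hl hd ℓ) hl h0 h1).J_skl_pois hd]

end trees

end Crest.Agent.R163
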