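import Crest.Agent.R163.SKL
import Crest.Agent.R163.Conv

/-!
Row 163: potentials `a * J skl + ∑ μ_j * J C_j` for the critical antiferromagnetic trees:
a pointwise inequality on the open simplex forces `J chi` to drop below `x0`.
-/

set_option autoImplicit false

namespace Crest.Agent.R163

variable {q : ℕ}

lemma W_const_mul [NeZero q] (lam c : ℝ) (v : Fin q → ℝ) :
    W lam (fun i => c * v i) = fun i => c * W lam v i := by
  have : avg (fun i => c * v i) = c * avg v := by
    unfold avg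
    rw [← Finset.mul_sum, mul_div_assoc]
  funext i
  unfold W
  rw [this]
  ring

/-- one step of the potential -/
theorem skl_step [NeZero q] {Ω Ω' : Type} {L : Ω → Fin q → ℝ} {L' : Ω' → Fin q → ℝ}
    (hL : LS L) {lam θ a c1 c2 x0 : ℝ} (hl : Adm q lam) (h0 : lam ≤ 0)
    (h1 : 0 < 1 + (q - 1) * lam) {m : ℕ} {μ : Fin m → ℝ}
    (hμ : ∀ j, 0 ≤ μ j) {C : Fin m → (Fin q → ℝ) → ℝ} (hC : ∀ j, Bdd (C j))
    (hCh : ∀ j, Hom (C j)) (hS : J skl L' = θ * J skl (fun o => W lam (L o)))
    (hJ : ∀ j, J (C j) L' ≤ Real.exp (-θ * (1 - J (C j) (fun o => W lam (L o)))))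
    (H : ∀ f : Fin q → ℝ, (∀ i, 0 < f i) → avg f = 1 →
      c1 * (chi f - x0) + c2 ≤ a * (skl f - θ * skl (W lam f)) +
        ∑ j, μ j * (C j f - Real.exp (-θ * (1 - C j (W lam f))))) :
    c1 * (J chi L - x0) + c2 ≤ (a * J skl L + ∑ j, μ j * J (C j) L) -
      (a * J skl L' + ∑ j, μ j * J (C j) L') := by
  set y : Fin m → ℝ := fun j => J (C j) (fun o => W lam (L o)) with hy
  set e : Fin m → ℝ := fun j => Real.exp (-θ * (1 - y j)) with he
  have hW : LS (fun o => W lam (L o)) := LS.edge hL.chan hl h0 h1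
  -- pointwise inequality in homogeneous form
  have key : ∀ o, c1 * (chi (L o) - x0 * avg (L o)) + c2 * avg (L o) ≤
      a * (skl (L o) - θ * skl (W lam (L o))) +
        ∑ j, μ j * (C j (L o) - e j * ((1 - θ * y j) * avg (L o) + θ * C j (W lam (L o)))) := by
    intro o
    rcases hL.zp o with hz | hz
    · have hz' : L o = fun i => 0 * (0 : ℝ) := by funext i; simp [hz i]
      have a0 : avg (L o) = 0 := by rw [hz']; simp [avg]
      have c0 : chi (L o) = 0 := by simp [chi, a0]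
      have s0 : skl (L o) = 0 := by rw [hz', skl_const_mul]; ring
      have w0 : W lam (L o) = fun i => 0 * (0 : ℝ) := by
        funext i; unfold W; rw [a0, hz i]; ring
      have sw0 : skl (W lam (L o)) = 0 := by rw [w0, skl_const_mul]; ring
      have C0 : ∀ j, C j (L o) = 0 := fun j => by
        rw [hz', hCh j 0 (fun _ => 0) le_rfl (fun _ => le_rfl)]; ring
      have CW0 : ∀ j, C j (W lam (L o)) = 0 := fun j => by
        rw [w0, hCh j 0 (fun _ => 0) le_rfl (fun _ => le_rfl)]; ring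
      rw [a0, c0, s0, sw0]
      simp [C0, CW0]
    · set A := avg (L o) with hA
      have hApos : 0 < A := by
        rw [hA]; unfold avg
        have hq : (0 : ℝ) < q := Nat.cast_pos.mpr (Nat.pos_of_ne_zero (NeZero.ne q))
        exact div_pos (Finset.sum_pos (fun i _ => hz i) ⟨⟨0, Nat.pos_of_ne_zero (NeZero.ne q)⟩,
          Finset.mem_univ _⟩) hq
      set f : Fin q → ℝ := fun i => A⁻¹ * L o i with hf
      have hfpos : ∀ i, 0 < f i := fun i => mul_pos (inv_pos.2 hApos) (hz i)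
      have hLf : L o = fun i => A * f i := by
        funext i; rw [hf]; field_simp
      have hfavg : avg f = 1 := by
        have : avg f = A⁻¹ * avg (L o) := by
          unfold avg; rw [hf, ← Finset.mul_sum, mul_div_assoc]
        rw [this, ← hA, inv_mul_cancel₀ hApos.ne']
      have h2 := H f hfpos hfavg
      have hWpos : ∀ i, 0 ≤ W lam f i := W_nonneg hl fun i => (hfpos i).le
      have e1 : chi (L o) = A * chi f := by
        rw [hLf]; exact hom_chi A f hApos.le fun i => (hfpos i).le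
      have e2 : skl (L o) = A * skl f := by rw [hLf, skl_const_mul]
      have e3 : W lam (L o) = fun i => A * W lam f i := by rw [hLf, W_const_mul]
      have e4 : skl (W lam (L o)) = A * skl (W lam f) := by rw [e3, skl_const_mul]
      have e5 : ∀ j, C j (L o) = A * C j f := fun j => by
        rw [hLf]; exact hCh j A f hApos.le fun i => (hfpos i).le
      have e6 : ∀ j, C j (W lam (L o)) = A * C j (W lam f) := fun j => by
        rw [e3]; exact hCh j A _ hApos.le hWpos
      rw [e1, e2, e4]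
      simp only [e5, e6]
      have e7 : ∀ j, μ j * (C j f - Real.exp (-θ * (1 - C j (W lam f)))) ≤
          μ j * (C j f - e j * ((1 - θ * y j) + θ * C j (W lam f))) := by
        intro j
        refine mul_le_mul_of_nonneg_left ?_ (hμ j)
        have h3 := Real.add_one_le_exp (θ * (C j (W lam f) - y j))
        have h4 : Real.exp (-θ * (1 - C j (W lam f))) =
            e j * Real.exp (θ * (C j (W lam f) - y j)) := by
          rw [he, ← Real.exp_add]; congr 1; ring
        rw [h4]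
        have h5 : 0 < e j := Real.exp_pos _
        have := mul_le_mul_of_nonneg_left h3 h5.le
        linarith
      have e8 := Finset.sum_le_sum fun j (_ : j ∈ Finset.univ) => e7 j
      have e9 : A * (c1 * (chi f - x0) + c2) ≤ A * (a * (skl f - θ * skl (W lam f)) +
          ∑ j, μ j * (C j f - e j * ((1 - θ * y j) + θ * C j (W lam f)))) :=
        mul_le_mul_of_nonneg_left (by linarith) hApos.le
      have e10 : A * ∑ j, μ j * (C j f - e j * ((1 - θ * y j) + θ * C j (W lam f))) =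
          ∑ j, μ j * (A * C j f - e j * ((1 - θ * y j) * A + θ * (A * C j (W lam f)))) := by
        rw [Finset.mul_sum]
        refine Finset.sum_congr rfl fun j _ => ?_
        ring
      calc c1 * (A * chi f - x0 * A) + c2 * A = A * (c1 * (chi f - x0) + c2) := by ring
        _ ≤ _ := e9
        _ = a * (A * skl f - θ * (A * skl (W lam f))) + A * ∑ j, μ j * (C j f - e j *
            ((1 - θ * y j) + θ * C j (W lam f))) := by ring
        _ = _ := by rw [e10]
  -- sum over the observations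
  have s1 : HasSum (fun o => c1 * (chi (L o) - x0 * avg (L o)) + c2 * avg (L o))
      (c1 * (J chi L - x0 * 1) + c2 * 1) :=
    (((hL.chan.summable bdd_chi).hasSum.sub (hL.chan.avg_hasSum.mul_left x0)).mul_left c1).add
      (hL.chan.avg_hasSum.mul_left c2)
  have s2 : HasSum (fun o => a * (skl (L o) - θ * skl (W lam (L o))) +
        ∑ j, μ j * (C j (L o) - e j * ((1 - θ * y j) * avg (L o) + θ * C j (W lam (L o)))))
      (a * (J skl L - θ * J skl (fun o => W lam (L o))) +
        ∑ j, μ j * (J (C j) L - e j * ((1 - θ * y j) * 1 + θ * y j))) := by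
    refine (((hL.summable_skl.hasSum).sub (hW.summable_skl.hasSum.mul_left θ)).mul_left a).add ?_
    refine hasSum_sum fun j _ => HasSum.mul_left _ ?_
    refine ((hL.chan.summable (hC j)).hasSum).sub (HasSum.mul_left _ ?_)
    exact (hL.chan.avg_hasSum.mul_left _).add ((hW.chan.summable (hC j)).hasSum.mul_left _)
  have s3 := hasSum_le key s1 s2
  have s4 : ∀ j, μ j * (J (C j) L - e j * ((1 - θ * y j) * 1 + θ * y j)) ≤
      μ j * J (C j) L - μ j * J (C j) L' := by
    intro j
    have h3 := mul_le_mul_of_nonneg_left (hJ j) (hμ j)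
    have h4 : e j = Real.exp (-θ * (1 - J (C j) fun o => W lam (L o))) := rfl
    rw [← h4] at h3
    have h5 : μ j * (J (C j) L - e j * ((1 - θ * y j) * 1 + θ * y j)) =
      μ j * J (C j) L - μ j * e j := by ring
    rw [h5]
    linarith
  have s5 := Finset.sum_le_sum fun j (_ : j ∈ Finset.univ) => s4 j
  rw [Finset.sum_sub_distrib] at s5
  rw [hS]
  linarith

/-- a potential decreasing by a definite amount as long as `x0 ≤ x` -/
lemma exists_lt_of_step {x V : ℕ → ℝ} {x0 c1 c2 M : ℝ} (hc1 : 0 ≤ c1) (hc2 : 0 < c2)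
    (hV : ∀ n, M ≤ V n) (hstep : ∀ n, c1 * (x n - x0) + c2 ≤ V n - V (n + 1)) :
    ∃ n, x n < x0 := by
  by_contra hcon
  push Not at hcon
  have hdec : ∀ k : ℕ, V k ≤ V 0 - k * c2 := by
    intro k
    induction k with
    | zero => simp
    | succ k ih =>
      have h1 := hstep k
      have h2 := mul_nonneg hc1 (sub_nonneg.2 (hcon k))
      push_cast
      linarith
  obtain ⟨k, hk⟩ := exists_nat_gt ((V 0 - M) / c2)
  rw [div_lt_iff₀ hc2] at hk
  have := hdec k
  have := hV k
  linarith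

lemma Bdd.le_J [NeZero q] {φ : (Fin q → ℝ) → ℝ} (hφ : Bdd φ) :
    ∃ K : ℝ, ∀ {Ω : Type} {L : Ω → Fin q → ℝ}, IsChan L → K ≤ J φ L := by
  obtain ⟨K, hK, hb⟩ := hφ
  refine ⟨-K, fun {Ω L} hL => ?_⟩
  have := hL.J_mono (bdd_avg.const_mul (-K)) ⟨K, hK, hb⟩ fun v hv => by
    have := (abs_le.1 (hb v hv)).1
    linarith
  rw [J_const_mul, hL.J_avg, mul_one] at this
  exact this

lemma pot_lower [NeZero q] {m : ℕ} {μ : Fin m → ℝ}
    (hμ : ∀ j, 0 ≤ μ j) {C : Fin m → (Fin q → ℝ) → ℝ} (hC : ∀ j, Bdd (C j)) {a : ℝ} (ha : 0 ≤ a) :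
    ∃ M : ℝ, ∀ {Ω : Type} {L : Ω → Fin q → ℝ}, LS L → M ≤ a * J skl L + ∑ j, μ j * J (C j) L := by
  choose K hK using fun j => (hC j).le_J
  refine ⟨∑ j, μ j * K j, fun {Ω L} hL => ?_⟩
  have h1 : ∑ j, μ j * K j ≤ ∑ j, μ j * J (C j) L :=
    Finset.sum_le_sum fun j _ => mul_le_mul_of_nonneg_left (hK j hL.chan) (hμ j)
  have h2 := mul_nonneg ha hL.J_skl_nonneg
  linarith

/-- regular trees: the pointwise inequality forces `J chi` below `x0` -/
theorem skl_reg [NeZero q] {b : ℕ} {lam a c1 c2 x0 : ℝ} (hl : Adm q lam) (h0 : lam ≤ 0)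
    (h1 : 0 < 1 + (q - 1) * lam) (ha : 0 ≤ a) (hc1 : 0 ≤ c1) (hc2 : 0 < c2) {m : ℕ}
    {μ : Fin m → ℝ} (hμ : ∀ j, 0 ≤ μ j) {C : Fin m → (Fin q → ℝ) → ℝ}
    (hC : ∀ j, LMul.{0} (C j)) (hpos : ∀ j, ∀ v : Fin q → ℝ, (∀ i, 0 ≤ v i) → 0 ≤ C j (W lam v))
    (H : ∀ f : Fin q → ℝ, (∀ i, 0 < f i) → avg f = 1 →
      c1 * (chi f - x0) + c2 ≤ a * (skl f - b * skl (W lam f)) +
        ∑ j, μ j * (C j f - Real.exp (-b * (1 - C j (W lam f))))) :
    ∃ n, J chi (reg q b lam n) < x0 := by
  obtain ⟨M, hM⟩ := pot_lower hμ (fun j => (hC j).bdd) ha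
  obtain ⟨n, hn⟩ := exists_lt_of_step (x := fun n => J chi (reg q b lam (n + 1)))
    (V := fun n => a * J skl (reg q b lam (n + 1)) + ∑ j, μ j * J (C j) (reg q b lam (n + 1)))
    (x0 := x0) hc1 hc2 (fun n => hM (ls_reg_succ b hl h0 h1 n)) (fun n => by
      refine skl_step (θ := b) (ls_reg_succ b hl h0 h1 n) hl h0 h1 hμ (fun j => (hC j).bdd)
        (fun j => (hC j).hom) (J_skl_reg_succ b hl h0 h1 (n + 1)) (fun j => ?_) H
      rw [(hC j).J_reg_succ b hl]
      set y := J (C j) (fun o => W lam (reg q b lam (n + 1) o)) with hy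
      have hy0 : 0 ≤ y := tsum_nonneg fun o => hpos j _ ((reg_isChan b hl (n + 1)).nonneg o)
      have hy1 : y ≤ Real.exp (y - 1) := by
        have := Real.add_one_le_exp (y - 1); linarith
      calc y ^ b ≤ Real.exp (y - 1) ^ b := pow_le_pow_left₀ hy0 hy1 b
        _ = Real.exp (-b * (1 - y)) := by
          rw [← Real.exp_nat_mul]; congr 1; ring)
  exact ⟨n + 1, hn⟩

/-- Poisson trees: the pointwise inequality forces `J chi` below `x0` -/
theorem skl_gw [NeZero q] {lam d a c1 c2 x0 : ℝ} (hd : 0 ≤ d) (hl : Adm q lam) (h0 : lam ≤ 0)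
    (h1 : 0 < 1 + (q - 1) * lam) (ha : 0 ≤ a) (hc1 : 0 ≤ c1) (hc2 : 0 < c2) {m : ℕ}
    {μ : Fin m → ℝ} (hμ : ∀ j, 0 ≤ μ j) {C : Fin m → (Fin q → ℝ) → ℝ}
    (hC : ∀ j, LMul.{0} (C j))
    (H : ∀ f : Fin q → ℝ, (∀ i, 0 < f i) → avg f = 1 →
      c1 * (chi f - x0) + c2 ≤ a * (skl f - d * skl (W lam f)) +
        ∑ j, μ j * (C j f - Real.exp (-d * (1 - C j (W lam f))))) :
    ∃ n, J chi (gw q lam d n) < x0 := by
  obtain ⟨M, hM⟩ := pot_lower hμ (fun j => (hC j).bdd) ha
  obtain ⟨n, hn⟩ := exists_lt_of_step (x := fun n => J chi (gw q lam d (n + 1)))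
    (V := fun n => a * J skl (gw q lam d (n + 1)) + ∑ j, μ j * J (C j) (gw q lam d (n + 1)))
    (x0 := x0) hc1 hc2 (fun n => hM (ls_gw_succ hd hl h0 h1 n)) (fun n => by
      refine skl_step (θ := d) (ls_gw_succ hd hl h0 h1 n) hl h0 h1 hμ (fun j => (hC j).bdd)
        (fun j => (hC j).hom) (J_skl_gw_succ hd hl h0 h1 (n + 1)) (fun j => ?_) H
      rw [(hC j).J_gw_succ hl hd])
  exact ⟨n + 1, hn⟩

end Crest.Agent.R163
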