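import Crest.Agent.R163.Pow
import Crest.Prelude.Def_TreeBroadcast

/-!
Row 163: broadcasting on a general locally finite tree: the law of level `n` as a product over
subtrees, and the channels of the subtrees.
-/

set_option autoImplicit false

namespace Crest.Agent.R163

open Crest.ProbabilityR.TreeBroadcast Crest.ProbabilityR.Broadcast

variable {V : Type*} [DecidableEq V] {q : ℕ}

/-- descendants of `v` exactly `k` generations below -/
def D (T : LocFinTree V) : ℕ → V → Finset V
  | 0, v => {v}
  | k + 1, v => (T.children v).biUnion (D T k)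

/-- likelihood of the spins `k` generations below `v`, as a function on all spin configurations -/
noncomputable def F (q : ℕ) (T : LocFinTree V) (lam : ℝ) : ℕ → V → (V → Fin q) → Fin q → ℝ
  | 0, v, τ, i => if τ v = i then 1 else 0
  | k + 1, v, τ, i => ∏ w ∈ T.children v, W lam (F q T lam k w τ) i

lemma mem_children {T : LocFinTree V} {v w : V} :
    w ∈ T.children v ↔ T.depth w = T.depth v + 1 ∧ T.parent w = v := by
  unfold LocFinTree.children
  rw [Finset.mem_filter, T.mem_level_iff]

lemma mem_D {T : LocFinTree V} {k : ℕ} {v w : V} (h : w ∈ D T k v) :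
    T.depth w = T.depth v + k ∧ T.parent^[k] w = v := by
  induction k generalizing v with
  | zero => simp [D] at h; simp [h]
  | succ k ih =>
    simp only [D, Finset.mem_biUnion] at h
    obtain ⟨u, hu, hw⟩ := h
    obtain ⟨h1, h2⟩ := ih hw
    obtain ⟨h3, h4⟩ := mem_children.1 hu
    refine ⟨by omega, ?_⟩
    rw [Function.iterate_succ_apply', h2, h4]

lemma D_disjoint {T : LocFinTree V} {k : ℕ} {v w : V} (h : v ≠ w) :
    Disjoint (D T k v) (D T k w) := by
  rw [Finset.disjoint_left]
  intro u h1 h2
  exact h ((mem_D h1).2.symm.trans (mem_D h2).2)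

/-- two configurations agreeing on `D k v` have the same likelihood -/
lemma F_congr (T : LocFinTree V) (lam : ℝ) (k : ℕ) (v : V) {τ τ' : V → Fin q}
    (h : ∀ w ∈ D T k v, τ w = τ' w) : F q T lam k v τ = F q T lam k v τ' := by
  induction k generalizing v with
  | zero => funext i; simp [F, h v (by simp [D])]
  | succ k ih =>
    funext i
    simp only [F]
    refine Finset.prod_congr rfl fun w hw => ?_
    rw [ih w fun u hu => h u ?_]
    simp only [D, Finset.mem_biUnion]
    exact ⟨w, hw, hu⟩

/-- extension of a partial configuration -/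
def ext [NeZero q] (A : Finset V) (τ : A → Fin q) : V → Fin q :=
  fun v => if h : v ∈ A then τ ⟨v, h⟩ else 0

lemma ext_mem [NeZero q] {A : Finset V} (τ : A → Fin q) {v : V} (h : v ∈ A) :
    ext A τ v = τ ⟨v, h⟩ := by simp [ext, h]

/-- `∏` over level `m+1` equals the product over level `m` of the products over children -/
lemma prod_level_succ {M : Type*} [CommMonoid M] (T : LocFinTree V) (m : ℕ) (g : V → M) :
    ∏ v ∈ T.level (m + 1), g v = ∏ u ∈ T.level m, ∏ v ∈ T.children u, g v := by
  rw [← Finset.prod_fiberwise_of_maps_to (s := T.level (m + 1)) (t := T.level m) (g := T.parent)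
    (fun v hv => by
      have hd : T.depth v = m + 1 := (T.mem_level_iff _ _).1 hv
      have hne : v ≠ T.root := fun h => by
        have := (T.depth_eq_zero_iff v).2 h
        omega
      have := T.depth_parent v hne
      exact (T.mem_level_iff _ _).2 (by omega))]
  refine Finset.prod_congr rfl fun u hu => ?_
  have hu' := (T.mem_level_iff _ _).1 hu
  unfold LocFinTree.children
  rw [hu']

lemma levelLaw_eq_aux [NeZero q] (T : LocFinTree V) (lam : ℝ) (n : ℕ) (i : Fin q)
    (τ : T.level n → Fin q) (k m : ℕ) (h : m + k = n) :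
    levelLaw q T lam n i τ = ∑ τ' : T.level m → Fin q, levelLaw q T lam m i τ' *
      ∏ v : T.level m, F q T lam k v (ext _ τ) (τ' v) := by
  induction k generalizing m with
  | zero =>
    have hm : m = n := by omega
    subst hm
    rw [Finset.sum_eq_single τ]
    · have : ∏ v : T.level m, F q T lam 0 v (ext _ τ) (τ v) = 1 := by
        refine Finset.prod_eq_one fun v _ => ?_
        simp [F, ext_mem τ v.2]
      rw [this, mul_one]
    · intro τ' _ hne
      have : ∃ v, τ v ≠ τ' v := by
        by_contra hcon
        push Not at hcon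
        exact hne (funext fun v => (hcon v).symm)
      obtain ⟨v, hv⟩ := this
      rw [Finset.prod_eq_zero (Finset.mem_univ v), mul_zero]
      simp [F, ext_mem τ v.2, hv]
    · intro h; exact absurd (Finset.mem_univ _) h
  | succ k ih =>
    rw [ih (m + 1) (by omega)]
    simp only [levelLaw, Finset.sum_mul]
    rw [Finset.sum_comm]
    refine Finset.sum_congr rfl fun τ' _ => ?_
    simp only [mul_assoc, ← Finset.mul_sum]
    congr 1
    have hpar : ∀ v : T.level (m + 1), T.parent v.1 ∈ T.level m := fun v => by
      have hd : T.depth v.1 = m + 1 := (T.mem_level_iff _ _).1 v.2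
      have hne : v.1 ≠ T.root := fun h => by
        have := (T.depth_eq_zero_iff v.1).2 h
        omega
      have := T.depth_parent v.1 hne
      exact (T.mem_level_iff _ _).2 (by omega)
    have h1 : ∀ τ'' : T.level (m + 1) → Fin q,
        (∏ v : T.level (m + 1), channel q lam (τ' ⟨T.parent v.1, hpar v⟩) (τ'' v)) *
          ∏ v : T.level (m + 1), F q T lam k v (ext _ τ) (τ'' v) =
        ∏ v : T.level (m + 1), channel q lam (τ' ⟨T.parent v.1, hpar v⟩) (τ'' v) *
              F q T lam k v (ext _ τ) (τ'' v) := fun τ'' => by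
      rw [Finset.prod_mul_distrib]
    have h2 := (Finset.prod_univ_sum (fun _ : T.level (m + 1) => (Finset.univ : Finset (Fin q)))
      (fun v j => channel q lam (τ' ⟨T.parent v.1, hpar v⟩) j *
        F q T lam k v (ext _ τ) j)).symm
    rw [Fintype.piFinset_univ] at h2
    calc (∑ τ'' : T.level (m + 1) → Fin q,
          (∏ v : T.level (m + 1), channel q lam (τ' ⟨T.parent v.1, hpar v⟩) (τ'' v)) *
          ∏ v : T.level (m + 1), F q T lam k v (ext _ τ) (τ'' v))
        = ∑ τ'' : T.level (m + 1) → Fin q,
          ∏ v : T.level (m + 1), channel q lam (τ' ⟨T.parent v.1, hpar v⟩) (τ'' v) *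
              F q T lam k v (ext _ τ) (τ'' v) := Finset.sum_congr rfl fun τ'' _ => h1 τ''
      _ = ∏ v : T.level (m + 1), ∑ j : Fin q, channel q lam (τ' ⟨T.parent v.1, hpar v⟩) j *
              F q T lam k v (ext _ τ) j := h2
      _ = ∏ v : T.level (m + 1), W lam (F q T lam k v (ext _ τ))
              (ext (T.level m) τ' (T.parent v.1)) := by
          refine Finset.prod_congr rfl fun v _ => ?_
          rw [channel_sum, ext_mem τ' (hpar v)]
      _ = ∏ v ∈ T.level (m + 1), W lam (F q T lam k v (ext _ τ))
              (ext (T.level m) τ' (T.parent v)) :=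
          Finset.prod_coe_sort (T.level (m + 1)) fun v => W lam (F q T lam k v (ext _ τ))
              (ext (T.level m) τ' (T.parent v))
      _ = ∏ u ∈ T.level m, F q T lam (k + 1) u (ext _ τ) (ext (T.level m) τ' u) := by
          rw [prod_level_succ]
          refine Finset.prod_congr rfl fun u _ => ?_
          simp only [F]
          refine Finset.prod_congr rfl fun v hv => ?_
          rw [(mem_children.1 hv).2]
      _ = ∏ v : T.level m, F q T lam (k + 1) v (ext _ τ) (ext (T.level m) τ' v) :=
          (Finset.prod_coe_sort (T.level m) fun v =>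
            F q T lam (k + 1) v (ext _ τ) (ext (T.level m) τ' v)).symm
      _ = _ := by
          refine Finset.prod_congr rfl fun v _ => ?_
          rw [ext_mem τ' v.2]

lemma level_zero (T : LocFinTree V) : T.level 0 = {T.root} := by
  ext v
  rw [T.mem_level_iff, T.depth_eq_zero_iff, Finset.mem_singleton]

/-- the law of level `n` through the subtree recursion -/
theorem levelLaw_eq [NeZero q] (T : LocFinTree V) (lam : ℝ) (n : ℕ) (i : Fin q)
    (τ : T.level n → Fin q) :
    levelLaw q T lam n i τ = F q T lam n T.root (ext _ τ) i := by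
  rw [levelLaw_eq_aux T lam n i τ n 0 (by omega)]
  have hroot : T.root ∈ T.level 0 := (T.mem_level_iff 0 T.root).2 ((T.depth_eq_zero_iff T.root).2 rfl)
  have huniq : ∀ v : T.level 0, v = ⟨T.root, hroot⟩ := fun v => by
    have := v.2
    rw [T.mem_level_iff, T.depth_eq_zero_iff] at this
    exact Subtype.ext this
  rw [Finset.sum_eq_single (fun _ => i)]
  · have h1 : levelLaw q T lam 0 i (fun _ => i) = 1 := by simp [levelLaw]
    rw [h1, one_mul]
    rw [Fintype.prod_eq_single (⟨T.root, hroot⟩ : T.level 0) fun v hv => absurd (huniq v) hv]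
  · intro τ' _ hne
    have : τ' ⟨T.root, hroot⟩ ≠ i := fun h => hne (funext fun v => by rw [huniq v]; exact h)
    simp [levelLaw, this]
  · intro h; exact absurd (Finset.mem_univ _) h

lemma D_root (T : LocFinTree V) (n : ℕ) : D T n T.root = T.level n := by
  have key : ∀ k m : ℕ, T.level (m + k) = (T.level m).biUnion (D T k) := by
    intro k
    induction k with
    | zero => intro m; ext v; simp [D]
    | succ k ih =>
      intro m
      rw [show m + (k + 1) = (m + 1) + k by omega, ih (m + 1)]
      ext v
      simp only [Finset.mem_biUnion, D]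
      constructor
      · rintro ⟨u, hu, hv⟩
        have hd : T.depth u = m + 1 := (T.mem_level_iff _ _).1 hu
        have hne : u ≠ T.root := fun h => by
          have := (T.depth_eq_zero_iff u).2 h
          omega
        have hp := T.depth_parent u hne
        refine ⟨T.parent u, (T.mem_level_iff _ _).2 (by omega), u, ?_, hv⟩
        rw [mem_children]
        exact ⟨by omega, rfl⟩
      · rintro ⟨w, hw, u, hu, hv⟩
        have hd : T.depth w = m := (T.mem_level_iff _ _).1 hw
        have := mem_children.1 hu
        exact ⟨u, (T.mem_level_iff _ _).2 (by omega), hv⟩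
  have := key n 0
  rw [Nat.zero_add, level_zero, Finset.singleton_biUnion] at this
  exact this.symm

/-! ### channels attached to finite sets of vertices -/

/-- the channel of a configuration functional restricted to `A` -/
def res [NeZero q] (A : Finset V) (G : (V → Fin q) → Fin q → ℝ) : (A → Fin q) → Fin q → ℝ :=
  fun τ => G (ext A τ)

/-- `G` depends only on the spins in `A` -/
def DepOn (A : Finset V) (G : (V → Fin q) → Fin q → ℝ) : Prop :=
  ∀ τ τ' : V → Fin q, (∀ v ∈ A, τ v = τ' v) → G τ = G τ'

/-- splitting of configurations on a disjoint union -/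
def splitEquiv (q : ℕ) {A B : Finset V} (h : Disjoint A B) :
    (↥(A ∪ B) → Fin q) ≃ (A → Fin q) × (B → Fin q) :=
  ((Equiv.Finset.union A B h).symm.arrowCongr (Equiv.refl _)).trans (Equiv.sumArrowEquivProdArrow _ _ _)

lemma splitEquiv_fst {A B : Finset V} (h : Disjoint A B) (τ : ↥(A ∪ B) → Fin q) (a : A) :
    (splitEquiv q h τ).1 a = τ ⟨a.1, Finset.mem_union_left _ a.2⟩ := rfl

lemma splitEquiv_snd {A B : Finset V} (h : Disjoint A B) (τ : ↥(A ∪ B) → Fin q) (b : B) :
    (splitEquiv q h τ).2 b = τ ⟨b.1, Finset.mem_union_right _ b.2⟩ := rfl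

lemma res_union [NeZero q] {A B : Finset V} (h : Disjoint A B)
    {G₁ G₂ : (V → Fin q) → Fin q → ℝ} (h₁ : DepOn A G₁) (h₂ : DepOn B G₂)
    (τ : ↥(A ∪ B) → Fin q) :
    res (A ∪ B) (fun τ i => G₁ τ i * G₂ τ i) τ = mrg (res A G₁) (res B G₂) (splitEquiv q h τ) := by
  funext i
  have e1 : G₁ (ext (A ∪ B) τ) = G₁ (ext A (splitEquiv q h τ).1) := h₁ _ _ fun v hv => by
    rw [ext_mem _ (Finset.mem_union_left _ hv), ext_mem _ hv, splitEquiv_fst]
  have e2 : G₂ (ext (A ∪ B) τ) = G₂ (ext B (splitEquiv q h τ).2) := h₂ _ _ fun v hv => by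
    rw [ext_mem _ (Finset.mem_union_right _ hv), ext_mem _ hv, splitEquiv_snd]
  simp only [res, mrg, e1, e2]

lemma res_union_isChan [NeZero q] {A B : Finset V} (h : Disjoint A B)
    {G₁ G₂ : (V → Fin q) → Fin q → ℝ} (h₁ : DepOn A G₁) (h₂ : DepOn B G₂)
    (c₁ : IsChan (res A G₁)) (c₂ : IsChan (res B G₂)) :
    IsChan (res (A ∪ B) (fun τ i => G₁ τ i * G₂ τ i)) := by
  have := (c₁.mrg c₂).reindex (splitEquiv q h)
  have h3 : (fun o => R163.mrg (res A G₁) (res B G₂) (splitEquiv q h o)) =
      res (A ∪ B) (fun τ i => G₁ τ i * G₂ τ i) := by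
    funext o
    rw [res_union h h₁ h₂]
  rwa [h3] at this

lemma J_res_union [NeZero q] {A B : Finset V} (h : Disjoint A B)
    {G₁ G₂ : (V → Fin q) → Fin q → ℝ} (h₁ : DepOn A G₁) (h₂ : DepOn B G₂)
    (φ : (Fin q → ℝ) → ℝ) :
    J φ (res (A ∪ B) (fun τ i => G₁ τ i * G₂ τ i)) = J φ (mrg (res A G₁) (res B G₂)) := by
  rw [← J_equiv (splitEquiv q h) φ (mrg (res A G₁) (res B G₂))]
  unfold J
  exact tsum_congr fun o => by rw [res_union h h₁ h₂]

end Crest.Agent.R163
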