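import Crest.Agent.R163.WinD0

/-! Row 163, window engine: kernel checks, part 1 (generated). -/

set_option autoImplicit false
set_option maxRecDepth 1000000

namespace Crest.Agent.R163.Win


theorem cBp_0 : chk false SB (nat_lit 281474976710656) FS PSp PBp ABp HBp
    (.Y (nat_lit 4398056427309) (.X (nat_lit 4398056427309) (.Y (nat_lit 1099512165299) (.X (nat_lit 1099512165299) (.Y (nat_lit 274878385149) (.X (nat_lit 274878385149) (.Y (nat_lit 68719689911) (.X (nat_lit 68719689911) (.Y (nat_lit 17179906255) (.X (nat_lit 17179906255) (.Y (nat_lit 4294982693) .L (.Y (nat_lit 10737443367) .L .L)) (.X (nat_lit 42949789691) (.X (nat_lit 30064859643) (.Y (nat_lit 4294982693) .L (.Y (nat_lit 10737443367) .L .L)) (.Y (nat_lit 4294982693) .L (.Y (nat_lit 10737443367) .L .L))) (.Y (nat_lit 4294982693) .L (.Y (nat_lit 10737443367) .L .L)))) (.Y (nat_lit 42949789691) (.Y (nat_lit 30064859643) (.X (nat_lit 17179906255) .L (.X (nat_lit 42949789691) (.X (nat_lit 30064859643) .L .L) .L)) (.X (nat_lit 17179906255)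 .L (.X (nat_lit 42949789691) (.X (nat_lit 30064859643) .L .L) .L))) (.X (nat_lit 17179906255) .L (.X (nat_lit 42949789691) .L .L)))) (.X (nat_lit 171799048055) (.X (nat_lit 120259314071) (.Y (nat_lit 17179906255) (.Y (nat_lit 4294982693) .L (.Y (nat_lit 10737443367) .L .L)) (.Y (nat_lit 42949789691) (.Y (nat_lit 30064859643) .L .L) (.X (nat_lit 94489297717) .L .L))) (.Y (nat_lit 17179906255) (.Y (nat_lit 4294982693) .L (.Y (nat_lit 10737443367) .L .L)) (.Y (nat_lit 42949789691) (.Y (nat_lit 30064859643) .L .L) .L))) (.Y (nat_lit 17179906255) (.Y (nat_lit 4294982693) .L (.Y (nat_lit 10737443367) .L .L)) (.Y (nat_lit 42949789691) (.Y (nat_lit 30064859643) .L .L) .L)))) (.Y (nat_lit 171799048055) (.Y (nat_lit 120259314071) (.X (nat_lit 68719689911) .L (.X (nat_lit 171799048055) (.X (nat_lit 120259314071) (.Y (nat_lit 94489297717) (.X (nat_lit 94489297717) .L .L) (.X (nat_lit 94489297717) .L .L)) (.Y (nat_lit 94489297717) .L .L)) (.Y (nat_lit 94489297717) .L .L))) (.X (nat_lit 68719689911) .L (.X (nat_lit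 171799048055) (.X (nat_lit 120259314071) .L .L) (.X (nat_lit 223338730003) .L .L)))) (.X (nat_lit 68719689911) .L (.X (nat_lit 171799048055) .L (.Y (nat_lit 223338730003) (.X (nat_lit 223338730003) .L .L) (.X (nat_lit 223338730003) .L .L)))))) (.X (nat_lit 687195064233) (.X (nat_lit 481037143767) (.Y (nat_lit 68719689911) (.Y (nat_lit 17179906255) (.X (nat_lit 377958558321) (.Y (nat_lit 4294982693) .L (.Y (nat_lit 10737443367) .L .L)) (.Y (nat_lit 4294982693) .L (.Y (nat_lit 10737443367) .L .L))) (.Y (nat_lit 42949789691) (.Y (nat_lit 30064859643) .L .L) (.X (nat_lit 377958558321) .L .L))) (.Y (nat_lit 171799048055) (.Y (nat_lit 120259314071) (.X (nat_lit 377958558321) (.Y (nat_lit 94489297717) .L .L) .L) (.X (nat_lit 377958558321) .L .L)) (.X (nat_lit 377958558321) (.Y (nat_lit 223338730003) .L .L) (.Y (nat_lit 223338730003) .L .L)))) (.Y (nat_lit 68719689911) (.Y (nat_lit 17179906255) (.Y (nat_lit 4294982693) .L (.Y (nat_lit 10737443367) .L .L)) (.Y (nat_lit 42949789691) .L .L)) (.Y (nat_lit 171799048055)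 (.Y (nat_lit 120259314071) .L .L) (.Y (nat_lit 223338730003) .L .L)))) (.Y (nat_lit 68719689911) (.Y (nat_lit 17179906255) (.X (nat_lit 893353266673) .L .L) (.Y (nat_lit 42949789691) .L .L)) (.Y (nat_lit 171799048055) (.Y (nat_lit 120259314071) .L .L) (.X (nat_lit 893353266673) .L .L))))) (.Y (nat_lit 687195064233) (.Y (nat_lit 481037143767) (.X (nat_lit 274878385149) .L (.X (nat_lit 687195064233) (.X (nat_lit 481037143767) (.Y (nat_lit 377958558321) (.X (nat_lit 377958558321) (.Y (nat_lit 326418335021) .L .L) .L) (.X (nat_lit 377958558321) .L .L)) (.Y (nat_lit 377958558321) (.X (nat_lit 584117290981) .L .L) (.X (nat_lit 584117290981) .L .L))) (.Y (nat_lit 377958558321) (.X (nat_lit 893353266673) .L .L) (.X (nat_lit 893353266673) .L .L)))) (.X (nat_lit 274878385149) .L (.X (nat_lit 687195064233) (.X (nat_lit 481037143767) .L (.Y (nat_lit 584117290981) (.X (nat_lit 584117290981) .L .L) (.X (nat_lit 584117290981) .L .L))) (.X (nat_lit 893353266673) (.Y (nat_lit 584117290981) .L .L) .L)))) (.X (nat_lit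 274878385149) .L (.X (nat_lit 687195064233) .L (.Y (nat_lit 893353266673) (.X (nat_lit 893353266673) .L .L) (.X (nat_lit 893353266673) .L .L)))))) (.X (nat_lit 2748783752683) (.X (nat_lit 1924146399035) (.Y (nat_lit 274878385149) (.Y (nat_lit 68719689911) (.X (nat_lit 1511832218805) (.Y (nat_lit 17179906255) .L (.Y (nat_lit 42949789691) .L .L)) (.Y (nat_lit 17179906255) .L (.Y (nat_lit 42949789691) .L .L))) (.Y (nat_lit 171799048055) (.Y (nat_lit 120259314071) .L .L) (.X (nat_lit 1511832218805) .L .L))) (.Y (nat_lit 687195064233) (.Y (nat_lit 481037143767) (.X (nat_lit 1511832218805) (.Y (nat_lit 377958558321) .L .L) .L) (.X (nat_lit 1511832218805) .L .L)) (.X (nat_lit 1511832218805) (.Y (nat_lit 893353266673) .L .L) .L))) (.Y (nat_lit 274878385149) (.Y (nat_lit 68719689911) (.Y (nat_lit 17179906255) .L (.Y (nat_lit 42949789691) .L .L)) (.Y (nat_lit 171799048055) (.Y (nat_lit 120259314071) .L .L) .L)) (.Y (nat_lit 687195064233) (.Y (nat_lit 481037143767) .L .L) .L))) (.Y (nat_lit 274878385149) (.Y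 (nat_lit 68719689911) (.X (nat_lit 3573424291335) (.Y (nat_lit 17179906255) .L (.Y (nat_lit 42949789691) .L .L)) (.Y (nat_lit 17179906255) .L (.Y (nat_lit 42949789691) .L .L))) (.Y (nat_lit 171799048055) (.Y (nat_lit 120259314071) .L .L) .L)) (.Y (nat_lit 687195064233) (.Y (nat_lit 481037143767) .L .L) (.X (nat_lit 3573424291335) .L .L))))) (.Y (nat_lit 2748783752683) (.Y (nat_lit 1924146399035) (.X (nat_lit 1099512165299) .L (.X (nat_lit 2748783752683) (.X (nat_lit 1924146399035) (.Y (nat_lit 1511832218805) (.X (nat_lit 1511832218805) .L .L) (.X (nat_lit 1511832218805) .L .L)) (.Y (nat_lit 1511832218805) .L .L)) (.Y (nat_lit 1511832218805) .L .L))) (.X (nat_lit 1099512165299) .L (.X (nat_lit 2748783752683) (.X (nat_lit 1924146399035) .L .L) (.X (nat_lit 3573424291335) .L .L)))) (.X (nat_lit 1099512165299) .L (.X (nat_lit 2748783752683) .L (.Y (nat_lit 3573424291335) .L .L))))) (.X (nat_lit 10995117811905) (.X (nat_lit 7696603950747) (.Y (nat_lit 1099512165299) (.Y (nat_lit 274878385149) (.X (nat_lit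 6047325905245) (.Y (nat_lit 68719689911) (.Y (nat_lit 17179906255) .L (.Y (nat_lit 42949789691) .L .L)) (.Y (nat_lit 171799048055) .L .L)) (.Y (nat_lit 68719689911) (.Y (nat_lit 17179906255) .L (.Y (nat_lit 42949789691) .L .L)) (.Y (nat_lit 171799048055) .L .L))) (.Y (nat_lit 687195064233) (.Y (nat_lit 481037143767) (.X (nat_lit 6047325905245) .L .L) (.X (nat_lit 6047325905245) .L .L)) (.X (nat_lit 6047325905245) .L .L))) (.Y (nat_lit 2748783752683) (.Y (nat_lit 1924146399035) (.X (nat_lit 6047325905245) (.Y (nat_lit 1511832218805) .L .L) (.Y (nat_lit 1511832218805) .L .L)) (.X (nat_lit 6047325905245) .L .L)) (.X (nat_lit 6047325905245) (.Y (nat_lit 3573424291335) .L .L) (.Y (nat_lit 3573424291335) .L .L)))) (.Y (nat_lit 1099512165299) (.Y (nat_lit 274878385149) (.Y (nat_lit 68719689911) (.Y (nat_lit 17179906255) .L (.Y (nat_lit 42949789691) .L .L)) (.Y (nat_lit 171799048055) .L .L)) (.Y (nat_lit 687195064233) (.Y (nat_lit 481037143767) .L .L) .L)) (.Y (nat_lit 2748783752683) (.Y (nat_lit 1924146399035)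 (.Y (nat_lit 1511832218805) .L .L) .L) (.Y (nat_lit 3573424291335) .L .L)))) (.Y (nat_lit 1099512165299) (.Y (nat_lit 274878385149) (.X (nat_lit 14293672086315) (.Y (nat_lit 68719689911) (.Y (nat_lit 17179906255) .L (.Y (nat_lit 42949789691) .L .L)) (.Y (nat_lit 171799048055) .L .L)) (.Y (nat_lit 68719689911) (.Y (nat_lit 17179906255) .L (.Y (nat_lit 42949789691) .L .L)) (.Y (nat_lit 171799048055) .L .L))) (.Y (nat_lit 687195064233) (.Y (nat_lit 481037143767) .L .L) (.X (nat_lit 14293672086315) .L .L))) (.Y (nat_lit 2748783752683) (.Y (nat_lit 1924146399035) (.X (nat_lit 14293672086315) (.Y (nat_lit 1511832218805) .L .L) (.Y (nat_lit 1511832218805) .L .L)) (.X (nat_lit 14293672086315) .L .L)) (.X (nat_lit 14293672086315) (.Y (nat_lit 3573424291335) .L .L) (.Y (nat_lit 3573424291335) .L .L)))))) (.Y (nat_lit 10995117811905) (.Y (nat_lit 7696603950747) (.X (nat_lit 4398056427309) .L (.X (nat_lit 10995117811905) (.X (nat_lit 7696603950747) (.Y (nat_lit 6047325905245) (.X (nat_lit 6047325905245) .L .L)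 (.X (nat_lit 6047325905245) .L .L)) (.Y (nat_lit 6047325905245) (.X (nat_lit 9345874287341) .L .L) (.X (nat_lit 9345874287341) .L .L))) (.Y (nat_lit 6047325905245) (.X (nat_lit 14293672086315) (.Y (nat_lit 5222697640297) .L .L) .L) (.X (nat_lit 14293672086315) .L .L)))) (.X (nat_lit 4398056427309) .L (.X (nat_lit 10995117811905) (.X (nat_lit 7696603950747) .L (.Y (nat_lit 9345874287341) (.X (nat_lit 9345874287341) .L .L) (.X (nat_lit 9345874287341) .L .L))) (.X (nat_lit 14293672086315) (.Y (nat_lit 9345874287341) .L .L) (.Y (nat_lit 9345874287341) .L .L))))) (.X (nat_lit 4398056427309) .L (.X (nat_lit 10995117811905) .L (.Y (nat_lit 14293672086315) (.X (nat_lit 14293672086315) (.Y (nat_lit 12644405116151) .L .L) (.Y (nat_lit 12644405116151) .L .L)) (.X (nat_lit 14293672086315) .L (.Y (nat_lit 15942965825457) .L .L)))))))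
    (nat_lit 0) (nat_lit 17592208417917) (nat_lit 0) (nat_lit 17592208417917) = true := by
  decide +kernel

theorem cBp_1 : chk false SB (nat_lit 281474976710656) FS PSp PBp ABp HBp
    (.X (nat_lit 43980496067731) (.X (nat_lit 30786374392855) (.Y (nat_lit 4398056427309) (.Y (nat_lit 1099512165299) (.X (nat_lit 24189277726735) (.Y (nat_lit 274878385149) (.Y (nat_lit 68719689911) (.Y (nat_lit 17179906255) (.X (nat_lit 20890763476655) .L (.Y (nat_lit 4294982693) .L (.Y (nat_lit 10737443367) .L .L))) (.Y (nat_lit 42949789691) .L .L)) (.Y (nat_lit 171799048055) .L .L)) (.Y (nat_lit 687195064233) (.Y (nat_lit 481037143767) .L .L) .L)) (.Y (nat_lit 274878385149) (.Y (nat_lit 68719689911) (.Y (nat_lit 17179906255) (.Y (nat_lit 4294982693) .L (.Y (nat_lit 10737443367) .L .L)) (.Y (nat_lit 42949789691) .L .L)) (.Y (nat_lit 171799048055) .L .L)) (.Y (nat_lit 687195064233) (.Y (nat_lit 481037143767) .L .L) .L))) (.Y (nat_lit 2748783752683) (.Y (nat_lit 1924146399035) (.X (nat_lit 24189277726735) (.Y (nat_lit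 1511832218805) .L .L) (.Y (nat_lit 1511832218805) .L .L)) (.X (nat_lit 24189277726735) (.X (nat_lit 20890763476655) .L .L) (.Y (nat_lit 2336467489929) .L .L))) (.X (nat_lit 24189277726735) (.Y (nat_lit 3573424291335) (.X (nat_lit 20890763476655) .L .L) (.X (nat_lit 20890763476655) .L .L)) (.Y (nat_lit 3573424291335) .L .L)))) (.Y (nat_lit 10995117811905) (.Y (nat_lit 7696603950747) (.X (nat_lit 24189277726735) (.Y (nat_lit 6047325905245) (.X (nat_lit 20890763476655) .L .L) (.X (nat_lit 20890763476655) .L .L)) (.Y (nat_lit 6047325905245) (.Y (nat_lit 5222697640297) .L .L) (.X (nat_lit 27487880922633) .L .L))) (.X (nat_lit 24189277726735) (.Y (nat_lit 9345874287341) (.X (nat_lit 20890763476655) .L .L) (.X (nat_lit 20890763476655) .L .L)) (.Y (nat_lit 9345874287341) (.X (nat_lit 27487880922633) .L .L) (.X (nat_lit 27487880922633) .L .L)))) (.X (nat_lit 24189277726735) (.Y (nat_lit 14293672086315) (.X (nat_lit 20890763476655) (.Y (nat_lit 12644405116151) .L .L) (.Y (nat_lit 12644405116151) .L .L)) (.X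 (nat_lit 20890763476655) (.Y (nat_lit 15942965825457) .L .L) (.Y (nat_lit 15942965825457) .L .L))) (.Y (nat_lit 14293672086315) (.X (nat_lit 27487880922633) (.Y (nat_lit 12644405116151) .L .L) (.Y (nat_lit 12644405116151) .L .L)) (.X (nat_lit 27487880922633) (.Y (nat_lit 15942965825457) .L .L) (.Y (nat_lit 15942965825457) .L .L)))))) (.Y (nat_lit 4398056427309) (.Y (nat_lit 1099512165299) (.Y (nat_lit 274878385149) (.Y (nat_lit 68719689911) (.X (nat_lit 37383470646837) (.Y (nat_lit 17179906255) (.Y (nat_lit 4294982693) .L (.Y (nat_lit 10737443367) .L .L)) (.Y (nat_lit 42949789691) .L .L)) (.Y (nat_lit 17179906255) (.Y (nat_lit 4294982693) .L (.Y (nat_lit 10737443367) .L .L)) (.Y (nat_lit 42949789691) .L .L))) (.Y (nat_lit 171799048055) (.Y (nat_lit 120259314071) .L .L) .L)) (.Y (nat_lit 687195064233) (.Y (nat_lit 481037143767) .L .L) (.X (nat_lit 37383470646837) .L .L))) (.Y (nat_lit 2748783752683) (.Y (nat_lit 1924146399035) (.Y (nat_lit 1511832218805) (.X (nat_lit 37383470646837) .L .L) (.X (nat_lit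 37383470646837) .L .L)) (.X (nat_lit 37383470646837) .L .L)) (.Y (nat_lit 3573424291335) (.X (nat_lit 37383470646837) .L .L) (.X (nat_lit 37383470646837) .L .L)))) (.Y (nat_lit 10995117811905) (.Y (nat_lit 7696603950747) (.Y (nat_lit 6047325905245) (.X (nat_lit 37383470646837) (.Y (nat_lit 5222697640297) .L .L) (.Y (nat_lit 5222697640297) .L .L)) (.X (nat_lit 37383470646837) (.Y (nat_lit 6871973121665) .L .L) (.Y (nat_lit 6871973121665) .L .L))) (.X (nat_lit 37383470646837) (.Y (nat_lit 9345874287341) (.X (nat_lit 34084948931449) .L .L) (.X (nat_lit 34084948931449) .L .L)) (.Y (nat_lit 9345874287341) (.X (nat_lit 40682050965857) .L .L) (.X (nat_lit 40682050965857) .L .L)))) (.Y (nat_lit 14293672086315) (.X (nat_lit 37383470646837) (.Y (nat_lit 12644405116151) (.X (nat_lit 34084948931449) .L .L) (.X (nat_lit 34084948931449) .L .L)) (.Y (nat_lit 12644405116151) (.X (nat_lit 40682050965857) .L .L) (.X (nat_lit 40682050965857) .L .L))) (.X (nat_lit 37383470646837) (.X (nat_lit 34084948931449) (.Y (nat_lit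 15942965825457) .L .L) (.Y (nat_lit 15942965825457) .L .L)) (.Y (nat_lit 15942965825457) (.X (nat_lit 40682050965857) .L .L) (.X (nat_lit 40682050965857) .L .L))))))) (.Y (nat_lit 4398056427309) (.Y (nat_lit 1099512165299) (.Y (nat_lit 274878385149) (.X (nat_lit 57174647204107) (.Y (nat_lit 68719689911) (.Y (nat_lit 17179906255) (.X (nat_lit 50577605471125) (.Y (nat_lit 4294982693) .L (.Y (nat_lit 10737443367) .L .L)) (.Y (nat_lit 4294982693) (.Y (nat_lit 1073742511) .L (.Y (nat_lit 2684358039) .L .L)) (.Y (nat_lit 10737443367) .L .L))) (.Y (nat_lit 42949789691) .L .L)) (.Y (nat_lit 171799048055) (.Y (nat_lit 120259314071) .L .L) .L)) (.Y (nat_lit 68719689911) (.Y (nat_lit 17179906255) (.Y (nat_lit 4294982693) (.X (nat_lit 63771679804411) (.Y (nat_lit 1073742511) .L (.Y (nat_lit 2684358039) .L .L)) (.Y (nat_lit 1073742511) .L (.Y (nat_lit 2684358039) .L .L))) (.Y (nat_lit 10737443367) .L .L)) (.Y (nat_lit 42949789691) .L .L)) (.Y (nat_lit 171799048055) (.Y (nat_lit 120259314071) .L .L) .L))) (.Y (nat_lit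 687195064233) (.Y (nat_lit 481037143767) (.X (nat_lit 57174647204107) .L .L) (.X (nat_lit 57174647204107) .L .L)) (.X (nat_lit 57174647204107) (.Y (nat_lit 893353266673) .L .L) .L))) (.Y (nat_lit 2748783752683) (.Y (nat_lit 1924146399035) (.X (nat_lit 57174647204107) (.Y (nat_lit 1511832218805) .L .L) (.Y (nat_lit 1511832218805) .L .L)) (.X (nat_lit 57174647204107) (.X (nat_lit 50577605471125) .L .L) (.Y (nat_lit 2336467489929) .L .L))) (.X (nat_lit 57174647204107) (.Y (nat_lit 3573424291335) (.X (nat_lit 50577605471125) .L .L) (.X (nat_lit 50577605471125) .L .L)) (.Y (nat_lit 3573424291335) (.X (nat_lit 63771679804411) .L .L) (.X (nat_lit 63771679804411) .L .L))))) (.Y (nat_lit 10995117811905) (.Y (nat_lit 7696603950747) (.X (nat_lit 57174647204107) (.Y (nat_lit 6047325905245) (.X (nat_lit 50577605471125) (.Y (nat_lit 5222697640297) .L .L) (.Y (nat_lit 5222697640297) .L .L)) (.X (nat_lit 50577605471125) (.Y (nat_lit 6871973121665) .L .L) (.Y (nat_lit 6871973121665) .L .L))) (.Y (nat_lit 6047325905245)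 (.Y (nat_lit 5222697640297) (.X (nat_lit 63771679804411) .L .L) (.X (nat_lit 63771679804411) .L .L)) (.X (nat_lit 63771679804411) (.Y (nat_lit 6871973121665) .L .L) (.Y (nat_lit 6871973121665) .L .L)))) (.X (nat_lit 57174647204107) (.Y (nat_lit 9345874287341) (.X (nat_lit 50577605471125) (.Y (nat_lit 8521219738367) .L .L) (.Y (nat_lit 8521219738367) .L .L)) (.X (nat_lit 50577605471125) (.X (nat_lit 47279053332153) .L .L) .L)) (.Y (nat_lit 9345874287341) (.X (nat_lit 63771679804411) .L .L) (.X (nat_lit 63771679804411) .L .L)))) (.X (nat_lit 57174647204107) (.Y (nat_lit 14293672086315) (.X (nat_lit 50577605471125) (.Y (nat_lit 12644405116151) (.X (nat_lit 47279053332153) .L .L) (.X (nat_lit 47279053332153) .L .L)) (.Y (nat_lit 12644405116151) .L .L)) (.X (nat_lit 50577605471125) (.Y (nat_lit 15942965825457) (.X (nat_lit 47279053332153) .L .L) (.X (nat_lit 47279053332153) .L .L)) (.Y (nat_lit 15942965825457) .L .L))) (.Y (nat_lit 14293672086315) (.Y (nat_lit 12644405116151) (.X (nat_lit 63771679804411)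 .L .L) (.X (nat_lit 63771679804411) .L .L)) (.X (nat_lit 63771679804411) (.Y (nat_lit 15942965825457) .L .L) (.Y (nat_lit 15942965825457) .L .L)))))))
    (nat_lit 17592208417917) (nat_lit 70368900064303) (nat_lit 0) (nat_lit 17592208417917) = true := by
  decide +kernel

theorem cBp_2 : chk false SB (nat_lit 281474976710656) FS PSp PBp ABp HBp
    (.Y (nat_lit 43980496067731) (.Y (nat_lit 30786374392855) (.X (nat_lit 17592208417917) .L (.X (nat_lit 43980496067731) (.X (nat_lit 30786374392855) (.Y (nat_lit 24189277726735) (.X (nat_lit 24189277726735) (.Y (nat_lit 20890763476655) (.X (nat_lit 20890763476655) (.Y (nat_lit 19241486395023) .L .L) (.Y (nat_lit 19241486395023) .L .L)) (.X (nat_lit 20890763476655) .L (.Y (nat_lit 22540069890139) .L .L))) (.Y (nat_lit 20890763476655) (.X (nat_lit 27487880922633) (.Y (nat_lit 19241486395023) .L .L) (.Y (nat_lit 19241486395023) .L .L)) (.X (nat_lit 27487880922633) (.Y (nat_lit 22540069890139) .L .L) (.Y (nat_lit 22540069890139) .L .L)))) (.X (nat_lit 24189277726735)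 .L (.Y (nat_lit 27487880922633) (.X (nat_lit 27487880922633) (.Y (nat_lit 25838524903645) .L .L) (.Y (nat_lit 25838524903645) .L .L)) (.X (nat_lit 27487880922633) .L (.Y (nat_lit 29137069904733) .L .L))))) (.Y (nat_lit 24189277726735) (.X (nat_lit 37383470646837) (.Y (nat_lit 20890763476655) (.X (nat_lit 34084948931449) (.Y (nat_lit 19241486395023) .L .L) (.Y (nat_lit 19241486395023) .L .L)) (.X (nat_lit 34084948931449) (.Y (nat_lit 22540069890139) .L .L) (.Y (nat_lit 22540069890139) .L .L))) (.Y (nat_lit 20890763476655) (.X (nat_lit 40682050965857) (.Y (nat_lit 19241486395023) .L .L) (.Y (nat_lit 19241486395023) .L .L)) (.X (nat_lit 40682050965857) (.Y (nat_lit 22540069890139) .L .L) (.Y (nat_lit 22540069890139) .L .L)))) (.X (nat_lit 37383470646837) (.Y (nat_lit 27487880922633) (.X (nat_lit 34084948931449) (.Y (nat_lit 25838524903645) .L .L) (.Y (nat_lit 25838524903645) .L .L)) (.X (nat_lit 34084948931449) (.Y (nat_lit 29137069904733) .L .L) (.Y (nat_lit 29137069904733) .L .L))) (.Y (nat_lit 27487880922633)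 (.X (nat_lit 40682050965857) (.Y (nat_lit 25838524903645) .L .L) (.Y (nat_lit 25838524903645) .L .L)) (.X (nat_lit 40682050965857) (.Y (nat_lit 29137069904733) .L .L) .L))))) (.Y (nat_lit 24189277726735) (.X (nat_lit 57174647204107) (.Y (nat_lit 20890763476655) (.X (nat_lit 50577605471125) (.Y (nat_lit 19241486395023) (.X (nat_lit 47279053332153) .L .L) (.X (nat_lit 47279053332153) .L .L)) (.Y (nat_lit 19241486395023) .L .L)) (.X (nat_lit 50577605471125) (.X (nat_lit 47279053332153) (.Y (nat_lit 22540069890139) .L .L) (.Y (nat_lit 22540069890139) .L .L)) (.Y (nat_lit 22540069890139) .L .L))) (.Y (nat_lit 20890763476655) (.X (nat_lit 63771679804411) (.Y (nat_lit 19241486395023) .L .L) (.Y (nat_lit 19241486395023) .L .L)) (.X (nat_lit 63771679804411) (.Y (nat_lit 22540069890139) .L .L) (.Y (nat_lit 22540069890139) .L .L)))) (.X (nat_lit 57174647204107) (.X (nat_lit 50577605471125) (.Y (nat_lit 27487880922633) (.X (nat_lit 47279053332153) .L .L) (.X (nat_lit 47279053332153) .L .L)) (.Y (nat_lit 27487880922633)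 (.X (nat_lit 53876268116979) .L .L) (.X (nat_lit 53876268116979) .L .L))) (.Y (nat_lit 27487880922633) (.X (nat_lit 63771679804411) (.Y (nat_lit 25838524903645) .L .L) (.Y (nat_lit 25838524903645) .L .L)) (.X (nat_lit 63771679804411) (.X (nat_lit 60473244612473) .L .L) (.Y (nat_lit 29137069904733) .L .L))))))) (.X (nat_lit 17592208417917) .L (.X (nat_lit 43980496067731) (.X (nat_lit 30786374392855) .L (.Y (nat_lit 37383470646837) (.X (nat_lit 37383470646837) (.Y (nat_lit 34084948931449) (.X (nat_lit 34084948931449) (.Y (nat_lit 32435660992437) .L .L) (.Y (nat_lit 32435660992437) .L .L)) (.X (nat_lit 34084948931449) .L .L)) (.Y (nat_lit 34084948931449) (.X (nat_lit 40682050965857) .L .L) (.X (nat_lit 40682050965857) .L .L))) (.X (nat_lit 37383470646837) .L (.Y (nat_lit 40682050965857) (.X (nat_lit 40682050965857) .L .L) (.X (nat_lit 40682050965857) .L .L))))) (.X (nat_lit 57174647204107) (.Y (nat_lit 37383470646837) (.X (nat_lit 50577605471125) (.Y (nat_lit 34084948931449) (.X (nat_lit 47279053332153)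 .L .L) (.X (nat_lit 47279053332153) .L .L)) (.Y (nat_lit 34084948931449) (.X (nat_lit 53876268116979) .L .L) (.X (nat_lit 53876268116979) .L .L))) (.X (nat_lit 50577605471125) (.Y (nat_lit 40682050965857) (.X (nat_lit 47279053332153) .L .L) (.X (nat_lit 47279053332153) .L .L)) (.Y (nat_lit 40682050965857) (.X (nat_lit 53876268116979) .L .L) (.X (nat_lit 53876268116979) .L .L)))) (.Y (nat_lit 37383470646837) (.X (nat_lit 63771679804411) (.Y (nat_lit 34084948931449) (.X (nat_lit 60473244612473) .L .L) (.X (nat_lit 60473244612473) .L .L)) (.Y (nat_lit 34084948931449) (.X (nat_lit 67070390017947) .L .L) (.X (nat_lit 67070390017947) .L .L))) (.X (nat_lit 63771679804411) (.Y (nat_lit 40682050965857) (.X (nat_lit 60473244612473) .L .L) (.X (nat_lit 60473244612473) .L .L)) (.Y (nat_lit 40682050965857) (.X (nat_lit 67070390017947) .L .L) (.X (nat_lit 67070390017947) .L .L)))))))) (.X (nat_lit 17592208417917) .L (.X (nat_lit 43980496067731) .L (.Y (nat_lit 57174647204107) (.X (nat_lit 57174647204107) (.Y (nat_lit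 50577605471125) (.X (nat_lit 50577605471125) (.Y (nat_lit 47279053332153) (.X (nat_lit 47279053332153) .L .L) (.X (nat_lit 47279053332153) .L .L)) (.Y (nat_lit 47279053332153) (.X (nat_lit 53876268116979) .L .L) (.X (nat_lit 53876268116979) .L .L))) (.X (nat_lit 50577605471125) .L (.Y (nat_lit 53876268116979) (.X (nat_lit 53876268116979) .L .L) (.X (nat_lit 53876268116979) .L .L)))) (.Y (nat_lit 50577605471125) (.X (nat_lit 63771679804411) (.Y (nat_lit 47279053332153) (.X (nat_lit 60473244612473) .L .L) (.X (nat_lit 60473244612473) .L .L)) (.Y (nat_lit 47279053332153) (.X (nat_lit 67070390017947) .L .L) (.X (nat_lit 67070390017947) .L .L))) (.X (nat_lit 63771679804411) (.Y (nat_lit 53876268116979) (.X (nat_lit 60473244612473) .L .L) (.X (nat_lit 60473244612473) .L .L)) (.Y (nat_lit 53876268116979) (.X (nat_lit 67070390017947) .L .L) (.X (nat_lit 67070390017947) .L .L))))) (.X (nat_lit 57174647204107) .L (.Y (nat_lit 63771679804411) (.X (nat_lit 63771679804411) (.Y (nat_lit 60473244612473) (.X (nat_lit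 60473244612473) .L .L) (.X (nat_lit 60473244612473) .L .L)) (.Y (nat_lit 60473244612473) (.X (nat_lit 67070390017947) .L .L) (.X (nat_lit 67070390017947) .L .L))) (.X (nat_lit 63771679804411) .L (.Y (nat_lit 67070390017947) (.X (nat_lit 67070390017947) .L .L) (.X (nat_lit 67070390017947) .L .L)))))))))
    (nat_lit 0) (nat_lit 70368900064303) (nat_lit 17592208417917) (nat_lit 70368900064303) = true := by
  decide +kernel

theorem cBp_3 : chk false SB (nat_lit 281474976710656) FS PSp PBp ABp HBp
    (.Y (nat_lit 17592208417917) (.Y (nat_lit 4398056427309) (.X (nat_lit 96757370032245) (.Y (nat_lit 1099512165299) (.Y (nat_lit 274878385149) (.Y (nat_lit 68719689911) (.X (nat_lit 83563010727971) (.Y (nat_lit 17179906255) (.Y (nat_lit 4294982693) (.Y (nat_lit 1073742511) .L (.Y (nat_lit 2684358039) .L .L)) (.Y (nat_lit 10737443367) .L .L)) (.Y (nat_lit 42949789691) .L .L)) (.Y (nat_lit 17179906255) (.Y (nat_lit 4294982693) (.Y (nat_lit 1073742511) .L (.Y (nat_lit 2684358039) .L .L)) (.Y (nat_lit 10737443367)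 .L .L)) (.Y (nat_lit 42949789691) .L .L))) (.Y (nat_lit 171799048055) (.Y (nat_lit 120259314071) .L .L) .L)) (.Y (nat_lit 687195064233) (.Y (nat_lit 481037143767) (.X (nat_lit 83563010727971) .L .L) .L) (.X (nat_lit 83563010727971) .L .L))) (.Y (nat_lit 2748783752683) (.Y (nat_lit 1924146399035) (.Y (nat_lit 1511832218805) (.X (nat_lit 83563010727971) .L .L) (.X (nat_lit 83563010727971) .L .L)) (.X (nat_lit 83563010727971) (.Y (nat_lit 2336467489929) .L .L) (.Y (nat_lit 2336467489929) .L .L))) (.Y (nat_lit 3573424291335) (.X (nat_lit 83563010727971) .L .L) (.X (nat_lit 83563010727971) .L .L)))) (.Y (nat_lit 1099512165299) (.Y (nat_lit 274878385149) (.Y (nat_lit 68719689911) (.Y (nat_lit 17179906255) (.X (nat_lit 109951574343109) (.Y (nat_lit 4294982693) (.Y (nat_lit 1073742511) (.Y (nat_lit 268436405) .L (.Y (nat_lit 671089365) .L .L)) (.Y (nat_lit 2684358039) .L .L)) (.Y (nat_lit 10737443367) .L .L)) (.Y (nat_lit 4294982693) (.Y (nat_lit 1073742511) (.Y (nat_lit 268436405) .L (.Y (nat_lit 671089365)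 .L .L)) (.Y (nat_lit 2684358039) .L .L)) (.Y (nat_lit 10737443367) .L .L))) (.Y (nat_lit 42949789691) .L .L)) (.Y (nat_lit 171799048055) (.Y (nat_lit 120259314071) .L .L) .L)) (.Y (nat_lit 687195064233) (.Y (nat_lit 481037143767) .L .L) (.X (nat_lit 109951574343109) .L .L))) (.Y (nat_lit 2748783752683) (.Y (nat_lit 1924146399035) (.Y (nat_lit 1511832218805) (.X (nat_lit 109951574343109) .L .L) (.X (nat_lit 109951574343109) .L .L)) (.X (nat_lit 109951574343109) (.Y (nat_lit 2336467489929) .L .L) (.Y (nat_lit 2336467489929) .L .L))) (.Y (nat_lit 3573424291335) (.X (nat_lit 109951574343109) .L (.Y (nat_lit 3161107178049) .L .L)) (.X (nat_lit 109951574343109) .L .L))))) (.Y (nat_lit 10995117811905) (.Y (nat_lit 7696603950747) (.X (nat_lit 96757370032245) (.Y (nat_lit 6047325905245) (.X (nat_lit 83563010727971) (.Y (nat_lit 5222697640297) .L .L) (.Y (nat_lit 5222697640297) .L .L)) (.X (nat_lit 83563010727971) (.Y (nat_lit 6871973121665) .L .L) (.Y (nat_lit 6871973121665) .L .L))) (.Y (nat_lit 6047325905245)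 (.X (nat_lit 109951574343109) (.Y (nat_lit 5222697640297) .L .L) (.Y (nat_lit 5222697640297) .L .L)) (.X (nat_lit 109951574343109) (.Y (nat_lit 6871973121665) .L .L) (.Y (nat_lit 6871973121665) .L .L)))) (.X (nat_lit 96757370032245) (.X (nat_lit 83563010727971) (.Y (nat_lit 9345874287341) (.X (nat_lit 76965864127081) .L .L) (.X (nat_lit 76965864127081) .L .L)) (.Y (nat_lit 9345874287341) (.X (nat_lit 90160235478093) .L .L) (.X (nat_lit 90160235478093) .L .L))) (.Y (nat_lit 9345874287341) (.X (nat_lit 109951574343109) .L (.Y (nat_lit 8521219738367) .L .L)) (.X (nat_lit 109951574343109) .L (.X (nat_lit 116548591607855) .L .L))))) (.X (nat_lit 96757370032245) (.Y (nat_lit 14293672086315) (.X (nat_lit 83563010727971) (.Y (nat_lit 12644405116151) (.X (nat_lit 76965864127081) .L .L) (.X (nat_lit 76965864127081) .L .L)) (.Y (nat_lit 12644405116151) (.X (nat_lit 90160235478093) .L .L) .L)) (.X (nat_lit 83563010727971) (.X (nat_lit 76965864127081) (.Y (nat_lit 15942965825457) .L .L) (.Y (nat_lit 15942965825457)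 .L .L)) (.Y (nat_lit 15942965825457) .L (.X (nat_lit 90160235478093) .L .L)))) (.Y (nat_lit 14293672086315) (.X (nat_lit 109951574343109) (.Y (nat_lit 12644405116151) .L .L) (.Y (nat_lit 12644405116151) .L .L)) (.X (nat_lit 109951574343109) (.Y (nat_lit 15942965825457) .L .L) (.Y (nat_lit 15942965825457) .L .L)))))) (.Y (nat_lit 43980496067731) (.Y (nat_lit 30786374392855) (.X (nat_lit 96757370032245) (.Y (nat_lit 24189277726735) (.X (nat_lit 83563010727971) (.Y (nat_lit 20890763476655) (.X (nat_lit 76965864127081) (.Y (nat_lit 19241486395023) .L .L) (.Y (nat_lit 19241486395023) .L .L)) (.X (nat_lit 76965864127081) (.Y (nat_lit 22540069890139) .L .L) .L)) (.Y (nat_lit 20890763476655) (.X (nat_lit 90160235478093) .L .L) (.X (nat_lit 90160235478093) .L .L))) (.X (nat_lit 83563010727971) (.Y (nat_lit 27487880922633) (.X (nat_lit 76965864127081) (.Y (nat_lit 25838524903645) .L .L) .L) (.X (nat_lit 76965864127081) .L .L)) (.Y (nat_lit 27487880922633) (.X (nat_lit 90160235478093) .L .L) (.X (nat_lit 90160235478093)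 .L .L)))) (.Y (nat_lit 24189277726735) (.Y (nat_lit 20890763476655) (.X (nat_lit 109951574343109) (.Y (nat_lit 19241486395023) .L .L) (.Y (nat_lit 19241486395023) .L .L)) (.X (nat_lit 109951574343109) (.X (nat_lit 103354427401721) .L .L) (.X (nat_lit 116548591607855) .L .L))) (.X (nat_lit 109951574343109) (.Y (nat_lit 27487880922633) (.X (nat_lit 103354427401721) .L .L) (.X (nat_lit 103354427401721) .L .L)) (.Y (nat_lit 27487880922633) .L .L)))) (.X (nat_lit 96757370032245) (.Y (nat_lit 37383470646837) (.X (nat_lit 83563010727971) (.Y (nat_lit 34084948931449) (.X (nat_lit 76965864127081) .L .L) (.X (nat_lit 76965864127081) .L .L)) (.Y (nat_lit 34084948931449) (.X (nat_lit 90160235478093) .L .L) (.X (nat_lit 90160235478093) .L .L))) (.X (nat_lit 83563010727971) (.X (nat_lit 76965864127081) (.Y (nat_lit 40682050965857) .L .L) (.Y (nat_lit 40682050965857) .L .L)) (.X (nat_lit 90160235478093) (.Y (nat_lit 40682050965857) .L .L) (.Y (nat_lit 40682050965857) .L .L)))) (.Y (nat_lit 37383470646837) (.X (nat_lit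 109951574343109) (.Y (nat_lit 34084948931449) (.X (nat_lit 103354427401721) .L .L) (.X (nat_lit 103354427401721) .L .L)) (.Y (nat_lit 34084948931449) .L .L)) (.X (nat_lit 109951574343109) (.Y (nat_lit 40682050965857) (.X (nat_lit 103354427401721) .L .L) (.X (nat_lit 103354427401721) .L .L)) (.Y (nat_lit 40682050965857) (.X (nat_lit 116548591607855) .L .L) (.X (nat_lit 116548591607855) .L .L)))))) (.X (nat_lit 96757370032245) (.Y (nat_lit 57174647204107) (.X (nat_lit 83563010727971) (.Y (nat_lit 50577605471125) (.X (nat_lit 76965864127081) (.Y (nat_lit 47279053332153) (.X (nat_lit 73667436176997) .L .L) (.X (nat_lit 73667436176997) .L .L)) (.Y (nat_lit 47279053332153) .L .L)) (.X (nat_lit 76965864127081) (.Y (nat_lit 53876268116979) (.X (nat_lit 73667436176997) .L .L) (.X (nat_lit 73667436176997) .L .L)) (.Y (nat_lit 53876268116979) .L (.X (nat_lit 80264523106889) .L .L)))) (.Y (nat_lit 50577605471125) (.X (nat_lit 90160235478093) (.Y (nat_lit 47279053332153) .L .L) (.Y (nat_lit 47279053332153) .L .L))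 (.X (nat_lit 90160235478093) (.Y (nat_lit 53876268116979) .L .L) (.Y (nat_lit 53876268116979) .L .L)))) (.X (nat_lit 83563010727971) (.Y (nat_lit 63771679804411) (.X (nat_lit 76965864127081) (.Y (nat_lit 60473244612473) (.X (nat_lit 73667436176997) .L .L) (.X (nat_lit 73667436176997) .L .L)) (.Y (nat_lit 60473244612473) (.X (nat_lit 80264523106889) .L .L) (.X (nat_lit 80264523106889) .L .L))) (.X (nat_lit 76965864127081) (.Y (nat_lit 67070390017947) (.X (nat_lit 73667436176997) .L .L) (.X (nat_lit 73667436176997) .L .L)) (.Y (nat_lit 67070390017947) (.X (nat_lit 80264523106889) .L .L) (.X (nat_lit 80264523106889) .L .L)))) (.Y (nat_lit 63771679804411) (.X (nat_lit 90160235478093) (.Y (nat_lit 60473244612473) .L .L) (.Y (nat_lit 60473244612473) .L .L)) (.X (nat_lit 90160235478093) (.Y (nat_lit 67070390017947) .L (.X (nat_lit 86861551642167) .L .L)) (.Y (nat_lit 67070390017947) .L .L))))) (.Y (nat_lit 57174647204107) (.X (nat_lit 109951574343109) (.Y (nat_lit 50577605471125) (.X (nat_lit 103354427401721)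 (.Y (nat_lit 47279053332153) .L .L) (.Y (nat_lit 47279053332153) .L .L)) (.X (nat_lit 103354427401721) (.Y (nat_lit 53876268116979) .L .L) (.Y (nat_lit 53876268116979) .L .L))) (.Y (nat_lit 50577605471125) (.Y (nat_lit 47279053332153) (.X (nat_lit 116548591607855) .L .L) (.X (nat_lit 116548591607855) .L .L)) (.X (nat_lit 116548591607855) (.Y (nat_lit 53876268116979) .L .L) (.Y (nat_lit 53876268116979) .L .L)))) (.X (nat_lit 109951574343109) (.Y (nat_lit 63771679804411) (.X (nat_lit 103354427401721) (.Y (nat_lit 60473244612473) .L .L) (.Y (nat_lit 60473244612473) .L .L)) (.X (nat_lit 103354427401721) (.Y (nat_lit 67070390017947) .L .L) (.Y (nat_lit 67070390017947) .L .L))) (.Y (nat_lit 63771679804411) (.X (nat_lit 116548591607855) (.Y (nat_lit 60473244612473) .L .L) (.Y (nat_lit 60473244612473) .L .L)) (.X (nat_lit 116548591607855) (.Y (nat_lit 67070390017947) .L .L) (.Y (nat_lit 67070390017947) .L .L))))))))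
    (nat_lit 70368900064303) (nat_lit 123145539196135) (nat_lit 0) (nat_lit 70368900064303) = true := by
  decide +kernel

theorem cBp_4 : chk false SB (nat_lit 281474976710656) FS PSp PBp ABp HBp
    (.Y (nat_lit 17592208417917) (.Y (nat_lit 4398056427309) (.Y (nat_lit 1099512165299) (.Y (nat_lit 274878385149) (.X (nat_lit 149534024483977) (.Y (nat_lit 68719689911) (.Y (nat_lit 17179906255) (.Y (nat_lit 4294982693) (.X (nat_lit 136339568249161) (.Y (nat_lit 1073742511) (.Y (nat_lit 268436405) .L (.Y (nat_lit 671089365) .L .L)) (.Y (nat_lit 2684358039) .L .L)) (.Y (nat_lit 1073742511) (.Y (nat_lit 268436405) .L (.Y (nat_lit 671089365) .L .L)) (.Y (nat_lit 2684358039) .L .L))) (.Y (nat_lit 10737443367) .L .L)) (.Y (nat_lit 42949789691) (.Y (nat_lit 30064859643) .L .L) .L)) (.Y (nat_lit 171799048055) (.Y (nat_lit 120259314071) .L .L) .L)) (.Y (nat_lit 68719689911) (.Y (nat_lit 17179906255) (.Y (nat_lit 4294982693) (.X (nat_lit 162728167111501) (.Y (nat_lit 1073742511) (.Y (nat_lit 268436405) (.Y (nat_lit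 67108965) .L (.Y (nat_lit 167772495) .L .L)) (.Y (nat_lit 671089365) .L .L)) (.Y (nat_lit 2684358039) .L .L)) (.Y (nat_lit 1073742511) (.Y (nat_lit 268436405) (.Y (nat_lit 67108965) .L (.Y (nat_lit 167772495) .L .L)) (.Y (nat_lit 671089365) .L .L)) (.Y (nat_lit 2684358039) .L .L))) (.Y (nat_lit 10737443367) (.Y (nat_lit 7516201401) .L .L) .L)) (.Y (nat_lit 42949789691) (.Y (nat_lit 30064859643) .L .L) .L)) (.Y (nat_lit 171799048055) (.Y (nat_lit 120259314071) .L .L) .L))) (.Y (nat_lit 687195064233) (.Y (nat_lit 481037143767) (.X (nat_lit 149534024483977) .L (.Y (nat_lit 377958558321) .L .L)) (.X (nat_lit 149534024483977) .L .L)) (.X (nat_lit 149534024483977) (.Y (nat_lit 893353266673) .L .L) (.Y (nat_lit 893353266673) .L .L)))) (.Y (nat_lit 2748783752683) (.Y (nat_lit 1924146399035) (.X (nat_lit 149534024483977) (.Y (nat_lit 1511832218805) (.X (nat_lit 136339568249161) .L .L) (.X (nat_lit 136339568249161) .L .L)) (.Y (nat_lit 1511832218805) (.X (nat_lit 162728167111501) .L .L) (.X (nat_lit 162728167111501)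 .L .L))) (.X (nat_lit 149534024483977) (.X (nat_lit 136339568249161) (.Y (nat_lit 2336467489929) .L .L) (.Y (nat_lit 2336467489929) .L .L)) (.Y (nat_lit 2336467489929) (.X (nat_lit 162728167111501) .L .L) (.X (nat_lit 162728167111501) .L .L)))) (.X (nat_lit 149534024483977) (.Y (nat_lit 3573424291335) (.X (nat_lit 136339568249161) (.Y (nat_lit 3161107178049) .L .L) (.Y (nat_lit 3161107178049) .L .L)) (.X (nat_lit 136339568249161) (.Y (nat_lit 3985743982637) .L .L) (.Y (nat_lit 3985743982637) .L .L))) (.Y (nat_lit 3573424291335) (.X (nat_lit 162728167111501) (.Y (nat_lit 3161107178049) .L .L) (.Y (nat_lit 3161107178049) .L .L)) (.X (nat_lit 162728167111501) (.Y (nat_lit 3985743982637) .L .L) (.Y (nat_lit 3985743982637) .L .L)))))) (.Y (nat_lit 10995117811905) (.Y (nat_lit 7696603950747) (.X (nat_lit 149534024483977) (.Y (nat_lit 6047325905245) (.X (nat_lit 136339568249161) (.Y (nat_lit 5222697640297) (.X (nat_lit 129742764912007) .L .L) .L) (.Y (nat_lit 5222697640297) (.Y (nat_lit 4810364677885) .L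 .L) (.X (nat_lit 142936634562605) .L .L))) (.X (nat_lit 136339568249161) (.Y (nat_lit 6871973121665) .L .L) (.Y (nat_lit 6871973121665) (.X (nat_lit 142936634562605) .L .L) (.X (nat_lit 142936634562605) .L .L)))) (.Y (nat_lit 6047325905245) (.Y (nat_lit 5222697640297) (.X (nat_lit 162728167111501) (.Y (nat_lit 4810364677885) .L .L) (.Y (nat_lit 4810364677885) .L (.X (nat_lit 169325150016969) .L .L))) (.X (nat_lit 162728167111501) (.X (nat_lit 156131068094103) .L .L) (.Y (nat_lit 5635013671967) (.X (nat_lit 169325150016969) .L .L) (.X (nat_lit 169325150016969) .L .L)))) (.X (nat_lit 162728167111501) (.Y (nat_lit 6871973121665) (.X (nat_lit 156131068094103) .L .L) (.X (nat_lit 156131068094103) .L .L)) (.Y (nat_lit 6871973121665) (.X (nat_lit 169325150016969) .L .L) (.X (nat_lit 169325150016969) .L .L))))) (.X (nat_lit 149534024483977) (.Y (nat_lit 9345874287341) (.X (nat_lit 136339568249161) (.Y (nat_lit 8521219738367) .L .L) (.Y (nat_lit 8521219738367) .L .L)) (.X (nat_lit 136339568249161) (.Y (nat_lit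 10170516748243) .L .L) (.Y (nat_lit 10170516748243) .L .L))) (.Y (nat_lit 9345874287341) (.X (nat_lit 162728167111501) (.Y (nat_lit 8521219738367) (.X (nat_lit 156131068094103) .L .L) .L) (.Y (nat_lit 8521219738367) (.X (nat_lit 169325150016969) .L .L) (.X (nat_lit 169325150016969) .L .L))) (.X (nat_lit 162728167111501) (.Y (nat_lit 10170516748243) .L .L) (.Y (nat_lit 10170516748243) .L .L))))) (.X (nat_lit 149534024483977) (.Y (nat_lit 14293672086315) (.X (nat_lit 136339568249161) (.Y (nat_lit 12644405116151) (.X (nat_lit 129742764912007) .L .L) .L) (.Y (nat_lit 12644405116151) (.X (nat_lit 142936634562605) .L .L) .L)) (.X (nat_lit 136339568249161) (.Y (nat_lit 15942965825457) .L .L) (.Y (nat_lit 15942965825457) .L .L))) (.Y (nat_lit 14293672086315) (.Y (nat_lit 12644405116151) (.X (nat_lit 162728167111501) (.Y (nat_lit 11819794543225) .L .L) (.Y (nat_lit 11819794543225) .L .L)) (.X (nat_lit 162728167111501) .L .L)) (.X (nat_lit 162728167111501) (.Y (nat_lit 15942965825457) .L .L) (.Y (nat_lit 15942965825457)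 .L .L)))))) (.Y (nat_lit 43980496067731) (.Y (nat_lit 30786374392855) (.Y (nat_lit 24189277726735) (.X (nat_lit 149534024483977) (.Y (nat_lit 20890763476655) (.X (nat_lit 136339568249161) (.Y (nat_lit 19241486395023) .L .L) (.Y (nat_lit 19241486395023) .L .L)) (.X (nat_lit 136339568249161) .L .L)) (.Y (nat_lit 20890763476655) (.X (nat_lit 162728167111501) (.Y (nat_lit 19241486395023) .L .L) (.Y (nat_lit 19241486395023) .L .L)) (.X (nat_lit 162728167111501) .L .L))) (.X (nat_lit 149534024483977) (.X (nat_lit 136339568249161) (.Y (nat_lit 27487880922633) .L .L) (.Y (nat_lit 27487880922633) .L .L)) (.Y (nat_lit 27487880922633) (.X (nat_lit 162728167111501) .L .L) (.X (nat_lit 162728167111501) .L .L)))) (.X (nat_lit 149534024483977) (.Y (nat_lit 37383470646837) (.X (nat_lit 136339568249161) (.Y (nat_lit 34084948931449) .L .L) (.Y (nat_lit 34084948931449) .L .L)) (.X (nat_lit 136339568249161) (.Y (nat_lit 40682050965857) .L .L) (.Y (nat_lit 40682050965857) .L .L))) (.Y (nat_lit 37383470646837) (.X (nat_lit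 162728167111501) (.Y (nat_lit 34084948931449) .L .L) (.Y (nat_lit 34084948931449) .L .L)) (.X (nat_lit 162728167111501) (.Y (nat_lit 40682050965857) .L .L) (.Y (nat_lit 40682050965857) .L .L))))) (.Y (nat_lit 57174647204107) (.X (nat_lit 149534024483977) (.Y (nat_lit 50577605471125) (.X (nat_lit 136339568249161) (.Y (nat_lit 47279053332153) .L (.X (nat_lit 129742764912007) .L .L)) (.Y (nat_lit 47279053332153) .L .L)) (.X (nat_lit 136339568249161) (.Y (nat_lit 53876268116979) (.X (nat_lit 129742764912007) .L .L) (.X (nat_lit 129742764912007) .L .L)) (.Y (nat_lit 53876268116979) .L .L))) (.Y (nat_lit 50577605471125) (.X (nat_lit 162728167111501) (.Y (nat_lit 47279053332153) .L .L) (.Y (nat_lit 47279053332153) .L .L)) (.X (nat_lit 162728167111501) (.Y (nat_lit 53876268116979) .L .L) (.Y (nat_lit 53876268116979) .L .L)))) (.X (nat_lit 149534024483977) (.X (nat_lit 136339568249161) (.Y (nat_lit 63771679804411) (.X (nat_lit 129742764912007) (.Y (nat_lit 60473244612473) .L .L) (.Y (nat_lit 60473244612473)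 .L .L)) (.X (nat_lit 129742764912007) (.Y (nat_lit 67070390017947) .L .L) (.Y (nat_lit 67070390017947) .L .L))) (.Y (nat_lit 63771679804411) (.Y (nat_lit 60473244612473) (.X (nat_lit 142936634562605) .L .L) (.X (nat_lit 142936634562605) .L .L)) (.X (nat_lit 142936634562605) (.Y (nat_lit 67070390017947) .L .L) (.Y (nat_lit 67070390017947) .L .L)))) (.Y (nat_lit 63771679804411) (.X (nat_lit 162728167111501) (.Y (nat_lit 60473244612473) .L .L) (.Y (nat_lit 60473244612473) .L .L)) (.X (nat_lit 162728167111501) (.X (nat_lit 156131068094103) (.Y (nat_lit 67070390017947) .L .L) (.Y (nat_lit 67070390017947) .L .L)) (.Y (nat_lit 67070390017947) .L (.X (nat_lit 169325150016969) .L .L))))))))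
    (nat_lit 123145539196135) (nat_lit 175922061124267) (nat_lit 0) (nat_lit 70368900064303) = true := by
  decide +kernel

end Crest.Agent.R163.Win
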