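import Crest.Agent.R163.WinD0

/-! Row 163, window engine: kernel checks, part 2 (generated). -/

set_option autoImplicit false
set_option maxRecDepth 1000000

namespace Crest.Agent.R163.Win


theorem cBp_5 : chk false SB (nat_lit 281474976710656) FS PSp PBp ABp HBp
    (.Y (nat_lit 4398056427309) (.X (nat_lit 228698491831029) (.Y (nat_lit 1099512165299) (.Y (nat_lit 274878385149) (.Y (nat_lit 68719689911) (.X (nat_lit 202310140892619) (.Y (nat_lit 17179906255) (.Y (nat_lit 4294982693) (.Y (nat_lit 1073742511) (.X (nat_lit 189116380910351) (.Y (nat_lit 268436405) (.Y (nat_lit 67108965) .L (.Y (nat_lit 167772495) .L .L)) (.Y (nat_lit 671089365) .L .L)) (.Y (nat_lit 268436405) (.Y (nat_lit 67108965) .L (.Y (nat_lit 167772495) .L .L)) (.Y (nat_lit 671089365) .L .L))) (.Y (nat_lit 2684358039) (.Y (nat_lit 1879053137) .L .L) .L)) (.Y (nat_lit 10737443367) (.Y (nat_lit 7516201401) .L .L) .L)) (.Y (nat_lit 42949789691) (.Y (nat_lit 30064859643) .L .L) .L)) (.Y (nat_lit 17179906255) (.Y (nat_lit 4294982693) (.Y (nat_lit 1073742511) (.X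 (nat_lit 215504921499925) (.Y (nat_lit 268436405) (.Y (nat_lit 67108965) (.Y (nat_lit 16777239) .L (.Y (nat_lit 41943047) .L .L)) (.Y (nat_lit 167772495) .L .L)) (.Y (nat_lit 671089365) .L .L)) (.Y (nat_lit 268436405) (.Y (nat_lit 67108965) (.Y (nat_lit 16777239) .L (.Y (nat_lit 41943047) .L .L)) (.Y (nat_lit 167772495) .L .L)) (.Y (nat_lit 671089365) .L .L))) (.Y (nat_lit 2684358039) (.Y (nat_lit 1879053137) .L .L) .L)) (.Y (nat_lit 10737443367) (.Y (nat_lit 7516201401) .L .L) .L)) (.Y (nat_lit 42949789691) (.Y (nat_lit 30064859643) .L .L) .L))) (.Y (nat_lit 171799048055) (.Y (nat_lit 120259314071) (.X (nat_lit 202310140892619) .L .L) .L) (.X (nat_lit 202310140892619) .L .L))) (.Y (nat_lit 687195064233) (.Y (nat_lit 481037143767) (.X (nat_lit 202310140892619) (.Y (nat_lit 377958558321) .L .L) (.Y (nat_lit 377958558321) .L .L)) (.X (nat_lit 202310140892619) .L .L)) (.X (nat_lit 202310140892619) (.Y (nat_lit 893353266673) .L .L) (.Y (nat_lit 893353266673) .L .L)))) (.Y (nat_lit 2748783752683) (.Y (nat_lit 1924146399035) (.Y (nat_lit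 1511832218805) (.X (nat_lit 202310140892619) (.Y (nat_lit 1305674540671) .L .L) (.Y (nat_lit 1305674540671) .L .L)) (.X (nat_lit 202310140892619) (.X (nat_lit 189116380910351) .L .L) .L)) (.X (nat_lit 202310140892619) (.Y (nat_lit 2336467489929) (.X (nat_lit 189116380910351) .L .L) (.X (nat_lit 189116380910351) .L .L)) (.Y (nat_lit 2336467489929) (.X (nat_lit 215504921499925) .L .L) (.X (nat_lit 215504921499925) .L .L)))) (.X (nat_lit 202310140892619) (.Y (nat_lit 3573424291335) (.X (nat_lit 189116380910351) (.Y (nat_lit 3161107178049) .L .L) (.Y (nat_lit 3161107178049) .L .L)) (.X (nat_lit 189116380910351) (.Y (nat_lit 3985743982637) .L .L) (.Y (nat_lit 3985743982637) .L .L))) (.Y (nat_lit 3573424291335) (.X (nat_lit 215504921499925) (.Y (nat_lit 3161107178049) .L .L) (.Y (nat_lit 3161107178049) .L .L)) (.X (nat_lit 215504921499925) (.Y (nat_lit 3985743982637) .L .L) (.Y (nat_lit 3985743982637) .L .L)))))) (.Y (nat_lit 1099512165299) (.Y (nat_lit 274878385149) (.Y (nat_lit 68719689911) (.Y (nat_lit 17179906255) (.X (nat_lit 255086824559739)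 (.Y (nat_lit 4294982693) (.Y (nat_lit 1073742511) (.X (nat_lit 241893002613737) (.Y (nat_lit 268436405) (.Y (nat_lit 67108965) (.Y (nat_lit 16777239) .L (.Y (nat_lit 41943047) .L .L)) (.Y (nat_lit 167772495) .L .L)) (.Y (nat_lit 671089365) .L .L)) (.Y (nat_lit 268436405) (.Y (nat_lit 67108965) (.Y (nat_lit 16777239) (.X (nat_lit 248490118606877) .L .L) (.Y (nat_lit 41943047) .L .L)) (.Y (nat_lit 167772495) .L .L)) (.Y (nat_lit 671089365) .L .L))) (.Y (nat_lit 2684358039) (.Y (nat_lit 1879053137) .L .L) .L)) (.Y (nat_lit 10737443367) (.Y (nat_lit 7516201401) .L .L) .L)) (.Y (nat_lit 4294982693) (.Y (nat_lit 1073742511) (.Y (nat_lit 268436405) (.X (nat_lit 268281298399015) (.Y (nat_lit 67108965) (.Y (nat_lit 16777239) (.X (nat_lit 261683961600471) (.Y (nat_lit 4194319) .L .L) (.Y (nat_lit 4194319) .L .L)) (.Y (nat_lit 41943047) .L .L)) (.Y (nat_lit 167772495) .L .L)) (.Y (nat_lit 67108965) (.Y (nat_lit 16777239) (.X (nat_lit 274878253549387) (.Y (nat_lit 4194319) .L .L) (.Y (nat_lit 4194319) .L (.Y (nat_lit 10485789) .L .L))) (.Y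 (nat_lit 41943047) .L .L)) (.Y (nat_lit 167772495) .L .L))) (.Y (nat_lit 671089365) (.Y (nat_lit 469762459) .L .L) .L)) (.Y (nat_lit 2684358039) (.Y (nat_lit 1879053137) .L .L) .L)) (.Y (nat_lit 10737443367) (.Y (nat_lit 7516201401) .L .L) .L))) (.Y (nat_lit 42949789691) (.Y (nat_lit 30064859643) (.X (nat_lit 255086824559739) .L .L) .L) .L)) (.Y (nat_lit 171799048055) (.Y (nat_lit 120259314071) (.X (nat_lit 255086824559739) .L .L) .L) (.X (nat_lit 255086824559739) .L .L))) (.Y (nat_lit 687195064233) (.Y (nat_lit 481037143767) (.Y (nat_lit 377958558321) (.X (nat_lit 255086824559739) .L .L) (.X (nat_lit 255086824559739) .L .L)) (.X (nat_lit 255086824559739) .L .L)) (.Y (nat_lit 893353266673) (.X (nat_lit 255086824559739) .L .L) (.X (nat_lit 255086824559739) .L .L)))) (.Y (nat_lit 2748783752683) (.Y (nat_lit 1924146399035) (.Y (nat_lit 1511832218805) (.X (nat_lit 255086824559739) (.Y (nat_lit 1305674540671) .L .L) (.Y (nat_lit 1305674540671) .L .L)) (.X (nat_lit 255086824559739) (.Y (nat_lit 1717987217543) .L .L) (.Y (nat_lit 1717987217543)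 .L .L))) (.X (nat_lit 255086824559739) (.Y (nat_lit 2336467489929) (.X (nat_lit 241893002613737) .L .L) (.X (nat_lit 241893002613737) .L .L)) (.Y (nat_lit 2336467489929) (.X (nat_lit 268281298399015) .L .L) (.X (nat_lit 268281298399015) .L .L)))) (.Y (nat_lit 3573424291335) (.X (nat_lit 255086824559739) (.Y (nat_lit 3161107178049) (.X (nat_lit 241893002613737) .L .L) (.X (nat_lit 241893002613737) .L .L)) (.Y (nat_lit 3161107178049) (.X (nat_lit 268281298399015) .L .L) (.X (nat_lit 268281298399015) .L .L))) (.X (nat_lit 255086824559739) (.X (nat_lit 241893002613737) (.Y (nat_lit 3985743982637) .L .L) (.Y (nat_lit 3985743982637) .L .L)) (.Y (nat_lit 3985743982637) (.X (nat_lit 268281298399015) .L .L) (.X (nat_lit 268281298399015) .L .L))))))) (.Y (nat_lit 10995117811905) (.Y (nat_lit 7696603950747) (.X (nat_lit 228698491831029) (.Y (nat_lit 6047325905245) (.X (nat_lit 202310140892619) (.Y (nat_lit 5222697640297) (.X (nat_lit 189116380910351) (.Y (nat_lit 4810364677885) (.X (nat_lit 182519494221219) .L .L) (.X (nat_lit 182519494221219)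 .L .L)) (.Y (nat_lit 4810364677885) (.X (nat_lit 195713749390113) .L .L) (.X (nat_lit 195713749390113) .L .L))) (.X (nat_lit 189116380910351) (.Y (nat_lit 5635013671967) (.X (nat_lit 182519494221219) .L .L) (.X (nat_lit 182519494221219) .L .L)) (.Y (nat_lit 5635013671967) (.X (nat_lit 195713749390113) .L .L) (.X (nat_lit 195713749390113) .L .L)))) (.Y (nat_lit 5222697640297) (.X (nat_lit 215504921499925) (.Y (nat_lit 4810364677885) (.X (nat_lit 208907245026275) .L .L) (.X (nat_lit 208907245026275) .L .L)) (.Y (nat_lit 4810364677885) (.X (nat_lit 222101788920263) .L .L) (.X (nat_lit 222101788920263) .L .L))) (.X (nat_lit 215504921499925) (.Y (nat_lit 5635013671967) (.X (nat_lit 208907245026275) .L .L) (.X (nat_lit 208907245026275) .L .L)) (.Y (nat_lit 5635013671967) (.X (nat_lit 222101788920263) .L .L) (.X (nat_lit 222101788920263) .L .L))))) (.X (nat_lit 202310140892619) (.X (nat_lit 189116380910351) (.Y (nat_lit 6871973121665) (.X (nat_lit 182519494221219) .L .L) (.X (nat_lit 182519494221219) .L .L)) (.Y (nat_lit 6871973121665)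 (.X (nat_lit 195713749390113) (.Y (nat_lit 6459633676211) .L .L) (.Y (nat_lit 6459633676211) .L .L)) (.X (nat_lit 195713749390113) .L .L))) (.Y (nat_lit 6871973121665) (.X (nat_lit 215504921499925) (.Y (nat_lit 6459633676211) (.X (nat_lit 208907245026275) .L .L) (.X (nat_lit 208907245026275) .L .L)) (.Y (nat_lit 6459633676211) (.X (nat_lit 222101788920263) .L .L) (.X (nat_lit 222101788920263) .L .L))) (.X (nat_lit 215504921499925) (.X (nat_lit 208907245026275) .L .L) (.X (nat_lit 222101788920263) .L .L))))) (.Y (nat_lit 6047325905245) (.X (nat_lit 255086824559739) (.Y (nat_lit 5222697640297) (.X (nat_lit 241893002613737) (.Y (nat_lit 4810364677885) (.X (nat_lit 235295627237515) .L .L) (.X (nat_lit 235295627237515) .L .L)) (.Y (nat_lit 4810364677885) (.X (nat_lit 248490118606877) .L .L) (.X (nat_lit 248490118606877) .L .L))) (.X (nat_lit 241893002613737) (.Y (nat_lit 5635013671967) (.X (nat_lit 235295627237515) .L .L) (.X (nat_lit 235295627237515) .L .L)) (.Y (nat_lit 5635013671967) (.X (nat_lit 248490118606877) .L .L) (.X (nat_lit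 248490118606877) .L .L)))) (.Y (nat_lit 5222697640297) (.X (nat_lit 268281298399015) (.Y (nat_lit 4810364677885) (.X (nat_lit 261683961600471) .L .L) (.X (nat_lit 261683961600471) .L .L)) (.Y (nat_lit 4810364677885) (.X (nat_lit 274878253549387) .L .L) (.X (nat_lit 274878253549387) .L .L))) (.X (nat_lit 268281298399015) (.Y (nat_lit 5635013671967) (.X (nat_lit 261683961600471) .L .L) (.X (nat_lit 261683961600471) .L .L)) (.Y (nat_lit 5635013671967) (.X (nat_lit 274878253549387) .L .L) (.X (nat_lit 274878253549387) .L .L))))) (.X (nat_lit 255086824559739) (.Y (nat_lit 6871973121665) (.X (nat_lit 241893002613737) (.Y (nat_lit 6459633676211) (.X (nat_lit 235295627237515) .L .L) (.X (nat_lit 235295627237515) .L .L)) (.Y (nat_lit 6459633676211) (.X (nat_lit 248490118606877) .L .L) (.X (nat_lit 248490118606877) .L .L))) (.X (nat_lit 241893002613737) (.X (nat_lit 235295627237515) .L .L) (.Y (nat_lit 7284291149609) (.X (nat_lit 248490118606877) .L .L) .L))) (.Y (nat_lit 6871973121665) (.X (nat_lit 268281298399015) (.Y (nat_lit 6459633676211)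 (.X (nat_lit 261683961600471) .L .L) (.X (nat_lit 261683961600471) .L .L)) (.Y (nat_lit 6459633676211) (.X (nat_lit 274878253549387) .L .L) (.X (nat_lit 274878253549387) .L .L))) (.X (nat_lit 268281298399015) (.Y (nat_lit 7284291149609) (.X (nat_lit 261683961600471) .L .L) .L) (.Y (nat_lit 7284291149609) (.X (nat_lit 274878253549387) .L .L) (.X (nat_lit 274878253549387) .L .L))))))) (.X (nat_lit 228698491831029) (.X (nat_lit 202310140892619) (.Y (nat_lit 9345874287341) (.X (nat_lit 189116380910351) (.Y (nat_lit 8521219738367) (.X (nat_lit 182519494221219) .L .L) (.X (nat_lit 182519494221219) .L .L)) (.Y (nat_lit 8521219738367) (.X (nat_lit 195713749390113) .L .L) (.X (nat_lit 195713749390113) .L .L))) (.X (nat_lit 189116380910351) (.Y (nat_lit 10170516748243) .L .L) (.Y (nat_lit 10170516748243) .L .L))) (.Y (nat_lit 9345874287341) (.X (nat_lit 215504921499925) (.Y (nat_lit 8521219738367) (.X (nat_lit 208907245026275) .L .L) (.X (nat_lit 208907245026275) .L .L)) (.Y (nat_lit 8521219738367) (.X (nat_lit 222101788920263) .L .L) .L))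 (.X (nat_lit 215504921499925) (.Y (nat_lit 10170516748243) .L .L) (.Y (nat_lit 10170516748243) .L .L)))) (.Y (nat_lit 9345874287341) (.X (nat_lit 255086824559739) (.X (nat_lit 241893002613737) (.Y (nat_lit 8521219738367) (.X (nat_lit 235295627237515) .L .L) .L) (.Y (nat_lit 8521219738367) (.X (nat_lit 248490118606877) .L .L) .L)) (.Y (nat_lit 8521219738367) (.X (nat_lit 268281298399015) (.Y (nat_lit 8108909410927) .L .L) (.Y (nat_lit 8108909410927) (.X (nat_lit 274878253549387) .L .L) (.X (nat_lit 274878253549387) .L .L))) (.X (nat_lit 268281298399015) (.X (nat_lit 261683961600471) .L .L) (.X (nat_lit 274878253549387) .L (.Y (nat_lit 8933561797455) .L .L))))) (.X (nat_lit 255086824559739) (.X (nat_lit 241893002613737) (.Y (nat_lit 10170516748243) .L .L) (.Y (nat_lit 10170516748243) .L .L)) (.X (nat_lit 268281298399015) (.Y (nat_lit 10170516748243) (.X (nat_lit 261683961600471) .L .L) .L) (.Y (nat_lit 10170516748243) (.X (nat_lit 274878253549387) .L .L) (.X (nat_lit 274878253549387) .L .L))))))) (.X (nat_lit 228698491831029) (.Y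 (nat_lit 14293672086315) (.X (nat_lit 202310140892619) (.Y (nat_lit 12644405116151) (.X (nat_lit 189116380910351) (.Y (nat_lit 11819794543225) .L .L) (.Y (nat_lit 11819794543225) .L .L)) (.X (nat_lit 189116380910351) .L .L)) (.Y (nat_lit 12644405116151) (.X (nat_lit 215504921499925) (.Y (nat_lit 11819794543225) .L .L) (.Y (nat_lit 11819794543225) .L .L)) (.X (nat_lit 215504921499925) .L .L))) (.X (nat_lit 202310140892619) (.X (nat_lit 189116380910351) (.Y (nat_lit 15942965825457) .L .L) (.Y (nat_lit 15942965825457) .L .L)) (.Y (nat_lit 15942965825457) (.X (nat_lit 215504921499925) .L .L) (.X (nat_lit 215504921499925) .L .L)))) (.Y (nat_lit 14293672086315) (.X (nat_lit 255086824559739) (.Y (nat_lit 12644405116151) (.X (nat_lit 241893002613737) (.Y (nat_lit 11819794543225) .L .L) (.Y (nat_lit 11819794543225) .L .L)) (.X (nat_lit 241893002613737) .L (.Y (nat_lit 13469046423081) .L .L))) (.Y (nat_lit 12644405116151) (.X (nat_lit 268281298399015) (.Y (nat_lit 11819794543225) .L .L) (.Y (nat_lit 11819794543225) (.X (nat_lit 274878253549387)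 .L .L) (.X (nat_lit 274878253549387) .L .L))) (.X (nat_lit 268281298399015) (.Y (nat_lit 13469046423081) .L .L) (.Y (nat_lit 13469046423081) (.X (nat_lit 274878253549387) .L .L) (.X (nat_lit 274878253549387) .L .L))))) (.X (nat_lit 255086824559739) (.Y (nat_lit 15942965825457) (.X (nat_lit 241893002613737) .L (.Y (nat_lit 15118291397665) .L .L)) (.X (nat_lit 241893002613737) .L (.Y (nat_lit 16767581043631) .L .L))) (.Y (nat_lit 15942965825457) (.X (nat_lit 268281298399015) (.Y (nat_lit 15118291397665) .L .L) (.Y (nat_lit 15118291397665) (.X (nat_lit 274878253549387) .L .L) (.X (nat_lit 274878253549387) .L .L))) (.X (nat_lit 268281298399015) (.Y (nat_lit 16767581043631) .L .L) (.Y (nat_lit 16767581043631) (.X (nat_lit 274878253549387) .L .L) (.X (nat_lit 274878253549387) .L .L)))))))))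
    (nat_lit 175922061124267) (nat_lit 281474976710656) (nat_lit 0) (nat_lit 17592208417917) = true := by
  decide +kernel

theorem cBp_6 : chk false SB (nat_lit 281474976710656) FS PSp PBp ABp HBp
    (.Y (nat_lit 43980496067731) (.Y (nat_lit 30786374392855) (.X (nat_lit 228698491831029) (.Y (nat_lit 24189277726735) (.X (nat_lit 202310140892619) (.Y (nat_lit 20890763476655) (.X (nat_lit 189116380910351) (.Y (nat_lit 19241486395023) .L .L) (.Y (nat_lit 19241486395023) .L .L)) (.X (nat_lit 189116380910351) .L (.Y (nat_lit 22540069890139) .L .L))) (.Y (nat_lit 20890763476655) (.X (nat_lit 215504921499925) (.Y (nat_lit 19241486395023) .L .L) (.Y (nat_lit 19241486395023) .L .L)) (.X (nat_lit 215504921499925) (.Y (nat_lit 22540069890139) .L .L) (.Y (nat_lit 22540069890139) .L .L)))) (.X (nat_lit 202310140892619) (.Y (nat_lit 27487880922633) (.X (nat_lit 189116380910351) .L .L) (.X (nat_lit 189116380910351) .L .L)) (.Y (nat_lit 27487880922633) (.X (nat_lit 215504921499925) (.Y (nat_lit 25838524903645) .L .L) (.Y (nat_lit 25838524903645)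 .L .L)) (.X (nat_lit 215504921499925) .L (.Y (nat_lit 29137069904733) .L .L))))) (.Y (nat_lit 24189277726735) (.Y (nat_lit 20890763476655) (.X (nat_lit 255086824559739) (.X (nat_lit 241893002613737) (.Y (nat_lit 19241486395023) .L .L) (.Y (nat_lit 19241486395023) .L .L)) (.Y (nat_lit 19241486395023) (.X (nat_lit 268281298399015) (.Y (nat_lit 18416878762855) .L .L) (.Y (nat_lit 18416878762855) (.X (nat_lit 274878253549387) .L .L) (.X (nat_lit 274878253549387) .L .L))) (.X (nat_lit 268281298399015) (.X (nat_lit 261683961600471) .L .L) (.X (nat_lit 274878253549387) .L (.Y (nat_lit 20066119553763) .L .L))))) (.X (nat_lit 255086824559739) (.X (nat_lit 241893002613737) (.Y (nat_lit 22540069890139) .L .L) (.Y (nat_lit 22540069890139) .L .L)) (.X (nat_lit 268281298399015) (.Y (nat_lit 22540069890139) (.X (nat_lit 261683961600471) .L .L) (.X (nat_lit 261683961600471) .L .L)) (.Y (nat_lit 22540069890139) (.X (nat_lit 274878253549387) .L (.Y (nat_lit 21715357330611) .L .L)) (.X (nat_lit 274878253549387) .L (.Y (nat_lit 23364700187829) .L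 .L)))))) (.X (nat_lit 255086824559739) (.Y (nat_lit 27487880922633) (.X (nat_lit 241893002613737) (.Y (nat_lit 25838524903645) .L .L) (.Y (nat_lit 25838524903645) .L .L)) (.X (nat_lit 241893002613737) (.Y (nat_lit 29137069904733) .L .L) (.Y (nat_lit 29137069904733) .L .L))) (.Y (nat_lit 27487880922633) (.X (nat_lit 268281298399015) (.Y (nat_lit 25838524903645) (.X (nat_lit 261683961600471) .L .L) (.X (nat_lit 261683961600471) .L .L)) (.Y (nat_lit 25838524903645) (.X (nat_lit 274878253549387) .L (.Y (nat_lit 25013911567009) .L .L)) (.X (nat_lit 274878253549387) .L (.Y (nat_lit 26663228515389) .L .L)))) (.X (nat_lit 268281298399015) (.Y (nat_lit 29137069904733) (.X (nat_lit 261683961600471) .L .L) (.X (nat_lit 261683961600471) .L .L)) (.Y (nat_lit 29137069904733) (.X (nat_lit 274878253549387) .L .L) (.X (nat_lit 274878253549387) .L .L))))))) (.X (nat_lit 228698491831029) (.Y (nat_lit 37383470646837) (.X (nat_lit 202310140892619) (.Y (nat_lit 34084948931449) (.X (nat_lit 189116380910351) .L .L) (.X (nat_lit 189116380910351) .L .L))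 (.Y (nat_lit 34084948931449) (.X (nat_lit 215504921499925) .L (.Y (nat_lit 32435660992437) .L .L)) (.X (nat_lit 215504921499925) .L (.Y (nat_lit 35734215194051) .L .L)))) (.X (nat_lit 202310140892619) (.X (nat_lit 189116380910351) (.Y (nat_lit 40682050965857) .L .L) (.Y (nat_lit 40682050965857) .L .L)) (.X (nat_lit 215504921499925) (.Y (nat_lit 40682050965857) .L .L) (.Y (nat_lit 40682050965857) .L .L)))) (.Y (nat_lit 37383470646837) (.X (nat_lit 255086824559739) (.Y (nat_lit 34084948931449) (.X (nat_lit 241893002613737) (.Y (nat_lit 32435660992437) .L .L) (.Y (nat_lit 32435660992437) .L .L)) (.X (nat_lit 241893002613737) (.Y (nat_lit 35734215194051) .L .L) (.Y (nat_lit 35734215194051) .L .L))) (.Y (nat_lit 34084948931449) (.X (nat_lit 268281298399015) (.Y (nat_lit 32435660992437) (.X (nat_lit 261683961600471) .L .L) (.X (nat_lit 261683961600471) .L .L)) (.Y (nat_lit 32435660992437) (.X (nat_lit 274878253549387) .L .L) (.X (nat_lit 274878253549387) .L .L))) (.X (nat_lit 268281298399015) (.Y (nat_lit 35734215194051) (.X (nat_lit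 261683961600471) .L .L) (.X (nat_lit 261683961600471) .L .L)) (.Y (nat_lit 35734215194051) (.X (nat_lit 274878253549387) .L .L) (.X (nat_lit 274878253549387) .L .L))))) (.X (nat_lit 255086824559739) (.Y (nat_lit 40682050965857) (.X (nat_lit 241893002613737) (.Y (nat_lit 39032736635765) .L .L) (.Y (nat_lit 39032736635765) .L .L)) (.X (nat_lit 241893002613737) (.X (nat_lit 235295627237515) .L .L) (.X (nat_lit 248490118606877) .L .L))) (.Y (nat_lit 40682050965857) (.X (nat_lit 268281298399015) (.Y (nat_lit 39032736635765) (.X (nat_lit 261683961600471) .L .L) (.X (nat_lit 261683961600471) .L .L)) (.Y (nat_lit 39032736635765) (.X (nat_lit 274878253549387) .L .L) (.X (nat_lit 274878253549387) .L .L))) (.X (nat_lit 268281298399015) (.Y (nat_lit 42331206553043) (.X (nat_lit 261683961600471) .L .L) (.X (nat_lit 261683961600471) .L .L)) (.Y (nat_lit 42331206553043) (.X (nat_lit 274878253549387) .L .L) (.X (nat_lit 274878253549387) .L .L)))))))) (.X (nat_lit 228698491831029) (.Y (nat_lit 57174647204107) (.X (nat_lit 202310140892619) (.Y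 (nat_lit 50577605471125) (.X (nat_lit 189116380910351) (.Y (nat_lit 47279053332153) .L .L) (.Y (nat_lit 47279053332153) .L .L)) (.X (nat_lit 189116380910351) (.Y (nat_lit 53876268116979) .L .L) (.Y (nat_lit 53876268116979) .L .L))) (.Y (nat_lit 50577605471125) (.X (nat_lit 215504921499925) (.Y (nat_lit 47279053332153) .L .L) (.Y (nat_lit 47279053332153) .L .L)) (.X (nat_lit 215504921499925) (.Y (nat_lit 53876268116979) .L .L) (.Y (nat_lit 53876268116979) (.X (nat_lit 222101788920263) .L .L) (.X (nat_lit 222101788920263) .L .L))))) (.X (nat_lit 202310140892619) (.Y (nat_lit 63771679804411) (.X (nat_lit 189116380910351) (.Y (nat_lit 60473244612473) .L .L) (.Y (nat_lit 60473244612473) .L .L)) (.X (nat_lit 189116380910351) (.Y (nat_lit 67070390017947) .L (.X (nat_lit 182519494221219) .L .L)) (.Y (nat_lit 67070390017947) .L (.X (nat_lit 195713749390113) .L .L)))) (.Y (nat_lit 63771679804411) (.X (nat_lit 215504921499925) (.Y (nat_lit 60473244612473) .L .L) (.Y (nat_lit 60473244612473) (.X (nat_lit 222101788920263) .L .L) (.X (nat_lit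 222101788920263) .L .L))) (.X (nat_lit 215504921499925) (.Y (nat_lit 67070390017947) (.X (nat_lit 208907245026275) .L .L) (.X (nat_lit 208907245026275) .L .L)) (.Y (nat_lit 67070390017947) (.X (nat_lit 222101788920263) .L .L) (.X (nat_lit 222101788920263) .L .L)))))) (.Y (nat_lit 57174647204107) (.X (nat_lit 255086824559739) (.Y (nat_lit 50577605471125) (.X (nat_lit 241893002613737) (.Y (nat_lit 47279053332153) (.X (nat_lit 235295627237515) .L .L) (.X (nat_lit 235295627237515) .L .L)) (.Y (nat_lit 47279053332153) (.X (nat_lit 248490118606877) .L .L) (.X (nat_lit 248490118606877) .L .L))) (.X (nat_lit 241893002613737) (.Y (nat_lit 53876268116979) (.X (nat_lit 235295627237515) .L .L) (.X (nat_lit 235295627237515) .L .L)) (.Y (nat_lit 53876268116979) (.X (nat_lit 248490118606877) .L .L) (.X (nat_lit 248490118606877) .L .L)))) (.Y (nat_lit 50577605471125) (.X (nat_lit 268281298399015) (.Y (nat_lit 47279053332153) (.X (nat_lit 261683961600471) .L (.Y (nat_lit 45629757115749) .L .L)) (.X (nat_lit 261683961600471) .L (.Y (nat_lit 48928354636155)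 .L .L))) (.Y (nat_lit 47279053332153) (.X (nat_lit 274878253549387) (.Y (nat_lit 45629757115749) .L .L) (.Y (nat_lit 45629757115749) .L .L)) (.X (nat_lit 274878253549387) (.Y (nat_lit 48928354636155) .L .L) (.Y (nat_lit 48928354636155) .L .L)))) (.X (nat_lit 268281298399015) (.Y (nat_lit 53876268116979) (.X (nat_lit 261683961600471) .L (.Y (nat_lit 52226807159787) .L .L)) (.X (nat_lit 261683961600471) .L (.Y (nat_lit 55525429635223) .L .L))) (.Y (nat_lit 53876268116979) (.X (nat_lit 274878253549387) (.Y (nat_lit 52226807159787) .L .L) (.Y (nat_lit 52226807159787) .L .L)) (.X (nat_lit 274878253549387) (.Y (nat_lit 55525429635223) .L .L) (.Y (nat_lit 55525429635223) .L .L)))))) (.X (nat_lit 255086824559739) (.Y (nat_lit 63771679804411) (.X (nat_lit 241893002613737) (.Y (nat_lit 60473244612473) (.X (nat_lit 235295627237515) .L .L) (.X (nat_lit 235295627237515) .L .L)) (.Y (nat_lit 60473244612473) (.X (nat_lit 248490118606877) .L .L) (.X (nat_lit 248490118606877) .L .L))) (.X (nat_lit 241893002613737) (.Y (nat_lit 67070390017947)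 (.X (nat_lit 235295627237515) .L .L) (.X (nat_lit 235295627237515) .L .L)) (.Y (nat_lit 67070390017947) (.X (nat_lit 248490118606877) .L .L) (.X (nat_lit 248490118606877) .L .L)))) (.Y (nat_lit 63771679804411) (.X (nat_lit 268281298399015) (.Y (nat_lit 60473244612473) (.X (nat_lit 261683961600471) .L (.Y (nat_lit 58824052264953) .L .L)) (.X (nat_lit 261683961600471) .L (.Y (nat_lit 62122420628993) .L .L))) (.Y (nat_lit 60473244612473) (.X (nat_lit 274878253549387) (.Y (nat_lit 58824052264953) .L .L) (.Y (nat_lit 58824052264953) .L .L)) (.X (nat_lit 274878253549387) (.Y (nat_lit 62122420628993) .L .L) (.Y (nat_lit 62122420628993) .L .L)))) (.X (nat_lit 268281298399015) (.Y (nat_lit 67070390017947) (.X (nat_lit 261683961600471) .L (.Y (nat_lit 65421109595225) .L .L)) (.X (nat_lit 261683961600471) .L (.Y (nat_lit 68719600096481) .L .L))) (.Y (nat_lit 67070390017947) (.X (nat_lit 274878253549387) (.Y (nat_lit 65421109595225) .L .L) (.Y (nat_lit 65421109595225) .L .L)) (.X (nat_lit 274878253549387) (.Y (nat_lit 68719600096481) .L .L)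 (.Y (nat_lit 68719600096481) .L .L)))))))))
    (nat_lit 175922061124267) (nat_lit 281474976710656) (nat_lit 17592208417917) (nat_lit 70368900064303) = true := by
  decide +kernel

theorem cBp_7 : chk false SB (nat_lit 281474976710656) FS PSp PBp ABp HBp
    .L
    (nat_lit 0) (nat_lit 70368900064303) (nat_lit 70368900064303) (nat_lit 123145539196135) = true := by
  decide +kernel

theorem cBp_8 : chk false SB (nat_lit 281474976710656) FS PSp PBp ABp HBp
    (.X (nat_lit 123145539196135) (.Y (nat_lit 96757370032245) (.X (nat_lit 96757370032245) (.Y (nat_lit 83563010727971) (.X (nat_lit 83563010727971) (.Y (nat_lit 76965864127081) (.X (nat_lit 76965864127081) (.Y (nat_lit 73667436176997) (.X (nat_lit 73667436176997) .L .L) (.X (nat_lit 73667436176997) .L .L)) (.Y (nat_lit 73667436176997) (.X (nat_lit 80264523106889) .L .L) (.X (nat_lit 80264523106889) .L .L))) (.X (nat_lit 76965864127081) .L (.Y (nat_lit 80264523106889) (.X (nat_lit 80264523106889) .L .L) (.X (nat_lit 80264523106889) .L .L)))) (.Y (nat_lit 76965864127081) (.X (nat_lit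 90160235478093) (.Y (nat_lit 73667436176997) (.X (nat_lit 86861551642167) .L .L) (.X (nat_lit 86861551642167) .L .L)) (.Y (nat_lit 73667436176997) .L (.X (nat_lit 93458625275347) .L .L))) (.X (nat_lit 90160235478093) (.Y (nat_lit 80264523106889) (.X (nat_lit 86861551642167) .L .L) (.X (nat_lit 86861551642167) .L .L)) (.Y (nat_lit 80264523106889) (.X (nat_lit 93458625275347) .L .L) (.X (nat_lit 93458625275347) .L .L))))) (.X (nat_lit 83563010727971) .L (.Y (nat_lit 90160235478093) (.X (nat_lit 90160235478093) (.Y (nat_lit 86861551642167) (.X (nat_lit 86861551642167) .L .L) (.X (nat_lit 86861551642167) .L .L)) (.Y (nat_lit 86861551642167) (.X (nat_lit 93458625275347) .L .L) (.X (nat_lit 93458625275347) .L .L))) (.X (nat_lit 90160235478093) .L (.Y (nat_lit 93458625275347) (.X (nat_lit 93458625275347) .L .L) (.X (nat_lit 93458625275347) .L .L)))))) (.Y (nat_lit 83563010727971) (.X (nat_lit 109951574343109) (.Y (nat_lit 76965864127081) (.X (nat_lit 103354427401721) (.Y (nat_lit 73667436176997) .L .L) (.Y (nat_lit 73667436176997) .L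 .L)) (.X (nat_lit 103354427401721) (.Y (nat_lit 80264523106889) .L .L) (.Y (nat_lit 80264523106889) .L .L))) (.Y (nat_lit 76965864127081) (.X (nat_lit 116548591607855) (.Y (nat_lit 73667436176997) .L .L) (.Y (nat_lit 73667436176997) .L .L)) (.X (nat_lit 116548591607855) (.Y (nat_lit 80264523106889) .L .L) (.Y (nat_lit 80264523106889) .L .L)))) (.X (nat_lit 109951574343109) (.Y (nat_lit 90160235478093) (.X (nat_lit 103354427401721) (.Y (nat_lit 86861551642167) .L (.X (nat_lit 100055637574935) .L .L)) (.Y (nat_lit 86861551642167) .L .L)) (.X (nat_lit 103354427401721) (.Y (nat_lit 93458625275347) (.X (nat_lit 100055637574935) .L .L) (.X (nat_lit 100055637574935) .L .L)) (.Y (nat_lit 93458625275347) (.X (nat_lit 106652846660227) .L .L) (.X (nat_lit 106652846660227) .L .L)))) (.Y (nat_lit 90160235478093) (.X (nat_lit 116548591607855) (.Y (nat_lit 86861551642167) .L .L) (.Y (nat_lit 86861551642167) .L .L)) (.X (nat_lit 116548591607855) (.Y (nat_lit 93458625275347) .L .L) (.Y (nat_lit 93458625275347) .L .L)))))) (.X (nat_lit 96757370032245)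 .L (.Y (nat_lit 109951574343109) (.X (nat_lit 109951574343109) (.Y (nat_lit 103354427401721) (.X (nat_lit 103354427401721) (.Y (nat_lit 100055637574935) (.X (nat_lit 100055637574935) .L .L) (.X (nat_lit 100055637574935) .L .L)) (.Y (nat_lit 100055637574935) (.X (nat_lit 106652846660227) .L .L) (.X (nat_lit 106652846660227) .L .L))) (.X (nat_lit 103354427401721) .L (.Y (nat_lit 106652846660227) (.X (nat_lit 106652846660227) .L .L) (.X (nat_lit 106652846660227) .L .L)))) (.Y (nat_lit 103354427401721) (.X (nat_lit 116548591607855) (.Y (nat_lit 100055637574935) (.X (nat_lit 113250080874043) .L .L) (.X (nat_lit 113250080874043) .L .L)) (.Y (nat_lit 100055637574935) .L (.X (nat_lit 119847078166217) .L .L))) (.X (nat_lit 116548591607855) (.Y (nat_lit 106652846660227) (.X (nat_lit 113250080874043) .L .L) (.X (nat_lit 113250080874043) .L .L)) (.Y (nat_lit 106652846660227) (.X (nat_lit 119847078166217) .L .L) (.X (nat_lit 119847078166217) .L .L))))) (.X (nat_lit 109951574343109) .L (.Y (nat_lit 116548591607855) (.X (nat_lit 116548591607855)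 (.Y (nat_lit 113250080874043) (.X (nat_lit 113250080874043) .L .L) (.X (nat_lit 113250080874043) .L .L)) (.Y (nat_lit 113250080874043) (.X (nat_lit 119847078166217) .L .L) (.X (nat_lit 119847078166217) .L .L))) (.X (nat_lit 116548591607855) .L (.Y (nat_lit 119847078166217) (.X (nat_lit 119847078166217) .L .L) (.X (nat_lit 119847078166217) .L .L)))))))) (.Y (nat_lit 96757370032245) (.X (nat_lit 149534024483977) (.Y (nat_lit 83563010727971) (.X (nat_lit 136339568249161) (.Y (nat_lit 76965864127081) (.X (nat_lit 129742764912007) (.Y (nat_lit 73667436176997) .L .L) (.Y (nat_lit 73667436176997) .L .L)) (.X (nat_lit 129742764912007) (.Y (nat_lit 80264523106889) .L .L) (.Y (nat_lit 80264523106889) .L .L))) (.Y (nat_lit 76965864127081) (.X (nat_lit 142936634562605) (.Y (nat_lit 73667436176997) .L .L) (.Y (nat_lit 73667436176997) .L .L)) (.X (nat_lit 142936634562605) (.Y (nat_lit 80264523106889) .L .L) (.Y (nat_lit 80264523106889) .L .L)))) (.X (nat_lit 136339568249161) (.Y (nat_lit 90160235478093) (.X (nat_lit 129742764912007) (.Y (nat_lit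 86861551642167) .L .L) (.Y (nat_lit 86861551642167) .L .L)) (.X (nat_lit 129742764912007) (.Y (nat_lit 93458625275347) .L .L) (.Y (nat_lit 93458625275347) .L .L))) (.Y (nat_lit 90160235478093) (.X (nat_lit 142936634562605) (.Y (nat_lit 86861551642167) .L .L) (.Y (nat_lit 86861551642167) .L .L)) (.X (nat_lit 142936634562605) (.Y (nat_lit 93458625275347) .L .L) (.Y (nat_lit 93458625275347) .L .L))))) (.Y (nat_lit 83563010727971) (.X (nat_lit 162728167111501) (.Y (nat_lit 76965864127081) (.X (nat_lit 156131068094103) (.Y (nat_lit 73667436176997) .L .L) (.Y (nat_lit 73667436176997) .L .L)) (.X (nat_lit 156131068094103) (.Y (nat_lit 80264523106889) .L .L) (.Y (nat_lit 80264523106889) .L .L))) (.Y (nat_lit 76965864127081) (.X (nat_lit 169325150016969) (.Y (nat_lit 73667436176997) .L .L) (.Y (nat_lit 73667436176997) .L .L)) (.X (nat_lit 169325150016969) (.Y (nat_lit 80264523106889) .L .L) (.Y (nat_lit 80264523106889) .L .L)))) (.X (nat_lit 162728167111501) (.Y (nat_lit 90160235478093) (.X (nat_lit 156131068094103) (.Y (nat_lit 86861551642167)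 .L .L) (.Y (nat_lit 86861551642167) .L .L)) (.X (nat_lit 156131068094103) (.Y (nat_lit 93458625275347) .L .L) (.Y (nat_lit 93458625275347) .L .L))) (.Y (nat_lit 90160235478093) (.X (nat_lit 169325150016969) (.Y (nat_lit 86861551642167) .L .L) (.Y (nat_lit 86861551642167) .L .L)) (.X (nat_lit 169325150016969) (.Y (nat_lit 93458625275347) .L .L) (.Y (nat_lit 93458625275347) .L .L)))))) (.X (nat_lit 149534024483977) (.Y (nat_lit 109951574343109) (.X (nat_lit 136339568249161) (.Y (nat_lit 103354427401721) (.X (nat_lit 129742764912007) (.Y (nat_lit 100055637574935) .L .L) (.Y (nat_lit 100055637574935) .L .L)) (.X (nat_lit 129742764912007) (.Y (nat_lit 106652846660227) .L (.X (nat_lit 126444002716177) .L .L)) (.Y (nat_lit 106652846660227) .L .L))) (.Y (nat_lit 103354427401721) (.X (nat_lit 142936634562605) (.Y (nat_lit 100055637574935) .L .L) (.Y (nat_lit 100055637574935) .L .L)) (.X (nat_lit 142936634562605) (.Y (nat_lit 106652846660227) .L .L) (.Y (nat_lit 106652846660227) .L .L)))) (.X (nat_lit 136339568249161) (.Y (nat_lit 116548591607855)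 (.X (nat_lit 129742764912007) (.Y (nat_lit 113250080874043) (.X (nat_lit 126444002716177) .L .L) (.X (nat_lit 126444002716177) .L .L)) (.Y (nat_lit 113250080874043) .L .L)) (.X (nat_lit 129742764912007) (.Y (nat_lit 119847078166217) (.X (nat_lit 126444002716177) .L .L) (.X (nat_lit 126444002716177) .L .L)) (.Y (nat_lit 119847078166217) (.X (nat_lit 133041154257545) .L .L) (.X (nat_lit 133041154257545) .L .L)))) (.Y (nat_lit 116548591607855) (.X (nat_lit 142936634562605) (.Y (nat_lit 113250080874043) .L .L) (.Y (nat_lit 113250080874043) .L .L)) (.X (nat_lit 142936634562605) (.Y (nat_lit 119847078166217) (.X (nat_lit 139638142057397) .L .L) (.X (nat_lit 139638142057397) .L .L)) (.Y (nat_lit 119847078166217) .L (.X (nat_lit 146235091934041) .L .L)))))) (.Y (nat_lit 109951574343109) (.X (nat_lit 162728167111501) (.Y (nat_lit 103354427401721) (.X (nat_lit 156131068094103) (.Y (nat_lit 100055637574935) .L .L) (.Y (nat_lit 100055637574935) .L .L)) (.X (nat_lit 156131068094103) (.Y (nat_lit 106652846660227) .L .L) (.Y (nat_lit 106652846660227)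 .L .L))) (.Y (nat_lit 103354427401721) (.X (nat_lit 169325150016969) (.Y (nat_lit 100055637574935) .L .L) (.Y (nat_lit 100055637574935) .L .L)) (.X (nat_lit 169325150016969) (.Y (nat_lit 106652846660227) .L .L) (.Y (nat_lit 106652846660227) .L .L)))) (.X (nat_lit 162728167111501) (.Y (nat_lit 116548591607855) (.X (nat_lit 156131068094103) (.Y (nat_lit 113250080874043) .L .L) (.Y (nat_lit 113250080874043) .L .L)) (.X (nat_lit 156131068094103) (.Y (nat_lit 119847078166217) .L .L) (.Y (nat_lit 119847078166217) .L .L))) (.Y (nat_lit 116548591607855) (.X (nat_lit 169325150016969) (.Y (nat_lit 113250080874043) .L .L) (.Y (nat_lit 113250080874043) .L .L)) (.X (nat_lit 169325150016969) (.Y (nat_lit 119847078166217) .L .L) (.Y (nat_lit 119847078166217) .L .L))))))))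
    (nat_lit 70368900064303) (nat_lit 175922061124267) (nat_lit 70368900064303) (nat_lit 123145539196135) = true := by
  decide +kernel

theorem cBp_9 : chk false SB (nat_lit 281474976710656) FS PSp PBp ABp HBp
    (.Y (nat_lit 96757370032245) (.X (nat_lit 228698491831029) (.Y (nat_lit 83563010727971) (.X (nat_lit 202310140892619) (.Y (nat_lit 76965864127081) (.X (nat_lit 189116380910351) (.Y (nat_lit 73667436176997) (.X (nat_lit 182519494221219) .L .L) (.X (nat_lit 182519494221219) .L .L)) (.Y (nat_lit 73667436176997) (.X (nat_lit 195713749390113) .L .L) (.X (nat_lit 195713749390113) .L .L))) (.X (nat_lit 189116380910351) (.X (nat_lit 182519494221219) (.Y (nat_lit 80264523106889) .L .L) (.Y (nat_lit 80264523106889) .L .L)) (.X (nat_lit 195713749390113) (.Y (nat_lit 80264523106889) .L .L) (.Y (nat_lit 80264523106889) .L .L)))) (.Y (nat_lit 76965864127081) (.X (nat_lit 215504921499925) (.Y (nat_lit 73667436176997) (.X (nat_lit 208907245026275) .L .L) (.X (nat_lit 208907245026275) .L .L)) (.Y (nat_lit 73667436176997) (.X (nat_lit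 222101788920263) .L .L) (.X (nat_lit 222101788920263) .L .L))) (.X (nat_lit 215504921499925) (.Y (nat_lit 80264523106889) (.X (nat_lit 208907245026275) .L .L) (.X (nat_lit 208907245026275) .L .L)) (.Y (nat_lit 80264523106889) (.X (nat_lit 222101788920263) .L .L) (.X (nat_lit 222101788920263) .L .L))))) (.X (nat_lit 202310140892619) (.X (nat_lit 189116380910351) (.Y (nat_lit 90160235478093) (.X (nat_lit 182519494221219) (.Y (nat_lit 86861551642167) .L .L) (.Y (nat_lit 86861551642167) .L .L)) (.X (nat_lit 182519494221219) (.Y (nat_lit 93458625275347) .L .L) (.Y (nat_lit 93458625275347) .L .L))) (.Y (nat_lit 90160235478093) (.X (nat_lit 195713749390113) (.Y (nat_lit 86861551642167) .L .L) (.Y (nat_lit 86861551642167) .L .L)) (.X (nat_lit 195713749390113) (.Y (nat_lit 93458625275347) .L .L) (.Y (nat_lit 93458625275347) .L .L)))) (.X (nat_lit 215504921499925) (.Y (nat_lit 90160235478093) (.X (nat_lit 208907245026275) (.Y (nat_lit 86861551642167) .L .L) (.Y (nat_lit 86861551642167) .L .L)) (.X (nat_lit 208907245026275) (.Y (nat_lit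 93458625275347) .L .L) (.Y (nat_lit 93458625275347) .L .L))) (.Y (nat_lit 90160235478093) (.Y (nat_lit 86861551642167) (.X (nat_lit 222101788920263) .L .L) (.X (nat_lit 222101788920263) .L .L)) (.X (nat_lit 222101788920263) (.Y (nat_lit 93458625275347) .L .L) (.Y (nat_lit 93458625275347) .L .L)))))) (.Y (nat_lit 83563010727971) (.X (nat_lit 255086824559739) (.Y (nat_lit 76965864127081) (.X (nat_lit 241893002613737) (.Y (nat_lit 73667436176997) (.X (nat_lit 235295627237515) .L .L) (.X (nat_lit 235295627237515) .L .L)) (.Y (nat_lit 73667436176997) (.X (nat_lit 248490118606877) .L .L) (.X (nat_lit 248490118606877) .L .L))) (.X (nat_lit 241893002613737) (.Y (nat_lit 80264523106889) (.X (nat_lit 235295627237515) .L .L) (.X (nat_lit 235295627237515) .L .L)) (.Y (nat_lit 80264523106889) (.X (nat_lit 248490118606877) .L .L) (.X (nat_lit 248490118606877) .L .L)))) (.Y (nat_lit 76965864127081) (.X (nat_lit 268281298399015) (.Y (nat_lit 73667436176997) (.X (nat_lit 261683961600471) .L (.Y (nat_lit 72018151498917) .L .L)) (.X (nat_lit 261683961600471)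 .L (.Y (nat_lit 75316723090777) .L .L))) (.Y (nat_lit 73667436176997) (.X (nat_lit 274878253549387) (.Y (nat_lit 72018151498917) .L .L) (.Y (nat_lit 72018151498917) .L .L)) (.X (nat_lit 274878253549387) (.Y (nat_lit 75316723090777) .L .L) (.Y (nat_lit 75316723090777) .L .L)))) (.X (nat_lit 268281298399015) (.Y (nat_lit 80264523106889) (.X (nat_lit 261683961600471) .L (.Y (nat_lit 78615251642775) .L .L)) (.X (nat_lit 261683961600471) .L (.Y (nat_lit 81913833297479) .L .L))) (.Y (nat_lit 80264523106889) (.X (nat_lit 274878253549387) (.Y (nat_lit 78615251642775) .L .L) (.Y (nat_lit 78615251642775) .L .L)) (.X (nat_lit 274878253549387) (.Y (nat_lit 81913833297479) .L .L) (.Y (nat_lit 81913833297479) .L .L)))))) (.X (nat_lit 255086824559739) (.Y (nat_lit 90160235478093) (.X (nat_lit 241893002613737) (.Y (nat_lit 86861551642167) (.X (nat_lit 235295627237515) .L .L) (.X (nat_lit 235295627237515) .L .L)) (.Y (nat_lit 86861551642167) (.X (nat_lit 248490118606877) .L .L) (.X (nat_lit 248490118606877) .L .L))) (.X (nat_lit 241893002613737)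 (.X (nat_lit 235295627237515) (.Y (nat_lit 93458625275347) .L .L) (.Y (nat_lit 93458625275347) .L .L)) (.Y (nat_lit 93458625275347) (.X (nat_lit 248490118606877) .L .L) (.X (nat_lit 248490118606877) .L .L)))) (.Y (nat_lit 90160235478093) (.X (nat_lit 268281298399015) (.Y (nat_lit 86861551642167) (.X (nat_lit 261683961600471) .L (.Y (nat_lit 85212246981155) .L .L)) (.X (nat_lit 261683961600471) (.Y (nat_lit 88510968350873) .L .L) (.Y (nat_lit 88510968350873) .L .L))) (.Y (nat_lit 86861551642167) (.X (nat_lit 274878253549387) (.Y (nat_lit 85212246981155) .L .L) (.Y (nat_lit 85212246981155) .L .L)) (.X (nat_lit 274878253549387) (.Y (nat_lit 88510968350873) .L .L) (.Y (nat_lit 88510968350873) .L .L)))) (.X (nat_lit 268281298399015) (.Y (nat_lit 93458625275347) (.X (nat_lit 261683961600471) (.Y (nat_lit 91809442792681) .L .L) (.Y (nat_lit 91809442792681) .L .L)) (.X (nat_lit 261683961600471) (.Y (nat_lit 95107850375423) .L .L) (.Y (nat_lit 95107850375423) .L .L))) (.Y (nat_lit 93458625275347) (.X (nat_lit 274878253549387) (.Y (nat_lit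 91809442792681) .L .L) (.Y (nat_lit 91809442792681) .L .L)) (.X (nat_lit 274878253549387) (.Y (nat_lit 95107850375423) .L .L) (.Y (nat_lit 95107850375423) .L (.X (nat_lit 278177248251385) .L .L))))))))) (.X (nat_lit 228698491831029) (.X (nat_lit 202310140892619) (.Y (nat_lit 109951574343109) (.X (nat_lit 189116380910351) (.Y (nat_lit 103354427401721) (.X (nat_lit 182519494221219) (.Y (nat_lit 100055637574935) .L .L) (.Y (nat_lit 100055637574935) .L .L)) (.X (nat_lit 182519494221219) (.Y (nat_lit 106652846660227) .L .L) (.Y (nat_lit 106652846660227) .L .L))) (.Y (nat_lit 103354427401721) (.X (nat_lit 195713749390113) (.Y (nat_lit 100055637574935) .L .L) (.Y (nat_lit 100055637574935) .L .L)) (.X (nat_lit 195713749390113) (.Y (nat_lit 106652846660227) .L .L) (.Y (nat_lit 106652846660227) .L .L)))) (.X (nat_lit 189116380910351) (.Y (nat_lit 116548591607855) (.X (nat_lit 182519494221219) (.Y (nat_lit 113250080874043) .L .L) (.Y (nat_lit 113250080874043) .L .L)) (.X (nat_lit 182519494221219) (.Y (nat_lit 119847078166217) .L .L) (.Y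 (nat_lit 119847078166217) .L .L))) (.Y (nat_lit 116548591607855) (.X (nat_lit 195713749390113) (.Y (nat_lit 113250080874043) .L .L) (.Y (nat_lit 113250080874043) .L .L)) (.X (nat_lit 195713749390113) (.Y (nat_lit 119847078166217) .L .L) (.Y (nat_lit 119847078166217) .L .L))))) (.Y (nat_lit 109951574343109) (.X (nat_lit 215504921499925) (.Y (nat_lit 103354427401721) (.X (nat_lit 208907245026275) (.Y (nat_lit 100055637574935) .L .L) (.Y (nat_lit 100055637574935) .L .L)) (.X (nat_lit 208907245026275) (.Y (nat_lit 106652846660227) .L .L) (.Y (nat_lit 106652846660227) .L .L))) (.Y (nat_lit 103354427401721) (.X (nat_lit 222101788920263) (.Y (nat_lit 100055637574935) .L .L) (.Y (nat_lit 100055637574935) .L .L)) (.X (nat_lit 222101788920263) (.Y (nat_lit 106652846660227) .L .L) (.Y (nat_lit 106652846660227) .L .L)))) (.X (nat_lit 215504921499925) (.Y (nat_lit 116548591607855) (.X (nat_lit 208907245026275) (.Y (nat_lit 113250080874043) .L .L) (.Y (nat_lit 113250080874043) .L .L)) (.X (nat_lit 208907245026275) (.Y (nat_lit 119847078166217)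 .L .L) (.Y (nat_lit 119847078166217) .L .L))) (.Y (nat_lit 116548591607855) (.X (nat_lit 222101788920263) (.Y (nat_lit 113250080874043) .L .L) (.Y (nat_lit 113250080874043) .L .L)) (.X (nat_lit 222101788920263) (.Y (nat_lit 119847078166217) .L .L) (.Y (nat_lit 119847078166217) .L .L)))))) (.X (nat_lit 255086824559739) (.Y (nat_lit 109951574343109) (.X (nat_lit 241893002613737) (.Y (nat_lit 103354427401721) (.X (nat_lit 235295627237515) (.Y (nat_lit 100055637574935) .L .L) (.Y (nat_lit 100055637574935) .L .L)) (.X (nat_lit 235295627237515) (.Y (nat_lit 106652846660227) .L .L) (.Y (nat_lit 106652846660227) .L .L))) (.Y (nat_lit 103354427401721) (.X (nat_lit 248490118606877) (.Y (nat_lit 100055637574935) .L .L) (.Y (nat_lit 100055637574935) .L (.X (nat_lit 251788758375757) .L .L))) (.X (nat_lit 248490118606877) (.Y (nat_lit 106652846660227) .L .L) (.Y (nat_lit 106652846660227) (.X (nat_lit 251788758375757) .L .L) (.X (nat_lit 251788758375757) .L .L))))) (.X (nat_lit 241893002613737) (.Y (nat_lit 116548591607855) (.X (nat_lit 235295627237515)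 (.Y (nat_lit 113250080874043) .L .L) (.Y (nat_lit 113250080874043) .L .L)) (.X (nat_lit 235295627237515) (.Y (nat_lit 119847078166217) .L (.X (nat_lit 231997128665521) .L .L)) (.Y (nat_lit 119847078166217) (.X (nat_lit 238594887674805) .L .L) (.X (nat_lit 238594887674805) .L .L)))) (.Y (nat_lit 116548591607855) (.X (nat_lit 248490118606877) (.Y (nat_lit 113250080874043) (.X (nat_lit 245191583714887) .L .L) (.X (nat_lit 245191583714887) .L .L)) (.Y (nat_lit 113250080874043) (.X (nat_lit 251788758375757) .L .L) (.X (nat_lit 251788758375757) .L .L))) (.X (nat_lit 248490118606877) (.Y (nat_lit 119847078166217) (.X (nat_lit 245191583714887) .L .L) (.X (nat_lit 245191583714887) .L .L)) (.Y (nat_lit 119847078166217) (.X (nat_lit 251788758375757) .L .L) (.X (nat_lit 251788758375757) .L .L)))))) (.Y (nat_lit 109951574343109) (.X (nat_lit 268281298399015) (.Y (nat_lit 103354427401721) (.X (nat_lit 261683961600471) (.Y (nat_lit 100055637574935) (.X (nat_lit 258385378025711) .L .L) (.X (nat_lit 258385378025711) .L .L)) (.Y (nat_lit 100055637574935)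 (.Y (nat_lit 98406453977681) .L .L) (.X (nat_lit 264982974400673) .L .L))) (.X (nat_lit 261683961600471) (.Y (nat_lit 106652846660227) (.X (nat_lit 258385378025711) .L .L) (.X (nat_lit 258385378025711) .L .L)) (.Y (nat_lit 106652846660227) (.X (nat_lit 264982974400673) .L .L) (.X (nat_lit 264982974400673) .L .L)))) (.Y (nat_lit 103354427401721) (.Y (nat_lit 100055637574935) (.X (nat_lit 274878253549387) (.Y (nat_lit 98406453977681) .L .L) (.Y (nat_lit 98406453977681) (.X (nat_lit 278177248251385) .L .L) (.X (nat_lit 278177248251385) .L .L))) (.X (nat_lit 274878253549387) (.X (nat_lit 271580222860113) .L .L) (.Y (nat_lit 101705205838913) (.X (nat_lit 278177248251385) .L .L) (.X (nat_lit 278177248251385) .L .L)))) (.X (nat_lit 274878253549387) (.Y (nat_lit 106652846660227) (.X (nat_lit 271580222860113) .L .L) (.X (nat_lit 271580222860113) .L .L)) (.Y (nat_lit 106652846660227) (.X (nat_lit 278177248251385) (.Y (nat_lit 105003646355537) .L .L) (.Y (nat_lit 105003646355537) .L .L)) (.X (nat_lit 278177248251385) (.Y (nat_lit 108302114692099)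 .L .L) (.Y (nat_lit 108302114692099) .L .L)))))) (.X (nat_lit 268281298399015) (.Y (nat_lit 116548591607855) (.X (nat_lit 261683961600471) (.Y (nat_lit 113250080874043) (.X (nat_lit 258385378025711) .L .L) (.X (nat_lit 258385378025711) .L .L)) (.Y (nat_lit 113250080874043) (.X (nat_lit 264982974400673) .L .L) (.X (nat_lit 264982974400673) .L .L))) (.X (nat_lit 261683961600471) (.Y (nat_lit 119847078166217) (.X (nat_lit 258385378025711) .L .L) (.X (nat_lit 258385378025711) .L .L)) (.Y (nat_lit 119847078166217) (.X (nat_lit 264982974400673) .L .L) (.X (nat_lit 264982974400673) .L .L)))) (.Y (nat_lit 116548591607855) (.X (nat_lit 274878253549387) (.Y (nat_lit 113250080874043) (.X (nat_lit 271580222860113) .L .L) (.X (nat_lit 271580222860113) .L .L)) (.Y (nat_lit 113250080874043) (.X (nat_lit 278177248251385) (.Y (nat_lit 111600563376723) .L .L) (.Y (nat_lit 111600563376723) .L .L)) (.X (nat_lit 278177248251385) (.Y (nat_lit 114899348013923) .L .L) (.Y (nat_lit 114899348013923) .L .L)))) (.X (nat_lit 274878253549387) (.Y (nat_lit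 119847078166217) (.X (nat_lit 271580222860113) .L .L) (.X (nat_lit 271580222860113) .L .L)) (.Y (nat_lit 119847078166217) (.X (nat_lit 278177248251385) (.Y (nat_lit 118197703566315) .L .L) (.Y (nat_lit 118197703566315) .L .L)) (.X (nat_lit 278177248251385) (.Y (nat_lit 121496202487633) .L .L) (.Y (nat_lit 121496202487633) .L .L))))))))))
    (nat_lit 175922061124267) (nat_lit 281474976710656) (nat_lit 70368900064303) (nat_lit 123145539196135) = true := by
  decide +kernel

theorem cBp_10 : chk false SB (nat_lit 281474976710656) FS PSp PBp ABp HBp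
    .L
    (nat_lit 0) (nat_lit 70368900064303) (nat_lit 123145539196135) (nat_lit 175922061124267) = true := by
  decide +kernel

theorem cBp_11 : chk false SB (nat_lit 281474976710656) FS PSp PBp ABp HBp
    (.X (nat_lit 123145539196135) .L (.Y (nat_lit 149534024483977) (.X (nat_lit 149534024483977) (.Y (nat_lit 136339568249161) (.X (nat_lit 136339568249161) (.Y (nat_lit 129742764912007) (.X (nat_lit 129742764912007) (.Y (nat_lit 126444002716177) (.X (nat_lit 126444002716177) .L .L) (.X (nat_lit 126444002716177) .L .L)) (.Y (nat_lit 126444002716177) (.X (nat_lit 133041154257545) .L .L) (.X (nat_lit 133041154257545) .L .L))) (.X (nat_lit 129742764912007) .L (.Y (nat_lit 133041154257545) (.X (nat_lit 133041154257545) .L .L) (.X (nat_lit 133041154257545) .L .L)))) (.Y (nat_lit 129742764912007) (.X (nat_lit 142936634562605) (.Y (nat_lit 126444002716177) (.X (nat_lit 139638142057397) .L .L) (.X (nat_lit 139638142057397) .L .L)) (.Y (nat_lit 126444002716177) (.X (nat_lit 146235091934041) .L .L) (.X (nat_lit 146235091934041) .L .L)))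 (.X (nat_lit 142936634562605) (.Y (nat_lit 133041154257545) (.X (nat_lit 139638142057397) .L .L) (.X (nat_lit 139638142057397) .L .L)) (.Y (nat_lit 133041154257545) (.X (nat_lit 146235091934041) .L .L) (.X (nat_lit 146235091934041) .L .L))))) (.X (nat_lit 136339568249161) .L (.Y (nat_lit 142936634562605) (.X (nat_lit 142936634562605) (.Y (nat_lit 139638142057397) (.X (nat_lit 139638142057397) .L .L) (.X (nat_lit 139638142057397) .L .L)) (.Y (nat_lit 139638142057397) (.X (nat_lit 146235091934041) .L .L) (.X (nat_lit 146235091934041) .L .L))) (.X (nat_lit 142936634562605) .L (.Y (nat_lit 146235091934041) (.X (nat_lit 146235091934041) .L .L) (.X (nat_lit 146235091934041) .L .L)))))) (.Y (nat_lit 136339568249161) (.X (nat_lit 162728167111501) (.Y (nat_lit 129742764912007) (.X (nat_lit 156131068094103) (.Y (nat_lit 126444002716177) (.X (nat_lit 152832175072207) .L .L) (.X (nat_lit 152832175072207) .L .L)) (.Y (nat_lit 126444002716177) .L (.X (nat_lit 159429312828695) .L .L))) (.X (nat_lit 156131068094103) (.Y (nat_lit 133041154257545)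 (.X (nat_lit 152832175072207) .L .L) (.X (nat_lit 152832175072207) .L .L)) (.Y (nat_lit 133041154257545) (.X (nat_lit 159429312828695) .L .L) (.X (nat_lit 159429312828695) .L .L)))) (.Y (nat_lit 129742764912007) (.X (nat_lit 169325150016969) (.Y (nat_lit 126444002716177) .L (.X (nat_lit 166026362576049) .L .L)) (.Y (nat_lit 126444002716177) .L .L)) (.X (nat_lit 169325150016969) (.Y (nat_lit 133041154257545) (.X (nat_lit 166026362576049) .L .L) (.X (nat_lit 166026362576049) .L .L)) (.Y (nat_lit 133041154257545) (.X (nat_lit 172623643026637) .L .L) (.X (nat_lit 172623643026637) .L .L))))) (.X (nat_lit 162728167111501) (.Y (nat_lit 142936634562605) (.X (nat_lit 156131068094103) (.Y (nat_lit 139638142057397) (.X (nat_lit 152832175072207) .L .L) (.X (nat_lit 152832175072207) .L .L)) (.Y (nat_lit 139638142057397) (.X (nat_lit 159429312828695) .L .L) (.X (nat_lit 159429312828695) .L .L))) (.X (nat_lit 156131068094103) (.Y (nat_lit 146235091934041) (.X (nat_lit 152832175072207) .L .L) (.X (nat_lit 152832175072207) .L .L)) (.Y (nat_lit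 146235091934041) (.X (nat_lit 159429312828695) .L .L) (.X (nat_lit 159429312828695) .L .L)))) (.Y (nat_lit 142936634562605) (.X (nat_lit 169325150016969) (.Y (nat_lit 139638142057397) (.X (nat_lit 166026362576049) .L .L) (.X (nat_lit 166026362576049) .L .L)) (.Y (nat_lit 139638142057397) (.X (nat_lit 172623643026637) .L .L) (.X (nat_lit 172623643026637) .L .L))) (.X (nat_lit 169325150016969) (.Y (nat_lit 146235091934041) (.X (nat_lit 166026362576049) .L .L) (.X (nat_lit 166026362576049) .L .L)) (.Y (nat_lit 146235091934041) (.X (nat_lit 172623643026637) .L .L) (.X (nat_lit 172623643026637) .L .L))))))) (.X (nat_lit 149534024483977) .L (.Y (nat_lit 162728167111501) (.X (nat_lit 162728167111501) (.Y (nat_lit 156131068094103) (.X (nat_lit 156131068094103) (.Y (nat_lit 152832175072207) (.X (nat_lit 152832175072207) .L .L) (.X (nat_lit 152832175072207) .L .L)) (.Y (nat_lit 152832175072207) (.X (nat_lit 159429312828695) .L .L) (.X (nat_lit 159429312828695) .L .L))) (.X (nat_lit 156131068094103) .L (.Y (nat_lit 159429312828695) (.X (nat_lit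 159429312828695) .L .L) (.X (nat_lit 159429312828695) .L .L)))) (.Y (nat_lit 156131068094103) (.X (nat_lit 169325150016969) (.Y (nat_lit 152832175072207) (.X (nat_lit 166026362576049) .L .L) (.X (nat_lit 166026362576049) .L .L)) (.Y (nat_lit 152832175072207) (.X (nat_lit 172623643026637) .L .L) (.X (nat_lit 172623643026637) .L .L))) (.X (nat_lit 169325150016969) (.Y (nat_lit 159429312828695) (.X (nat_lit 166026362576049) .L .L) (.X (nat_lit 166026362576049) .L .L)) (.Y (nat_lit 159429312828695) (.X (nat_lit 172623643026637) .L .L) (.X (nat_lit 172623643026637) .L .L))))) (.X (nat_lit 162728167111501) .L (.Y (nat_lit 169325150016969) (.X (nat_lit 169325150016969) (.Y (nat_lit 166026362576049) (.X (nat_lit 166026362576049) .L .L) (.X (nat_lit 166026362576049) .L .L)) (.Y (nat_lit 166026362576049) (.X (nat_lit 172623643026637) .L .L) (.X (nat_lit 172623643026637) .L .L))) (.X (nat_lit 169325150016969) .L (.Y (nat_lit 172623643026637) (.X (nat_lit 172623643026637) .L .L) (.X (nat_lit 172623643026637) .L .L)))))))))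
    (nat_lit 70368900064303) (nat_lit 175922061124267) (nat_lit 123145539196135) (nat_lit 175922061124267) = true := by
  decide +kernel

end Crest.Agent.R163.Win
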