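import Crest.Agent.R163.WinD0

/-! Row 163, window engine: kernel checks, part 3 (generated). -/

set_option autoImplicit false
set_option maxRecDepth 1000000

namespace Crest.Agent.R163.Win


theorem cBp_12 : chk false SB (nat_lit 281474976710656) FS PSp PBp ABp HBp
    (.Y (nat_lit 149534024483977) (.X (nat_lit 202310140892619) (.Y (nat_lit 136339568249161) (.X (nat_lit 189116380910351) (.Y (nat_lit 129742764912007) (.X (nat_lit 182519494221219) (.Y (nat_lit 126444002716177) .L .L) (.Y (nat_lit 126444002716177) .L .L)) (.X (nat_lit 182519494221219) (.Y (nat_lit 133041154257545) (.X (nat_lit 179220705058683) .L .L) (.X (nat_lit 179220705058683) .L .L)) (.Y (nat_lit 133041154257545) (.X (nat_lit 185817483816231) .L .L) (.X (nat_lit 185817483816231) .L .L)))) (.Y (nat_lit 129742764912007) (.X (nat_lit 195713749390113) (.Y (nat_lit 126444002716177) .L .L) (.Y (nat_lit 126444002716177) .L .L)) (.X (nat_lit 195713749390113) (.Y (nat_lit 133041154257545) .L (.X (nat_lit 192414759880185) .L .L)) (.Y (nat_lit 133041154257545) .L (.X (nat_lit 199012317382647)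 .L .L))))) (.X (nat_lit 189116380910351) (.Y (nat_lit 142936634562605) (.X (nat_lit 182519494221219) (.Y (nat_lit 139638142057397) (.X (nat_lit 179220705058683) .L .L) (.X (nat_lit 179220705058683) .L .L)) (.Y (nat_lit 139638142057397) (.X (nat_lit 185817483816231) .L .L) (.X (nat_lit 185817483816231) .L .L))) (.X (nat_lit 182519494221219) (.Y (nat_lit 146235091934041) (.X (nat_lit 179220705058683) .L .L) (.X (nat_lit 179220705058683) .L .L)) (.Y (nat_lit 146235091934041) (.X (nat_lit 185817483816231) .L .L) (.X (nat_lit 185817483816231) .L .L)))) (.Y (nat_lit 142936634562605) (.X (nat_lit 195713749390113) (.Y (nat_lit 139638142057397) (.X (nat_lit 192414759880185) .L .L) (.X (nat_lit 192414759880185) .L .L)) (.Y (nat_lit 139638142057397) (.X (nat_lit 199012317382647) .L .L) (.X (nat_lit 199012317382647) .L .L))) (.X (nat_lit 195713749390113) (.Y (nat_lit 146235091934041) (.X (nat_lit 192414759880185) .L .L) (.X (nat_lit 192414759880185) .L .L)) (.Y (nat_lit 146235091934041) (.X (nat_lit 199012317382647) .L .L) (.X (nat_lit 199012317382647) .L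 .L)))))) (.Y (nat_lit 136339568249161) (.X (nat_lit 215504921499925) (.Y (nat_lit 129742764912007) (.X (nat_lit 208907245026275) (.Y (nat_lit 126444002716177) .L .L) (.Y (nat_lit 126444002716177) .L .L)) (.X (nat_lit 208907245026275) (.Y (nat_lit 133041154257545) .L (.X (nat_lit 205608709992409) .L .L)) (.Y (nat_lit 133041154257545) .L (.X (nat_lit 212205805383801) .L .L)))) (.Y (nat_lit 129742764912007) (.X (nat_lit 222101788920263) (.Y (nat_lit 126444002716177) .L .L) (.Y (nat_lit 126444002716177) .L (.X (nat_lit 225400225992563) .L .L))) (.X (nat_lit 222101788920263) (.Y (nat_lit 133041154257545) (.X (nat_lit 218803477624199) .L .L) (.X (nat_lit 218803477624199) .L .L)) (.Y (nat_lit 133041154257545) (.X (nat_lit 225400225992563) .L .L) (.X (nat_lit 225400225992563) .L .L))))) (.X (nat_lit 215504921499925) (.Y (nat_lit 142936634562605) (.X (nat_lit 208907245026275) (.Y (nat_lit 139638142057397) (.X (nat_lit 205608709992409) .L .L) (.X (nat_lit 205608709992409) .L .L)) (.Y (nat_lit 139638142057397) (.X (nat_lit 212205805383801) .L .L) (.X (nat_lit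 212205805383801) .L .L))) (.X (nat_lit 208907245026275) (.Y (nat_lit 146235091934041) (.X (nat_lit 205608709992409) .L .L) (.X (nat_lit 205608709992409) .L .L)) (.Y (nat_lit 146235091934041) (.X (nat_lit 212205805383801) .L .L) (.X (nat_lit 212205805383801) .L .L)))) (.Y (nat_lit 142936634562605) (.X (nat_lit 222101788920263) (.Y (nat_lit 139638142057397) (.X (nat_lit 218803477624199) .L .L) (.X (nat_lit 218803477624199) .L .L)) (.Y (nat_lit 139638142057397) (.X (nat_lit 225400225992563) .L .L) (.X (nat_lit 225400225992563) .L .L))) (.X (nat_lit 222101788920263) (.Y (nat_lit 146235091934041) (.X (nat_lit 218803477624199) .L .L) (.X (nat_lit 218803477624199) .L .L)) (.Y (nat_lit 146235091934041) (.X (nat_lit 225400225992563) .L .L) (.X (nat_lit 225400225992563) .L .L))))))) (.X (nat_lit 202310140892619) (.Y (nat_lit 162728167111501) (.X (nat_lit 189116380910351) (.Y (nat_lit 156131068094103) (.X (nat_lit 182519494221219) (.Y (nat_lit 152832175072207) (.X (nat_lit 179220705058683) .L .L) (.X (nat_lit 179220705058683) .L .L)) (.Y (nat_lit 152832175072207)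 (.X (nat_lit 185817483816231) .L .L) (.X (nat_lit 185817483816231) .L .L))) (.X (nat_lit 182519494221219) (.Y (nat_lit 159429312828695) (.X (nat_lit 179220705058683) .L .L) (.X (nat_lit 179220705058683) .L .L)) (.Y (nat_lit 159429312828695) (.X (nat_lit 185817483816231) .L .L) (.X (nat_lit 185817483816231) .L .L)))) (.Y (nat_lit 156131068094103) (.X (nat_lit 195713749390113) (.Y (nat_lit 152832175072207) (.X (nat_lit 192414759880185) .L .L) (.X (nat_lit 192414759880185) .L .L)) (.Y (nat_lit 152832175072207) (.X (nat_lit 199012317382647) .L .L) (.X (nat_lit 199012317382647) .L .L))) (.X (nat_lit 195713749390113) (.Y (nat_lit 159429312828695) (.X (nat_lit 192414759880185) .L .L) (.X (nat_lit 192414759880185) .L .L)) (.Y (nat_lit 159429312828695) (.X (nat_lit 199012317382647) .L .L) (.X (nat_lit 199012317382647) .L .L))))) (.X (nat_lit 189116380910351) (.Y (nat_lit 169325150016969) (.X (nat_lit 182519494221219) (.Y (nat_lit 166026362576049) (.X (nat_lit 179220705058683) .L .L) (.X (nat_lit 179220705058683) .L .L)) (.Y (nat_lit 166026362576049) (.X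 (nat_lit 185817483816231) .L .L) (.X (nat_lit 185817483816231) .L .L))) (.X (nat_lit 182519494221219) (.Y (nat_lit 172623643026637) (.X (nat_lit 179220705058683) .L .L) (.X (nat_lit 179220705058683) .L .L)) (.Y (nat_lit 172623643026637) (.X (nat_lit 185817483816231) .L .L) (.X (nat_lit 185817483816231) .L .L)))) (.Y (nat_lit 169325150016969) (.X (nat_lit 195713749390113) (.Y (nat_lit 166026362576049) (.X (nat_lit 192414759880185) .L .L) (.X (nat_lit 192414759880185) .L .L)) (.Y (nat_lit 166026362576049) (.X (nat_lit 199012317382647) .L .L) (.X (nat_lit 199012317382647) .L .L))) (.X (nat_lit 195713749390113) (.Y (nat_lit 172623643026637) (.X (nat_lit 192414759880185) .L .L) (.X (nat_lit 192414759880185) .L .L)) (.Y (nat_lit 172623643026637) (.X (nat_lit 199012317382647) .L .L) (.X (nat_lit 199012317382647) .L .L)))))) (.Y (nat_lit 162728167111501) (.X (nat_lit 215504921499925) (.Y (nat_lit 156131068094103) (.X (nat_lit 208907245026275) (.Y (nat_lit 152832175072207) (.X (nat_lit 205608709992409) .L .L) (.X (nat_lit 205608709992409) .L .L)) (.Y (nat_lit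 152832175072207) (.X (nat_lit 212205805383801) .L .L) (.X (nat_lit 212205805383801) .L .L))) (.X (nat_lit 208907245026275) (.Y (nat_lit 159429312828695) (.X (nat_lit 205608709992409) .L .L) (.X (nat_lit 205608709992409) .L .L)) (.Y (nat_lit 159429312828695) (.X (nat_lit 212205805383801) .L .L) (.X (nat_lit 212205805383801) .L .L)))) (.Y (nat_lit 156131068094103) (.X (nat_lit 222101788920263) (.Y (nat_lit 152832175072207) (.X (nat_lit 218803477624199) .L .L) (.X (nat_lit 218803477624199) .L .L)) (.Y (nat_lit 152832175072207) (.X (nat_lit 225400225992563) .L .L) (.X (nat_lit 225400225992563) .L .L))) (.X (nat_lit 222101788920263) (.Y (nat_lit 159429312828695) (.X (nat_lit 218803477624199) .L .L) (.X (nat_lit 218803477624199) .L .L)) (.Y (nat_lit 159429312828695) (.X (nat_lit 225400225992563) .L .L) (.X (nat_lit 225400225992563) .L .L))))) (.X (nat_lit 215504921499925) (.Y (nat_lit 169325150016969) (.X (nat_lit 208907245026275) (.Y (nat_lit 166026362576049) (.X (nat_lit 205608709992409) .L .L) (.X (nat_lit 205608709992409) .L .L)) (.Y (nat_lit 166026362576049)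 (.X (nat_lit 212205805383801) .L .L) (.X (nat_lit 212205805383801) .L .L))) (.X (nat_lit 208907245026275) (.Y (nat_lit 172623643026637) (.X (nat_lit 205608709992409) .L .L) (.X (nat_lit 205608709992409) .L .L)) (.Y (nat_lit 172623643026637) (.X (nat_lit 212205805383801) .L .L) (.X (nat_lit 212205805383801) .L .L)))) (.Y (nat_lit 169325150016969) (.X (nat_lit 222101788920263) (.Y (nat_lit 166026362576049) (.X (nat_lit 218803477624199) .L .L) (.X (nat_lit 218803477624199) .L .L)) (.Y (nat_lit 166026362576049) (.X (nat_lit 225400225992563) .L .L) (.X (nat_lit 225400225992563) .L .L))) (.X (nat_lit 222101788920263) (.Y (nat_lit 172623643026637) (.X (nat_lit 218803477624199) .L .L) (.X (nat_lit 218803477624199) .L (.Y (nat_lit 174272714469151) .L .L))) (.Y (nat_lit 172623643026637) (.X (nat_lit 225400225992563) .L (.Y (nat_lit 170974111880479) .L .L)) (.X (nat_lit 225400225992563) (.Y (nat_lit 174272714469151) .L .L) (.Y (nat_lit 174272714469151) .L .L)))))))))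
    (nat_lit 175922061124267) (nat_lit 228698491831029) (nat_lit 123145539196135) (nat_lit 175922061124267) = true := by
  decide +kernel

theorem cBp_13 : chk false SB (nat_lit 281474976710656) FS PSp PBp ABp HBp
    (.Y (nat_lit 149534024483977) (.X (nat_lit 255086824559739) (.Y (nat_lit 136339568249161) (.X (nat_lit 241893002613737) (.Y (nat_lit 129742764912007) (.X (nat_lit 235295627237515) (.Y (nat_lit 126444002716177) (.X (nat_lit 231997128665521) .L .L) (.X (nat_lit 231997128665521) .L .L)) (.Y (nat_lit 126444002716177) (.X (nat_lit 238594887674805) .L .L) (.X (nat_lit 238594887674805) .L .L))) (.X (nat_lit 235295627237515) (.Y (nat_lit 133041154257545) (.X (nat_lit 231997128665521) .L .L) (.X (nat_lit 231997128665521) .L .L)) (.Y (nat_lit 133041154257545) (.X (nat_lit 238594887674805) .L .L) (.X (nat_lit 238594887674805) .L .L)))) (.Y (nat_lit 129742764912007) (.X (nat_lit 248490118606877) (.Y (nat_lit 126444002716177) (.X (nat_lit 245191583714887) .L .L) (.X (nat_lit 245191583714887) .L .L)) (.Y (nat_lit 126444002716177) (.X (nat_lit 251788758375757)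 .L .L) (.X (nat_lit 251788758375757) .L .L))) (.X (nat_lit 248490118606877) (.Y (nat_lit 133041154257545) (.X (nat_lit 245191583714887) .L .L) (.X (nat_lit 245191583714887) .L .L)) (.Y (nat_lit 133041154257545) (.X (nat_lit 251788758375757) .L .L) (.X (nat_lit 251788758375757) .L .L))))) (.X (nat_lit 241893002613737) (.Y (nat_lit 142936634562605) (.X (nat_lit 235295627237515) (.Y (nat_lit 139638142057397) (.X (nat_lit 231997128665521) .L .L) (.X (nat_lit 231997128665521) .L .L)) (.Y (nat_lit 139638142057397) (.X (nat_lit 238594887674805) .L .L) (.X (nat_lit 238594887674805) .L .L))) (.X (nat_lit 235295627237515) (.Y (nat_lit 146235091934041) (.X (nat_lit 231997128665521) .L .L) (.X (nat_lit 231997128665521) .L .L)) (.Y (nat_lit 146235091934041) (.X (nat_lit 238594887674805) .L .L) (.X (nat_lit 238594887674805) .L .L)))) (.Y (nat_lit 142936634562605) (.X (nat_lit 248490118606877) (.Y (nat_lit 139638142057397) (.X (nat_lit 245191583714887) .L .L) (.X (nat_lit 245191583714887) .L .L)) (.Y (nat_lit 139638142057397) (.X (nat_lit 251788758375757) .L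 .L) (.X (nat_lit 251788758375757) .L .L))) (.X (nat_lit 248490118606877) (.Y (nat_lit 146235091934041) (.X (nat_lit 245191583714887) .L .L) (.X (nat_lit 245191583714887) .L .L)) (.Y (nat_lit 146235091934041) (.X (nat_lit 251788758375757) .L .L) (.X (nat_lit 251788758375757) .L .L)))))) (.Y (nat_lit 136339568249161) (.X (nat_lit 268281298399015) (.Y (nat_lit 129742764912007) (.X (nat_lit 261683961600471) (.Y (nat_lit 126444002716177) (.X (nat_lit 258385378025711) .L .L) (.X (nat_lit 258385378025711) .L .L)) (.Y (nat_lit 126444002716177) (.X (nat_lit 264982974400673) .L .L) (.X (nat_lit 264982974400673) .L .L))) (.X (nat_lit 261683961600471) (.Y (nat_lit 133041154257545) (.X (nat_lit 258385378025711) .L .L) (.X (nat_lit 258385378025711) .L .L)) (.Y (nat_lit 133041154257545) (.X (nat_lit 264982974400673) .L .L) (.X (nat_lit 264982974400673) .L .L)))) (.Y (nat_lit 129742764912007) (.X (nat_lit 274878253549387) (.Y (nat_lit 126444002716177) (.X (nat_lit 271580222860113) .L (.Y (nat_lit 124794820576303) .L .L)) (.X (nat_lit 271580222860113) .L (.Y (nat_lit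 128093197402465) .L .L))) (.Y (nat_lit 126444002716177) (.X (nat_lit 278177248251385) (.Y (nat_lit 124794820576303) .L .L) (.Y (nat_lit 124794820576303) .L .L)) (.X (nat_lit 278177248251385) (.Y (nat_lit 128093197402465) .L .L) (.Y (nat_lit 128093197402465) .L .L)))) (.X (nat_lit 274878253549387) (.Y (nat_lit 133041154257545) (.X (nat_lit 271580222860113) .L (.Y (nat_lit 131392022164435) .L .L)) (.X (nat_lit 271580222860113) (.Y (nat_lit 134690668310631) .L .L) (.Y (nat_lit 134690668310631) .L .L))) (.Y (nat_lit 133041154257545) (.X (nat_lit 278177248251385) (.Y (nat_lit 131392022164435) .L .L) (.Y (nat_lit 131392022164435) .L .L)) (.X (nat_lit 278177248251385) (.Y (nat_lit 134690668310631) .L .L) (.Y (nat_lit 134690668310631) .L .L)))))) (.X (nat_lit 268281298399015) (.Y (nat_lit 142936634562605) (.X (nat_lit 261683961600471) (.Y (nat_lit 139638142057397) (.X (nat_lit 258385378025711) .L .L) (.X (nat_lit 258385378025711) .L .L)) (.Y (nat_lit 139638142057397) (.X (nat_lit 264982974400673) .L (.Y (nat_lit 137989030264275) .L .L)) (.X (nat_lit 264982974400673)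 .L (.Y (nat_lit 141287617283471) .L .L)))) (.X (nat_lit 261683961600471) (.Y (nat_lit 146235091934041) (.X (nat_lit 258385378025711) .L .L) (.X (nat_lit 258385378025711) .L (.Y (nat_lit 147884566765299) .L .L))) (.Y (nat_lit 146235091934041) (.X (nat_lit 264982974400673) (.Y (nat_lit 144585788737327) .L .L) (.Y (nat_lit 144585788737327) .L .L)) (.X (nat_lit 264982974400673) (.Y (nat_lit 147884566765299) .L .L) (.Y (nat_lit 147884566765299) .L .L))))) (.Y (nat_lit 142936634562605) (.X (nat_lit 274878253549387) (.Y (nat_lit 139638142057397) (.X (nat_lit 271580222860113) (.Y (nat_lit 137989030264275) .L .L) (.Y (nat_lit 137989030264275) .L .L)) (.X (nat_lit 271580222860113) (.Y (nat_lit 141287617283471) .L .L) (.Y (nat_lit 141287617283471) .L .L))) (.Y (nat_lit 139638142057397) (.X (nat_lit 278177248251385) (.Y (nat_lit 137989030264275) .L .L) (.Y (nat_lit 137989030264275) .L .L)) (.X (nat_lit 278177248251385) (.Y (nat_lit 141287617283471) .L .L) (.Y (nat_lit 141287617283471) .L .L)))) (.X (nat_lit 274878253549387) (.Y (nat_lit 146235091934041) (.X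 (nat_lit 271580222860113) (.Y (nat_lit 144585788737327) .L .L) (.Y (nat_lit 144585788737327) .L .L)) (.X (nat_lit 271580222860113) (.Y (nat_lit 147884566765299) .L .L) (.Y (nat_lit 147884566765299) .L .L))) (.Y (nat_lit 146235091934041) (.X (nat_lit 278177248251385) (.Y (nat_lit 144585788737327) .L .L) (.Y (nat_lit 144585788737327) .L .L)) (.X (nat_lit 278177248251385) (.Y (nat_lit 147884566765299) .L .L) (.Y (nat_lit 147884566765299) .L .L)))))))) (.X (nat_lit 255086824559739) (.Y (nat_lit 162728167111501) (.X (nat_lit 241893002613737) (.Y (nat_lit 156131068094103) (.X (nat_lit 235295627237515) (.Y (nat_lit 152832175072207) (.X (nat_lit 231997128665521) .L .L) (.X (nat_lit 231997128665521) .L .L)) (.Y (nat_lit 152832175072207) (.X (nat_lit 238594887674805) .L .L) (.X (nat_lit 238594887674805) .L .L))) (.X (nat_lit 235295627237515) (.Y (nat_lit 159429312828695) (.X (nat_lit 231997128665521) .L .L) (.X (nat_lit 231997128665521) .L .L)) (.Y (nat_lit 159429312828695) (.X (nat_lit 238594887674805) .L .L) (.X (nat_lit 238594887674805) .L .L)))) (.Y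 (nat_lit 156131068094103) (.X (nat_lit 248490118606877) (.Y (nat_lit 152832175072207) (.X (nat_lit 245191583714887) .L .L) (.X (nat_lit 245191583714887) .L .L)) (.Y (nat_lit 152832175072207) (.X (nat_lit 251788758375757) .L .L) (.X (nat_lit 251788758375757) .L (.Y (nat_lit 154481833194965) .L .L)))) (.X (nat_lit 248490118606877) (.Y (nat_lit 159429312828695) (.X (nat_lit 245191583714887) .L .L) (.X (nat_lit 245191583714887) (.Y (nat_lit 161078580380467) .L .L) (.Y (nat_lit 161078580380467) .L .L))) (.Y (nat_lit 159429312828695) (.X (nat_lit 251788758375757) (.Y (nat_lit 157780190073313) .L .L) (.Y (nat_lit 157780190073313) .L .L)) (.X (nat_lit 251788758375757) (.Y (nat_lit 161078580380467) .L .L) (.Y (nat_lit 161078580380467) .L .L)))))) (.X (nat_lit 241893002613737) (.Y (nat_lit 169325150016969) (.X (nat_lit 235295627237515) (.Y (nat_lit 166026362576049) (.X (nat_lit 231997128665521) .L .L) (.X (nat_lit 231997128665521) (.Y (nat_lit 167675940304325) .L .L) (.Y (nat_lit 167675940304325) .L .L))) (.Y (nat_lit 166026362576049) (.X (nat_lit 238594887674805)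 .L (.Y (nat_lit 164377553769583) .L .L)) (.X (nat_lit 238594887674805) (.Y (nat_lit 167675940304325) .L .L) (.Y (nat_lit 167675940304325) .L .L)))) (.X (nat_lit 235295627237515) (.Y (nat_lit 172623643026637) (.X (nat_lit 231997128665521) (.Y (nat_lit 170974111880479) .L .L) (.Y (nat_lit 170974111880479) .L .L)) (.X (nat_lit 231997128665521) (.Y (nat_lit 174272714469151) .L .L) (.Y (nat_lit 174272714469151) .L .L))) (.Y (nat_lit 172623643026637) (.X (nat_lit 238594887674805) (.Y (nat_lit 170974111880479) .L .L) (.Y (nat_lit 170974111880479) .L .L)) (.X (nat_lit 238594887674805) (.Y (nat_lit 174272714469151) .L .L) (.Y (nat_lit 174272714469151) .L .L))))) (.Y (nat_lit 169325150016969) (.X (nat_lit 248490118606877) (.Y (nat_lit 166026362576049) (.X (nat_lit 245191583714887) (.Y (nat_lit 164377553769583) .L .L) (.Y (nat_lit 164377553769583) .L .L)) (.X (nat_lit 245191583714887) (.Y (nat_lit 167675940304325) .L .L) (.Y (nat_lit 167675940304325) .L .L))) (.Y (nat_lit 166026362576049) (.X (nat_lit 251788758375757) (.Y (nat_lit 164377553769583) .L .L)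 (.Y (nat_lit 164377553769583) .L .L)) (.X (nat_lit 251788758375757) (.Y (nat_lit 167675940304325) .L .L) (.Y (nat_lit 167675940304325) .L .L)))) (.X (nat_lit 248490118606877) (.Y (nat_lit 172623643026637) (.X (nat_lit 245191583714887) (.Y (nat_lit 170974111880479) .L .L) (.Y (nat_lit 170974111880479) .L .L)) (.X (nat_lit 245191583714887) (.Y (nat_lit 174272714469151) .L .L) (.Y (nat_lit 174272714469151) .L .L))) (.Y (nat_lit 172623643026637) (.X (nat_lit 251788758375757) (.Y (nat_lit 170974111880479) .L .L) (.Y (nat_lit 170974111880479) .L .L)) (.X (nat_lit 251788758375757) (.Y (nat_lit 174272714469151) .L .L) (.Y (nat_lit 174272714469151) .L .L))))))) (.Y (nat_lit 162728167111501) (.X (nat_lit 268281298399015) (.Y (nat_lit 156131068094103) (.X (nat_lit 261683961600471) (.Y (nat_lit 152832175072207) (.X (nat_lit 258385378025711) (.Y (nat_lit 151183238123183) .L .L) (.Y (nat_lit 151183238123183) .L .L)) (.X (nat_lit 258385378025711) (.Y (nat_lit 154481833194965) .L .L) (.Y (nat_lit 154481833194965) .L .L))) (.Y (nat_lit 152832175072207) (.X (nat_lit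 264982974400673) (.Y (nat_lit 151183238123183) .L .L) (.Y (nat_lit 151183238123183) .L .L)) (.X (nat_lit 264982974400673) (.Y (nat_lit 154481833194965) .L .L) (.Y (nat_lit 154481833194965) .L .L)))) (.X (nat_lit 261683961600471) (.Y (nat_lit 159429312828695) (.X (nat_lit 258385378025711) (.Y (nat_lit 157780190073313) .L .L) (.Y (nat_lit 157780190073313) .L .L)) (.X (nat_lit 258385378025711) (.Y (nat_lit 161078580380467) .L .L) (.Y (nat_lit 161078580380467) .L .L))) (.Y (nat_lit 159429312828695) (.X (nat_lit 264982974400673) (.Y (nat_lit 157780190073313) .L .L) (.Y (nat_lit 157780190073313) .L .L)) (.X (nat_lit 264982974400673) (.Y (nat_lit 161078580380467) .L .L) (.Y (nat_lit 161078580380467) .L .L))))) (.Y (nat_lit 156131068094103) (.X (nat_lit 274878253549387) (.Y (nat_lit 152832175072207) (.X (nat_lit 271580222860113) (.Y (nat_lit 151183238123183) .L .L) (.Y (nat_lit 151183238123183) .L .L)) (.X (nat_lit 271580222860113) (.Y (nat_lit 154481833194965) .L .L) (.Y (nat_lit 154481833194965) .L .L))) (.Y (nat_lit 152832175072207) (.X (nat_lit 278177248251385)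 (.Y (nat_lit 151183238123183) .L .L) (.Y (nat_lit 151183238123183) .L .L)) (.X (nat_lit 278177248251385) (.Y (nat_lit 154481833194965) .L .L) (.Y (nat_lit 154481833194965) .L .L)))) (.X (nat_lit 274878253549387) (.Y (nat_lit 159429312828695) (.X (nat_lit 271580222860113) (.Y (nat_lit 157780190073313) .L .L) (.Y (nat_lit 157780190073313) .L .L)) (.X (nat_lit 271580222860113) (.Y (nat_lit 161078580380467) .L .L) (.Y (nat_lit 161078580380467) .L .L))) (.Y (nat_lit 159429312828695) (.X (nat_lit 278177248251385) (.Y (nat_lit 157780190073313) .L .L) (.Y (nat_lit 157780190073313) .L .L)) (.X (nat_lit 278177248251385) (.Y (nat_lit 161078580380467) .L .L) (.Y (nat_lit 161078580380467) .L .L)))))) (.X (nat_lit 268281298399015) (.Y (nat_lit 169325150016969) (.X (nat_lit 261683961600471) (.Y (nat_lit 166026362576049) (.X (nat_lit 258385378025711) (.Y (nat_lit 164377553769583) .L .L) (.Y (nat_lit 164377553769583) .L .L)) (.X (nat_lit 258385378025711) (.Y (nat_lit 167675940304325) .L .L) (.Y (nat_lit 167675940304325) .L .L))) (.Y (nat_lit 166026362576049) (.X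 (nat_lit 264982974400673) (.Y (nat_lit 164377553769583) .L .L) (.Y (nat_lit 164377553769583) .L .L)) (.X (nat_lit 264982974400673) (.Y (nat_lit 167675940304325) .L .L) (.Y (nat_lit 167675940304325) .L .L)))) (.X (nat_lit 261683961600471) (.Y (nat_lit 172623643026637) (.X (nat_lit 258385378025711) (.Y (nat_lit 170974111880479) .L .L) (.Y (nat_lit 170974111880479) .L .L)) (.X (nat_lit 258385378025711) (.Y (nat_lit 174272714469151) .L .L) (.Y (nat_lit 174272714469151) .L .L))) (.Y (nat_lit 172623643026637) (.X (nat_lit 264982974400673) (.Y (nat_lit 170974111880479) .L .L) (.Y (nat_lit 170974111880479) .L .L)) (.X (nat_lit 264982974400673) (.Y (nat_lit 174272714469151) .L .L) (.Y (nat_lit 174272714469151) .L .L))))) (.Y (nat_lit 169325150016969) (.X (nat_lit 274878253549387) (.Y (nat_lit 166026362576049) (.X (nat_lit 271580222860113) (.Y (nat_lit 164377553769583) .L .L) (.Y (nat_lit 164377553769583) .L .L)) (.X (nat_lit 271580222860113) (.Y (nat_lit 167675940304325) .L .L) (.Y (nat_lit 167675940304325) .L .L))) (.Y (nat_lit 166026362576049) (.X (nat_lit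 278177248251385) (.Y (nat_lit 164377553769583) .L .L) (.Y (nat_lit 164377553769583) .L .L)) (.X (nat_lit 278177248251385) (.Y (nat_lit 167675940304325) .L .L) (.Y (nat_lit 167675940304325) .L .L)))) (.X (nat_lit 274878253549387) (.Y (nat_lit 172623643026637) (.X (nat_lit 271580222860113) (.Y (nat_lit 170974111880479) .L .L) (.Y (nat_lit 170974111880479) .L .L)) (.X (nat_lit 271580222860113) (.Y (nat_lit 174272714469151) .L .L) (.Y (nat_lit 174272714469151) .L .L))) (.Y (nat_lit 172623643026637) (.X (nat_lit 278177248251385) (.Y (nat_lit 170974111880479) .L .L) (.Y (nat_lit 170974111880479) .L .L)) (.X (nat_lit 278177248251385) (.Y (nat_lit 174272714469151) .L .L) (.Y (nat_lit 174272714469151) .L .L)))))))))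
    (nat_lit 228698491831029) (nat_lit 281474976710656) (nat_lit 123145539196135) (nat_lit 175922061124267) = true := by
  decide +kernel

theorem cBp_14 : chk false SB (nat_lit 281474976710656) FS PSp PBp ABp HBp
    .L
    (nat_lit 0) (nat_lit 70368900064303) (nat_lit 175922061124267) (nat_lit 281474976710656) = true := by
  decide +kernel

theorem cBp_15 : chk false SB (nat_lit 281474976710656) FS PSp PBp ABp HBp
    .L
    (nat_lit 70368900064303) (nat_lit 175922061124267) (nat_lit 175922061124267) (nat_lit 281474976710656) = true := by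
  decide +kernel

theorem cBp_16 : chk false SB (nat_lit 281474976710656) FS PSp PBp ABp HBp
    (.Y (nat_lit 202310140892619) (.X (nat_lit 202310140892619) (.Y (nat_lit 189116380910351) (.X (nat_lit 189116380910351) (.Y (nat_lit 182519494221219) (.X (nat_lit 182519494221219) (.Y (nat_lit 179220705058683) (.X (nat_lit 179220705058683) .L .L) (.X (nat_lit 179220705058683) .L .L)) (.Y (nat_lit 179220705058683) (.X (nat_lit 185817483816231) .L .L) (.X (nat_lit 185817483816231) .L .L))) (.X (nat_lit 182519494221219) .L (.Y (nat_lit 185817483816231) (.X (nat_lit 185817483816231) .L .L) (.X (nat_lit 185817483816231) .L .L)))) (.Y (nat_lit 182519494221219) (.X (nat_lit 195713749390113) (.Y (nat_lit 179220705058683) (.X (nat_lit 192414759880185) .L .L) (.X (nat_lit 192414759880185) .L .L)) (.Y (nat_lit 179220705058683) (.X (nat_lit 199012317382647) .L .L) (.X (nat_lit 199012317382647) .L .L))) (.X (nat_lit 195713749390113) (.Y (nat_lit 185817483816231) (.X (nat_lit 192414759880185) .L .L) (.X (nat_lit 192414759880185) .L .L)) (.Y (nat_lit 185817483816231)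 (.X (nat_lit 199012317382647) .L .L) (.X (nat_lit 199012317382647) .L (.Y (nat_lit 187466938231031) .L .L)))))) (.X (nat_lit 189116380910351) .L (.Y (nat_lit 195713749390113) (.X (nat_lit 195713749390113) (.Y (nat_lit 192414759880185) (.X (nat_lit 192414759880185) .L .L) (.X (nat_lit 192414759880185) .L (.Y (nat_lit 194064432558385) .L .L))) (.Y (nat_lit 192414759880185) (.X (nat_lit 199012317382647) (.Y (nat_lit 190765408034635) .L .L) (.Y (nat_lit 190765408034635) .L .L)) (.X (nat_lit 199012317382647) (.Y (nat_lit 194064432558385) .L .L) (.Y (nat_lit 194064432558385) .L .L)))) (.X (nat_lit 195713749390113) .L (.Y (nat_lit 199012317382647) (.X (nat_lit 199012317382647) (.Y (nat_lit 197362727319927) .L .L) (.Y (nat_lit 197362727319927) .L .L)) (.X (nat_lit 199012317382647) .L (.Y (nat_lit 200661573067739) .L .L))))))) (.Y (nat_lit 189116380910351) (.X (nat_lit 215504921499925) (.Y (nat_lit 182519494221219) (.X (nat_lit 208907245026275) (.Y (nat_lit 179220705058683) (.X (nat_lit 205608709992409) .L .L) (.X (nat_lit 205608709992409) .L .L)) (.Y (nat_lit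 179220705058683) (.X (nat_lit 212205805383801) .L (.Y (nat_lit 177571271398393) .L .L)) (.X (nat_lit 212205805383801) (.Y (nat_lit 180870205989509) .L .L) (.Y (nat_lit 180870205989509) .L .L)))) (.X (nat_lit 208907245026275) (.Y (nat_lit 185817483816231) (.X (nat_lit 205608709992409) .L (.Y (nat_lit 184168460820545) .L .L)) (.X (nat_lit 205608709992409) (.Y (nat_lit 187466938231031) .L .L) (.Y (nat_lit 187466938231031) .L .L))) (.Y (nat_lit 185817483816231) (.X (nat_lit 212205805383801) (.Y (nat_lit 184168460820545) .L .L) (.Y (nat_lit 184168460820545) .L .L)) (.X (nat_lit 212205805383801) (.Y (nat_lit 187466938231031) .L .L) (.Y (nat_lit 187466938231031) .L .L))))) (.Y (nat_lit 182519494221219) (.X (nat_lit 222101788920263) (.Y (nat_lit 179220705058683) (.X (nat_lit 218803477624199) (.Y (nat_lit 177571271398393) .L .L) (.Y (nat_lit 177571271398393) .L .L)) (.X (nat_lit 218803477624199) (.Y (nat_lit 180870205989509) .L .L) (.Y (nat_lit 180870205989509) .L .L))) (.Y (nat_lit 179220705058683) (.X (nat_lit 225400225992563) (.Y (nat_lit 177571271398393)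 .L .L) (.Y (nat_lit 177571271398393) .L .L)) (.X (nat_lit 225400225992563) (.Y (nat_lit 180870205989509) .L .L) (.Y (nat_lit 180870205989509) .L .L)))) (.X (nat_lit 222101788920263) (.Y (nat_lit 185817483816231) (.X (nat_lit 218803477624199) (.Y (nat_lit 184168460820545) .L .L) (.Y (nat_lit 184168460820545) .L .L)) (.X (nat_lit 218803477624199) (.Y (nat_lit 187466938231031) .L .L) (.Y (nat_lit 187466938231031) .L .L))) (.Y (nat_lit 185817483816231) (.X (nat_lit 225400225992563) (.Y (nat_lit 184168460820545) .L .L) (.Y (nat_lit 184168460820545) .L .L)) (.X (nat_lit 225400225992563) (.Y (nat_lit 187466938231031) .L .L) (.Y (nat_lit 187466938231031) .L .L)))))) (.X (nat_lit 215504921499925) (.Y (nat_lit 195713749390113) (.X (nat_lit 208907245026275) (.Y (nat_lit 192414759880185) (.X (nat_lit 205608709992409) (.Y (nat_lit 190765408034635) .L .L) (.Y (nat_lit 190765408034635) .L .L)) (.X (nat_lit 205608709992409) (.Y (nat_lit 194064432558385) .L .L) (.Y (nat_lit 194064432558385) .L .L))) (.Y (nat_lit 192414759880185) (.X (nat_lit 212205805383801) (.Y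 (nat_lit 190765408034635) .L .L) (.Y (nat_lit 190765408034635) .L .L)) (.X (nat_lit 212205805383801) (.Y (nat_lit 194064432558385) .L .L) (.Y (nat_lit 194064432558385) .L .L)))) (.X (nat_lit 208907245026275) (.Y (nat_lit 199012317382647) (.X (nat_lit 205608709992409) (.Y (nat_lit 197362727319927) .L .L) (.Y (nat_lit 197362727319927) .L .L)) (.X (nat_lit 205608709992409) (.Y (nat_lit 200661573067739) .L .L) (.Y (nat_lit 200661573067739) .L .L))) (.Y (nat_lit 199012317382647) (.X (nat_lit 212205805383801) (.Y (nat_lit 197362727319927) .L .L) (.Y (nat_lit 197362727319927) .L .L)) (.X (nat_lit 212205805383801) (.Y (nat_lit 200661573067739) .L .L) (.Y (nat_lit 200661573067739) .L .L))))) (.Y (nat_lit 195713749390113) (.X (nat_lit 222101788920263) (.Y (nat_lit 192414759880185) (.X (nat_lit 218803477624199) (.Y (nat_lit 190765408034635) .L .L) (.Y (nat_lit 190765408034635) .L .L)) (.X (nat_lit 218803477624199) (.Y (nat_lit 194064432558385) .L .L) (.Y (nat_lit 194064432558385) .L .L))) (.Y (nat_lit 192414759880185) (.X (nat_lit 225400225992563) (.Y (nat_lit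 190765408034635) .L .L) (.Y (nat_lit 190765408034635) .L .L)) (.X (nat_lit 225400225992563) (.Y (nat_lit 194064432558385) .L .L) (.Y (nat_lit 194064432558385) .L .L)))) (.X (nat_lit 222101788920263) (.Y (nat_lit 199012317382647) (.X (nat_lit 218803477624199) (.Y (nat_lit 197362727319927) .L .L) (.Y (nat_lit 197362727319927) .L .L)) (.X (nat_lit 218803477624199) (.Y (nat_lit 200661573067739) .L .L) (.Y (nat_lit 200661573067739) .L .L))) (.Y (nat_lit 199012317382647) (.X (nat_lit 225400225992563) (.Y (nat_lit 197362727319927) .L .L) (.Y (nat_lit 197362727319927) .L .L)) (.X (nat_lit 225400225992563) (.Y (nat_lit 200661573067739) .L .L) (.Y (nat_lit 200661573067739) .L (.X (nat_lit 227049691878029) .L .L))))))))) (.X (nat_lit 202310140892619) .L (.Y (nat_lit 215504921499925) (.X (nat_lit 215504921499925) (.Y (nat_lit 208907245026275) (.X (nat_lit 208907245026275) (.Y (nat_lit 205608709992409) (.X (nat_lit 205608709992409) (.Y (nat_lit 203960090333871) .L .L) (.Y (nat_lit 203960090333871) .L .L)) (.X (nat_lit 205608709992409) .L (.Y (nat_lit 207258152200917)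 .L .L))) (.Y (nat_lit 205608709992409) (.X (nat_lit 212205805383801) (.Y (nat_lit 203960090333871) .L .L) (.Y (nat_lit 203960090333871) .L .L)) (.X (nat_lit 212205805383801) (.Y (nat_lit 207258152200917) .L .L) (.Y (nat_lit 207258152200917) .L .L)))) (.X (nat_lit 208907245026275) .L (.Y (nat_lit 212205805383801) (.X (nat_lit 212205805383801) (.Y (nat_lit 210557146239599) .L (.X (nat_lit 210557146239599) .L .L)) (.Y (nat_lit 210557146239599) (.X (nat_lit 213855075262411) .L .L) (.X (nat_lit 213855075262411) .L .L))) (.X (nat_lit 212205805383801) .L (.Y (nat_lit 213855075262411) (.X (nat_lit 213855075262411) .L .L) (.X (nat_lit 213855075262411) .L .L)))))) (.Y (nat_lit 208907245026275) (.X (nat_lit 222101788920263) (.Y (nat_lit 205608709992409) (.X (nat_lit 218803477624199) (.Y (nat_lit 203960090333871) .L .L) (.Y (nat_lit 203960090333871) .L .L)) (.X (nat_lit 218803477624199) (.Y (nat_lit 207258152200917) .L (.X (nat_lit 217154360393371) .L .L)) (.Y (nat_lit 207258152200917) (.X (nat_lit 220452661001759) .L .L) (.X (nat_lit 220452661001759) .L .L))))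 (.Y (nat_lit 205608709992409) (.X (nat_lit 225400225992563) (.Y (nat_lit 203960090333871) (.X (nat_lit 223751163827989) .L .L) (.X (nat_lit 223751163827989) .L .L)) (.Y (nat_lit 203960090333871) (.X (nat_lit 227049691878029) .L .L) (.X (nat_lit 227049691878029) .L .L))) (.X (nat_lit 225400225992563) (.Y (nat_lit 207258152200917) (.X (nat_lit 223751163827989) .L .L) (.X (nat_lit 223751163827989) .L .L)) (.Y (nat_lit 207258152200917) (.X (nat_lit 227049691878029) .L .L) (.X (nat_lit 227049691878029) .L .L))))) (.X (nat_lit 222101788920263) (.Y (nat_lit 212205805383801) (.X (nat_lit 218803477624199) (.Y (nat_lit 210557146239599) (.X (nat_lit 217154360393371) .L .L) (.X (nat_lit 217154360393371) .L .L)) (.Y (nat_lit 210557146239599) (.X (nat_lit 220452661001759) .L .L) (.X (nat_lit 220452661001759) .L .L))) (.X (nat_lit 218803477624199) (.Y (nat_lit 213855075262411) (.X (nat_lit 217154360393371) .L .L) (.X (nat_lit 217154360393371) .L .L)) (.Y (nat_lit 213855075262411) (.X (nat_lit 220452661001759) .L .L) (.X (nat_lit 220452661001759) .L .L)))) (.Y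 (nat_lit 212205805383801) (.X (nat_lit 225400225992563) (.Y (nat_lit 210557146239599) (.X (nat_lit 223751163827989) .L .L) (.X (nat_lit 223751163827989) .L .L)) (.Y (nat_lit 210557146239599) (.X (nat_lit 227049691878029) .L .L) (.X (nat_lit 227049691878029) .L .L))) (.X (nat_lit 225400225992563) (.Y (nat_lit 213855075262411) (.X (nat_lit 223751163827989) .L .L) (.X (nat_lit 223751163827989) .L .L)) (.Y (nat_lit 213855075262411) (.X (nat_lit 227049691878029) .L .L) (.X (nat_lit 227049691878029) .L .L))))))) (.X (nat_lit 215504921499925) .L (.Y (nat_lit 222101788920263) (.X (nat_lit 222101788920263) (.Y (nat_lit 218803477624199) (.X (nat_lit 218803477624199) (.Y (nat_lit 217154360393371) (.X (nat_lit 217154360393371) .L .L) (.X (nat_lit 217154360393371) .L .L)) (.Y (nat_lit 217154360393371) (.X (nat_lit 220452661001759) .L .L) (.X (nat_lit 220452661001759) .L .L))) (.X (nat_lit 218803477624199) .L (.Y (nat_lit 220452661001759) (.X (nat_lit 220452661001759) .L .L) (.X (nat_lit 220452661001759) .L .L)))) (.Y (nat_lit 218803477624199) (.X (nat_lit 225400225992563)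 (.Y (nat_lit 217154360393371) (.X (nat_lit 223751163827989) .L .L) (.X (nat_lit 223751163827989) .L .L)) (.Y (nat_lit 217154360393371) (.X (nat_lit 227049691878029) .L .L) (.X (nat_lit 227049691878029) .L .L))) (.X (nat_lit 225400225992563) (.Y (nat_lit 220452661001759) (.X (nat_lit 223751163827989) .L .L) (.X (nat_lit 223751163827989) .L .L)) .L))) (.X (nat_lit 222101788920263) .L .L))))))
    (nat_lit 175922061124267) (nat_lit 228698491831029) (nat_lit 175922061124267) (nat_lit 228698491831029) = true := by
  decide +kernel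

theorem cBp_17 : chk false SB (nat_lit 281474976710656) FS PSp PBp ABp HBp
    (.Y (nat_lit 202310140892619) (.X (nat_lit 255086824559739) (.Y (nat_lit 189116380910351) (.X (nat_lit 241893002613737) (.Y (nat_lit 182519494221219) (.X (nat_lit 235295627237515) (.Y (nat_lit 179220705058683) (.X (nat_lit 231997128665521) (.Y (nat_lit 177571271398393) .L .L) (.Y (nat_lit 177571271398393) .L .L)) (.X (nat_lit 231997128665521) (.Y (nat_lit 180870205989509) .L .L) (.Y (nat_lit 180870205989509) .L .L))) (.Y (nat_lit 179220705058683) (.X (nat_lit 238594887674805) (.Y (nat_lit 177571271398393) .L .L) (.Y (nat_lit 177571271398393) .L .L)) (.X (nat_lit 238594887674805) (.Y (nat_lit 180870205989509) .L .L) (.Y (nat_lit 180870205989509) .L .L)))) (.X (nat_lit 235295627237515) (.Y (nat_lit 185817483816231) (.X (nat_lit 231997128665521) (.Y (nat_lit 184168460820545) .L .L) (.Y (nat_lit 184168460820545) .L .L)) (.X (nat_lit 231997128665521) (.Y (nat_lit 187466938231031) .L .L) (.Y (nat_lit 187466938231031) .L .L))) (.Y (nat_lit 185817483816231) (.X (nat_lit 238594887674805)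 (.Y (nat_lit 184168460820545) .L .L) (.Y (nat_lit 184168460820545) .L .L)) (.X (nat_lit 238594887674805) (.Y (nat_lit 187466938231031) .L .L) (.Y (nat_lit 187466938231031) .L .L))))) (.Y (nat_lit 182519494221219) (.X (nat_lit 248490118606877) (.Y (nat_lit 179220705058683) (.X (nat_lit 245191583714887) (.Y (nat_lit 177571271398393) .L .L) (.Y (nat_lit 177571271398393) .L .L)) (.X (nat_lit 245191583714887) (.Y (nat_lit 180870205989509) .L .L) (.Y (nat_lit 180870205989509) .L .L))) (.Y (nat_lit 179220705058683) (.X (nat_lit 251788758375757) (.Y (nat_lit 177571271398393) .L .L) (.Y (nat_lit 177571271398393) .L .L)) (.X (nat_lit 251788758375757) (.Y (nat_lit 180870205989509) .L .L) (.Y (nat_lit 180870205989509) .L .L)))) (.X (nat_lit 248490118606877) (.Y (nat_lit 185817483816231) (.X (nat_lit 245191583714887) (.Y (nat_lit 184168460820545) .L .L) (.Y (nat_lit 184168460820545) .L .L)) (.X (nat_lit 245191583714887) (.Y (nat_lit 187466938231031) .L .L) (.Y (nat_lit 187466938231031) .L .L))) (.Y (nat_lit 185817483816231) (.X (nat_lit 251788758375757) (.Y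 (nat_lit 184168460820545) .L .L) (.Y (nat_lit 184168460820545) .L .L)) (.X (nat_lit 251788758375757) (.Y (nat_lit 187466938231031) .L .L) (.Y (nat_lit 187466938231031) .L .L)))))) (.X (nat_lit 241893002613737) (.Y (nat_lit 195713749390113) (.X (nat_lit 235295627237515) (.Y (nat_lit 192414759880185) (.X (nat_lit 231997128665521) (.Y (nat_lit 190765408034635) .L .L) (.Y (nat_lit 190765408034635) .L .L)) (.X (nat_lit 231997128665521) (.Y (nat_lit 194064432558385) .L .L) (.Y (nat_lit 194064432558385) .L .L))) (.Y (nat_lit 192414759880185) (.X (nat_lit 238594887674805) (.Y (nat_lit 190765408034635) .L .L) (.Y (nat_lit 190765408034635) .L .L)) (.X (nat_lit 238594887674805) (.Y (nat_lit 194064432558385) .L .L) (.Y (nat_lit 194064432558385) .L (.X (nat_lit 240243898532101) .L .L))))) (.X (nat_lit 235295627237515) (.Y (nat_lit 199012317382647) (.X (nat_lit 231997128665521) (.Y (nat_lit 197362727319927) .L .L) (.Y (nat_lit 197362727319927) .L (.X (nat_lit 233646776237995) .L .L))) (.X (nat_lit 231997128665521) (.Y (nat_lit 200661573067739) (.X (nat_lit 230348127219347)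 .L .L) (.X (nat_lit 230348127219347) .L .L)) (.Y (nat_lit 200661573067739) (.X (nat_lit 233646776237995) .L .L) (.X (nat_lit 233646776237995) .L .L)))) (.Y (nat_lit 199012317382647) (.X (nat_lit 238594887674805) (.Y (nat_lit 197362727319927) (.X (nat_lit 236945074555831) .L .L) (.X (nat_lit 236945074555831) .L .L)) (.Y (nat_lit 197362727319927) (.X (nat_lit 240243898532101) .L .L) (.X (nat_lit 240243898532101) .L .L))) (.X (nat_lit 238594887674805) (.Y (nat_lit 200661573067739) (.X (nat_lit 236945074555831) .L .L) (.X (nat_lit 236945074555831) .L .L)) (.Y (nat_lit 200661573067739) (.X (nat_lit 240243898532101) .L .L) (.X (nat_lit 240243898532101) .L .L)))))) (.Y (nat_lit 195713749390113) (.X (nat_lit 248490118606877) (.Y (nat_lit 192414759880185) (.X (nat_lit 245191583714887) (.Y (nat_lit 190765408034635) .L .L) (.Y (nat_lit 190765408034635) .L (.X (nat_lit 246840656610029) .L .L))) (.X (nat_lit 245191583714887) (.Y (nat_lit 194064432558385) (.X (nat_lit 243542127302419) .L .L) (.X (nat_lit 243542127302419) .L .L)) (.Y (nat_lit 194064432558385)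 (.X (nat_lit 246840656610029) .L .L) (.X (nat_lit 246840656610029) .L .L)))) (.Y (nat_lit 192414759880185) (.X (nat_lit 251788758375757) (.Y (nat_lit 190765408034635) (.X (nat_lit 250139555609407) .L .L) (.X (nat_lit 250139555609407) .L .L)) (.Y (nat_lit 190765408034635) (.X (nat_lit 253437481969879) .L .L) (.X (nat_lit 253437481969879) .L .L))) (.X (nat_lit 251788758375757) (.Y (nat_lit 194064432558385) (.X (nat_lit 250139555609407) .L .L) (.X (nat_lit 250139555609407) .L .L)) (.Y (nat_lit 194064432558385) (.X (nat_lit 253437481969879) .L .L) (.X (nat_lit 253437481969879) .L .L))))) (.X (nat_lit 248490118606877) (.Y (nat_lit 199012317382647) (.X (nat_lit 245191583714887) (.Y (nat_lit 197362727319927) (.X (nat_lit 243542127302419) .L .L) (.X (nat_lit 243542127302419) .L .L)) (.Y (nat_lit 197362727319927) (.X (nat_lit 246840656610029) .L .L) (.X (nat_lit 246840656610029) .L .L))) (.X (nat_lit 245191583714887) (.Y (nat_lit 200661573067739) (.X (nat_lit 243542127302419) .L .L) (.X (nat_lit 243542127302419) .L .L)) (.Y (nat_lit 200661573067739) (.X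 (nat_lit 246840656610029) .L .L) (.X (nat_lit 246840656610029) .L .L)))) (.Y (nat_lit 199012317382647) (.X (nat_lit 251788758375757) (.Y (nat_lit 197362727319927) (.X (nat_lit 250139555609407) .L .L) (.X (nat_lit 250139555609407) .L .L)) (.Y (nat_lit 197362727319927) (.X (nat_lit 253437481969879) .L .L) .L)) .L))))) (.Y (nat_lit 189116380910351) (.X (nat_lit 268281298399015) (.Y (nat_lit 182519494221219) (.X (nat_lit 261683961600471) (.Y (nat_lit 179220705058683) (.X (nat_lit 258385378025711) (.Y (nat_lit 177571271398393) .L .L) (.Y (nat_lit 177571271398393) .L .L)) (.X (nat_lit 258385378025711) (.Y (nat_lit 180870205989509) .L .L) (.Y (nat_lit 180870205989509) .L .L))) (.Y (nat_lit 179220705058683) (.X (nat_lit 264982974400673) (.Y (nat_lit 177571271398393) .L .L) (.Y (nat_lit 177571271398393) .L .L)) (.X (nat_lit 264982974400673) (.Y (nat_lit 180870205989509) .L .L) (.Y (nat_lit 180870205989509) .L .L)))) (.X (nat_lit 261683961600471) (.Y (nat_lit 185817483816231) (.X (nat_lit 258385378025711) (.Y (nat_lit 184168460820545) .L .L) (.Y (nat_lit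 184168460820545) .L .L)) (.X (nat_lit 258385378025711) (.Y (nat_lit 187466938231031) .L (.X (nat_lit 256736109598515) .L .L)) (.Y (nat_lit 187466938231031) (.X (nat_lit 260035176328509) .L .L) (.X (nat_lit 260035176328509) .L .L)))) (.Y (nat_lit 185817483816231) (.X (nat_lit 264982974400673) (.Y (nat_lit 184168460820545) .L .L) (.Y (nat_lit 184168460820545) .L (.X (nat_lit 266631732996497) .L .L))) (.X (nat_lit 264982974400673) (.Y (nat_lit 187466938231031) (.X (nat_lit 263333686590901) .L .L) (.X (nat_lit 263333686590901) .L .L)) (.Y (nat_lit 187466938231031) (.X (nat_lit 266631732996497) .L .L) .L))))) (.Y (nat_lit 182519494221219) (.X (nat_lit 274878253549387) (.Y (nat_lit 179220705058683) (.X (nat_lit 271580222860113) (.Y (nat_lit 177571271398393) .L .L) (.Y (nat_lit 177571271398393) .L .L)) (.X (nat_lit 271580222860113) (.Y (nat_lit 180870205989509) .L .L) (.Y (nat_lit 180870205989509) .L .L))) (.Y (nat_lit 179220705058683) (.X (nat_lit 278177248251385) (.Y (nat_lit 177571271398393) .L .L) (.Y (nat_lit 177571271398393) .L .L)) (.X (nat_lit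 278177248251385) (.Y (nat_lit 180870205989509) .L .L) (.Y (nat_lit 180870205989509) .L .L)))) (.X (nat_lit 274878253549387) (.Y (nat_lit 185817483816231) (.X (nat_lit 271580222860113) (.Y (nat_lit 184168460820545) .L (.X (nat_lit 269930646496083) .L .L)) (.Y (nat_lit 184168460820545) (.X (nat_lit 273229369253051) .L .L) .L)) .L) .L))) (.X (nat_lit 268281298399015) (.Y (nat_lit 195713749390113) (.X (nat_lit 261683961600471) (.Y (nat_lit 192414759880185) (.X (nat_lit 258385378025711) (.Y (nat_lit 190765408034635) (.X (nat_lit 256736109598515) .L .L) (.X (nat_lit 256736109598515) .L .L)) (.Y (nat_lit 190765408034635) (.X (nat_lit 260035176328509) .L .L) (.X (nat_lit 260035176328509) .L .L))) (.X (nat_lit 258385378025711) (.Y (nat_lit 194064432558385) (.X (nat_lit 256736109598515) .L .L) .L) .L)) (.Y (nat_lit 192414759880185) (.X (nat_lit 264982974400673) (.Y (nat_lit 190765408034635) (.X (nat_lit 263333686590901) .L .L) .L) .L) .L)) .L) .L))) (.X (nat_lit 255086824559739) (.Y (nat_lit 215504921499925) (.X (nat_lit 241893002613737) (.Y (nat_lit 208907245026275)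 (.X (nat_lit 235295627237515) (.Y (nat_lit 205608709992409) (.X (nat_lit 231997128665521) (.Y (nat_lit 203960090333871) (.X (nat_lit 230348127219347) .L .L) (.X (nat_lit 230348127219347) .L .L)) (.Y (nat_lit 203960090333871) (.X (nat_lit 233646776237995) .L .L) (.X (nat_lit 233646776237995) .L .L))) (.X (nat_lit 231997128665521) (.Y (nat_lit 207258152200917) (.X (nat_lit 230348127219347) .L .L) (.X (nat_lit 230348127219347) .L .L)) (.Y (nat_lit 207258152200917) (.X (nat_lit 233646776237995) .L .L) (.X (nat_lit 233646776237995) .L .L)))) (.Y (nat_lit 205608709992409) (.X (nat_lit 238594887674805) (.Y (nat_lit 203960090333871) (.X (nat_lit 236945074555831) .L .L) (.X (nat_lit 236945074555831) .L .L)) (.Y (nat_lit 203960090333871) (.X (nat_lit 240243898532101) .L .L) (.X (nat_lit 240243898532101) .L .L))) (.X (nat_lit 238594887674805) (.Y (nat_lit 207258152200917) (.X (nat_lit 236945074555831) .L .L) (.X (nat_lit 236945074555831) .L .L)) (.Y (nat_lit 207258152200917) (.X (nat_lit 240243898532101) .L .L) .L)))) (.X (nat_lit 235295627237515) (.Y (nat_lit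 212205805383801) (.X (nat_lit 231997128665521) (.Y (nat_lit 210557146239599) (.X (nat_lit 230348127219347) .L .L) (.X (nat_lit 230348127219347) .L .L)) (.Y (nat_lit 210557146239599) (.X (nat_lit 233646776237995) .L .L) (.X (nat_lit 233646776237995) .L .L))) (.X (nat_lit 231997128665521) (.Y (nat_lit 213855075262411) (.X (nat_lit 230348127219347) .L .L) (.X (nat_lit 230348127219347) .L .L)) .L)) (.Y (nat_lit 212205805383801) (.X (nat_lit 238594887674805) (.Y (nat_lit 210557146239599) (.X (nat_lit 236945074555831) .L .L) .L) .L) .L))) (.Y (nat_lit 208907245026275) (.X (nat_lit 248490118606877) (.Y (nat_lit 205608709992409) (.X (nat_lit 245191583714887) (.Y (nat_lit 203960090333871) (.X (nat_lit 243542127302419) .L .L) .L) .L) .L) .L) .L)) .L) .L))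
    (nat_lit 228698491831029) (nat_lit 281474976710656) (nat_lit 175922061124267) (nat_lit 228698491831029) = true := by
  decide +kernel

theorem cBp_18 : chk false SB (nat_lit 281474976710656) FS PSp PBp ABp HBp
    (.X (nat_lit 228698491831029) .L .L)
    (nat_lit 175922061124267) (nat_lit 281474976710656) (nat_lit 228698491831029) (nat_lit 281474976710656) = true := by
  decide +kernel

end Crest.Agent.R163.Win
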