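import Crest.Agent.R163.WinD0

/-! Row 163, window engine: kernel checks, part 4 (generated). -/

set_option autoImplicit false
set_option maxRecDepth 1000000

namespace Crest.Agent.R163.Win


theorem cBm_0 : chk false SB (nat_lit 422212465065984) FS PSm PBm ABm HBm
    (.Y (nat_lit 17592208417917) (.Y (nat_lit 4398056427309) (.Y (nat_lit 1099512165299) (.Y (nat_lit 274878385149) (.Y (nat_lit 68719689911) (.X (nat_lit 316660049597371) (.Y (nat_lit 17179906255) (.Y (nat_lit 4294982693) (.Y (nat_lit 1073742511) (.X (nat_lit 299068103576911) (.Y (nat_lit 268436405) (.Y (nat_lit 67108965) (.X (nat_lit 290271227798693) (.Y (nat_lit 16777239) .L (.Y (nat_lit 41943047) .L .L)) (.Y (nat_lit 16777239) .L (.Y (nat_lit 41943047) .L .L))) (.Y (nat_lit 167772495) .L .L)) (.Y (nat_lit 671089365) .L .L)) (.Y (nat_lit 268436405) (.Y (nat_lit 67108965) (.X (nat_lit 307863319696537) (.Y (nat_lit 16777239) (.Y (nat_lit 4194319) .L .L) (.Y (nat_lit 41943047) .L .L)) (.Y (nat_lit 16777239) (.Y (nat_lit 4194319) .L .L) (.Y (nat_lit 41943047)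 .L .L))) (.Y (nat_lit 167772495) .L .L)) (.Y (nat_lit 671089365) (.Y (nat_lit 469762459) .L .L) .L))) (.Y (nat_lit 2684358039) (.Y (nat_lit 1879053137) .L .L) .L)) (.Y (nat_lit 10737443367) (.Y (nat_lit 7516201401) .L .L) .L)) (.Y (nat_lit 42949789691) (.Y (nat_lit 30064859643) .L .L) .L)) (.Y (nat_lit 17179906255) (.Y (nat_lit 4294982693) (.Y (nat_lit 1073742511) (.X (nat_lit 334252485777277) (.Y (nat_lit 268436405) (.Y (nat_lit 67108965) (.Y (nat_lit 16777239) (.X (nat_lit 325456121871771) (.Y (nat_lit 4194319) .L (.Y (nat_lit 10485789) .L .L)) (.Y (nat_lit 4194319) .L (.Y (nat_lit 10485789) .L .L))) (.Y (nat_lit 41943047) .L .L)) (.Y (nat_lit 167772495) .L .L)) (.Y (nat_lit 671089365) (.Y (nat_lit 469762459) .L .L) .L)) (.Y (nat_lit 268436405) (.Y (nat_lit 67108965) (.Y (nat_lit 16777239) (.X (nat_lit 343047851615949) (.Y (nat_lit 4194319) (.Y (nat_lit 1048577) .L .L) (.Y (nat_lit 10485789) .L .L)) (.Y (nat_lit 4194319) (.Y (nat_lit 1048577) .L .L) (.Y (nat_lit 10485789) .L .L))) (.Y (nat_lit 41943047) .L .L)) (.Y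 (nat_lit 167772495) (.Y (nat_lit 117440915) .L .L) .L)) (.Y (nat_lit 671089365) (.Y (nat_lit 469762459) .L .L) .L))) (.Y (nat_lit 2684358039) (.Y (nat_lit 1879053137) (.X (nat_lit 334252485777277) .L .L) .L) .L)) (.Y (nat_lit 10737443367) (.Y (nat_lit 7516201401) .L .L) .L)) (.Y (nat_lit 42949789691) (.Y (nat_lit 30064859643) .L .L) .L))) (.Y (nat_lit 171799048055) (.Y (nat_lit 120259314071) (.X (nat_lit 316660049597371) .L .L) (.X (nat_lit 316660049597371) .L .L)) (.X (nat_lit 316660049597371) .L .L))) (.Y (nat_lit 687195064233) (.Y (nat_lit 481037143767) (.X (nat_lit 316660049597371) (.Y (nat_lit 377958558321) .L .L) (.Y (nat_lit 377958558321) .L .L)) (.X (nat_lit 316660049597371) .L (.Y (nat_lit 584117290981) .L .L))) (.X (nat_lit 316660049597371) (.Y (nat_lit 893353266673) .L .L) (.Y (nat_lit 893353266673) .L .L)))) (.Y (nat_lit 2748783752683) (.Y (nat_lit 1924146399035) (.Y (nat_lit 1511832218805) (.X (nat_lit 316660049597371) (.Y (nat_lit 1305674540671) .L .L) (.Y (nat_lit 1305674540671) .L (.X (nat_lit 334252485777277)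 .L .L))) (.X (nat_lit 316660049597371) (.X (nat_lit 299068103576911) .L .L) (.X (nat_lit 334252485777277) .L (.Y (nat_lit 1717987217543) .L .L)))) (.X (nat_lit 316660049597371) (.Y (nat_lit 2336467489929) (.X (nat_lit 299068103576911) .L .L) (.X (nat_lit 299068103576911) .L .L)) (.Y (nat_lit 2336467489929) (.X (nat_lit 334252485777277) .L .L) (.X (nat_lit 334252485777277) .L .L)))) (.Y (nat_lit 3573424291335) (.X (nat_lit 316660049597371) (.Y (nat_lit 3161107178049) (.X (nat_lit 299068103576911) .L .L) (.X (nat_lit 299068103576911) .L .L)) (.Y (nat_lit 3161107178049) (.X (nat_lit 334252485777277) .L .L) (.X (nat_lit 334252485777277) .L .L))) (.X (nat_lit 316660049597371) (.X (nat_lit 299068103576911) .L .L) (.X (nat_lit 334252485777277) (.Y (nat_lit 3985743982637) .L .L) (.Y (nat_lit 3985743982637) .L .L)))))) (.Y (nat_lit 10995117811905) (.Y (nat_lit 7696603950747) (.Y (nat_lit 6047325905245) (.X (nat_lit 316660049597371) (.Y (nat_lit 5222697640297) (.X (nat_lit 299068103576911) .L .L) (.X (nat_lit 299068103576911)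 .L .L)) (.Y (nat_lit 5222697640297) (.X (nat_lit 334252485777277) .L (.Y (nat_lit 4810364677885) .L .L)) (.X (nat_lit 334252485777277) .L (.Y (nat_lit 5635013671967) .L .L)))) (.X (nat_lit 316660049597371) (.Y (nat_lit 6871973121665) (.X (nat_lit 299068103576911) .L .L) (.X (nat_lit 299068103576911) .L .L)) (.Y (nat_lit 6871973121665) (.X (nat_lit 334252485777277) .L (.Y (nat_lit 6459633676211) .L .L)) (.X (nat_lit 334252485777277) .L .L)))) (.X (nat_lit 316660049597371) (.Y (nat_lit 9345874287341) (.X (nat_lit 299068103576911) .L (.Y (nat_lit 8521219738367) .L .L)) (.X (nat_lit 299068103576911) .L .L)) (.Y (nat_lit 9345874287341) (.X (nat_lit 334252485777277) (.Y (nat_lit 8521219738367) .L .L) (.Y (nat_lit 8521219738367) .L .L)) (.X (nat_lit 334252485777277) (.Y (nat_lit 10170516748243) .L .L) (.Y (nat_lit 10170516748243) .L .L))))) (.Y (nat_lit 14293672086315) (.X (nat_lit 316660049597371) (.Y (nat_lit 12644405116151) (.X (nat_lit 299068103576911) .L .L) (.X (nat_lit 299068103576911) .L .L)) (.Y (nat_lit 12644405116151)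 (.X (nat_lit 334252485777277) (.Y (nat_lit 11819794543225) .L .L) (.Y (nat_lit 11819794543225) .L .L)) (.X (nat_lit 334252485777277) .L (.Y (nat_lit 13469046423081) .L .L)))) (.X (nat_lit 316660049597371) (.X (nat_lit 299068103576911) (.Y (nat_lit 15942965825457) .L .L) (.Y (nat_lit 15942965825457) .L .L)) (.Y (nat_lit 15942965825457) (.X (nat_lit 334252485777277) .L (.X (nat_lit 343047851615949) .L .L)) (.X (nat_lit 334252485777277) .L (.X (nat_lit 343047851615949) .L .L))))))) (.Y (nat_lit 43980496067731) (.Y (nat_lit 30786374392855) (.Y (nat_lit 24189277726735) (.X (nat_lit 316660049597371) (.Y (nat_lit 20890763476655) (.X (nat_lit 299068103576911) (.Y (nat_lit 19241486395023) .L .L) (.Y (nat_lit 19241486395023) .L .L)) (.X (nat_lit 299068103576911) (.Y (nat_lit 22540069890139) .L .L) (.Y (nat_lit 22540069890139) .L .L))) (.Y (nat_lit 20890763476655) (.X (nat_lit 334252485777277) (.Y (nat_lit 19241486395023) .L .L) (.Y (nat_lit 19241486395023) (.X (nat_lit 343047851615949) .L .L) (.X (nat_lit 343047851615949) .L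 .L))) (.X (nat_lit 334252485777277) (.Y (nat_lit 22540069890139) .L .L) (.Y (nat_lit 22540069890139) (.X (nat_lit 343047851615949) .L .L) (.X (nat_lit 343047851615949) .L .L))))) (.X (nat_lit 316660049597371) (.Y (nat_lit 27487880922633) (.X (nat_lit 299068103576911) .L (.Y (nat_lit 25838524903645) .L .L)) (.X (nat_lit 299068103576911) .L (.Y (nat_lit 29137069904733) .L .L))) (.Y (nat_lit 27487880922633) (.X (nat_lit 334252485777277) (.Y (nat_lit 25838524903645) .L .L) (.Y (nat_lit 25838524903645) (.X (nat_lit 343047851615949) .L .L) (.X (nat_lit 343047851615949) .L .L))) (.X (nat_lit 334252485777277) (.Y (nat_lit 29137069904733) .L .L) (.Y (nat_lit 29137069904733) (.X (nat_lit 343047851615949) .L .L) (.X (nat_lit 343047851615949) .L .L)))))) (.Y (nat_lit 37383470646837) (.X (nat_lit 316660049597371) (.Y (nat_lit 34084948931449) (.X (nat_lit 299068103576911) .L (.Y (nat_lit 32435660992437) .L .L)) (.X (nat_lit 299068103576911) .L (.X (nat_lit 307863319696537) .L .L))) (.Y (nat_lit 34084948931449) (.X (nat_lit 334252485777277)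 (.Y (nat_lit 32435660992437) .L .L) (.Y (nat_lit 32435660992437) (.X (nat_lit 343047851615949) .L .L) (.X (nat_lit 343047851615949) .L .L))) (.X (nat_lit 334252485777277) (.Y (nat_lit 35734215194051) .L (.X (nat_lit 325456121871771) .L .L)) (.Y (nat_lit 35734215194051) (.X (nat_lit 343047851615949) .L .L) (.X (nat_lit 343047851615949) .L .L))))) (.X (nat_lit 316660049597371) (.X (nat_lit 299068103576911) (.Y (nat_lit 40682050965857) .L .L) (.Y (nat_lit 40682050965857) (.X (nat_lit 307863319696537) .L .L) (.X (nat_lit 307863319696537) .L .L))) (.X (nat_lit 334252485777277) (.Y (nat_lit 40682050965857) (.X (nat_lit 325456121871771) .L (.Y (nat_lit 39032736635765) .L .L)) (.X (nat_lit 325456121871771) .L .L)) (.Y (nat_lit 40682050965857) (.X (nat_lit 343047851615949) (.Y (nat_lit 39032736635765) .L .L) (.Y (nat_lit 39032736635765) .L .L)) (.X (nat_lit 343047851615949) (.Y (nat_lit 42331206553043) .L .L) (.Y (nat_lit 42331206553043) .L .L))))))) (.Y (nat_lit 57174647204107) (.X (nat_lit 316660049597371) (.Y (nat_lit 50577605471125)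 (.X (nat_lit 299068103576911) (.Y (nat_lit 47279053332153) .L (.X (nat_lit 290271227798693) .L .L)) (.Y (nat_lit 47279053332153) (.X (nat_lit 307863319696537) .L .L) (.X (nat_lit 307863319696537) .L .L))) (.X (nat_lit 299068103576911) (.Y (nat_lit 53876268116979) (.X (nat_lit 290271227798693) .L .L) (.X (nat_lit 290271227798693) .L .L)) (.Y (nat_lit 53876268116979) (.X (nat_lit 307863319696537) .L .L) (.X (nat_lit 307863319696537) .L .L)))) (.Y (nat_lit 50577605471125) (.X (nat_lit 334252485777277) (.Y (nat_lit 47279053332153) (.X (nat_lit 325456121871771) .L (.Y (nat_lit 45629757115749) .L .L)) (.X (nat_lit 325456121871771) .L (.Y (nat_lit 48928354636155) .L .L))) (.Y (nat_lit 47279053332153) (.X (nat_lit 343047851615949) (.Y (nat_lit 45629757115749) .L .L) (.Y (nat_lit 45629757115749) .L .L)) (.X (nat_lit 343047851615949) (.Y (nat_lit 48928354636155) .L .L) (.Y (nat_lit 48928354636155) .L .L)))) (.X (nat_lit 334252485777277) (.Y (nat_lit 53876268116979) (.X (nat_lit 325456121871771) .L (.Y (nat_lit 52226807159787)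 .L .L)) (.X (nat_lit 325456121871771) .L (.Y (nat_lit 55525429635223) .L .L))) (.Y (nat_lit 53876268116979) (.X (nat_lit 343047851615949) (.Y (nat_lit 52226807159787) .L .L) (.Y (nat_lit 52226807159787) .L .L)) (.X (nat_lit 343047851615949) (.Y (nat_lit 55525429635223) .L .L) (.Y (nat_lit 55525429635223) .L .L)))))) (.X (nat_lit 316660049597371) (.Y (nat_lit 63771679804411) (.X (nat_lit 299068103576911) (.Y (nat_lit 60473244612473) (.X (nat_lit 290271227798693) .L .L) (.X (nat_lit 290271227798693) .L .L)) (.Y (nat_lit 60473244612473) (.X (nat_lit 307863319696537) .L .L) (.X (nat_lit 307863319696537) .L .L))) (.X (nat_lit 299068103576911) (.Y (nat_lit 67070390017947) (.X (nat_lit 290271227798693) .L .L) (.X (nat_lit 290271227798693) .L .L)) (.Y (nat_lit 67070390017947) (.X (nat_lit 307863319696537) .L .L) (.X (nat_lit 307863319696537) .L .L)))) (.Y (nat_lit 63771679804411) (.X (nat_lit 334252485777277) (.Y (nat_lit 60473244612473) (.X (nat_lit 325456121871771) .L (.Y (nat_lit 58824052264953) .L .L)) (.X (nat_lit 325456121871771)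 .L (.Y (nat_lit 62122420628993) .L .L))) (.Y (nat_lit 60473244612473) (.X (nat_lit 343047851615949) (.Y (nat_lit 58824052264953) .L .L) (.Y (nat_lit 58824052264953) .L .L)) (.X (nat_lit 343047851615949) (.Y (nat_lit 62122420628993) .L .L) (.Y (nat_lit 62122420628993) .L .L)))) (.X (nat_lit 334252485777277) (.Y (nat_lit 67070390017947) (.X (nat_lit 325456121871771) .L (.Y (nat_lit 65421109595225) .L .L)) (.X (nat_lit 325456121871771) .L (.Y (nat_lit 68719600096481) .L .L))) (.Y (nat_lit 67070390017947) (.X (nat_lit 343047851615949) (.Y (nat_lit 65421109595225) .L .L) (.Y (nat_lit 65421109595225) .L .L)) (.X (nat_lit 343047851615949) (.Y (nat_lit 68719600096481) .L .L) (.Y (nat_lit 68719600096481) .L .L)))))))))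
    (nat_lit 281474976710656) (nat_lit 351844899895973) (nat_lit 0) (nat_lit 70368900064303) = true := by
  decide +kernel

theorem cBm_1 : chk false SB (nat_lit 422212465065984) FS PSm PBm ABm HBm
    (.Y (nat_lit 96757370032245) (.Y (nat_lit 83563010727971) (.X (nat_lit 316660049597371) (.Y (nat_lit 76965864127081) (.X (nat_lit 299068103576911) (.Y (nat_lit 73667436176997) (.X (nat_lit 290271227798693) .L .L) (.X (nat_lit 290271227798693) .L .L)) (.Y (nat_lit 73667436176997) (.X (nat_lit 307863319696537) .L .L) (.X (nat_lit 307863319696537) .L .L))) (.X (nat_lit 299068103576911) (.X (nat_lit 290271227798693) (.Y (nat_lit 80264523106889) .L .L) (.Y (nat_lit 80264523106889) .L .L)) (.X (nat_lit 307863319696537) (.Y (nat_lit 80264523106889) .L .L) (.Y (nat_lit 80264523106889) .L .L)))) (.Y (nat_lit 76965864127081) (.X (nat_lit 334252485777277) (.Y (nat_lit 73667436176997) (.X (nat_lit 325456121871771) .L (.Y (nat_lit 72018151498917) .L .L)) (.X (nat_lit 325456121871771) .L (.Y (nat_lit 75316723090777) .L .L))) (.Y (nat_lit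 73667436176997) (.X (nat_lit 343047851615949) (.Y (nat_lit 72018151498917) .L .L) (.Y (nat_lit 72018151498917) .L .L)) (.X (nat_lit 343047851615949) (.Y (nat_lit 75316723090777) .L .L) (.Y (nat_lit 75316723090777) .L .L)))) (.X (nat_lit 334252485777277) (.X (nat_lit 325456121871771) (.Y (nat_lit 80264523106889) .L .L) (.Y (nat_lit 80264523106889) (.Y (nat_lit 78615251642775) .L .L) (.X (nat_lit 329853491109747) .L .L))) (.Y (nat_lit 80264523106889) (.X (nat_lit 343047851615949) (.Y (nat_lit 78615251642775) .L .L) (.Y (nat_lit 78615251642775) .L .L)) (.X (nat_lit 343047851615949) (.X (nat_lit 338649679550977) .L .L) (.X (nat_lit 347446350523179) .L .L)))))) (.X (nat_lit 316660049597371) (.X (nat_lit 299068103576911) (.Y (nat_lit 90160235478093) (.X (nat_lit 290271227798693) (.Y (nat_lit 86861551642167) .L .L) (.Y (nat_lit 86861551642167) .L .L)) (.X (nat_lit 290271227798693) (.Y (nat_lit 93458625275347) .L .L) (.Y (nat_lit 93458625275347) .L .L))) (.Y (nat_lit 90160235478093) (.X (nat_lit 307863319696537) (.Y (nat_lit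 86861551642167) .L .L) (.Y (nat_lit 86861551642167) .L .L)) (.X (nat_lit 307863319696537) (.Y (nat_lit 93458625275347) .L .L) (.Y (nat_lit 93458625275347) .L .L)))) (.X (nat_lit 334252485777277) (.Y (nat_lit 90160235478093) (.X (nat_lit 325456121871771) (.Y (nat_lit 86861551642167) .L .L) (.Y (nat_lit 86861551642167) (.X (nat_lit 329853491109747) .L .L) (.X (nat_lit 329853491109747) .L .L))) (.X (nat_lit 325456121871771) (.Y (nat_lit 93458625275347) .L (.X (nat_lit 321057431985909) .L .L)) (.Y (nat_lit 93458625275347) (.X (nat_lit 329853491109747) .L .L) (.X (nat_lit 329853491109747) .L .L)))) (.Y (nat_lit 90160235478093) (.X (nat_lit 343047851615949) (.Y (nat_lit 86861551642167) (.X (nat_lit 338649679550977) .L .L) (.X (nat_lit 338649679550977) .L .L)) (.Y (nat_lit 86861551642167) (.X (nat_lit 347446350523179) .L .L) (.X (nat_lit 347446350523179) .L .L))) (.X (nat_lit 343047851615949) (.Y (nat_lit 93458625275347) (.X (nat_lit 338649679550977) .L .L) (.X (nat_lit 338649679550977) .L .L)) (.Y (nat_lit 93458625275347)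 (.X (nat_lit 347446350523179) .L .L) (.X (nat_lit 347446350523179) .L .L))))))) (.X (nat_lit 316660049597371) (.Y (nat_lit 109951574343109) (.X (nat_lit 299068103576911) (.Y (nat_lit 103354427401721) (.X (nat_lit 290271227798693) (.Y (nat_lit 100055637574935) .L .L) (.Y (nat_lit 100055637574935) .L .L)) (.X (nat_lit 290271227798693) (.Y (nat_lit 106652846660227) .L .L) (.Y (nat_lit 106652846660227) .L .L))) (.Y (nat_lit 103354427401721) (.X (nat_lit 307863319696537) (.Y (nat_lit 100055637574935) .L .L) (.Y (nat_lit 100055637574935) .L .L)) (.X (nat_lit 307863319696537) (.Y (nat_lit 106652846660227) .L .L) (.Y (nat_lit 106652846660227) (.X (nat_lit 312261893632863) .L .L) (.X (nat_lit 312261893632863) .L .L))))) (.X (nat_lit 299068103576911) (.Y (nat_lit 116548591607855) (.X (nat_lit 290271227798693) (.Y (nat_lit 113250080874043) .L .L) (.Y (nat_lit 113250080874043) .L .L)) (.X (nat_lit 290271227798693) (.Y (nat_lit 119847078166217) .L .L) (.Y (nat_lit 119847078166217) (.X (nat_lit 294669233875347) .L .L) (.X (nat_lit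 294669233875347) .L .L)))) (.Y (nat_lit 116548591607855) (.X (nat_lit 307863319696537) (.Y (nat_lit 113250080874043) .L (.X (nat_lit 303466314609657) .L .L)) (.Y (nat_lit 113250080874043) (.X (nat_lit 312261893632863) .L .L) (.X (nat_lit 312261893632863) .L .L))) (.X (nat_lit 307863319696537) (.Y (nat_lit 119847078166217) (.X (nat_lit 303466314609657) .L .L) (.X (nat_lit 303466314609657) .L .L)) (.Y (nat_lit 119847078166217) (.X (nat_lit 312261893632863) .L .L) (.X (nat_lit 312261893632863) .L .L)))))) (.Y (nat_lit 109951574343109) (.X (nat_lit 334252485777277) (.Y (nat_lit 103354427401721) (.X (nat_lit 325456121871771) (.Y (nat_lit 100055637574935) (.X (nat_lit 321057431985909) .L .L) (.X (nat_lit 321057431985909) .L .L)) (.Y (nat_lit 100055637574935) (.X (nat_lit 329853491109747) .L .L) (.X (nat_lit 329853491109747) .L .L))) (.X (nat_lit 325456121871771) (.Y (nat_lit 106652846660227) (.X (nat_lit 321057431985909) .L .L) (.X (nat_lit 321057431985909) .L .L)) (.Y (nat_lit 106652846660227) (.X (nat_lit 329853491109747)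 .L .L) (.X (nat_lit 329853491109747) .L .L)))) (.Y (nat_lit 103354427401721) (.X (nat_lit 343047851615949) (.Y (nat_lit 100055637574935) (.X (nat_lit 338649679550977) .L .L) (.X (nat_lit 338649679550977) .L .L)) (.Y (nat_lit 100055637574935) (.X (nat_lit 347446350523179) .L .L) (.X (nat_lit 347446350523179) .L .L))) (.X (nat_lit 343047851615949) (.Y (nat_lit 106652846660227) (.X (nat_lit 338649679550977) .L .L) (.X (nat_lit 338649679550977) .L .L)) (.Y (nat_lit 106652846660227) (.X (nat_lit 347446350523179) .L .L) (.X (nat_lit 347446350523179) .L .L))))) (.X (nat_lit 334252485777277) (.Y (nat_lit 116548591607855) (.X (nat_lit 325456121871771) (.Y (nat_lit 113250080874043) (.X (nat_lit 321057431985909) .L .L) (.X (nat_lit 321057431985909) .L .L)) (.Y (nat_lit 113250080874043) (.X (nat_lit 329853491109747) .L .L) (.X (nat_lit 329853491109747) .L .L))) (.X (nat_lit 325456121871771) (.Y (nat_lit 119847078166217) (.X (nat_lit 321057431985909) .L .L) (.X (nat_lit 321057431985909) .L .L)) (.Y (nat_lit 119847078166217) (.X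 (nat_lit 329853491109747) .L .L) (.X (nat_lit 329853491109747) .L .L)))) (.Y (nat_lit 116548591607855) (.X (nat_lit 343047851615949) (.Y (nat_lit 113250080874043) (.X (nat_lit 338649679550977) .L .L) (.X (nat_lit 338649679550977) .L .L)) (.Y (nat_lit 113250080874043) (.X (nat_lit 347446350523179) .L .L) (.X (nat_lit 347446350523179) .L .L))) (.X (nat_lit 343047851615949) (.Y (nat_lit 119847078166217) (.X (nat_lit 338649679550977) .L .L) (.X (nat_lit 338649679550977) .L .L)) (.Y (nat_lit 119847078166217) (.X (nat_lit 347446350523179) .L .L) (.X (nat_lit 347446350523179) .L .L))))))))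
    (nat_lit 281474976710656) (nat_lit 351844899895973) (nat_lit 70368900064303) (nat_lit 123145539196135) = true := by
  decide +kernel

theorem cBm_2 : chk false SB (nat_lit 422212465065984) FS PSm PBm ABm HBm
    (.Y (nat_lit 149534024483977) (.X (nat_lit 316660049597371) (.Y (nat_lit 136339568249161) (.X (nat_lit 299068103576911) (.Y (nat_lit 129742764912007) (.X (nat_lit 290271227798693) (.Y (nat_lit 126444002716177) (.X (nat_lit 285873246671361) .L .L) (.X (nat_lit 285873246671361) .L .L)) (.Y (nat_lit 126444002716177) (.X (nat_lit 294669233875347) .L .L) (.X (nat_lit 294669233875347) .L .L))) (.X (nat_lit 290271227798693) (.Y (nat_lit 133041154257545) (.X (nat_lit 285873246671361) .L .L) (.X (nat_lit 285873246671361) .L .L)) (.Y (nat_lit 133041154257545) (.X (nat_lit 294669233875347) .L .L) (.X (nat_lit 294669233875347) .L .L)))) (.Y (nat_lit 129742764912007) (.X (nat_lit 307863319696537) (.Y (nat_lit 126444002716177) (.X (nat_lit 303466314609657) .L .L) (.X (nat_lit 303466314609657) .L .L)) (.Y (nat_lit 126444002716177)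 (.X (nat_lit 312261893632863) .L .L) (.X (nat_lit 312261893632863) .L .L))) (.X (nat_lit 307863319696537) (.Y (nat_lit 133041154257545) (.X (nat_lit 303466314609657) .L .L) (.X (nat_lit 303466314609657) .L .L)) (.Y (nat_lit 133041154257545) (.X (nat_lit 312261893632863) .L .L) (.X (nat_lit 312261893632863) .L .L))))) (.X (nat_lit 299068103576911) (.Y (nat_lit 142936634562605) (.X (nat_lit 290271227798693) (.Y (nat_lit 139638142057397) (.X (nat_lit 285873246671361) .L .L) (.X (nat_lit 285873246671361) .L .L)) (.Y (nat_lit 139638142057397) (.X (nat_lit 294669233875347) .L .L) (.X (nat_lit 294669233875347) .L .L))) (.X (nat_lit 290271227798693) (.Y (nat_lit 146235091934041) (.X (nat_lit 285873246671361) .L .L) (.X (nat_lit 285873246671361) .L .L)) (.Y (nat_lit 146235091934041) (.X (nat_lit 294669233875347) .L .L) (.X (nat_lit 294669233875347) .L .L)))) (.Y (nat_lit 142936634562605) (.X (nat_lit 307863319696537) (.Y (nat_lit 139638142057397) (.X (nat_lit 303466314609657) .L .L) (.X (nat_lit 303466314609657) .L .L)) (.Y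 (nat_lit 139638142057397) (.X (nat_lit 312261893632863) .L .L) (.X (nat_lit 312261893632863) .L .L))) (.X (nat_lit 307863319696537) (.Y (nat_lit 146235091934041) (.X (nat_lit 303466314609657) .L .L) (.X (nat_lit 303466314609657) .L .L)) (.Y (nat_lit 146235091934041) (.X (nat_lit 312261893632863) .L .L) (.X (nat_lit 312261893632863) .L .L)))))) (.Y (nat_lit 136339568249161) (.X (nat_lit 334252485777277) (.Y (nat_lit 129742764912007) (.X (nat_lit 325456121871771) (.Y (nat_lit 126444002716177) (.X (nat_lit 321057431985909) .L .L) (.X (nat_lit 321057431985909) .L .L)) (.Y (nat_lit 126444002716177) (.X (nat_lit 329853491109747) .L .L) (.X (nat_lit 329853491109747) .L .L))) (.X (nat_lit 325456121871771) (.Y (nat_lit 133041154257545) (.X (nat_lit 321057431985909) .L .L) (.X (nat_lit 321057431985909) .L .L)) (.Y (nat_lit 133041154257545) (.X (nat_lit 329853491109747) .L .L) (.X (nat_lit 329853491109747) .L .L)))) (.Y (nat_lit 129742764912007) (.X (nat_lit 343047851615949) (.Y (nat_lit 126444002716177) (.X (nat_lit 338649679550977)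 .L .L) (.X (nat_lit 338649679550977) .L .L)) (.Y (nat_lit 126444002716177) (.X (nat_lit 347446350523179) .L .L) (.X (nat_lit 347446350523179) .L .L))) (.X (nat_lit 343047851615949) (.Y (nat_lit 133041154257545) (.X (nat_lit 338649679550977) .L .L) (.X (nat_lit 338649679550977) .L .L)) (.Y (nat_lit 133041154257545) (.X (nat_lit 347446350523179) .L .L) (.X (nat_lit 347446350523179) .L .L))))) (.X (nat_lit 334252485777277) (.Y (nat_lit 142936634562605) (.X (nat_lit 325456121871771) (.Y (nat_lit 139638142057397) (.X (nat_lit 321057431985909) .L .L) (.X (nat_lit 321057431985909) .L .L)) (.Y (nat_lit 139638142057397) (.X (nat_lit 329853491109747) .L .L) (.X (nat_lit 329853491109747) .L .L))) (.X (nat_lit 325456121871771) (.Y (nat_lit 146235091934041) (.X (nat_lit 321057431985909) .L .L) (.X (nat_lit 321057431985909) .L (.Y (nat_lit 147884566765299) .L .L))) (.Y (nat_lit 146235091934041) (.X (nat_lit 329853491109747) .L .L) (.X (nat_lit 329853491109747) (.Y (nat_lit 147884566765299) .L .L) (.Y (nat_lit 147884566765299) .L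 .L))))) (.Y (nat_lit 142936634562605) (.X (nat_lit 343047851615949) (.Y (nat_lit 139638142057397) (.X (nat_lit 338649679550977) .L .L) (.X (nat_lit 338649679550977) .L .L)) (.Y (nat_lit 139638142057397) (.X (nat_lit 347446350523179) .L .L) (.X (nat_lit 347446350523179) .L .L))) (.X (nat_lit 343047851615949) (.Y (nat_lit 146235091934041) (.X (nat_lit 338649679550977) (.Y (nat_lit 144585788737327) .L .L) (.Y (nat_lit 144585788737327) .L .L)) (.X (nat_lit 338649679550977) (.Y (nat_lit 147884566765299) .L .L) (.Y (nat_lit 147884566765299) .L .L))) (.Y (nat_lit 146235091934041) (.X (nat_lit 347446350523179) (.Y (nat_lit 144585788737327) .L .L) (.Y (nat_lit 144585788737327) .L .L)) (.X (nat_lit 347446350523179) (.Y (nat_lit 147884566765299) .L .L) (.Y (nat_lit 147884566765299) .L .L)))))))) (.X (nat_lit 316660049597371) (.Y (nat_lit 162728167111501) (.X (nat_lit 299068103576911) (.Y (nat_lit 156131068094103) (.X (nat_lit 290271227798693) (.Y (nat_lit 152832175072207) (.X (nat_lit 285873246671361) .L .L) (.X (nat_lit 285873246671361)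 .L .L)) (.Y (nat_lit 152832175072207) (.X (nat_lit 294669233875347) .L .L) (.X (nat_lit 294669233875347) .L .L))) (.X (nat_lit 290271227798693) (.Y (nat_lit 159429312828695) (.X (nat_lit 285873246671361) .L .L) (.X (nat_lit 285873246671361) .L .L)) (.Y (nat_lit 159429312828695) (.X (nat_lit 294669233875347) .L .L) (.X (nat_lit 294669233875347) (.Y (nat_lit 161078580380467) .L .L) (.Y (nat_lit 161078580380467) .L .L))))) (.Y (nat_lit 156131068094103) (.X (nat_lit 307863319696537) (.Y (nat_lit 152832175072207) (.X (nat_lit 303466314609657) .L .L) (.X (nat_lit 303466314609657) .L (.Y (nat_lit 154481833194965) .L .L))) (.Y (nat_lit 152832175072207) (.X (nat_lit 312261893632863) .L (.Y (nat_lit 151183238123183) .L .L)) (.X (nat_lit 312261893632863) (.Y (nat_lit 154481833194965) .L .L) (.Y (nat_lit 154481833194965) .L .L)))) (.X (nat_lit 307863319696537) (.Y (nat_lit 159429312828695) (.X (nat_lit 303466314609657) (.Y (nat_lit 157780190073313) .L .L) (.Y (nat_lit 157780190073313) .L .L)) (.X (nat_lit 303466314609657) (.Y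 (nat_lit 161078580380467) .L .L) (.Y (nat_lit 161078580380467) .L .L))) (.Y (nat_lit 159429312828695) (.X (nat_lit 312261893632863) (.Y (nat_lit 157780190073313) .L .L) (.Y (nat_lit 157780190073313) .L .L)) (.X (nat_lit 312261893632863) (.Y (nat_lit 161078580380467) .L .L) (.Y (nat_lit 161078580380467) .L .L)))))) (.X (nat_lit 299068103576911) (.Y (nat_lit 169325150016969) (.X (nat_lit 290271227798693) (.Y (nat_lit 166026362576049) (.X (nat_lit 285873246671361) (.Y (nat_lit 164377553769583) .L .L) (.Y (nat_lit 164377553769583) .L .L)) (.X (nat_lit 285873246671361) (.Y (nat_lit 167675940304325) .L .L) (.Y (nat_lit 167675940304325) .L .L))) (.Y (nat_lit 166026362576049) (.X (nat_lit 294669233875347) (.Y (nat_lit 164377553769583) .L .L) (.Y (nat_lit 164377553769583) .L .L)) (.X (nat_lit 294669233875347) (.Y (nat_lit 167675940304325) .L .L) (.Y (nat_lit 167675940304325) .L .L)))) (.X (nat_lit 290271227798693) (.Y (nat_lit 172623643026637) (.X (nat_lit 285873246671361) (.Y (nat_lit 170974111880479) .L .L) (.Y (nat_lit 170974111880479)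 .L .L)) (.X (nat_lit 285873246671361) (.Y (nat_lit 174272714469151) .L .L) (.Y (nat_lit 174272714469151) .L .L))) (.Y (nat_lit 172623643026637) (.X (nat_lit 294669233875347) (.Y (nat_lit 170974111880479) .L .L) (.Y (nat_lit 170974111880479) .L .L)) (.X (nat_lit 294669233875347) (.Y (nat_lit 174272714469151) .L .L) .L)))) (.Y (nat_lit 169325150016969) (.X (nat_lit 307863319696537) (.Y (nat_lit 166026362576049) (.X (nat_lit 303466314609657) (.Y (nat_lit 164377553769583) .L .L) (.Y (nat_lit 164377553769583) .L .L)) (.X (nat_lit 303466314609657) (.Y (nat_lit 167675940304325) .L .L) (.Y (nat_lit 167675940304325) .L .L))) (.Y (nat_lit 166026362576049) (.X (nat_lit 312261893632863) (.Y (nat_lit 164377553769583) .L .L) (.Y (nat_lit 164377553769583) .L .L)) (.X (nat_lit 312261893632863) (.Y (nat_lit 167675940304325) .L .L) (.Y (nat_lit 167675940304325) .L .L)))) (.X (nat_lit 307863319696537) (.Y (nat_lit 172623643026637) (.X (nat_lit 303466314609657) (.Y (nat_lit 170974111880479) .L .L) .L) .L) .L)))) (.Y (nat_lit 162728167111501)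 (.X (nat_lit 334252485777277) (.Y (nat_lit 156131068094103) (.X (nat_lit 325456121871771) (.Y (nat_lit 152832175072207) (.X (nat_lit 321057431985909) (.Y (nat_lit 151183238123183) .L .L) (.Y (nat_lit 151183238123183) .L .L)) (.X (nat_lit 321057431985909) (.Y (nat_lit 154481833194965) .L .L) (.Y (nat_lit 154481833194965) .L .L))) (.Y (nat_lit 152832175072207) (.X (nat_lit 329853491109747) (.Y (nat_lit 151183238123183) .L .L) (.Y (nat_lit 151183238123183) .L .L)) (.X (nat_lit 329853491109747) (.Y (nat_lit 154481833194965) .L .L) (.Y (nat_lit 154481833194965) .L .L)))) (.X (nat_lit 325456121871771) (.Y (nat_lit 159429312828695) (.X (nat_lit 321057431985909) (.Y (nat_lit 157780190073313) .L .L) (.Y (nat_lit 157780190073313) .L .L)) (.X (nat_lit 321057431985909) (.Y (nat_lit 161078580380467) .L .L) (.Y (nat_lit 161078580380467) .L .L))) (.Y (nat_lit 159429312828695) (.X (nat_lit 329853491109747) (.Y (nat_lit 157780190073313) .L .L) (.Y (nat_lit 157780190073313) .L .L)) (.X (nat_lit 329853491109747) (.Y (nat_lit 161078580380467)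 .L .L) (.Y (nat_lit 161078580380467) .L .L))))) (.Y (nat_lit 156131068094103) (.X (nat_lit 343047851615949) (.Y (nat_lit 152832175072207) (.X (nat_lit 338649679550977) (.Y (nat_lit 151183238123183) .L .L) (.Y (nat_lit 151183238123183) .L .L)) (.X (nat_lit 338649679550977) (.Y (nat_lit 154481833194965) .L .L) (.Y (nat_lit 154481833194965) .L .L))) (.Y (nat_lit 152832175072207) (.X (nat_lit 347446350523179) (.Y (nat_lit 151183238123183) .L .L) .L) (.X (nat_lit 347446350523179) (.Y (nat_lit 154481833194965) .L .L) .L))) (.X (nat_lit 343047851615949) (.Y (nat_lit 159429312828695) (.X (nat_lit 338649679550977) (.Y (nat_lit 157780190073313) .L .L) (.Y (nat_lit 157780190073313) .L .L)) (.X (nat_lit 338649679550977) (.Y (nat_lit 161078580380467) .L .L) (.Y (nat_lit 161078580380467) .L .L))) (.Y (nat_lit 159429312828695) (.X (nat_lit 347446350523179) (.Y (nat_lit 157780190073313) .L .L) .L) .L)))) (.X (nat_lit 334252485777277) (.Y (nat_lit 169325150016969) (.X (nat_lit 325456121871771) (.Y (nat_lit 166026362576049) (.X (nat_lit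 321057431985909) (.Y (nat_lit 164377553769583) .L .L) (.Y (nat_lit 164377553769583) .L .L)) .L) (.Y (nat_lit 166026362576049) (.X (nat_lit 329853491109747) (.Y (nat_lit 164377553769583) .L .L) (.Y (nat_lit 164377553769583) .L .L)) .L)) .L) (.Y (nat_lit 169325150016969) (.X (nat_lit 343047851615949) .L .L) .L)))))
    (nat_lit 281474976710656) (nat_lit 351844899895973) (nat_lit 123145539196135) (nat_lit 175922061124267) = true := by
  decide +kernel

theorem cBm_3 : chk false SB (nat_lit 422212465065984) FS PSm PBm ABm HBm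
    (.Y (nat_lit 228698491831029) (.X (nat_lit 316660049597371) (.Y (nat_lit 202310140892619) (.X (nat_lit 299068103576911) (.Y (nat_lit 189116380910351) (.X (nat_lit 290271227798693) (.Y (nat_lit 182519494221219) (.X (nat_lit 285873246671361) (.Y (nat_lit 179220705058683) (.X (nat_lit 283674305010911) .L .L) .L) (.Y (nat_lit 179220705058683) (.X (nat_lit 288072222506473) .L .L) .L)) .L) .L) .L) .L) .L) .L) .L)
    (nat_lit 281474976710656) (nat_lit 351844899895973) (nat_lit 175922061124267) (nat_lit 281474976710656) = true := by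
  decide +kernel

theorem cBm_4 : chk false SB (nat_lit 422212465065984) FS PSm PBm ABm HBm
    (.Y (nat_lit 1099512165299) (.Y (nat_lit 274878385149) (.Y (nat_lit 68719689911) (.X (nat_lit 387029198350641) (.Y (nat_lit 17179906255) (.Y (nat_lit 4294982693) (.Y (nat_lit 1073742511) (.X (nat_lit 369437105195857) (.Y (nat_lit 268436405) (.Y (nat_lit 67108965) (.Y (nat_lit 16777239) (.X (nat_lit 360640181101291) (.Y (nat_lit 4194319) (.Y (nat_lit 1048577) .L (.Y (nat_lit 2621443) .L .L)) (.Y (nat_lit 10485789) .L .L)) (.Y (nat_lit 4194319) (.Y (nat_lit 1048577) (.X (nat_lit 365038124339315) .L (.Y (nat_lit 262145) .L (.Y (nat_lit 655361) .L .L))) (.Y (nat_lit 2621443) .L .L)) (.Y (nat_lit 10485789) .L .L))) (.Y (nat_lit 41943047) .L .L)) (.Y (nat_lit 167772495) (.Y (nat_lit 117440915) .L .L) .L)) (.Y (nat_lit 671089365) (.Y (nat_lit 469762459) .L .L) .L)) (.Y (nat_lit 268436405) (.Y (nat_lit 67108965) (.Y (nat_lit 16777239) (.X (nat_lit 378233386442463) (.Y (nat_lit 4194319) (.Y (nat_lit 1048577) (.X (nat_lit 373834336877471)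 (.Y (nat_lit 262145) .L (.Y (nat_lit 655361) .L .L)) (.Y (nat_lit 262145) .L (.Y (nat_lit 655361) .L .L))) (.Y (nat_lit 2621443) .L .L)) (.Y (nat_lit 10485789) .L .L)) (.Y (nat_lit 4194319) (.Y (nat_lit 1048577) (.X (nat_lit 382630487421507) (.Y (nat_lit 262145) .L (.Y (nat_lit 655361) .L .L)) (.Y (nat_lit 262145) .L (.Y (nat_lit 655361) .L .L))) (.Y (nat_lit 2621443) .L .L)) (.Y (nat_lit 10485789) .L .L))) (.Y (nat_lit 41943047) .L .L)) (.Y (nat_lit 167772495) (.Y (nat_lit 117440915) .L .L) .L)) (.Y (nat_lit 671089365) (.Y (nat_lit 469762459) .L .L) .L))) (.Y (nat_lit 2684358039) (.Y (nat_lit 1879053137) (.Y (nat_lit 1476395857) (.X (nat_lit 369437105195857) .L .L) (.X (nat_lit 369437105195857) .L .L)) (.X (nat_lit 369437105195857) .L .L)) (.X (nat_lit 369437105195857) .L .L))) (.Y (nat_lit 10737443367) (.Y (nat_lit 7516201401) (.Y (nat_lit 5905585831) .L .L) .L) .L)) (.Y (nat_lit 42949789691) (.Y (nat_lit 30064859643) .L .L) .L)) (.Y (nat_lit 17179906255) (.Y (nat_lit 4294982693) (.Y (nat_lit 1073742511) (.X (nat_lit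 404620391538613) (.Y (nat_lit 268436405) (.Y (nat_lit 67108965) (.Y (nat_lit 16777239) (.X (nat_lit 395824315695071) (.Y (nat_lit 4194319) (.Y (nat_lit 1048577) (.X (nat_lit 391427013180081) (.Y (nat_lit 262145) .L (.Y (nat_lit 655361) .L .L)) (.Y (nat_lit 262145) .L (.Y (nat_lit 655361) .L .L))) (.Y (nat_lit 2621443) .L .L)) (.Y (nat_lit 10485789) .L .L)) (.Y (nat_lit 4194319) (.Y (nat_lit 1048577) (.X (nat_lit 400222366234387) (.Y (nat_lit 262145) .L (.Y (nat_lit 655361) .L .L)) (.Y (nat_lit 262145) .L (.Y (nat_lit 655361) .L .L))) (.Y (nat_lit 2621443) .L .L)) (.Y (nat_lit 10485789) .L .L))) (.Y (nat_lit 41943047) .L .L)) (.Y (nat_lit 167772495) (.Y (nat_lit 117440915) .L .L) .L)) (.Y (nat_lit 671089365) (.Y (nat_lit 469762459) (.Y (nat_lit 369098897) .L .L) .L) .L)) (.Y (nat_lit 268436405) (.Y (nat_lit 67108965) (.Y (nat_lit 16777239) (.X (nat_lit 413416719941239) (.Y (nat_lit 4194319) (.Y (nat_lit 1048577) (.X (nat_lit 409018801521565) (.Y (nat_lit 262145) (.Y (nat_lit 65537) .L (.Y (nat_lit 163841) .L .L)) (.Y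 (nat_lit 655361) .L .L)) (.Y (nat_lit 262145) (.Y (nat_lit 65537) .L (.Y (nat_lit 163841) .L .L)) (.Y (nat_lit 655361) .L .L))) (.Y (nat_lit 2621443) .L .L)) (.Y (nat_lit 10485789) .L .L)) (.Y (nat_lit 4194319) (.Y (nat_lit 1048577) (.X (nat_lit 417815419968819) (.Y (nat_lit 262145) (.Y (nat_lit 65537) .L (.Y (nat_lit 163841) .L .L)) (.Y (nat_lit 655361) .L .L)) (.Y (nat_lit 262145) (.Y (nat_lit 65537) .L (.Y (nat_lit 163841) .L .L)) (.Y (nat_lit 655361) .L .L))) (.Y (nat_lit 2621443) .L .L)) (.Y (nat_lit 10485789) .L .L))) (.Y (nat_lit 41943047) .L .L)) (.Y (nat_lit 167772495) (.Y (nat_lit 117440915) .L .L) .L)) (.Y (nat_lit 671089365) (.Y (nat_lit 469762459) (.Y (nat_lit 369098897) .L .L) .L) (.Y (nat_lit 872416717) .L .L)))) (.Y (nat_lit 2684358039) (.Y (nat_lit 1879053137) (.Y (nat_lit 1476395857) (.X (nat_lit 404620391538613) .L .L) (.X (nat_lit 404620391538613) .L .L)) (.X (nat_lit 404620391538613) .L .L)) (.X (nat_lit 404620391538613) .L .L))) (.Y (nat_lit 10737443367) (.Y (nat_lit 7516201401) (.Y (nat_lit 5905585831)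 .L .L) .L) .L)) (.Y (nat_lit 42949789691) (.Y (nat_lit 30064859643) .L .L) .L))) (.Y (nat_lit 171799048055) (.Y (nat_lit 120259314071) (.X (nat_lit 387029198350641) .L .L) (.X (nat_lit 387029198350641) .L .L)) (.X (nat_lit 387029198350641) .L .L))) (.Y (nat_lit 687195064233) (.Y (nat_lit 481037143767) (.Y (nat_lit 377958558321) (.X (nat_lit 387029198350641) .L .L) (.X (nat_lit 387029198350641) .L .L)) (.X (nat_lit 387029198350641) (.Y (nat_lit 584117290981) .L .L) (.Y (nat_lit 584117290981) .L .L))) (.X (nat_lit 387029198350641) (.Y (nat_lit 893353266673) (.X (nat_lit 369437105195857) .L .L) (.X (nat_lit 369437105195857) .L .L)) (.Y (nat_lit 893353266673) (.X (nat_lit 404620391538613) .L .L) (.X (nat_lit 404620391538613) .L .L))))) (.Y (nat_lit 2748783752683) (.Y (nat_lit 1924146399035) (.Y (nat_lit 1511832218805) (.X (nat_lit 387029198350641) (.Y (nat_lit 1305674540671) (.X (nat_lit 369437105195857) .L .L) (.X (nat_lit 369437105195857) .L .L)) (.Y (nat_lit 1305674540671) (.X (nat_lit 404620391538613) .L .L) (.X (nat_lit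 404620391538613) .L .L))) (.X (nat_lit 387029198350641) (.X (nat_lit 369437105195857) (.Y (nat_lit 1717987217543) .L .L) (.Y (nat_lit 1717987217543) .L .L)) (.X (nat_lit 404620391538613) (.Y (nat_lit 1717987217543) .L .L) (.Y (nat_lit 1717987217543) .L .L)))) (.X (nat_lit 387029198350641) (.Y (nat_lit 2336467489929) (.X (nat_lit 369437105195857) (.Y (nat_lit 2130307863761) .L .L) (.Y (nat_lit 2130307863761) .L .L)) (.X (nat_lit 369437105195857) (.Y (nat_lit 2542622157523) .L .L) (.Y (nat_lit 2542622157523) .L .L))) (.Y (nat_lit 2336467489929) (.X (nat_lit 404620391538613) (.Y (nat_lit 2130307863761) .L .L) (.Y (nat_lit 2130307863761) .L (.X (nat_lit 413416719941239) .L .L))) (.X (nat_lit 404620391538613) (.Y (nat_lit 2542622157523) (.X (nat_lit 395824315695071) .L .L) (.X (nat_lit 395824315695071) .L .L)) (.Y (nat_lit 2542622157523) (.X (nat_lit 413416719941239) .L .L) (.X (nat_lit 413416719941239) .L .L)))))) (.Y (nat_lit 3573424291335) (.X (nat_lit 387029198350641) (.Y (nat_lit 3161107178049) (.X (nat_lit 369437105195857)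 (.Y (nat_lit 2954941457289) .L .L) (.Y (nat_lit 2954941457289) .L (.X (nat_lit 378233386442463) .L .L))) (.X (nat_lit 369437105195857) (.X (nat_lit 360640181101291) .L .L) (.X (nat_lit 378233386442463) .L (.Y (nat_lit 3367254890377) .L .L)))) (.Y (nat_lit 3161107178049) (.X (nat_lit 404620391538613) (.Y (nat_lit 2954941457289) (.X (nat_lit 395824315695071) .L .L) (.X (nat_lit 395824315695071) .L .L)) (.Y (nat_lit 2954941457289) (.X (nat_lit 413416719941239) .L .L) (.X (nat_lit 413416719941239) .L .L))) (.X (nat_lit 404620391538613) (.Y (nat_lit 3367254890377) (.X (nat_lit 395824315695071) .L .L) (.X (nat_lit 395824315695071) .L .L)) (.Y (nat_lit 3367254890377) (.X (nat_lit 413416719941239) .L .L) (.X (nat_lit 413416719941239) .L .L))))) (.X (nat_lit 387029198350641) (.X (nat_lit 369437105195857) (.Y (nat_lit 3985743982637) (.X (nat_lit 360640181101291) .L .L) (.X (nat_lit 360640181101291) .L .L)) (.Y (nat_lit 3985743982637) (.X (nat_lit 378233386442463) .L .L) (.X (nat_lit 378233386442463) .L .L))) (.X (nat_lit 404620391538613)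 (.Y (nat_lit 3985743982637) (.X (nat_lit 395824315695071) (.Y (nat_lit 3779580327921) .L .L) (.Y (nat_lit 3779580327921) .L .L)) (.X (nat_lit 395824315695071) (.Y (nat_lit 4191892203013) .L .L) (.Y (nat_lit 4191892203013) .L .L))) (.Y (nat_lit 3985743982637) (.X (nat_lit 413416719941239) (.Y (nat_lit 3779580327921) .L .L) (.Y (nat_lit 3779580327921) .L .L)) (.X (nat_lit 413416719941239) (.Y (nat_lit 4191892203013) .L .L) (.Y (nat_lit 4191892203013) .L .L))))))))
    (nat_lit 351844899895973) (nat_lit 422212465065984) (nat_lit 0) (nat_lit 4398056427309) = true := by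
  decide +kernel

theorem cBm_5 : chk false SB (nat_lit 422212465065984) FS PSm PBm ABm HBm
    (.Y (nat_lit 10995117811905) (.Y (nat_lit 7696603950747) (.Y (nat_lit 6047325905245) (.X (nat_lit 387029198350641) (.Y (nat_lit 5222697640297) (.X (nat_lit 369437105195857) (.Y (nat_lit 4810364677885) .L .L) (.Y (nat_lit 4810364677885) (.X (nat_lit 378233386442463) .L .L) (.X (nat_lit 378233386442463) .L .L))) (.X (nat_lit 369437105195857) (.Y (nat_lit 5635013671967) .L .L) (.Y (nat_lit 5635013671967) (.X (nat_lit 378233386442463) .L .L) (.X (nat_lit 378233386442463) .L .L)))) (.Y (nat_lit 5222697640297) (.X (nat_lit 404620391538613) (.Y (nat_lit 4810364677885) (.X (nat_lit 395824315695071) .L (.Y (nat_lit 4604217466107) .L .L)) (.X (nat_lit 395824315695071) .L (.Y (nat_lit 5016530738935) .L .L))) (.Y (nat_lit 4810364677885) (.X (nat_lit 413416719941239) (.Y (nat_lit 4604217466107) .L .L) (.Y (nat_lit 4604217466107) .L .L)) (.X (nat_lit 413416719941239) (.Y (nat_lit 5016530738935) .L .L) (.Y (nat_lit 5016530738935) .L .L))))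 (.X (nat_lit 404620391538613) (.Y (nat_lit 5635013671967) (.X (nat_lit 395824315695071) .L .L) (.X (nat_lit 395824315695071) .L .L)) (.Y (nat_lit 5635013671967) (.X (nat_lit 413416719941239) (.Y (nat_lit 5428848351469) .L .L) (.Y (nat_lit 5428848351469) .L .L)) (.X (nat_lit 413416719941239) (.Y (nat_lit 5841175043459) .L .L) (.Y (nat_lit 5841175043459) .L .L)))))) (.X (nat_lit 387029198350641) (.Y (nat_lit 6871973121665) (.X (nat_lit 369437105195857) (.Y (nat_lit 6459633676211) .L .L) (.Y (nat_lit 6459633676211) (.X (nat_lit 378233386442463) .L .L) (.X (nat_lit 378233386442463) .L .L))) (.X (nat_lit 369437105195857) (.Y (nat_lit 7284291149609) .L .L) (.Y (nat_lit 7284291149609) (.X (nat_lit 378233386442463) .L .L) (.X (nat_lit 378233386442463) .L .L)))) (.Y (nat_lit 6871973121665) (.X (nat_lit 404620391538613) (.Y (nat_lit 6459633676211) (.X (nat_lit 395824315695071) .L .L) (.X (nat_lit 395824315695071) .L .L)) (.Y (nat_lit 6459633676211) (.X (nat_lit 413416719941239) (.Y (nat_lit 6253482769531) .L .L) (.Y (nat_lit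 6253482769531) .L .L)) (.X (nat_lit 413416719941239) .L .L))) (.X (nat_lit 404620391538613) (.Y (nat_lit 7284291149609) (.X (nat_lit 395824315695071) .L .L) (.X (nat_lit 395824315695071) .L .L)) (.Y (nat_lit 7284291149609) (.X (nat_lit 413416719941239) .L .L) (.X (nat_lit 413416719941239) .L .L)))))) (.X (nat_lit 387029198350641) (.Y (nat_lit 9345874287341) (.X (nat_lit 369437105195857) (.Y (nat_lit 8521219738367) (.X (nat_lit 360640181101291) .L .L) (.X (nat_lit 360640181101291) .L .L)) (.Y (nat_lit 8521219738367) (.X (nat_lit 378233386442463) .L (.Y (nat_lit 8108909410927) .L .L)) (.X (nat_lit 378233386442463) .L .L))) (.X (nat_lit 369437105195857) (.Y (nat_lit 10170516748243) (.X (nat_lit 360640181101291) .L .L) (.X (nat_lit 360640181101291) .L .L)) (.Y (nat_lit 10170516748243) (.X (nat_lit 378233386442463) .L .L) (.X (nat_lit 378233386442463) .L .L)))) (.Y (nat_lit 9345874287341) (.X (nat_lit 404620391538613) (.Y (nat_lit 8521219738367) (.X (nat_lit 395824315695071) (.Y (nat_lit 8108909410927) .L .L) (.Y (nat_lit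 8108909410927) .L .L)) (.X (nat_lit 395824315695071) (.Y (nat_lit 8933561797455) .L .L) (.Y (nat_lit 8933561797455) .L .L))) (.Y (nat_lit 8521219738367) (.X (nat_lit 413416719941239) (.Y (nat_lit 8108909410927) .L .L) (.Y (nat_lit 8108909410927) .L .L)) (.X (nat_lit 413416719941239) (.Y (nat_lit 8933561797455) .L .L) (.Y (nat_lit 8933561797455) .L .L)))) (.X (nat_lit 404620391538613) (.Y (nat_lit 10170516748243) (.X (nat_lit 395824315695071) (.Y (nat_lit 9758180652007) .L .L) (.Y (nat_lit 9758180652007) .L .L)) (.X (nat_lit 395824315695071) (.Y (nat_lit 10582839549311) .L .L) (.Y (nat_lit 10582839549311) .L .L))) (.Y (nat_lit 10170516748243) (.X (nat_lit 413416719941239) (.Y (nat_lit 9758180652007) .L .L) (.Y (nat_lit 9758180652007) .L .L)) (.X (nat_lit 413416719941239) (.Y (nat_lit 10582839549311) .L .L) (.Y (nat_lit 10582839549311) .L .L))))))) (.Y (nat_lit 14293672086315) (.X (nat_lit 387029198350641) (.Y (nat_lit 12644405116151) (.X (nat_lit 369437105195857) (.Y (nat_lit 11819794543225) (.X (nat_lit 360640181101291)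 .L .L) (.X (nat_lit 360640181101291) .L .L)) (.Y (nat_lit 11819794543225) (.X (nat_lit 378233386442463) .L .L) (.X (nat_lit 378233386442463) .L .L))) (.X (nat_lit 369437105195857) (.Y (nat_lit 13469046423081) (.X (nat_lit 360640181101291) .L .L) (.X (nat_lit 360640181101291) .L .L)) (.Y (nat_lit 13469046423081) (.X (nat_lit 378233386442463) .L .L) (.X (nat_lit 378233386442463) .L .L)))) (.Y (nat_lit 12644405116151) (.X (nat_lit 404620391538613) (.Y (nat_lit 11819794543225) (.X (nat_lit 395824315695071) (.Y (nat_lit 11407435694597) .L .L) (.Y (nat_lit 11407435694597) .L .L)) (.X (nat_lit 395824315695071) (.Y (nat_lit 12232067845791) .L .L) (.Y (nat_lit 12232067845791) .L .L))) (.Y (nat_lit 11819794543225) (.X (nat_lit 413416719941239) (.Y (nat_lit 11407435694597) .L .L) (.Y (nat_lit 11407435694597) .L .L)) (.X (nat_lit 413416719941239) (.Y (nat_lit 12232067845791) .L .L) (.Y (nat_lit 12232067845791) .L .L)))) (.X (nat_lit 404620391538613) (.Y (nat_lit 13469046423081) (.X (nat_lit 395824315695071) .L (.Y (nat_lit 13056746337847)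 .L .L)) (.X (nat_lit 395824315695071) .L .L)) (.Y (nat_lit 13469046423081) (.X (nat_lit 413416719941239) (.Y (nat_lit 13056746337847) .L .L) (.Y (nat_lit 13056746337847) .L .L)) (.X (nat_lit 413416719941239) .L .L))))) (.X (nat_lit 387029198350641) (.Y (nat_lit 15942965825457) (.X (nat_lit 369437105195857) (.X (nat_lit 360640181101291) (.Y (nat_lit 15118291397665) .L .L) (.Y (nat_lit 15118291397665) .L .L)) (.Y (nat_lit 15118291397665) (.X (nat_lit 378233386442463) .L .L) (.X (nat_lit 378233386442463) .L .L))) (.X (nat_lit 369437105195857) (.X (nat_lit 360640181101291) .L (.Y (nat_lit 16767581043631) .L .L)) (.X (nat_lit 378233386442463) (.Y (nat_lit 16767581043631) .L .L) (.Y (nat_lit 16767581043631) .L .L)))) (.Y (nat_lit 15942965825457) (.X (nat_lit 404620391538613) (.Y (nat_lit 15118291397665) (.X (nat_lit 395824315695071) .L .L) (.X (nat_lit 395824315695071) .L .L)) (.Y (nat_lit 15118291397665) (.X (nat_lit 413416719941239) (.Y (nat_lit 14705997961379) .L .L) (.Y (nat_lit 14705997961379) .L .L)) (.X (nat_lit 413416719941239)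 (.Y (nat_lit 15530644901193) .L .L) (.Y (nat_lit 15530644901193) .L .L)))) (.X (nat_lit 404620391538613) (.Y (nat_lit 16767581043631) (.X (nat_lit 395824315695071) .L .L) (.X (nat_lit 395824315695071) .L .L)) (.Y (nat_lit 16767581043631) (.X (nat_lit 413416719941239) (.Y (nat_lit 16355283799109) .L .L) (.Y (nat_lit 16355283799109) .L .L)) (.X (nat_lit 413416719941239) .L .L)))))))
    (nat_lit 351844899895973) (nat_lit 422212465065984) (nat_lit 4398056427309) (nat_lit 17592208417917) = true := by
  decide +kernel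

end Crest.Agent.R163.Win
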