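import Crest.Agent.R163.WinD0

/-! Row 163, window engine: kernel checks, part 5 (generated). -/

set_option autoImplicit false
set_option maxRecDepth 1000000

namespace Crest.Agent.R163.Win


theorem cBm_6 : chk false SB (nat_lit 422212465065984) FS PSm PBm ABm HBm
    (.Y (nat_lit 43980496067731) (.Y (nat_lit 30786374392855) (.Y (nat_lit 24189277726735) (.X (nat_lit 387029198350641) (.Y (nat_lit 20890763476655) (.X (nat_lit 369437105195857) (.Y (nat_lit 19241486395023) (.X (nat_lit 360640181101291) .L (.Y (nat_lit 18416878762855) .L .L)) (.X (nat_lit 360640181101291) .L .L)) (.Y (nat_lit 19241486395023) (.X (nat_lit 378233386442463) (.Y (nat_lit 18416878762855) .L .L) (.Y (nat_lit 18416878762855) .L .L)) (.X (nat_lit 378233386442463) (.Y (nat_lit 20066119553763) .L .L) (.Y (nat_lit 20066119553763) .L .L)))) (.X (nat_lit 369437105195857) (.Y (nat_lit 22540069890139) (.X (nat_lit 360640181101291) .L .L) (.X (nat_lit 360640181101291) .L .L)) (.Y (nat_lit 22540069890139) (.X (nat_lit 378233386442463) (.Y (nat_lit 21715357330611)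 .L .L) (.Y (nat_lit 21715357330611) .L .L)) (.X (nat_lit 378233386442463) (.Y (nat_lit 23364700187829) .L .L) (.Y (nat_lit 23364700187829) .L .L))))) (.Y (nat_lit 20890763476655) (.X (nat_lit 404620391538613) (.Y (nat_lit 19241486395023) (.X (nat_lit 395824315695071) (.Y (nat_lit 18416878762855) .L .L) (.Y (nat_lit 18416878762855) .L .L)) (.X (nat_lit 395824315695071) (.Y (nat_lit 20066119553763) .L .L) (.Y (nat_lit 20066119553763) .L .L))) (.Y (nat_lit 19241486395023) (.X (nat_lit 413416719941239) (.Y (nat_lit 18416878762855) .L .L) .L) (.X (nat_lit 413416719941239) (.Y (nat_lit 20066119553763) .L .L) .L))) (.X (nat_lit 404620391538613) (.Y (nat_lit 22540069890139) (.X (nat_lit 395824315695071) (.Y (nat_lit 21715357330611) .L .L) (.Y (nat_lit 21715357330611) .L .L)) (.X (nat_lit 395824315695071) (.Y (nat_lit 23364700187829) .L .L) (.Y (nat_lit 23364700187829) .L .L))) (.Y (nat_lit 22540069890139) (.X (nat_lit 413416719941239) (.Y (nat_lit 21715357330611) .L .L) .L) (.X (nat_lit 413416719941239) (.Y (nat_lit 23364700187829)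 .L .L) .L))))) (.X (nat_lit 387029198350641) (.Y (nat_lit 27487880922633) (.X (nat_lit 369437105195857) (.Y (nat_lit 25838524903645) (.X (nat_lit 360640181101291) .L .L) (.X (nat_lit 360640181101291) .L .L)) (.Y (nat_lit 25838524903645) (.X (nat_lit 378233386442463) (.Y (nat_lit 25013911567009) .L .L) (.Y (nat_lit 25013911567009) .L .L)) (.X (nat_lit 378233386442463) (.Y (nat_lit 26663228515389) .L .L) (.Y (nat_lit 26663228515389) .L .L)))) (.X (nat_lit 369437105195857) (.Y (nat_lit 29137069904733) (.X (nat_lit 360640181101291) .L .L) (.X (nat_lit 360640181101291) .L .L)) (.Y (nat_lit 29137069904733) (.X (nat_lit 378233386442463) (.Y (nat_lit 28312482957299) .L .L) (.Y (nat_lit 28312482957299) .L .L)) (.X (nat_lit 378233386442463) (.Y (nat_lit 29961767483699) .L .L) (.Y (nat_lit 29961767483699) .L .L))))) (.Y (nat_lit 27487880922633) (.X (nat_lit 404620391538613) (.Y (nat_lit 25838524903645) (.X (nat_lit 395824315695071) (.Y (nat_lit 25013911567009) .L .L) (.Y (nat_lit 25013911567009) .L .L)) (.X (nat_lit 395824315695071)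 (.Y (nat_lit 26663228515389) .L .L) (.Y (nat_lit 26663228515389) .L .L))) (.Y (nat_lit 25838524903645) (.X (nat_lit 413416719941239) (.Y (nat_lit 25013911567009) .L .L) .L) (.X (nat_lit 413416719941239) (.Y (nat_lit 26663228515389) .L .L) .L))) (.X (nat_lit 404620391538613) (.Y (nat_lit 29137069904733) (.X (nat_lit 395824315695071) (.Y (nat_lit 28312482957299) .L .L) (.Y (nat_lit 28312482957299) .L .L)) (.X (nat_lit 395824315695071) (.Y (nat_lit 29961767483699) .L .L) (.Y (nat_lit 29961767483699) .L .L))) (.Y (nat_lit 29137069904733) (.X (nat_lit 413416719941239) (.Y (nat_lit 28312482957299) .L .L) .L) (.X (nat_lit 413416719941239) (.Y (nat_lit 29961767483699) .L .L) .L)))))) (.Y (nat_lit 37383470646837) (.X (nat_lit 387029198350641) (.Y (nat_lit 34084948931449) (.X (nat_lit 369437105195857) (.Y (nat_lit 32435660992437) (.X (nat_lit 360640181101291) .L .L) (.X (nat_lit 360640181101291) .L .L)) (.Y (nat_lit 32435660992437) (.X (nat_lit 378233386442463) (.Y (nat_lit 31611072894649) .L .L) (.Y (nat_lit 31611072894649)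 .L .L)) (.X (nat_lit 378233386442463) (.Y (nat_lit 33260314024571) .L .L) (.Y (nat_lit 33260314024571) .L .L)))) (.X (nat_lit 369437105195857) (.Y (nat_lit 35734215194051) (.X (nat_lit 360640181101291) .L .L) (.X (nat_lit 360640181101291) .L .L)) (.Y (nat_lit 35734215194051) (.X (nat_lit 378233386442463) (.Y (nat_lit 34909615656945) .L .L) (.Y (nat_lit 34909615656945) .L .L)) (.X (nat_lit 378233386442463) (.Y (nat_lit 36558860124429) .L .L) (.Y (nat_lit 36558860124429) .L .L))))) (.Y (nat_lit 34084948931449) (.X (nat_lit 404620391538613) (.Y (nat_lit 32435660992437) (.X (nat_lit 395824315695071) (.Y (nat_lit 31611072894649) .L .L) (.Y (nat_lit 31611072894649) .L .L)) (.X (nat_lit 395824315695071) (.Y (nat_lit 33260314024571) .L .L) (.Y (nat_lit 33260314024571) .L .L))) (.Y (nat_lit 32435660992437) (.X (nat_lit 413416719941239) (.Y (nat_lit 31611072894649) .L .L) .L) (.X (nat_lit 413416719941239) (.Y (nat_lit 33260314024571) .L .L) .L))) (.X (nat_lit 404620391538613) (.Y (nat_lit 35734215194051) (.X (nat_lit 395824315695071)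 (.Y (nat_lit 34909615656945) .L .L) (.Y (nat_lit 34909615656945) .L .L)) (.X (nat_lit 395824315695071) (.Y (nat_lit 36558860124429) .L .L) (.Y (nat_lit 36558860124429) .L .L))) (.Y (nat_lit 35734215194051) (.X (nat_lit 413416719941239) (.Y (nat_lit 34909615656945) .L .L) .L) .L)))) (.X (nat_lit 387029198350641) (.X (nat_lit 369437105195857) (.Y (nat_lit 40682050965857) (.X (nat_lit 360640181101291) (.Y (nat_lit 39032736635765) .L .L) (.Y (nat_lit 39032736635765) .L .L)) (.X (nat_lit 360640181101291) (.Y (nat_lit 42331206553043) .L .L) (.Y (nat_lit 42331206553043) .L .L))) (.Y (nat_lit 40682050965857) (.X (nat_lit 378233386442463) (.Y (nat_lit 39032736635765) (.X (nat_lit 373834336877471) .L .L) (.X (nat_lit 373834336877471) .L .L)) (.Y (nat_lit 39032736635765) (.X (nat_lit 382630487421507) .L .L) (.X (nat_lit 382630487421507) .L .L))) (.X (nat_lit 378233386442463) (.Y (nat_lit 42331206553043) (.X (nat_lit 373834336877471) .L .L) (.X (nat_lit 373834336877471) .L .L)) (.Y (nat_lit 42331206553043) (.X (nat_lit 382630487421507)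 .L .L) (.X (nat_lit 382630487421507) .L .L))))) (.X (nat_lit 404620391538613) (.Y (nat_lit 40682050965857) (.X (nat_lit 395824315695071) (.Y (nat_lit 39032736635765) (.X (nat_lit 391427013180081) .L .L) (.X (nat_lit 391427013180081) .L .L)) (.Y (nat_lit 39032736635765) (.X (nat_lit 400222366234387) .L .L) (.X (nat_lit 400222366234387) .L .L))) (.X (nat_lit 395824315695071) (.Y (nat_lit 42331206553043) (.X (nat_lit 391427013180081) .L .L) (.X (nat_lit 391427013180081) .L .L)) (.Y (nat_lit 42331206553043) (.X (nat_lit 400222366234387) .L .L) (.X (nat_lit 400222366234387) .L .L)))) .L)))) (.Y (nat_lit 57174647204107) (.X (nat_lit 387029198350641) (.Y (nat_lit 50577605471125) (.X (nat_lit 369437105195857) (.Y (nat_lit 47279053332153) (.X (nat_lit 360640181101291) (.Y (nat_lit 45629757115749) .L .L) (.Y (nat_lit 45629757115749) (.X (nat_lit 365038124339315) .L .L) (.X (nat_lit 365038124339315) .L .L))) (.X (nat_lit 360640181101291) (.Y (nat_lit 48928354636155) .L .L) (.Y (nat_lit 48928354636155) (.X (nat_lit 365038124339315)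 .L .L) (.X (nat_lit 365038124339315) .L .L)))) (.Y (nat_lit 47279053332153) (.X (nat_lit 378233386442463) (.Y (nat_lit 45629757115749) (.X (nat_lit 373834336877471) .L .L) (.X (nat_lit 373834336877471) .L .L)) (.Y (nat_lit 45629757115749) (.X (nat_lit 382630487421507) .L .L) (.X (nat_lit 382630487421507) .L .L))) (.X (nat_lit 378233386442463) (.Y (nat_lit 48928354636155) (.X (nat_lit 373834336877471) .L .L) (.X (nat_lit 373834336877471) .L .L)) (.Y (nat_lit 48928354636155) (.X (nat_lit 382630487421507) .L .L) (.X (nat_lit 382630487421507) .L .L))))) (.X (nat_lit 369437105195857) (.Y (nat_lit 53876268116979) (.X (nat_lit 360640181101291) (.Y (nat_lit 52226807159787) .L .L) (.Y (nat_lit 52226807159787) (.X (nat_lit 365038124339315) .L .L) (.X (nat_lit 365038124339315) .L .L))) (.X (nat_lit 360640181101291) (.Y (nat_lit 55525429635223) .L .L) (.Y (nat_lit 55525429635223) (.X (nat_lit 365038124339315) .L .L) (.X (nat_lit 365038124339315) .L .L)))) (.Y (nat_lit 53876268116979) (.X (nat_lit 378233386442463) (.Y (nat_lit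 52226807159787) (.X (nat_lit 373834336877471) .L .L) (.X (nat_lit 373834336877471) .L .L)) (.Y (nat_lit 52226807159787) (.X (nat_lit 382630487421507) .L .L) (.X (nat_lit 382630487421507) .L .L))) (.X (nat_lit 378233386442463) (.Y (nat_lit 55525429635223) (.X (nat_lit 373834336877471) .L .L) (.X (nat_lit 373834336877471) .L .L)) (.Y (nat_lit 55525429635223) (.X (nat_lit 382630487421507) .L .L) (.X (nat_lit 382630487421507) .L .L)))))) (.Y (nat_lit 50577605471125) (.X (nat_lit 404620391538613) (.Y (nat_lit 47279053332153) (.X (nat_lit 395824315695071) (.Y (nat_lit 45629757115749) (.X (nat_lit 391427013180081) .L .L) (.X (nat_lit 391427013180081) .L .L)) (.Y (nat_lit 45629757115749) (.X (nat_lit 400222366234387) .L .L) (.X (nat_lit 400222366234387) .L .L))) (.X (nat_lit 395824315695071) (.Y (nat_lit 48928354636155) (.X (nat_lit 391427013180081) .L .L) (.X (nat_lit 391427013180081) .L .L)) (.Y (nat_lit 48928354636155) (.X (nat_lit 400222366234387) .L .L) (.X (nat_lit 400222366234387) .L .L)))) .L) (.X (nat_lit 404620391538613)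 (.Y (nat_lit 53876268116979) (.X (nat_lit 395824315695071) (.Y (nat_lit 52226807159787) (.X (nat_lit 391427013180081) .L .L) (.X (nat_lit 391427013180081) .L .L)) (.Y (nat_lit 52226807159787) (.X (nat_lit 400222366234387) .L .L) (.X (nat_lit 400222366234387) .L .L))) (.X (nat_lit 395824315695071) (.Y (nat_lit 55525429635223) (.X (nat_lit 391427013180081) .L .L) (.X (nat_lit 391427013180081) .L .L)) .L)) .L))) (.X (nat_lit 387029198350641) (.Y (nat_lit 63771679804411) (.X (nat_lit 369437105195857) (.Y (nat_lit 60473244612473) (.X (nat_lit 360640181101291) (.Y (nat_lit 58824052264953) .L .L) (.Y (nat_lit 58824052264953) (.X (nat_lit 365038124339315) .L .L) (.X (nat_lit 365038124339315) .L .L))) (.X (nat_lit 360640181101291) (.Y (nat_lit 62122420628993) .L .L) (.Y (nat_lit 62122420628993) (.X (nat_lit 365038124339315) .L .L) (.X (nat_lit 365038124339315) .L .L)))) (.Y (nat_lit 60473244612473) (.X (nat_lit 378233386442463) (.Y (nat_lit 58824052264953) (.X (nat_lit 373834336877471) .L .L) (.X (nat_lit 373834336877471)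 .L .L)) (.Y (nat_lit 58824052264953) (.X (nat_lit 382630487421507) .L .L) (.X (nat_lit 382630487421507) .L .L))) (.X (nat_lit 378233386442463) (.Y (nat_lit 62122420628993) (.X (nat_lit 373834336877471) .L .L) (.X (nat_lit 373834336877471) .L .L)) (.Y (nat_lit 62122420628993) (.X (nat_lit 382630487421507) .L .L) (.X (nat_lit 382630487421507) .L .L))))) (.X (nat_lit 369437105195857) (.Y (nat_lit 67070390017947) (.X (nat_lit 360640181101291) (.Y (nat_lit 65421109595225) .L .L) (.Y (nat_lit 65421109595225) (.X (nat_lit 365038124339315) .L .L) (.X (nat_lit 365038124339315) .L .L))) (.X (nat_lit 360640181101291) (.Y (nat_lit 68719600096481) .L .L) (.Y (nat_lit 68719600096481) (.X (nat_lit 365038124339315) .L .L) (.X (nat_lit 365038124339315) .L .L)))) (.Y (nat_lit 67070390017947) (.X (nat_lit 378233386442463) (.Y (nat_lit 65421109595225) (.X (nat_lit 373834336877471) .L .L) (.X (nat_lit 373834336877471) .L .L)) (.Y (nat_lit 65421109595225) (.X (nat_lit 382630487421507) .L .L) (.X (nat_lit 382630487421507) .L .L))) (.X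 (nat_lit 378233386442463) (.Y (nat_lit 68719600096481) (.X (nat_lit 373834336877471) .L .L) (.X (nat_lit 373834336877471) .L .L)) (.Y (nat_lit 68719600096481) (.X (nat_lit 382630487421507) .L .L) (.X (nat_lit 382630487421507) .L .L)))))) (.Y (nat_lit 63771679804411) (.X (nat_lit 404620391538613) (.Y (nat_lit 60473244612473) (.X (nat_lit 395824315695071) (.Y (nat_lit 58824052264953) (.X (nat_lit 391427013180081) .L .L) (.X (nat_lit 391427013180081) .L .L)) .L) (.X (nat_lit 395824315695071) (.Y (nat_lit 62122420628993) (.X (nat_lit 391427013180081) .L .L) (.X (nat_lit 391427013180081) .L .L)) .L)) .L) (.X (nat_lit 404620391538613) (.Y (nat_lit 67070390017947) (.X (nat_lit 395824315695071) (.Y (nat_lit 65421109595225) (.X (nat_lit 391427013180081) .L .L) (.X (nat_lit 391427013180081) .L .L)) .L) (.X (nat_lit 395824315695071) (.Y (nat_lit 68719600096481) (.X (nat_lit 391427013180081) .L .L) (.X (nat_lit 391427013180081) .L .L)) .L)) .L)))))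
    (nat_lit 351844899895973) (nat_lit 422212465065984) (nat_lit 17592208417917) (nat_lit 70368900064303) = true := by
  decide +kernel

theorem cBm_7 : chk false SB (nat_lit 422212465065984) FS PSm PBm ABm HBm
    (.Y (nat_lit 175922061124267) (.Y (nat_lit 123145539196135) (.Y (nat_lit 96757370032245) (.Y (nat_lit 83563010727971) (.X (nat_lit 387029198350641) (.Y (nat_lit 76965864127081) (.X (nat_lit 369437105195857) (.Y (nat_lit 73667436176997) (.X (nat_lit 360640181101291) (.Y (nat_lit 72018151498917) .L .L) (.Y (nat_lit 72018151498917) (.X (nat_lit 365038124339315) .L .L) (.X (nat_lit 365038124339315) .L .L))) (.X (nat_lit 360640181101291) (.Y (nat_lit 75316723090777) .L .L) (.Y (nat_lit 75316723090777) (.X (nat_lit 365038124339315) .L .L) (.X (nat_lit 365038124339315) .L .L)))) (.Y (nat_lit 73667436176997) (.X (nat_lit 378233386442463) (.Y (nat_lit 72018151498917) (.X (nat_lit 373834336877471) .L .L) (.X (nat_lit 373834336877471) .L .L)) (.Y (nat_lit 72018151498917) (.X (nat_lit 382630487421507) .L .L) (.X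 (nat_lit 382630487421507) .L .L))) (.X (nat_lit 378233386442463) (.Y (nat_lit 75316723090777) (.X (nat_lit 373834336877471) .L .L) (.X (nat_lit 373834336877471) .L .L)) (.Y (nat_lit 75316723090777) (.X (nat_lit 382630487421507) .L .L) (.X (nat_lit 382630487421507) .L .L))))) (.X (nat_lit 369437105195857) (.Y (nat_lit 80264523106889) (.X (nat_lit 360640181101291) (.Y (nat_lit 78615251642775) .L .L) (.Y (nat_lit 78615251642775) (.X (nat_lit 365038124339315) .L .L) (.X (nat_lit 365038124339315) .L .L))) (.X (nat_lit 360640181101291) (.X (nat_lit 356242101232075) .L .L) (.X (nat_lit 365038124339315) .L .L))) (.Y (nat_lit 80264523106889) (.X (nat_lit 378233386442463) (.Y (nat_lit 78615251642775) (.X (nat_lit 373834336877471) .L .L) (.X (nat_lit 373834336877471) .L .L)) (.Y (nat_lit 78615251642775) (.X (nat_lit 382630487421507) .L .L) (.X (nat_lit 382630487421507) .L .L))) (.X (nat_lit 378233386442463) (.X (nat_lit 373834336877471) (.Y (nat_lit 81913833297479) .L .L) (.Y (nat_lit 81913833297479) .L .L)) (.Y (nat_lit 81913833297479)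 (.X (nat_lit 382630487421507) .L .L) (.X (nat_lit 382630487421507) .L .L)))))) .L) (.X (nat_lit 387029198350641) (.X (nat_lit 369437105195857) (.Y (nat_lit 90160235478093) (.X (nat_lit 360640181101291) (.Y (nat_lit 86861551642167) (.X (nat_lit 356242101232075) .L .L) (.X (nat_lit 356242101232075) .L .L)) (.Y (nat_lit 86861551642167) (.X (nat_lit 365038124339315) .L .L) (.X (nat_lit 365038124339315) .L .L))) (.X (nat_lit 360640181101291) (.Y (nat_lit 93458625275347) (.X (nat_lit 356242101232075) .L .L) (.X (nat_lit 356242101232075) .L .L)) (.Y (nat_lit 93458625275347) (.X (nat_lit 365038124339315) .L .L) (.X (nat_lit 365038124339315) .L .L)))) (.Y (nat_lit 90160235478093) (.X (nat_lit 378233386442463) (.Y (nat_lit 86861551642167) (.X (nat_lit 373834336877471) .L .L) (.X (nat_lit 373834336877471) .L .L)) (.Y (nat_lit 86861551642167) (.X (nat_lit 382630487421507) .L .L) (.X (nat_lit 382630487421507) .L .L))) (.X (nat_lit 378233386442463) (.Y (nat_lit 93458625275347) (.X (nat_lit 373834336877471) .L .L) (.X (nat_lit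 373834336877471) .L .L)) .L))) .L)) (.X (nat_lit 387029198350641) (.Y (nat_lit 109951574343109) (.X (nat_lit 369437105195857) (.Y (nat_lit 103354427401721) (.X (nat_lit 360640181101291) (.Y (nat_lit 100055637574935) (.X (nat_lit 356242101232075) .L .L) (.X (nat_lit 356242101232075) .L .L)) (.Y (nat_lit 100055637574935) (.X (nat_lit 365038124339315) .L .L) (.X (nat_lit 365038124339315) .L .L))) (.X (nat_lit 360640181101291) (.Y (nat_lit 106652846660227) (.X (nat_lit 356242101232075) .L .L) (.X (nat_lit 356242101232075) .L .L)) (.Y (nat_lit 106652846660227) (.X (nat_lit 365038124339315) .L .L) (.X (nat_lit 365038124339315) .L .L)))) (.Y (nat_lit 103354427401721) (.X (nat_lit 378233386442463) (.Y (nat_lit 100055637574935) (.X (nat_lit 373834336877471) .L .L) (.X (nat_lit 373834336877471) .L .L)) .L) (.X (nat_lit 378233386442463) (.Y (nat_lit 106652846660227) (.X (nat_lit 373834336877471) .L .L) .L) .L))) (.X (nat_lit 369437105195857) (.Y (nat_lit 116548591607855) (.X (nat_lit 360640181101291) (.Y (nat_lit 113250080874043)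 (.X (nat_lit 356242101232075) .L .L) (.X (nat_lit 356242101232075) .L .L)) (.Y (nat_lit 113250080874043) (.X (nat_lit 365038124339315) .L .L) (.X (nat_lit 365038124339315) .L .L))) (.X (nat_lit 360640181101291) (.Y (nat_lit 119847078166217) (.X (nat_lit 356242101232075) .L .L) (.X (nat_lit 356242101232075) .L .L)) (.Y (nat_lit 119847078166217) (.X (nat_lit 365038124339315) .L .L) (.X (nat_lit 365038124339315) .L .L)))) .L)) .L)) (.Y (nat_lit 149534024483977) (.X (nat_lit 387029198350641) (.Y (nat_lit 136339568249161) (.X (nat_lit 369437105195857) (.Y (nat_lit 129742764912007) (.X (nat_lit 360640181101291) (.Y (nat_lit 126444002716177) (.X (nat_lit 356242101232075) .L .L) (.X (nat_lit 356242101232075) .L .L)) .L) (.X (nat_lit 360640181101291) (.Y (nat_lit 133041154257545) (.X (nat_lit 356242101232075) .L .L) (.X (nat_lit 356242101232075) .L .L)) .L)) .L) (.X (nat_lit 369437105195857) (.Y (nat_lit 142936634562605) (.X (nat_lit 360640181101291) (.Y (nat_lit 139638142057397) (.X (nat_lit 356242101232075) .L .L) (.X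 (nat_lit 356242101232075) .L .L)) .L) .L) .L)) .L) .L)) .L)
    (nat_lit 351844899895973) (nat_lit 422212465065984) (nat_lit 70368900064303) (nat_lit 281474976710656) = true := by
  decide +kernel

theorem cM1p_0 : chk true SM1 (nat_lit 281474976710656) FS PSp PM1p AM1p HM1p
    (.Y (nat_lit 4398056427309) (.X (nat_lit 4398056427309) (.Y (nat_lit 1099512165299) (.X (nat_lit 1099512165299) (.Y (nat_lit 274878385149) (.X (nat_lit 274878385149) (.Y (nat_lit 68719689911) (.X (nat_lit 68719689911) (.Y (nat_lit 17179906255) (.X (nat_lit 17179906255) (.Y (nat_lit 4294982693) (.X (nat_lit 4294982693) (.Y (nat_lit 1073742511) (.X (nat_lit 1073742511) (.Y (nat_lit 268436405) (.X (nat_lit 268436405) (.Y (nat_lit 67108965) (.X (nat_lit 67108965) (.Y (nat_lit 16777239) (.X (nat_lit 16777239) (.Y (nat_lit 4194319) (.X (nat_lit 4194319) (.Y (nat_lit 1048577) (.X (nat_lit 1048577) .L (.X (nat_lit 2621443) (.X (nat_lit 1835013) .L .L) .L)) (.X (nat_lit 1048577) .L (.Y (nat_lit 2621443) (.X (nat_lit 2621443) .L .L) .L))) (.X (nat_lit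 10485789) (.X (nat_lit 7340049) (.Y (nat_lit 1048577) .L .L) .L) .L)) (.X (nat_lit 4194319) .L (.Y (nat_lit 10485789) (.X (nat_lit 10485789) (.Y (nat_lit 7340049) .L .L) .L) .L))) (.X (nat_lit 41943047) (.X (nat_lit 29360233) (.Y (nat_lit 4194319) .L .L) .L) .L)) (.X (nat_lit 16777239) .L (.Y (nat_lit 41943047) (.X (nat_lit 41943047) .L .L) .L))) (.X (nat_lit 167772495) (.X (nat_lit 117440915) .L .L) .L)) (.X (nat_lit 67108965) .L (.Y (nat_lit 167772495) (.X (nat_lit 167772495) .L .L) .L))) (.X (nat_lit 671089365) (.X (nat_lit 469762459) .L .L) .L)) (.X (nat_lit 268436405) .L (.Y (nat_lit 671089365) (.X (nat_lit 671089365) .L .L) .L))) (.X (nat_lit 2684358039) (.X (nat_lit 1879053137) .L .L) .L)) (.X (nat_lit 1073742511) .L (.Y (nat_lit 2684358039) (.X (nat_lit 2684358039) .L .L) .L))) (.X (nat_lit 10737443367) (.X (nat_lit 7516201401) (.Y (nat_lit 1073742511) .L .L) .L) .L)) (.X (nat_lit 4294982693) .L (.Y (nat_lit 10737443367) (.X (nat_lit 10737443367) (.Y (nat_lit 7516201401) .L .L) .L) (.X (nat_lit 10737443367)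 .L .L)))) (.X (nat_lit 42949789691) (.X (nat_lit 30064859643) (.Y (nat_lit 4294982693) (.X (nat_lit 23622326915) .L .L) (.X (nat_lit 23622326915) (.Y (nat_lit 10737443367) .L .L) .L)) (.Y (nat_lit 4294982693) .L (.X (nat_lit 36507257669) .L .L))) (.X (nat_lit 55834583023) (.Y (nat_lit 4294982693) .L .L) (.Y (nat_lit 4294982693) .L .L)))) (.X (nat_lit 17179906255) .L (.Y (nat_lit 42949789691) (.X (nat_lit 42949789691) (.Y (nat_lit 30064859643) (.X (nat_lit 30064859643) (.Y (nat_lit 23622326915) .L .L) .L) (.X (nat_lit 30064859643) .L .L)) (.X (nat_lit 55834583023) (.Y (nat_lit 30064859643) .L .L) (.Y (nat_lit 30064859643) .L .L))) (.X (nat_lit 42949789691) .L (.Y (nat_lit 55834583023) (.X (nat_lit 55834583023) .L .L) .L))))) (.X (nat_lit 171799048055) (.X (nat_lit 120259314071) (.Y (nat_lit 17179906255) (.X (nat_lit 94489297717) (.X (nat_lit 81604567381) .L .L) (.X (nat_lit 107374212923) .L .L)) (.X (nat_lit 94489297717) (.Y (nat_lit 42949789691) (.X (nat_lit 81604567381) (.Y (nat_lit 30064859643) .L .L) .L) (.X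 (nat_lit 81604567381) .L .L)) (.Y (nat_lit 42949789691) (.X (nat_lit 107374212923) .L .L) (.X (nat_lit 107374212923) .L .L)))) (.Y (nat_lit 17179906255) (.X (nat_lit 146028974223) .L .L) (.X (nat_lit 146028974223) (.Y (nat_lit 42949789691) (.X (nat_lit 133144421357) .L .L) .L) (.Y (nat_lit 42949789691) .L .L)))) (.X (nat_lit 223338730003) (.Y (nat_lit 17179906255) (.X (nat_lit 197568876799) .L .L) (.Y (nat_lit 42949789691) (.X (nat_lit 197568876799) .L .L) (.X (nat_lit 197568876799) .L .L))) (.Y (nat_lit 17179906255) (.X (nat_lit 249108894115) .L .L) (.Y (nat_lit 42949789691) (.X (nat_lit 249108894115) .L .L) .L))))) (.X (nat_lit 68719689911) .L (.Y (nat_lit 171799048055) (.X (nat_lit 171799048055) (.Y (nat_lit 120259314071) (.X (nat_lit 120259314071) (.Y (nat_lit 94489297717) (.X (nat_lit 94489297717) (.Y (nat_lit 81604567381) .L .L) .L) (.X (nat_lit 94489297717) .L .L)) (.Y (nat_lit 94489297717) (.X (nat_lit 146028974223) .L .L) (.X (nat_lit 146028974223) .L .L))) (.X (nat_lit 120259314071) .L (.Y (nat_lit 146028974223)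 (.X (nat_lit 146028974223) .L .L) .L))) (.Y (nat_lit 120259314071) (.X (nat_lit 223338730003) (.Y (nat_lit 94489297717) (.X (nat_lit 197568876799) .L .L) .L) (.Y (nat_lit 94489297717) .L .L)) (.X (nat_lit 223338730003) (.Y (nat_lit 146028974223) .L .L) .L))) (.X (nat_lit 171799048055) .L (.Y (nat_lit 223338730003) (.X (nat_lit 223338730003) .L .L) (.X (nat_lit 223338730003) .L .L)))))) (.X (nat_lit 687195064233) (.X (nat_lit 481037143767) (.Y (nat_lit 68719689911) (.X (nat_lit 377958558321) (.X (nat_lit 326418335021) (.Y (nat_lit 17179906255) .L (.Y (nat_lit 42949789691) .L .L)) (.Y (nat_lit 17179906255) .L .L)) (.X (nat_lit 429497457973) .L .L)) (.Y (nat_lit 171799048055) (.X (nat_lit 377958558321) (.Y (nat_lit 120259314071) (.X (nat_lit 326418335021) .L .L) (.X (nat_lit 326418335021) .L .L)) (.Y (nat_lit 120259314071) .L .L)) (.X (nat_lit 377958558321) (.Y (nat_lit 223338730003) .L .L) .L))) (.Y (nat_lit 68719689911) (.X (nat_lit 584117290981) .L .L) (.Y (nat_lit 171799048055) (.X (nat_lit 584117290981) .L .L)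 .L))) (.X (nat_lit 893353266673) (.Y (nat_lit 68719689911) .L .L) .L))) (.X (nat_lit 274878385149) .L (.Y (nat_lit 687195064233) (.X (nat_lit 687195064233) (.Y (nat_lit 481037143767) (.X (nat_lit 481037143767) (.Y (nat_lit 377958558321) (.X (nat_lit 377958558321) .L .L) .L) .L) (.X (nat_lit 481037143767) .L .L)) (.X (nat_lit 893353266673) (.Y (nat_lit 481037143767) .L .L) (.Y (nat_lit 481037143767) .L .L))) (.X (nat_lit 687195064233) .L (.Y (nat_lit 893353266673) .L .L))))) (.X (nat_lit 2748783752683) (.X (nat_lit 1924146399035) (.Y (nat_lit 274878385149) (.X (nat_lit 1511832218805) (.X (nat_lit 1305674540671) .L .L) .L) (.Y (nat_lit 687195064233) (.X (nat_lit 1511832218805) (.Y (nat_lit 481037143767) .L .L) .L) (.X (nat_lit 1511832218805) .L .L))) (.Y (nat_lit 274878385149) (.X (nat_lit 2336467489929) .L .L) (.Y (nat_lit 687195064233) (.X (nat_lit 2336467489929) .L .L) (.X (nat_lit 2336467489929) .L .L)))) (.X (nat_lit 3573424291335) (.Y (nat_lit 274878385149) (.X (nat_lit 3161107178049) .L .L) (.Y (nat_lit 687195064233)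 (.X (nat_lit 3161107178049) .L .L) .L)) (.Y (nat_lit 274878385149) .L (.Y (nat_lit 687195064233) .L .L))))) (.X (nat_lit 1099512165299) .L (.Y (nat_lit 2748783752683) (.X (nat_lit 2748783752683) (.Y (nat_lit 1924146399035) (.X (nat_lit 1924146399035) (.Y (nat_lit 1511832218805) (.X (nat_lit 1511832218805) .L .L) (.X (nat_lit 1511832218805) .L .L)) (.Y (nat_lit 1511832218805) (.X (nat_lit 2336467489929) .L .L) .L)) (.X (nat_lit 1924146399035) .L (.Y (nat_lit 2336467489929) .L .L))) (.Y (nat_lit 1924146399035) (.X (nat_lit 3573424291335) (.Y (nat_lit 1511832218805) .L .L) .L) (.X (nat_lit 3573424291335) .L .L))) (.X (nat_lit 2748783752683) .L (.Y (nat_lit 3573424291335) (.X (nat_lit 3573424291335) .L .L) (.X (nat_lit 3573424291335) .L .L)))))) (.X (nat_lit 10995117811905) (.X (nat_lit 7696603950747) (.Y (nat_lit 1099512165299) (.X (nat_lit 6047325905245) (.X (nat_lit 5222697640297) (.Y (nat_lit 274878385149) .L .L) .L) (.X (nat_lit 6871973121665) .L .L)) (.Y (nat_lit 2748783752683) (.X (nat_lit 6047325905245) (.Y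 (nat_lit 1924146399035) (.X (nat_lit 5222697640297) .L .L) (.X (nat_lit 5222697640297) .L .L)) (.Y (nat_lit 1924146399035) (.X (nat_lit 6871973121665) .L .L) (.X (nat_lit 6871973121665) .L .L))) (.X (nat_lit 6047325905245) (.Y (nat_lit 3573424291335) (.X (nat_lit 5222697640297) .L .L) (.X (nat_lit 5222697640297) .L .L)) (.Y (nat_lit 3573424291335) .L .L)))) (.Y (nat_lit 1099512165299) (.X (nat_lit 9345874287341) (.X (nat_lit 8521219738367) .L .L) (.X (nat_lit 10170516748243) .L .L)) (.Y (nat_lit 2748783752683) (.X (nat_lit 9345874287341) (.Y (nat_lit 1924146399035) .L .L) (.Y (nat_lit 1924146399035) .L .L)) (.X (nat_lit 9345874287341) (.Y (nat_lit 3573424291335) .L .L) (.Y (nat_lit 3573424291335) .L .L))))) (.X (nat_lit 14293672086315) (.Y (nat_lit 1099512165299) (.X (nat_lit 12644405116151) .L .L) (.Y (nat_lit 2748783752683) (.X (nat_lit 12644405116151) (.Y (nat_lit 1924146399035) .L .L) (.Y (nat_lit 1924146399035) .L .L)) (.X (nat_lit 12644405116151) (.Y (nat_lit 3573424291335) .L .L) .L))) (.Y (nat_lit 1099512165299)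 (.X (nat_lit 15942965825457) .L .L) (.Y (nat_lit 2748783752683) (.X (nat_lit 15942965825457) .L .L) (.X (nat_lit 15942965825457) .L .L)))))) (.X (nat_lit 4398056427309) .L (.Y (nat_lit 10995117811905) (.X (nat_lit 10995117811905) (.Y (nat_lit 7696603950747) (.X (nat_lit 7696603950747) (.Y (nat_lit 6047325905245) (.X (nat_lit 6047325905245) (.Y (nat_lit 5222697640297) .L .L) (.Y (nat_lit 5222697640297) .L .L)) (.X (nat_lit 6047325905245) .L (.Y (nat_lit 6871973121665) .L .L))) (.Y (nat_lit 6047325905245) (.X (nat_lit 9345874287341) (.Y (nat_lit 5222697640297) .L .L) (.Y (nat_lit 5222697640297) .L .L)) (.X (nat_lit 9345874287341) (.Y (nat_lit 6871973121665) .L .L) .L))) (.X (nat_lit 7696603950747) .L (.Y (nat_lit 9345874287341) (.X (nat_lit 9345874287341) .L .L) (.X (nat_lit 9345874287341) .L .L)))) (.Y (nat_lit 7696603950747) (.X (nat_lit 14293672086315) (.Y (nat_lit 6047325905245) (.X (nat_lit 12644405116151) .L .L) (.X (nat_lit 12644405116151) .L .L)) (.Y (nat_lit 6047325905245) (.X (nat_lit 15942965825457) .L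 .L) (.X (nat_lit 15942965825457) .L .L))) (.X (nat_lit 14293672086315) (.Y (nat_lit 9345874287341) (.X (nat_lit 12644405116151) .L .L) (.X (nat_lit 12644405116151) .L .L)) (.Y (nat_lit 9345874287341) (.X (nat_lit 15942965825457) .L .L) (.X (nat_lit 15942965825457) .L .L))))) (.X (nat_lit 10995117811905) .L (.Y (nat_lit 14293672086315) (.X (nat_lit 14293672086315) (.Y (nat_lit 12644405116151) (.X (nat_lit 12644405116151) .L .L) (.X (nat_lit 12644405116151) .L .L)) (.Y (nat_lit 12644405116151) (.X (nat_lit 15942965825457) .L .L) (.X (nat_lit 15942965825457) .L .L))) (.X (nat_lit 14293672086315) .L (.Y (nat_lit 15942965825457) (.X (nat_lit 15942965825457) .L .L) (.X (nat_lit 15942965825457) .L .L))))))))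
    (nat_lit 0) (nat_lit 17592208417917) (nat_lit 0) (nat_lit 17592208417917) = true := by
  decide +kernel

theorem cM1p_1 : chk true SM1 (nat_lit 281474976710656) FS PSp PM1p AM1p HM1p
    (.X (nat_lit 43980496067731) (.X (nat_lit 30786374392855) (.Y (nat_lit 4398056427309) (.X (nat_lit 24189277726735) (.X (nat_lit 20890763476655) (.Y (nat_lit 1099512165299) (.X (nat_lit 19241486395023) .L .L) (.Y (nat_lit 2748783752683) (.X (nat_lit 19241486395023) .L .L) (.X (nat_lit 19241486395023) .L .L))) (.Y (nat_lit 1099512165299) (.X (nat_lit 22540069890139) .L .L) (.Y (nat_lit 2748783752683) (.X (nat_lit 22540069890139) .L .L) (.X (nat_lit 22540069890139) .L .L)))) (.X (nat_lit 27487880922633) (.Y (nat_lit 1099512165299) (.X (nat_lit 25838524903645) .L .L) (.Y (nat_lit 2748783752683) (.X (nat_lit 25838524903645) .L .L) (.X (nat_lit 25838524903645) .L .L))) (.Y (nat_lit 1099512165299) (.X (nat_lit 29137069904733) .L .L) (.Y (nat_lit 2748783752683) (.X (nat_lit 29137069904733) .L .L) (.X (nat_lit 29137069904733) .L .L)))))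 (.Y (nat_lit 10995117811905) (.X (nat_lit 24189277726735) (.Y (nat_lit 7696603950747) (.X (nat_lit 20890763476655) (.Y (nat_lit 6047325905245) (.X (nat_lit 19241486395023) .L .L) (.X (nat_lit 19241486395023) .L .L)) (.Y (nat_lit 6047325905245) (.X (nat_lit 22540069890139) .L .L) (.X (nat_lit 22540069890139) .L .L))) (.X (nat_lit 20890763476655) (.Y (nat_lit 9345874287341) (.X (nat_lit 19241486395023) .L .L) (.X (nat_lit 19241486395023) .L .L)) (.Y (nat_lit 9345874287341) (.X (nat_lit 22540069890139) .L .L) (.X (nat_lit 22540069890139) .L .L)))) (.Y (nat_lit 7696603950747) (.X (nat_lit 27487880922633) (.Y (nat_lit 6047325905245) (.X (nat_lit 25838524903645) .L .L) (.X (nat_lit 25838524903645) .L .L)) (.Y (nat_lit 6047325905245) (.X (nat_lit 29137069904733) .L .L) .L)) (.X (nat_lit 27487880922633) (.Y (nat_lit 9345874287341) .L .L) (.Y (nat_lit 9345874287341) .L .L)))) (.X (nat_lit 24189277726735) (.Y (nat_lit 14293672086315) (.X (nat_lit 20890763476655) (.Y (nat_lit 12644405116151) (.X (nat_lit 19241486395023) .L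 .L) (.X (nat_lit 19241486395023) .L .L)) (.Y (nat_lit 12644405116151) .L .L)) (.X (nat_lit 20890763476655) (.Y (nat_lit 15942965825457) .L .L) (.Y (nat_lit 15942965825457) .L .L))) (.Y (nat_lit 14293672086315) (.X (nat_lit 27487880922633) (.Y (nat_lit 12644405116151) .L .L) (.Y (nat_lit 12644405116151) .L .L)) (.X (nat_lit 27487880922633) (.Y (nat_lit 15942965825457) .L .L) (.Y (nat_lit 15942965825457) .L .L)))))) (.Y (nat_lit 4398056427309) (.X (nat_lit 37383470646837) (.X (nat_lit 34084948931449) (.Y (nat_lit 1099512165299) .L (.Y (nat_lit 2748783752683) (.X (nat_lit 32435660992437) .L .L) .L)) (.Y (nat_lit 1099512165299) .L (.Y (nat_lit 2748783752683) .L .L))) (.X (nat_lit 40682050965857) (.Y (nat_lit 1099512165299) .L (.Y (nat_lit 2748783752683) .L .L)) (.Y (nat_lit 1099512165299) .L (.Y (nat_lit 2748783752683) .L .L)))) (.Y (nat_lit 10995117811905) (.X (nat_lit 37383470646837) (.Y (nat_lit 7696603950747) (.X (nat_lit 34084948931449) (.Y (nat_lit 6047325905245) .L .L) (.Y (nat_lit 6047325905245) .L .L)) (.X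 (nat_lit 34084948931449) (.Y (nat_lit 9345874287341) .L .L) (.Y (nat_lit 9345874287341) .L .L))) (.Y (nat_lit 7696603950747) (.X (nat_lit 40682050965857) (.Y (nat_lit 6047325905245) .L .L) (.Y (nat_lit 6047325905245) .L .L)) (.X (nat_lit 40682050965857) (.Y (nat_lit 9345874287341) .L .L) (.Y (nat_lit 9345874287341) .L .L)))) (.X (nat_lit 37383470646837) (.Y (nat_lit 14293672086315) (.X (nat_lit 34084948931449) (.Y (nat_lit 12644405116151) .L .L) (.Y (nat_lit 12644405116151) .L .L)) (.X (nat_lit 34084948931449) (.Y (nat_lit 15942965825457) .L .L) (.Y (nat_lit 15942965825457) .L .L))) (.Y (nat_lit 14293672086315) (.X (nat_lit 40682050965857) (.Y (nat_lit 12644405116151) .L .L) (.Y (nat_lit 12644405116151) .L .L)) (.X (nat_lit 40682050965857) (.Y (nat_lit 15942965825457) .L .L) (.Y (nat_lit 15942965825457) .L .L))))))) (.X (nat_lit 57174647204107) (.Y (nat_lit 4398056427309) (.X (nat_lit 50577605471125) (.X (nat_lit 47279053332153) (.Y (nat_lit 1099512165299) .L (.Y (nat_lit 2748783752683) .L .L)) (.Y (nat_lit 1099512165299)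 .L (.Y (nat_lit 2748783752683) .L .L))) (.X (nat_lit 53876268116979) (.Y (nat_lit 1099512165299) .L (.Y (nat_lit 2748783752683) .L .L)) (.Y (nat_lit 1099512165299) .L (.Y (nat_lit 2748783752683) .L .L)))) (.Y (nat_lit 10995117811905) (.X (nat_lit 50577605471125) (.Y (nat_lit 7696603950747) (.X (nat_lit 47279053332153) (.Y (nat_lit 6047325905245) .L .L) (.Y (nat_lit 6047325905245) .L .L)) (.X (nat_lit 47279053332153) (.Y (nat_lit 9345874287341) .L .L) (.Y (nat_lit 9345874287341) .L .L))) (.Y (nat_lit 7696603950747) (.X (nat_lit 53876268116979) (.Y (nat_lit 6047325905245) .L .L) (.Y (nat_lit 6047325905245) .L .L)) (.X (nat_lit 53876268116979) (.Y (nat_lit 9345874287341) .L .L) (.Y (nat_lit 9345874287341) .L .L)))) (.X (nat_lit 50577605471125) (.Y (nat_lit 14293672086315) (.X (nat_lit 47279053332153) (.Y (nat_lit 12644405116151) .L .L) (.Y (nat_lit 12644405116151) .L .L)) (.X (nat_lit 47279053332153) (.Y (nat_lit 15942965825457) .L .L) (.Y (nat_lit 15942965825457) .L .L))) (.Y (nat_lit 14293672086315) (.X (nat_lit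 53876268116979) (.Y (nat_lit 12644405116151) .L .L) (.Y (nat_lit 12644405116151) .L .L)) (.X (nat_lit 53876268116979) (.Y (nat_lit 15942965825457) .L .L) (.X (nat_lit 55525429635223) .L .L)))))) (.Y (nat_lit 4398056427309) (.X (nat_lit 63771679804411) (.X (nat_lit 60473244612473) (.Y (nat_lit 1099512165299) .L (.Y (nat_lit 2748783752683) .L .L)) (.Y (nat_lit 1099512165299) .L (.Y (nat_lit 2748783752683) .L .L))) (.X (nat_lit 67070390017947) (.Y (nat_lit 1099512165299) .L (.Y (nat_lit 2748783752683) .L .L)) (.Y (nat_lit 1099512165299) .L (.X (nat_lit 68719600096481) .L .L)))) (.Y (nat_lit 10995117811905) (.X (nat_lit 63771679804411) (.Y (nat_lit 7696603950747) (.X (nat_lit 60473244612473) (.Y (nat_lit 6047325905245) .L .L) (.Y (nat_lit 6047325905245) .L .L)) (.X (nat_lit 60473244612473) (.Y (nat_lit 9345874287341) .L .L) (.X (nat_lit 62122420628993) .L .L))) (.X (nat_lit 67070390017947) (.Y (nat_lit 7696603950747) (.X (nat_lit 65421109595225) .L .L) (.X (nat_lit 65421109595225) .L .L)) (.Y (nat_lit 7696603950747)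 .L .L))) (.X (nat_lit 63771679804411) (.X (nat_lit 60473244612473) (.Y (nat_lit 14293672086315) (.X (nat_lit 58824052264953) .L .L) (.X (nat_lit 58824052264953) .L .L)) (.Y (nat_lit 14293672086315) (.X (nat_lit 62122420628993) .L .L) .L)) (.X (nat_lit 67070390017947) (.Y (nat_lit 14293672086315) .L .L) (.Y (nat_lit 14293672086315) .L .L)))))))
    (nat_lit 17592208417917) (nat_lit 70368900064303) (nat_lit 0) (nat_lit 17592208417917) = true := by
  decide +kernel

theorem cM1p_2 : chk true SM1 (nat_lit 281474976710656) FS PSp PM1p AM1p HM1p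
    (.X (nat_lit 17592208417917) .L (.Y (nat_lit 43980496067731) (.X (nat_lit 43980496067731) (.Y (nat_lit 30786374392855) (.X (nat_lit 30786374392855) (.Y (nat_lit 24189277726735) (.X (nat_lit 24189277726735) (.Y (nat_lit 20890763476655) (.X (nat_lit 20890763476655) (.Y (nat_lit 19241486395023) .L .L) (.Y (nat_lit 19241486395023) .L .L)) (.X (nat_lit 20890763476655) .L (.Y (nat_lit 22540069890139) .L .L))) (.Y (nat_lit 20890763476655) (.X (nat_lit 27487880922633) (.Y (nat_lit 19241486395023) .L .L) (.Y (nat_lit 19241486395023) .L .L)) (.X (nat_lit 27487880922633) (.Y (nat_lit 22540069890139) .L .L) (.Y (nat_lit 22540069890139) .L .L)))) (.X (nat_lit 24189277726735) .L (.Y (nat_lit 27487880922633) (.X (nat_lit 27487880922633) (.Y (nat_lit 25838524903645) .L .L) (.Y (nat_lit 25838524903645) .L (.X (nat_lit 29137069904733) .L .L))) (.X (nat_lit 27487880922633) .L (.Y (nat_lit 29137069904733) (.X (nat_lit 29137069904733) .L .L) (.X (nat_lit 29137069904733) .L .L)))))) (.Y (nat_lit 24189277726735) (.X (nat_lit 37383470646837)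 (.Y (nat_lit 20890763476655) (.X (nat_lit 34084948931449) (.Y (nat_lit 19241486395023) .L .L) (.Y (nat_lit 19241486395023) .L .L)) (.X (nat_lit 34084948931449) (.Y (nat_lit 22540069890139) .L (.X (nat_lit 32435660992437) .L .L)) (.Y (nat_lit 22540069890139) (.X (nat_lit 35734215194051) .L .L) (.X (nat_lit 35734215194051) .L .L)))) (.Y (nat_lit 20890763476655) (.X (nat_lit 40682050965857) (.Y (nat_lit 19241486395023) .L (.X (nat_lit 39032736635765) .L .L)) (.Y (nat_lit 19241486395023) .L .L)) (.X (nat_lit 40682050965857) (.Y (nat_lit 22540069890139) (.X (nat_lit 39032736635765) .L .L) (.X (nat_lit 39032736635765) .L .L)) (.Y (nat_lit 22540069890139) .L .L)))) (.X (nat_lit 37383470646837) (.Y (nat_lit 27487880922633) (.X (nat_lit 34084948931449) (.Y (nat_lit 25838524903645) (.X (nat_lit 32435660992437) .L .L) (.X (nat_lit 32435660992437) .L .L)) (.Y (nat_lit 25838524903645) (.X (nat_lit 35734215194051) .L .L) (.X (nat_lit 35734215194051) .L .L))) (.X (nat_lit 34084948931449) (.Y (nat_lit 29137069904733) (.X (nat_lit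 32435660992437) .L .L) (.X (nat_lit 32435660992437) .L .L)) (.Y (nat_lit 29137069904733) (.X (nat_lit 35734215194051) .L .L) (.X (nat_lit 35734215194051) .L .L)))) (.Y (nat_lit 27487880922633) (.X (nat_lit 40682050965857) (.Y (nat_lit 25838524903645) (.X (nat_lit 39032736635765) .L .L) .L) (.Y (nat_lit 25838524903645) .L .L)) (.X (nat_lit 40682050965857) (.Y (nat_lit 29137069904733) .L .L) (.X (nat_lit 42331206553043) .L .L)))))) (.X (nat_lit 30786374392855) .L (.Y (nat_lit 37383470646837) (.X (nat_lit 37383470646837) (.Y (nat_lit 34084948931449) (.X (nat_lit 34084948931449) (.Y (nat_lit 32435660992437) (.X (nat_lit 32435660992437) .L .L) (.X (nat_lit 32435660992437) .L .L)) (.Y (nat_lit 32435660992437) .L .L)) (.X (nat_lit 34084948931449) .L (.Y (nat_lit 35734215194051) .L .L))) (.X (nat_lit 40682050965857) (.Y (nat_lit 34084948931449) (.X (nat_lit 39032736635765) .L .L) (.X (nat_lit 39032736635765) .L .L)) (.Y (nat_lit 34084948931449) (.X (nat_lit 42331206553043) .L .L) (.X (nat_lit 42331206553043) .L .L)))) (.X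 (nat_lit 37383470646837) .L (.Y (nat_lit 40682050965857) (.X (nat_lit 40682050965857) (.Y (nat_lit 39032736635765) .L .L) (.X (nat_lit 42331206553043) .L .L)) (.X (nat_lit 40682050965857) .L .L)))))) (.X (nat_lit 57174647204107) (.Y (nat_lit 30786374392855) (.Y (nat_lit 24189277726735) (.X (nat_lit 50577605471125) (.Y (nat_lit 20890763476655) (.X (nat_lit 47279053332153) (.Y (nat_lit 19241486395023) .L .L) (.Y (nat_lit 19241486395023) .L .L)) (.X (nat_lit 47279053332153) (.Y (nat_lit 22540069890139) .L .L) (.X (nat_lit 48928354636155) .L .L))) (.X (nat_lit 53876268116979) (.Y (nat_lit 20890763476655) (.X (nat_lit 52226807159787) .L .L) (.X (nat_lit 52226807159787) .L .L)) (.Y (nat_lit 20890763476655) (.X (nat_lit 55525429635223) .L .L) (.X (nat_lit 55525429635223) .L .L)))) (.X (nat_lit 50577605471125) (.X (nat_lit 47279053332153) (.Y (nat_lit 27487880922633) (.X (nat_lit 45629757115749) .L .L) (.X (nat_lit 45629757115749) .L .L)) (.Y (nat_lit 27487880922633) (.X (nat_lit 48928354636155) .L .L) (.X (nat_lit 48928354636155)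 .L .L))) (.X (nat_lit 53876268116979) (.Y (nat_lit 27487880922633) (.X (nat_lit 52226807159787) .L .L) .L) (.Y (nat_lit 27487880922633) .L .L)))) (.X (nat_lit 50577605471125) (.Y (nat_lit 37383470646837) (.X (nat_lit 47279053332153) (.Y (nat_lit 34084948931449) (.X (nat_lit 45629757115749) .L .L) (.X (nat_lit 45629757115749) .L .L)) (.Y (nat_lit 34084948931449) (.X (nat_lit 48928354636155) .L .L) .L)) (.X (nat_lit 47279053332153) (.Y (nat_lit 40682050965857) .L .L) (.Y (nat_lit 40682050965857) .L .L))) (.Y (nat_lit 37383470646837) (.X (nat_lit 53876268116979) (.Y (nat_lit 34084948931449) .L .L) (.Y (nat_lit 34084948931449) .L .L)) (.X (nat_lit 53876268116979) (.Y (nat_lit 40682050965857) .L .L) (.Y (nat_lit 40682050965857) .L .L))))) (.Y (nat_lit 30786374392855) (.X (nat_lit 63771679804411) (.Y (nat_lit 24189277726735) (.X (nat_lit 60473244612473) (.Y (nat_lit 20890763476655) (.X (nat_lit 58824052264953) .L .L) .L) (.Y (nat_lit 20890763476655) .L .L)) (.X (nat_lit 60473244612473) (.Y (nat_lit 27487880922633) .L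 .L) (.Y (nat_lit 27487880922633) .L .L))) (.Y (nat_lit 24189277726735) (.X (nat_lit 67070390017947) (.Y (nat_lit 20890763476655) .L .L) (.Y (nat_lit 20890763476655) .L .L)) (.X (nat_lit 67070390017947) (.Y (nat_lit 27487880922633) .L .L) (.Y (nat_lit 27487880922633) .L .L)))) (.X (nat_lit 63771679804411) (.Y (nat_lit 37383470646837) (.X (nat_lit 60473244612473) (.Y (nat_lit 34084948931449) .L .L) (.Y (nat_lit 34084948931449) .L .L)) (.X (nat_lit 60473244612473) (.Y (nat_lit 40682050965857) .L .L) (.Y (nat_lit 40682050965857) .L .L))) (.Y (nat_lit 37383470646837) (.X (nat_lit 67070390017947) (.Y (nat_lit 34084948931449) .L .L) (.Y (nat_lit 34084948931449) .L .L)) (.X (nat_lit 67070390017947) (.Y (nat_lit 40682050965857) .L .L) (.Y (nat_lit 40682050965857) .L .L))))))) (.X (nat_lit 43980496067731) .L (.Y (nat_lit 57174647204107) (.X (nat_lit 57174647204107) (.Y (nat_lit 50577605471125) (.X (nat_lit 50577605471125) (.Y (nat_lit 47279053332153) (.X (nat_lit 47279053332153) .L .L) (.X (nat_lit 47279053332153) .L .L))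 (.X (nat_lit 53876268116979) (.Y (nat_lit 47279053332153) .L .L) (.Y (nat_lit 47279053332153) .L .L))) (.X (nat_lit 50577605471125) .L (.Y (nat_lit 53876268116979) (.X (nat_lit 53876268116979) .L .L) (.X (nat_lit 53876268116979) .L .L)))) (.X (nat_lit 63771679804411) (.Y (nat_lit 50577605471125) (.X (nat_lit 60473244612473) (.Y (nat_lit 47279053332153) .L .L) (.Y (nat_lit 47279053332153) .L .L)) (.X (nat_lit 60473244612473) (.Y (nat_lit 53876268116979) .L .L) (.Y (nat_lit 53876268116979) .L .L))) (.Y (nat_lit 50577605471125) (.X (nat_lit 67070390017947) (.Y (nat_lit 47279053332153) .L .L) (.Y (nat_lit 47279053332153) .L .L)) (.X (nat_lit 67070390017947) (.Y (nat_lit 53876268116979) .L .L) (.Y (nat_lit 53876268116979) .L .L))))) (.X (nat_lit 57174647204107) .L (.Y (nat_lit 63771679804411) (.X (nat_lit 63771679804411) (.Y (nat_lit 60473244612473) (.X (nat_lit 60473244612473) .L .L) (.X (nat_lit 60473244612473) .L .L)) (.X (nat_lit 67070390017947) (.Y (nat_lit 60473244612473) .L .L) (.Y (nat_lit 60473244612473) .L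 .L))) (.X (nat_lit 63771679804411) .L (.Y (nat_lit 67070390017947) .L .L))))))))
    (nat_lit 0) (nat_lit 70368900064303) (nat_lit 17592208417917) (nat_lit 70368900064303) = true := by
  decide +kernel

end Crest.Agent.R163.Win
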