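import Crest.Agent.R163.WinD0

/-! Row 163, window engine: kernel checks, part 6 (generated). -/

set_option autoImplicit false
set_option maxRecDepth 1000000

namespace Crest.Agent.R163.Win


theorem cM1p_3 : chk true SM1 (nat_lit 281474976710656) FS PSp PM1p AM1p HM1p
    (.X (nat_lit 123145539196135) (.Y (nat_lit 17592208417917) (.X (nat_lit 96757370032245) (.X (nat_lit 83563010727971) (.Y (nat_lit 4398056427309) (.X (nat_lit 76965864127081) (.X (nat_lit 73667436176997) (.Y (nat_lit 1099512165299) .L .L) (.Y (nat_lit 1099512165299) .L .L)) (.X (nat_lit 80264523106889) (.Y (nat_lit 1099512165299) .L .L) .L)) (.X (nat_lit 76965864127081) (.Y (nat_lit 10995117811905) (.X (nat_lit 73667436176997) (.Y (nat_lit 7696603950747) .L .L) (.Y (nat_lit 7696603950747) .L .L)) (.X (nat_lit 73667436176997) (.Y (nat_lit 14293672086315) .L .L) (.Y (nat_lit 14293672086315) .L .L))) (.Y (nat_lit 10995117811905) (.X (nat_lit 80264523106889) (.Y (nat_lit 7696603950747) .L .L) (.Y (nat_lit 7696603950747) .L .L)) (.X (nat_lit 80264523106889) (.Y (nat_lit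 14293672086315) .L .L) (.Y (nat_lit 14293672086315) .L .L))))) (.Y (nat_lit 4398056427309) (.X (nat_lit 90160235478093) (.X (nat_lit 86861551642167) .L .L) (.X (nat_lit 93458625275347) .L .L)) (.X (nat_lit 90160235478093) (.Y (nat_lit 10995117811905) (.X (nat_lit 86861551642167) (.Y (nat_lit 7696603950747) .L .L) (.Y (nat_lit 7696603950747) .L .L)) (.X (nat_lit 86861551642167) (.Y (nat_lit 14293672086315) .L .L) (.Y (nat_lit 14293672086315) .L .L))) (.Y (nat_lit 10995117811905) (.X (nat_lit 93458625275347) (.Y (nat_lit 7696603950747) .L .L) .L) (.X (nat_lit 93458625275347) .L .L))))) (.X (nat_lit 109951574343109) (.Y (nat_lit 4398056427309) (.X (nat_lit 103354427401721) (.X (nat_lit 100055637574935) .L .L) (.X (nat_lit 106652846660227) .L .L)) (.X (nat_lit 103354427401721) (.Y (nat_lit 10995117811905) (.X (nat_lit 100055637574935) .L .L) (.X (nat_lit 100055637574935) .L .L)) (.Y (nat_lit 10995117811905) (.X (nat_lit 106652846660227) .L .L) (.X (nat_lit 106652846660227) .L .L)))) (.Y (nat_lit 4398056427309) (.X (nat_lit 116548591607855)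 .L .L) (.X (nat_lit 116548591607855) (.Y (nat_lit 10995117811905) (.X (nat_lit 113250080874043) .L .L) (.X (nat_lit 113250080874043) .L .L)) (.Y (nat_lit 10995117811905) (.X (nat_lit 119847078166217) .L .L) (.X (nat_lit 119847078166217) .L .L)))))) (.X (nat_lit 96757370032245) (.Y (nat_lit 43980496067731) (.X (nat_lit 83563010727971) (.Y (nat_lit 30786374392855) (.X (nat_lit 76965864127081) (.Y (nat_lit 24189277726735) (.X (nat_lit 73667436176997) (.Y (nat_lit 20890763476655) .L .L) (.Y (nat_lit 20890763476655) .L .L)) (.X (nat_lit 73667436176997) (.Y (nat_lit 27487880922633) .L .L) (.Y (nat_lit 27487880922633) .L .L))) (.Y (nat_lit 24189277726735) (.X (nat_lit 80264523106889) (.Y (nat_lit 20890763476655) .L .L) (.Y (nat_lit 20890763476655) .L .L)) (.X (nat_lit 80264523106889) (.Y (nat_lit 27487880922633) .L .L) (.Y (nat_lit 27487880922633) .L .L)))) (.X (nat_lit 76965864127081) (.Y (nat_lit 37383470646837) (.X (nat_lit 73667436176997) (.Y (nat_lit 34084948931449) .L .L) (.Y (nat_lit 34084948931449) .L .L)) (.X (nat_lit 73667436176997)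 (.Y (nat_lit 40682050965857) .L .L) (.Y (nat_lit 40682050965857) .L .L))) (.Y (nat_lit 37383470646837) (.X (nat_lit 80264523106889) (.Y (nat_lit 34084948931449) .L .L) .L) (.X (nat_lit 80264523106889) (.Y (nat_lit 40682050965857) .L .L) .L)))) (.Y (nat_lit 30786374392855) (.X (nat_lit 90160235478093) (.Y (nat_lit 24189277726735) (.X (nat_lit 86861551642167) (.Y (nat_lit 20890763476655) .L .L) .L) (.X (nat_lit 86861551642167) .L .L)) (.Y (nat_lit 24189277726735) (.X (nat_lit 93458625275347) .L .L) (.X (nat_lit 93458625275347) .L .L))) (.X (nat_lit 90160235478093) (.Y (nat_lit 37383470646837) (.X (nat_lit 86861551642167) .L .L) (.X (nat_lit 86861551642167) .L .L)) (.Y (nat_lit 37383470646837) (.X (nat_lit 93458625275347) .L .L) (.X (nat_lit 93458625275347) .L .L))))) (.X (nat_lit 83563010727971) (.Y (nat_lit 57174647204107) (.X (nat_lit 76965864127081) (.Y (nat_lit 50577605471125) (.X (nat_lit 73667436176997) (.Y (nat_lit 47279053332153) .L .L) (.Y (nat_lit 47279053332153) .L .L)) (.X (nat_lit 73667436176997) (.Y (nat_lit 53876268116979)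 .L .L) .L)) (.Y (nat_lit 50577605471125) (.X (nat_lit 80264523106889) .L .L) (.X (nat_lit 80264523106889) .L .L))) (.X (nat_lit 76965864127081) (.Y (nat_lit 63771679804411) (.X (nat_lit 73667436176997) .L .L) (.X (nat_lit 73667436176997) .L .L)) (.Y (nat_lit 63771679804411) (.X (nat_lit 80264523106889) .L .L) (.X (nat_lit 80264523106889) .L .L)))) (.Y (nat_lit 57174647204107) (.X (nat_lit 90160235478093) (.Y (nat_lit 50577605471125) (.X (nat_lit 86861551642167) .L .L) (.X (nat_lit 86861551642167) .L .L)) (.Y (nat_lit 50577605471125) (.X (nat_lit 93458625275347) .L .L) (.X (nat_lit 93458625275347) .L .L))) (.X (nat_lit 90160235478093) (.Y (nat_lit 63771679804411) (.X (nat_lit 86861551642167) .L .L) (.X (nat_lit 86861551642167) .L .L)) (.Y (nat_lit 63771679804411) (.X (nat_lit 93458625275347) .L .L) (.X (nat_lit 93458625275347) .L .L)))))) (.Y (nat_lit 43980496067731) (.X (nat_lit 109951574343109) (.Y (nat_lit 30786374392855) (.X (nat_lit 103354427401721) (.Y (nat_lit 24189277726735) (.X (nat_lit 100055637574935) .L .L) (.X (nat_lit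 100055637574935) .L .L)) (.Y (nat_lit 24189277726735) (.X (nat_lit 106652846660227) .L .L) (.X (nat_lit 106652846660227) .L .L))) (.X (nat_lit 103354427401721) (.Y (nat_lit 37383470646837) (.X (nat_lit 100055637574935) .L .L) (.X (nat_lit 100055637574935) .L .L)) (.Y (nat_lit 37383470646837) (.X (nat_lit 106652846660227) .L .L) (.X (nat_lit 106652846660227) .L .L)))) (.Y (nat_lit 30786374392855) (.X (nat_lit 116548591607855) (.Y (nat_lit 24189277726735) (.X (nat_lit 113250080874043) .L .L) (.X (nat_lit 113250080874043) .L .L)) (.Y (nat_lit 24189277726735) (.X (nat_lit 119847078166217) .L .L) (.X (nat_lit 119847078166217) .L .L))) (.X (nat_lit 116548591607855) (.Y (nat_lit 37383470646837) (.X (nat_lit 113250080874043) .L .L) (.X (nat_lit 113250080874043) .L .L)) (.Y (nat_lit 37383470646837) (.X (nat_lit 119847078166217) .L .L) (.X (nat_lit 119847078166217) .L .L))))) (.X (nat_lit 109951574343109) (.Y (nat_lit 57174647204107) (.X (nat_lit 103354427401721) (.Y (nat_lit 50577605471125) (.X (nat_lit 100055637574935) .L .L) (.X (nat_lit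 100055637574935) .L .L)) (.Y (nat_lit 50577605471125) (.X (nat_lit 106652846660227) .L .L) (.X (nat_lit 106652846660227) .L .L))) (.X (nat_lit 103354427401721) (.Y (nat_lit 63771679804411) (.X (nat_lit 100055637574935) .L .L) (.X (nat_lit 100055637574935) .L .L)) (.Y (nat_lit 63771679804411) (.X (nat_lit 106652846660227) .L .L) (.X (nat_lit 106652846660227) .L .L)))) (.Y (nat_lit 57174647204107) (.X (nat_lit 116548591607855) (.Y (nat_lit 50577605471125) (.X (nat_lit 113250080874043) .L .L) (.X (nat_lit 113250080874043) .L .L)) (.Y (nat_lit 50577605471125) (.X (nat_lit 119847078166217) .L .L) (.X (nat_lit 119847078166217) .L .L))) (.X (nat_lit 116548591607855) (.Y (nat_lit 63771679804411) (.X (nat_lit 113250080874043) .L .L) (.X (nat_lit 113250080874043) .L .L)) (.Y (nat_lit 63771679804411) (.X (nat_lit 119847078166217) .L .L) (.X (nat_lit 119847078166217) .L .L)))))))) (.Y (nat_lit 17592208417917) (.X (nat_lit 149534024483977) (.X (nat_lit 136339568249161) (.Y (nat_lit 4398056427309) (.X (nat_lit 129742764912007) .L .L) (.X (nat_lit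 129742764912007) (.Y (nat_lit 10995117811905) (.X (nat_lit 126444002716177) .L .L) (.X (nat_lit 126444002716177) .L .L)) (.Y (nat_lit 10995117811905) (.X (nat_lit 133041154257545) .L .L) .L))) (.Y (nat_lit 4398056427309) (.X (nat_lit 142936634562605) .L .L) (.X (nat_lit 142936634562605) (.Y (nat_lit 10995117811905) .L .L) (.Y (nat_lit 10995117811905) .L .L)))) (.X (nat_lit 162728167111501) (.Y (nat_lit 4398056427309) (.X (nat_lit 156131068094103) .L .L) (.X (nat_lit 156131068094103) (.Y (nat_lit 10995117811905) .L .L) (.Y (nat_lit 10995117811905) .L .L))) (.Y (nat_lit 4398056427309) (.X (nat_lit 169325150016969) .L .L) (.X (nat_lit 169325150016969) (.Y (nat_lit 10995117811905) .L .L) (.Y (nat_lit 10995117811905) .L .L))))) (.X (nat_lit 149534024483977) (.Y (nat_lit 43980496067731) (.X (nat_lit 136339568249161) (.Y (nat_lit 30786374392855) (.X (nat_lit 129742764912007) (.Y (nat_lit 24189277726735) (.X (nat_lit 126444002716177) .L .L) (.X (nat_lit 126444002716177) .L .L)) (.Y (nat_lit 24189277726735) .L .L)) (.X (nat_lit 129742764912007)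 (.Y (nat_lit 37383470646837) (.X (nat_lit 126444002716177) .L .L) (.X (nat_lit 126444002716177) .L .L)) (.Y (nat_lit 37383470646837) .L .L))) (.Y (nat_lit 30786374392855) (.X (nat_lit 142936634562605) (.Y (nat_lit 24189277726735) .L .L) (.Y (nat_lit 24189277726735) .L .L)) (.X (nat_lit 142936634562605) (.Y (nat_lit 37383470646837) .L .L) (.Y (nat_lit 37383470646837) .L .L)))) (.X (nat_lit 136339568249161) (.Y (nat_lit 57174647204107) (.X (nat_lit 129742764912007) (.Y (nat_lit 50577605471125) (.X (nat_lit 126444002716177) .L .L) (.X (nat_lit 126444002716177) .L .L)) (.Y (nat_lit 50577605471125) .L (.X (nat_lit 133041154257545) .L .L))) (.X (nat_lit 129742764912007) (.Y (nat_lit 63771679804411) (.X (nat_lit 126444002716177) .L .L) (.X (nat_lit 126444002716177) .L .L)) (.Y (nat_lit 63771679804411) (.X (nat_lit 133041154257545) .L .L) (.X (nat_lit 133041154257545) .L .L)))) (.Y (nat_lit 57174647204107) (.X (nat_lit 142936634562605) (.Y (nat_lit 50577605471125) .L .L) (.Y (nat_lit 50577605471125) .L .L)) (.X (nat_lit 142936634562605)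 (.Y (nat_lit 63771679804411) .L (.X (nat_lit 139638142057397) .L .L)) (.Y (nat_lit 63771679804411) .L .L))))) (.Y (nat_lit 43980496067731) (.X (nat_lit 162728167111501) (.Y (nat_lit 30786374392855) (.X (nat_lit 156131068094103) (.Y (nat_lit 24189277726735) .L .L) (.Y (nat_lit 24189277726735) .L .L)) (.X (nat_lit 156131068094103) (.Y (nat_lit 37383470646837) .L .L) (.Y (nat_lit 37383470646837) .L .L))) (.Y (nat_lit 30786374392855) (.X (nat_lit 169325150016969) (.Y (nat_lit 24189277726735) .L .L) (.Y (nat_lit 24189277726735) .L .L)) (.X (nat_lit 169325150016969) (.Y (nat_lit 37383470646837) .L .L) (.Y (nat_lit 37383470646837) .L .L)))) (.X (nat_lit 162728167111501) (.Y (nat_lit 57174647204107) (.X (nat_lit 156131068094103) (.Y (nat_lit 50577605471125) .L .L) (.Y (nat_lit 50577605471125) .L .L)) (.X (nat_lit 156131068094103) (.Y (nat_lit 63771679804411) .L .L) (.Y (nat_lit 63771679804411) .L .L))) (.Y (nat_lit 57174647204107) (.X (nat_lit 169325150016969) (.Y (nat_lit 50577605471125) .L .L) (.Y (nat_lit 50577605471125) .L .L)) (.X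 (nat_lit 169325150016969) (.Y (nat_lit 63771679804411) .L .L) (.Y (nat_lit 63771679804411) .L .L))))))))
    (nat_lit 70368900064303) (nat_lit 175922061124267) (nat_lit 0) (nat_lit 70368900064303) = true := by
  decide +kernel

theorem cM1p_4 : chk true SM1 (nat_lit 281474976710656) FS PSp PM1p AM1p HM1p
    (.X (nat_lit 228698491831029) (.Y (nat_lit 17592208417917) (.X (nat_lit 202310140892619) (.X (nat_lit 189116380910351) (.Y (nat_lit 4398056427309) (.X (nat_lit 182519494221219) .L .L) (.X (nat_lit 182519494221219) (.Y (nat_lit 10995117811905) .L .L) (.Y (nat_lit 10995117811905) .L .L))) (.Y (nat_lit 4398056427309) (.X (nat_lit 195713749390113) .L .L) (.X (nat_lit 195713749390113) (.Y (nat_lit 10995117811905) .L .L) (.Y (nat_lit 10995117811905) .L .L)))) (.X (nat_lit 215504921499925) (.Y (nat_lit 4398056427309) (.X (nat_lit 208907245026275) .L .L) (.X (nat_lit 208907245026275) (.Y (nat_lit 10995117811905) .L .L) (.Y (nat_lit 10995117811905) .L .L))) (.Y (nat_lit 4398056427309) (.X (nat_lit 222101788920263) .L .L) (.X (nat_lit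 222101788920263) (.Y (nat_lit 10995117811905) .L .L) (.Y (nat_lit 10995117811905) .L .L))))) (.X (nat_lit 202310140892619) (.Y (nat_lit 43980496067731) (.X (nat_lit 189116380910351) (.Y (nat_lit 30786374392855) (.X (nat_lit 182519494221219) (.Y (nat_lit 24189277726735) .L .L) (.Y (nat_lit 24189277726735) .L .L)) (.X (nat_lit 182519494221219) (.Y (nat_lit 37383470646837) .L .L) (.Y (nat_lit 37383470646837) .L .L))) (.Y (nat_lit 30786374392855) (.X (nat_lit 195713749390113) (.Y (nat_lit 24189277726735) .L .L) (.Y (nat_lit 24189277726735) .L .L)) (.X (nat_lit 195713749390113) (.Y (nat_lit 37383470646837) .L .L) (.Y (nat_lit 37383470646837) .L .L)))) (.X (nat_lit 189116380910351) (.Y (nat_lit 57174647204107) (.X (nat_lit 182519494221219) (.Y (nat_lit 50577605471125) .L .L) (.Y (nat_lit 50577605471125) .L .L)) (.X (nat_lit 182519494221219) (.Y (nat_lit 63771679804411) .L .L) (.Y (nat_lit 63771679804411) .L .L))) (.Y (nat_lit 57174647204107) (.X (nat_lit 195713749390113) (.Y (nat_lit 50577605471125) .L .L) (.Y (nat_lit 50577605471125)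 .L .L)) (.X (nat_lit 195713749390113) (.Y (nat_lit 63771679804411) .L .L) (.Y (nat_lit 63771679804411) .L .L))))) (.Y (nat_lit 43980496067731) (.X (nat_lit 215504921499925) (.Y (nat_lit 30786374392855) (.X (nat_lit 208907245026275) (.Y (nat_lit 24189277726735) .L .L) (.Y (nat_lit 24189277726735) .L .L)) (.X (nat_lit 208907245026275) (.Y (nat_lit 37383470646837) .L .L) (.Y (nat_lit 37383470646837) .L .L))) (.Y (nat_lit 30786374392855) (.X (nat_lit 222101788920263) (.Y (nat_lit 24189277726735) .L .L) (.Y (nat_lit 24189277726735) .L .L)) (.X (nat_lit 222101788920263) (.Y (nat_lit 37383470646837) .L .L) (.Y (nat_lit 37383470646837) .L .L)))) (.X (nat_lit 215504921499925) (.Y (nat_lit 57174647204107) (.X (nat_lit 208907245026275) (.Y (nat_lit 50577605471125) .L .L) (.Y (nat_lit 50577605471125) .L .L)) (.X (nat_lit 208907245026275) (.Y (nat_lit 63771679804411) .L .L) (.Y (nat_lit 63771679804411) .L .L))) (.Y (nat_lit 57174647204107) (.X (nat_lit 222101788920263) (.Y (nat_lit 50577605471125) .L .L) (.Y (nat_lit 50577605471125) .L .L))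 (.X (nat_lit 222101788920263) (.Y (nat_lit 63771679804411) .L .L) (.Y (nat_lit 63771679804411) .L .L))))))) (.Y (nat_lit 17592208417917) (.X (nat_lit 255086824559739) (.X (nat_lit 241893002613737) (.Y (nat_lit 4398056427309) .L (.X (nat_lit 235295627237515) (.Y (nat_lit 10995117811905) .L .L) (.Y (nat_lit 10995117811905) .L .L))) (.Y (nat_lit 4398056427309) .L (.X (nat_lit 248490118606877) (.Y (nat_lit 10995117811905) .L .L) (.Y (nat_lit 10995117811905) .L .L)))) (.X (nat_lit 268281298399015) (.Y (nat_lit 4398056427309) .L (.X (nat_lit 261683961600471) (.Y (nat_lit 10995117811905) .L .L) (.Y (nat_lit 10995117811905) .L .L))) (.Y (nat_lit 4398056427309) .L (.X (nat_lit 274878253549387) (.Y (nat_lit 10995117811905) .L .L) (.Y (nat_lit 10995117811905) .L .L))))) (.X (nat_lit 255086824559739) (.Y (nat_lit 43980496067731) (.X (nat_lit 241893002613737) (.Y (nat_lit 30786374392855) (.X (nat_lit 235295627237515) (.Y (nat_lit 24189277726735) .L .L) (.Y (nat_lit 24189277726735) .L .L)) (.X (nat_lit 235295627237515) (.Y (nat_lit 37383470646837)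 .L .L) (.Y (nat_lit 37383470646837) .L .L))) (.Y (nat_lit 30786374392855) (.X (nat_lit 248490118606877) (.Y (nat_lit 24189277726735) .L .L) (.Y (nat_lit 24189277726735) .L .L)) (.X (nat_lit 248490118606877) (.Y (nat_lit 37383470646837) .L .L) (.Y (nat_lit 37383470646837) .L .L)))) (.X (nat_lit 241893002613737) (.Y (nat_lit 57174647204107) (.X (nat_lit 235295627237515) (.Y (nat_lit 50577605471125) .L .L) (.Y (nat_lit 50577605471125) .L .L)) (.X (nat_lit 235295627237515) (.Y (nat_lit 63771679804411) .L .L) (.Y (nat_lit 63771679804411) .L .L))) (.Y (nat_lit 57174647204107) (.X (nat_lit 248490118606877) (.Y (nat_lit 50577605471125) .L .L) (.Y (nat_lit 50577605471125) .L .L)) (.X (nat_lit 248490118606877) (.Y (nat_lit 63771679804411) .L .L) (.Y (nat_lit 63771679804411) .L .L))))) (.Y (nat_lit 43980496067731) (.X (nat_lit 268281298399015) (.Y (nat_lit 30786374392855) (.X (nat_lit 261683961600471) (.Y (nat_lit 24189277726735) .L .L) (.Y (nat_lit 24189277726735) .L .L)) (.X (nat_lit 261683961600471) (.Y (nat_lit 37383470646837) .L .L) (.Y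 (nat_lit 37383470646837) .L .L))) (.Y (nat_lit 30786374392855) (.X (nat_lit 274878253549387) (.Y (nat_lit 24189277726735) .L .L) (.Y (nat_lit 24189277726735) .L .L)) (.X (nat_lit 274878253549387) (.Y (nat_lit 37383470646837) .L .L) (.Y (nat_lit 37383470646837) .L .L)))) (.X (nat_lit 268281298399015) (.Y (nat_lit 57174647204107) (.X (nat_lit 261683961600471) (.Y (nat_lit 50577605471125) .L .L) (.Y (nat_lit 50577605471125) .L .L)) (.X (nat_lit 261683961600471) (.Y (nat_lit 63771679804411) .L .L) (.Y (nat_lit 63771679804411) .L .L))) (.Y (nat_lit 57174647204107) (.X (nat_lit 274878253549387) (.Y (nat_lit 50577605471125) .L .L) (.Y (nat_lit 50577605471125) .L .L)) (.X (nat_lit 274878253549387) (.Y (nat_lit 63771679804411) .L .L) (.Y (nat_lit 63771679804411) .L .L))))))))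
    (nat_lit 175922061124267) (nat_lit 281474976710656) (nat_lit 0) (nat_lit 70368900064303) = true := by
  decide +kernel

theorem cM1p_5 : chk true SM1 (nat_lit 281474976710656) FS PSp PM1p AM1p HM1p
    (.X (nat_lit 70368900064303) .L (.Y (nat_lit 175922061124267) (.X (nat_lit 175922061124267) (.Y (nat_lit 123145539196135) (.X (nat_lit 123145539196135) (.Y (nat_lit 96757370032245) (.X (nat_lit 96757370032245) (.Y (nat_lit 83563010727971) (.X (nat_lit 83563010727971) (.Y (nat_lit 76965864127081) (.X (nat_lit 76965864127081) (.Y (nat_lit 73667436176997) .L .L) (.X (nat_lit 80264523106889) .L .L)) (.X (nat_lit 76965864127081) .L (.Y (nat_lit 80264523106889) .L .L))) (.X (nat_lit 90160235478093) (.Y (nat_lit 76965864127081) (.X (nat_lit 86861551642167) .L .L) (.X (nat_lit 86861551642167) .L .L)) (.Y (nat_lit 76965864127081) (.X (nat_lit 93458625275347) .L .L) (.X (nat_lit 93458625275347) .L .L)))) (.X (nat_lit 83563010727971) .L (.Y (nat_lit 90160235478093) (.X (nat_lit 90160235478093) (.Y (nat_lit 86861551642167) .L .L) (.X (nat_lit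 93458625275347) .L .L)) (.X (nat_lit 90160235478093) .L (.Y (nat_lit 93458625275347) (.X (nat_lit 93458625275347) .L .L) (.X (nat_lit 93458625275347) .L .L)))))) (.X (nat_lit 109951574343109) (.Y (nat_lit 83563010727971) (.X (nat_lit 103354427401721) (.Y (nat_lit 76965864127081) (.X (nat_lit 100055637574935) .L .L) (.X (nat_lit 100055637574935) .L .L)) (.Y (nat_lit 76965864127081) (.X (nat_lit 106652846660227) .L .L) (.X (nat_lit 106652846660227) .L .L))) (.X (nat_lit 103354427401721) (.Y (nat_lit 90160235478093) (.X (nat_lit 100055637574935) .L .L) (.X (nat_lit 100055637574935) (.Y (nat_lit 93458625275347) .L .L) (.Y (nat_lit 93458625275347) .L .L))) (.Y (nat_lit 90160235478093) (.X (nat_lit 106652846660227) .L .L) (.X (nat_lit 106652846660227) (.Y (nat_lit 93458625275347) .L .L) (.Y (nat_lit 93458625275347) .L .L))))) (.Y (nat_lit 83563010727971) (.X (nat_lit 116548591607855) (.Y (nat_lit 76965864127081) (.X (nat_lit 113250080874043) .L .L) (.X (nat_lit 113250080874043) .L .L)) (.Y (nat_lit 76965864127081) (.X (nat_lit 119847078166217)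 .L .L) (.X (nat_lit 119847078166217) .L .L))) (.X (nat_lit 116548591607855) (.Y (nat_lit 90160235478093) (.X (nat_lit 113250080874043) .L .L) (.X (nat_lit 113250080874043) (.Y (nat_lit 93458625275347) .L .L) (.Y (nat_lit 93458625275347) .L .L))) (.Y (nat_lit 90160235478093) (.X (nat_lit 119847078166217) .L .L) (.X (nat_lit 119847078166217) .L .L)))))) (.X (nat_lit 96757370032245) .L (.Y (nat_lit 109951574343109) (.X (nat_lit 109951574343109) (.Y (nat_lit 103354427401721) (.X (nat_lit 103354427401721) (.Y (nat_lit 100055637574935) (.X (nat_lit 100055637574935) .L .L) (.X (nat_lit 100055637574935) .L .L)) (.X (nat_lit 106652846660227) (.Y (nat_lit 100055637574935) .L .L) (.Y (nat_lit 100055637574935) .L .L))) (.X (nat_lit 103354427401721) .L (.Y (nat_lit 106652846660227) (.X (nat_lit 106652846660227) .L .L) (.X (nat_lit 106652846660227) .L .L)))) (.X (nat_lit 116548591607855) (.Y (nat_lit 103354427401721) (.X (nat_lit 113250080874043) (.Y (nat_lit 100055637574935) .L .L) (.Y (nat_lit 100055637574935) .L .L)) (.X (nat_lit 113250080874043)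 (.Y (nat_lit 106652846660227) .L .L) (.Y (nat_lit 106652846660227) .L .L))) (.Y (nat_lit 103354427401721) (.X (nat_lit 119847078166217) (.Y (nat_lit 100055637574935) .L .L) (.Y (nat_lit 100055637574935) .L .L)) (.X (nat_lit 119847078166217) (.Y (nat_lit 106652846660227) .L .L) (.Y (nat_lit 106652846660227) .L .L))))) (.X (nat_lit 109951574343109) .L (.Y (nat_lit 116548591607855) (.X (nat_lit 116548591607855) (.Y (nat_lit 113250080874043) (.X (nat_lit 113250080874043) .L .L) (.X (nat_lit 113250080874043) .L .L)) (.X (nat_lit 119847078166217) (.Y (nat_lit 113250080874043) .L .L) (.Y (nat_lit 113250080874043) .L .L))) (.X (nat_lit 116548591607855) .L (.Y (nat_lit 119847078166217) (.X (nat_lit 119847078166217) .L .L) (.X (nat_lit 119847078166217) .L .L)))))))) (.X (nat_lit 149534024483977) (.Y (nat_lit 96757370032245) (.X (nat_lit 136339568249161) (.Y (nat_lit 83563010727971) (.X (nat_lit 129742764912007) (.Y (nat_lit 76965864127081) (.X (nat_lit 126444002716177) .L .L) (.X (nat_lit 126444002716177) .L .L)) (.Y (nat_lit 76965864127081)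 (.X (nat_lit 133041154257545) .L .L) (.X (nat_lit 133041154257545) .L .L))) (.X (nat_lit 129742764912007) (.Y (nat_lit 90160235478093) (.X (nat_lit 126444002716177) .L .L) (.X (nat_lit 126444002716177) .L .L)) (.Y (nat_lit 90160235478093) (.X (nat_lit 133041154257545) .L .L) (.X (nat_lit 133041154257545) .L .L)))) (.Y (nat_lit 83563010727971) (.X (nat_lit 142936634562605) (.Y (nat_lit 76965864127081) (.X (nat_lit 139638142057397) .L .L) (.X (nat_lit 139638142057397) .L .L)) (.Y (nat_lit 76965864127081) (.X (nat_lit 146235091934041) .L .L) (.X (nat_lit 146235091934041) .L .L))) (.X (nat_lit 142936634562605) (.Y (nat_lit 90160235478093) (.X (nat_lit 139638142057397) .L .L) (.X (nat_lit 139638142057397) .L .L)) (.Y (nat_lit 90160235478093) (.X (nat_lit 146235091934041) .L .L) (.X (nat_lit 146235091934041) .L .L))))) (.X (nat_lit 136339568249161) (.Y (nat_lit 109951574343109) (.X (nat_lit 129742764912007) (.Y (nat_lit 103354427401721) (.X (nat_lit 126444002716177) .L .L) (.X (nat_lit 126444002716177) (.Y (nat_lit 106652846660227) .L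 .L) .L)) (.Y (nat_lit 103354427401721) (.X (nat_lit 133041154257545) .L .L) (.X (nat_lit 133041154257545) .L .L))) (.X (nat_lit 129742764912007) (.Y (nat_lit 116548591607855) (.X (nat_lit 126444002716177) (.Y (nat_lit 113250080874043) .L .L) (.Y (nat_lit 113250080874043) .L .L)) (.X (nat_lit 126444002716177) (.Y (nat_lit 119847078166217) .L .L) (.Y (nat_lit 119847078166217) .L .L))) (.Y (nat_lit 116548591607855) (.X (nat_lit 133041154257545) .L .L) (.X (nat_lit 133041154257545) (.Y (nat_lit 119847078166217) .L .L) (.Y (nat_lit 119847078166217) .L .L))))) (.Y (nat_lit 109951574343109) (.X (nat_lit 142936634562605) (.Y (nat_lit 103354427401721) (.X (nat_lit 139638142057397) .L .L) (.X (nat_lit 139638142057397) .L .L)) (.Y (nat_lit 103354427401721) (.X (nat_lit 146235091934041) .L .L) (.X (nat_lit 146235091934041) .L .L))) (.X (nat_lit 142936634562605) (.Y (nat_lit 116548591607855) (.X (nat_lit 139638142057397) .L .L) (.X (nat_lit 139638142057397) .L .L)) (.Y (nat_lit 116548591607855) (.X (nat_lit 146235091934041) .L .L) (.X (nat_lit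 146235091934041) (.Y (nat_lit 119847078166217) .L .L) (.Y (nat_lit 119847078166217) .L .L))))))) (.Y (nat_lit 96757370032245) (.X (nat_lit 162728167111501) (.Y (nat_lit 83563010727971) (.X (nat_lit 156131068094103) (.Y (nat_lit 76965864127081) .L .L) (.Y (nat_lit 76965864127081) .L .L)) (.X (nat_lit 156131068094103) (.Y (nat_lit 90160235478093) (.X (nat_lit 152832175072207) .L .L) (.X (nat_lit 152832175072207) .L .L)) (.Y (nat_lit 90160235478093) .L (.X (nat_lit 159429312828695) .L .L)))) (.Y (nat_lit 83563010727971) (.X (nat_lit 169325150016969) (.Y (nat_lit 76965864127081) .L .L) (.Y (nat_lit 76965864127081) .L .L)) (.X (nat_lit 169325150016969) (.Y (nat_lit 90160235478093) .L (.X (nat_lit 166026362576049) .L .L)) (.Y (nat_lit 90160235478093) .L .L)))) (.X (nat_lit 162728167111501) (.Y (nat_lit 109951574343109) (.X (nat_lit 156131068094103) (.Y (nat_lit 103354427401721) (.X (nat_lit 152832175072207) .L .L) (.X (nat_lit 152832175072207) .L .L)) (.Y (nat_lit 103354427401721) (.X (nat_lit 159429312828695) .L .L) (.X (nat_lit 159429312828695)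 .L .L))) (.X (nat_lit 156131068094103) (.Y (nat_lit 116548591607855) (.X (nat_lit 152832175072207) .L .L) (.X (nat_lit 152832175072207) .L .L)) (.Y (nat_lit 116548591607855) (.X (nat_lit 159429312828695) .L .L) (.X (nat_lit 159429312828695) .L .L)))) (.Y (nat_lit 109951574343109) (.X (nat_lit 169325150016969) (.Y (nat_lit 103354427401721) (.X (nat_lit 166026362576049) .L .L) (.X (nat_lit 166026362576049) .L .L)) (.Y (nat_lit 103354427401721) (.X (nat_lit 172623643026637) .L .L) (.X (nat_lit 172623643026637) .L .L))) (.X (nat_lit 169325150016969) (.Y (nat_lit 116548591607855) (.X (nat_lit 166026362576049) .L .L) (.X (nat_lit 166026362576049) .L .L)) (.Y (nat_lit 116548591607855) (.X (nat_lit 172623643026637) .L .L) (.X (nat_lit 172623643026637) .L .L)))))))) (.X (nat_lit 123145539196135) .L (.Y (nat_lit 149534024483977) (.X (nat_lit 149534024483977) (.Y (nat_lit 136339568249161) (.X (nat_lit 136339568249161) (.Y (nat_lit 129742764912007) (.X (nat_lit 129742764912007) (.Y (nat_lit 126444002716177) (.X (nat_lit 126444002716177) .L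 .L) (.X (nat_lit 126444002716177) .L .L)) (.X (nat_lit 133041154257545) (.Y (nat_lit 126444002716177) .L .L) (.Y (nat_lit 126444002716177) .L .L))) (.X (nat_lit 129742764912007) .L (.Y (nat_lit 133041154257545) (.X (nat_lit 133041154257545) .L .L) (.X (nat_lit 133041154257545) .L .L)))) (.X (nat_lit 142936634562605) (.Y (nat_lit 129742764912007) (.X (nat_lit 139638142057397) (.Y (nat_lit 126444002716177) .L .L) (.Y (nat_lit 126444002716177) .L .L)) (.X (nat_lit 139638142057397) (.Y (nat_lit 133041154257545) .L .L) (.Y (nat_lit 133041154257545) .L .L))) (.Y (nat_lit 129742764912007) (.X (nat_lit 146235091934041) (.Y (nat_lit 126444002716177) .L .L) (.Y (nat_lit 126444002716177) .L .L)) (.X (nat_lit 146235091934041) (.Y (nat_lit 133041154257545) .L .L) (.Y (nat_lit 133041154257545) .L .L))))) (.X (nat_lit 136339568249161) .L (.Y (nat_lit 142936634562605) (.X (nat_lit 142936634562605) (.Y (nat_lit 139638142057397) (.X (nat_lit 139638142057397) .L .L) (.X (nat_lit 139638142057397) .L .L)) (.X (nat_lit 146235091934041) (.Y (nat_lit 139638142057397)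 .L .L) (.Y (nat_lit 139638142057397) .L .L))) (.X (nat_lit 142936634562605) .L (.Y (nat_lit 146235091934041) (.X (nat_lit 146235091934041) .L .L) (.X (nat_lit 146235091934041) .L .L)))))) (.X (nat_lit 162728167111501) (.Y (nat_lit 136339568249161) (.X (nat_lit 156131068094103) (.Y (nat_lit 129742764912007) (.X (nat_lit 152832175072207) (.Y (nat_lit 126444002716177) .L .L) (.Y (nat_lit 126444002716177) .L .L)) (.X (nat_lit 152832175072207) (.Y (nat_lit 133041154257545) .L .L) (.Y (nat_lit 133041154257545) .L .L))) (.Y (nat_lit 129742764912007) (.X (nat_lit 159429312828695) (.Y (nat_lit 126444002716177) .L .L) (.Y (nat_lit 126444002716177) .L .L)) (.X (nat_lit 159429312828695) (.Y (nat_lit 133041154257545) .L .L) (.Y (nat_lit 133041154257545) .L .L)))) (.X (nat_lit 156131068094103) (.Y (nat_lit 142936634562605) (.X (nat_lit 152832175072207) (.Y (nat_lit 139638142057397) .L .L) (.Y (nat_lit 139638142057397) .L .L)) (.X (nat_lit 152832175072207) (.Y (nat_lit 146235091934041) .L .L) (.Y (nat_lit 146235091934041) .L .L))) (.Y (nat_lit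 142936634562605) (.X (nat_lit 159429312828695) (.Y (nat_lit 139638142057397) .L .L) (.Y (nat_lit 139638142057397) .L .L)) (.X (nat_lit 159429312828695) (.Y (nat_lit 146235091934041) .L .L) .L)))) (.Y (nat_lit 136339568249161) (.X (nat_lit 169325150016969) (.Y (nat_lit 129742764912007) (.X (nat_lit 166026362576049) (.Y (nat_lit 126444002716177) .L .L) (.Y (nat_lit 126444002716177) .L .L)) (.X (nat_lit 166026362576049) (.Y (nat_lit 133041154257545) .L .L) (.Y (nat_lit 133041154257545) .L .L))) (.Y (nat_lit 129742764912007) (.X (nat_lit 172623643026637) .L .L) (.X (nat_lit 172623643026637) (.Y (nat_lit 133041154257545) .L .L) (.Y (nat_lit 133041154257545) .L .L)))) (.X (nat_lit 169325150016969) (.Y (nat_lit 142936634562605) (.X (nat_lit 166026362576049) (.Y (nat_lit 139638142057397) .L .L) (.Y (nat_lit 139638142057397) .L .L)) .L) .L)))) (.X (nat_lit 149534024483977) .L (.Y (nat_lit 162728167111501) (.X (nat_lit 162728167111501) (.Y (nat_lit 156131068094103) (.X (nat_lit 156131068094103) (.Y (nat_lit 152832175072207) (.X (nat_lit 152832175072207)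 .L .L) .L) .L) .L) .L) .L))))) (.X (nat_lit 228698491831029) (.Y (nat_lit 123145539196135) (.X (nat_lit 202310140892619) (.Y (nat_lit 96757370032245) (.X (nat_lit 189116380910351) (.Y (nat_lit 83563010727971) (.X (nat_lit 182519494221219) (.Y (nat_lit 76965864127081) .L .L) (.Y (nat_lit 76965864127081) .L .L)) (.X (nat_lit 182519494221219) (.Y (nat_lit 90160235478093) .L .L) (.Y (nat_lit 90160235478093) .L .L))) (.Y (nat_lit 83563010727971) (.X (nat_lit 195713749390113) (.Y (nat_lit 76965864127081) .L .L) (.Y (nat_lit 76965864127081) .L .L)) (.X (nat_lit 195713749390113) (.Y (nat_lit 90160235478093) .L .L) (.Y (nat_lit 90160235478093) .L (.X (nat_lit 199012317382647) .L .L))))) (.X (nat_lit 189116380910351) (.Y (nat_lit 109951574343109) (.X (nat_lit 182519494221219) (.Y (nat_lit 103354427401721) (.X (nat_lit 179220705058683) .L .L) (.X (nat_lit 179220705058683) .L .L)) (.Y (nat_lit 103354427401721) (.X (nat_lit 185817483816231) .L .L) (.X (nat_lit 185817483816231) .L .L))) (.X (nat_lit 182519494221219) (.Y (nat_lit 116548591607855)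 (.X (nat_lit 179220705058683) .L .L) (.X (nat_lit 179220705058683) .L .L)) (.Y (nat_lit 116548591607855) (.X (nat_lit 185817483816231) .L .L) (.X (nat_lit 185817483816231) .L .L)))) (.Y (nat_lit 109951574343109) (.X (nat_lit 195713749390113) (.Y (nat_lit 103354427401721) (.X (nat_lit 192414759880185) .L .L) (.X (nat_lit 192414759880185) .L .L)) (.Y (nat_lit 103354427401721) (.X (nat_lit 199012317382647) .L .L) (.X (nat_lit 199012317382647) .L .L))) (.X (nat_lit 195713749390113) (.Y (nat_lit 116548591607855) (.X (nat_lit 192414759880185) .L .L) .L) (.Y (nat_lit 116548591607855) (.X (nat_lit 199012317382647) .L .L) .L))))) (.Y (nat_lit 96757370032245) (.X (nat_lit 215504921499925) (.Y (nat_lit 83563010727971) (.X (nat_lit 208907245026275) (.Y (nat_lit 76965864127081) .L .L) (.Y (nat_lit 76965864127081) .L .L)) (.X (nat_lit 208907245026275) (.Y (nat_lit 90160235478093) .L (.X (nat_lit 205608709992409) .L .L)) (.Y (nat_lit 90160235478093) .L (.X (nat_lit 212205805383801) .L .L)))) (.Y (nat_lit 83563010727971) (.X (nat_lit 222101788920263)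 (.Y (nat_lit 76965864127081) .L .L) (.Y (nat_lit 76965864127081) .L .L)) (.X (nat_lit 222101788920263) (.Y (nat_lit 90160235478093) .L (.X (nat_lit 218803477624199) .L .L)) (.Y (nat_lit 90160235478093) .L (.X (nat_lit 225400225992563) .L .L))))) (.X (nat_lit 215504921499925) (.Y (nat_lit 109951574343109) (.X (nat_lit 208907245026275) (.Y (nat_lit 103354427401721) (.X (nat_lit 205608709992409) .L .L) (.X (nat_lit 205608709992409) .L .L)) (.Y (nat_lit 103354427401721) (.X (nat_lit 212205805383801) .L .L) .L)) .L) .L))) (.X (nat_lit 202310140892619) (.Y (nat_lit 149534024483977) (.X (nat_lit 189116380910351) (.Y (nat_lit 136339568249161) (.X (nat_lit 182519494221219) (.Y (nat_lit 129742764912007) (.X (nat_lit 179220705058683) .L .L) .L) .L) .L) .L) .L) .L)) (.Y (nat_lit 123145539196135) (.X (nat_lit 255086824559739) (.Y (nat_lit 96757370032245) (.X (nat_lit 241893002613737) (.Y (nat_lit 83563010727971) (.X (nat_lit 235295627237515) (.Y (nat_lit 76965864127081) .L .L) (.Y (nat_lit 76965864127081) .L .L)) (.X (nat_lit 235295627237515)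 (.Y (nat_lit 90160235478093) .L .L) .L)) (.Y (nat_lit 83563010727971) (.X (nat_lit 248490118606877) (.Y (nat_lit 76965864127081) .L .L) (.Y (nat_lit 76965864127081) .L .L)) .L)) .L) .L) .L))) (.X (nat_lit 175922061124267) .L .L)))
    (nat_lit 0) (nat_lit 281474976710656) (nat_lit 70368900064303) (nat_lit 281474976710656) = true := by
  decide +kernel

theorem cM1m_0 : chk true SM1 (nat_lit 422212465065984) FS PSm PM1m AM1m HM1m
    (.Y (nat_lit 70368900064303) (.X (nat_lit 351844899895973) (.X (nat_lit 316660049597371) (.Y (nat_lit 17592208417917) (.X (nat_lit 299068103576911) (.X (nat_lit 290271227798693) (.Y (nat_lit 4398056427309) .L (.Y (nat_lit 10995117811905) (.X (nat_lit 285873246671361) .L .L) (.X (nat_lit 285873246671361) .L .L))) (.Y (nat_lit 4398056427309) .L (.Y (nat_lit 10995117811905) (.X (nat_lit 294669233875347) .L .L) (.X (nat_lit 294669233875347) .L .L)))) (.X (nat_lit 307863319696537) (.Y (nat_lit 4398056427309) .L (.Y (nat_lit 10995117811905) (.X (nat_lit 303466314609657) .L .L) (.X (nat_lit 303466314609657)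 .L .L))) (.Y (nat_lit 4398056427309) .L (.Y (nat_lit 10995117811905) (.X (nat_lit 312261893632863) .L .L) (.X (nat_lit 312261893632863) .L .L))))) (.Y (nat_lit 43980496067731) (.X (nat_lit 299068103576911) (.Y (nat_lit 30786374392855) (.X (nat_lit 290271227798693) (.Y (nat_lit 24189277726735) (.X (nat_lit 285873246671361) .L .L) (.X (nat_lit 285873246671361) (.Y (nat_lit 27487880922633) .L .L) (.Y (nat_lit 27487880922633) .L .L))) (.Y (nat_lit 24189277726735) (.X (nat_lit 294669233875347) .L .L) (.X (nat_lit 294669233875347) (.Y (nat_lit 27487880922633) .L .L) (.Y (nat_lit 27487880922633) .L .L)))) (.X (nat_lit 290271227798693) (.Y (nat_lit 37383470646837) (.X (nat_lit 285873246671361) (.Y (nat_lit 34084948931449) .L .L) (.Y (nat_lit 34084948931449) .L .L)) (.X (nat_lit 285873246671361) (.Y (nat_lit 40682050965857) .L .L) (.Y (nat_lit 40682050965857) .L .L))) (.Y (nat_lit 37383470646837) (.X (nat_lit 294669233875347) (.Y (nat_lit 34084948931449) .L .L) (.Y (nat_lit 34084948931449) .L .L)) (.X (nat_lit 294669233875347) (.Y (nat_lit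 40682050965857) .L .L) (.Y (nat_lit 40682050965857) .L .L))))) (.Y (nat_lit 30786374392855) (.X (nat_lit 307863319696537) (.Y (nat_lit 24189277726735) (.X (nat_lit 303466314609657) .L .L) (.X (nat_lit 303466314609657) .L .L)) (.Y (nat_lit 24189277726735) (.X (nat_lit 312261893632863) .L .L) (.X (nat_lit 312261893632863) .L .L))) (.X (nat_lit 307863319696537) (.Y (nat_lit 37383470646837) (.X (nat_lit 303466314609657) (.Y (nat_lit 34084948931449) .L .L) (.Y (nat_lit 34084948931449) .L .L)) (.X (nat_lit 303466314609657) (.Y (nat_lit 40682050965857) .L .L) (.Y (nat_lit 40682050965857) .L .L))) (.Y (nat_lit 37383470646837) (.X (nat_lit 312261893632863) .L .L) (.X (nat_lit 312261893632863) (.Y (nat_lit 40682050965857) .L .L) .L))))) (.X (nat_lit 299068103576911) (.Y (nat_lit 57174647204107) (.X (nat_lit 290271227798693) (.Y (nat_lit 50577605471125) (.X (nat_lit 285873246671361) (.Y (nat_lit 47279053332153) .L .L) (.Y (nat_lit 47279053332153) .L .L)) (.X (nat_lit 285873246671361) (.Y (nat_lit 53876268116979) .L .L) (.Y (nat_lit 53876268116979)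 .L .L))) (.Y (nat_lit 50577605471125) (.X (nat_lit 294669233875347) (.Y (nat_lit 47279053332153) .L .L) (.Y (nat_lit 47279053332153) .L .L)) (.X (nat_lit 294669233875347) (.Y (nat_lit 53876268116979) .L .L) .L))) .L) (.Y (nat_lit 57174647204107) (.X (nat_lit 307863319696537) (.Y (nat_lit 50577605471125) (.X (nat_lit 303466314609657) (.Y (nat_lit 47279053332153) .L .L) (.Y (nat_lit 47279053332153) .L .L)) .L) .L) .L)))) (.Y (nat_lit 17592208417917) (.X (nat_lit 334252485777277) (.X (nat_lit 325456121871771) (.Y (nat_lit 4398056427309) .L (.Y (nat_lit 10995117811905) (.X (nat_lit 321057431985909) .L .L) (.X (nat_lit 321057431985909) .L .L))) (.Y (nat_lit 4398056427309) .L (.Y (nat_lit 10995117811905) (.X (nat_lit 329853491109747) .L .L) (.X (nat_lit 329853491109747) .L .L)))) (.X (nat_lit 343047851615949) (.Y (nat_lit 4398056427309) .L (.Y (nat_lit 10995117811905) (.X (nat_lit 338649679550977) .L .L) (.X (nat_lit 338649679550977) .L .L))) (.Y (nat_lit 4398056427309) .L (.Y (nat_lit 10995117811905) (.X (nat_lit 347446350523179) .L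 .L) (.X (nat_lit 347446350523179) .L .L))))) (.Y (nat_lit 43980496067731) (.X (nat_lit 334252485777277) (.Y (nat_lit 30786374392855) (.X (nat_lit 325456121871771) (.Y (nat_lit 24189277726735) (.X (nat_lit 321057431985909) .L .L) (.X (nat_lit 321057431985909) .L .L)) (.Y (nat_lit 24189277726735) (.X (nat_lit 329853491109747) .L .L) (.X (nat_lit 329853491109747) .L .L))) (.X (nat_lit 325456121871771) (.Y (nat_lit 37383470646837) (.X (nat_lit 321057431985909) .L .L) (.X (nat_lit 321057431985909) .L .L)) (.Y (nat_lit 37383470646837) (.X (nat_lit 329853491109747) .L .L) .L))) (.Y (nat_lit 30786374392855) (.X (nat_lit 343047851615949) (.Y (nat_lit 24189277726735) (.X (nat_lit 338649679550977) .L .L) (.X (nat_lit 338649679550977) .L .L)) (.Y (nat_lit 24189277726735) (.X (nat_lit 347446350523179) .L .L) (.X (nat_lit 347446350523179) .L .L))) (.X (nat_lit 343047851615949) (.Y (nat_lit 37383470646837) (.X (nat_lit 338649679550977) .L .L) .L) (.Y (nat_lit 37383470646837) (.X (nat_lit 347446350523179) .L .L) .L)))) .L))) (.X (nat_lit 387029198350641)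 (.Y (nat_lit 17592208417917) (.X (nat_lit 369437105195857) (.X (nat_lit 360640181101291) (.Y (nat_lit 4398056427309) .L (.Y (nat_lit 10995117811905) (.X (nat_lit 356242101232075) .L .L) (.X (nat_lit 356242101232075) .L .L))) (.Y (nat_lit 4398056427309) .L (.Y (nat_lit 10995117811905) .L (.X (nat_lit 365038124339315) .L .L)))) (.X (nat_lit 378233386442463) (.Y (nat_lit 4398056427309) .L (.Y (nat_lit 10995117811905) .L (.X (nat_lit 373834336877471) .L .L))) (.Y (nat_lit 4398056427309) .L (.Y (nat_lit 10995117811905) .L .L)))) (.Y (nat_lit 43980496067731) (.X (nat_lit 369437105195857) (.Y (nat_lit 30786374392855) (.X (nat_lit 360640181101291) (.Y (nat_lit 24189277726735) (.X (nat_lit 356242101232075) .L .L) (.X (nat_lit 356242101232075) .L .L)) (.Y (nat_lit 24189277726735) (.X (nat_lit 365038124339315) .L .L) (.X (nat_lit 365038124339315) .L .L))) .L) (.Y (nat_lit 30786374392855) (.X (nat_lit 378233386442463) (.Y (nat_lit 24189277726735) (.X (nat_lit 373834336877471) .L .L) (.X (nat_lit 373834336877471) .L .L)) (.Y (nat_lit 24189277726735)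 (.X (nat_lit 382630487421507) .L .L) .L)) .L)) .L)) (.Y (nat_lit 17592208417917) (.X (nat_lit 404620391538613) (.X (nat_lit 395824315695071) (.Y (nat_lit 4398056427309) .L (.Y (nat_lit 10995117811905) .L .L)) (.Y (nat_lit 4398056427309) .L (.Y (nat_lit 10995117811905) .L .L))) (.X (nat_lit 413416719941239) (.Y (nat_lit 4398056427309) .L (.Y (nat_lit 10995117811905) .L .L)) (.Y (nat_lit 4398056427309) .L (.Y (nat_lit 10995117811905) .L .L)))) (.Y (nat_lit 43980496067731) (.X (nat_lit 404620391538613) (.Y (nat_lit 30786374392855) (.X (nat_lit 395824315695071) (.Y (nat_lit 24189277726735) (.X (nat_lit 391427013180081) .L .L) .L) (.Y (nat_lit 24189277726735) .L .L)) .L) (.Y (nat_lit 30786374392855) (.X (nat_lit 413416719941239) (.Y (nat_lit 24189277726735) .L .L) .L) .L)) .L)))) .L)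
    (nat_lit 281474976710656) (nat_lit 422212465065984) (nat_lit 0) (nat_lit 281474976710656) = true := by
  decide +kernel

theorem cM7p_0 : chk true SM7 (nat_lit 281474976710656) FS PSp PM7p AM7p HM7p
    (.Y (nat_lit 139038643500387) (.X (nat_lit 139038643500387) (.Y (nat_lit 103859012916201) (.X (nat_lit 103859012916201) (.Y (nat_lit 86269377673611) (.X (nat_lit 86269377673611) (.Y (nat_lit 77474561708915) (.X (nat_lit 77474561708915) (.Y (nat_lit 73077240357527) .L .L) (.X (nat_lit 81872232843311) .L .L)) (.X (nat_lit 77474561708915) .L (.Y (nat_lit 81872232843311) .L .L))) (.X (nat_lit 95064410208767) (.Y (nat_lit 77474561708915) (.X (nat_lit 90666937190149) .L .L) (.X (nat_lit 90666937190149) .L .L)) (.Y (nat_lit 77474561708915) (.X (nat_lit 99461630124815) .L .L) (.X (nat_lit 99461630124815) .L .L)))) (.X (nat_lit 86269377673611) .L (.Y (nat_lit 95064410208767) (.X (nat_lit 95064410208767) (.Y (nat_lit 90666937190149) .L .L) (.X (nat_lit 99461630124815) .L .L)) (.X (nat_lit 95064410208767) .L (.Y (nat_lit 99461630124815)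 .L .L))))) (.X (nat_lit 121448891127573) (.Y (nat_lit 86269377673611) (.X (nat_lit 112654050267847) (.Y (nat_lit 77474561708915) (.X (nat_lit 108256684515779) .L .L) (.X (nat_lit 108256684515779) .L .L)) (.Y (nat_lit 77474561708915) .L (.X (nat_lit 117051527026179) .L .L))) (.X (nat_lit 112654050267847) (.Y (nat_lit 95064410208767) (.X (nat_lit 108256684515779) .L .L) (.X (nat_lit 108256684515779) .L .L)) (.Y (nat_lit 95064410208767) (.X (nat_lit 117051527026179) .L .L) (.X (nat_lit 117051527026179) .L .L)))) (.Y (nat_lit 86269377673611) (.X (nat_lit 130243443849507) (.Y (nat_lit 77474561708915) .L .L) (.Y (nat_lit 77474561708915) .L .L)) (.X (nat_lit 130243443849507) (.Y (nat_lit 95064410208767) (.X (nat_lit 125846380816331) .L .L) (.X (nat_lit 125846380816331) .L .L)) (.Y (nat_lit 95064410208767) (.X (nat_lit 134640880706275) .L .L) (.X (nat_lit 134640880706275) .L .L)))))) (.X (nat_lit 103859012916201) .L (.Y (nat_lit 121448891127573) (.X (nat_lit 121448891127573) (.Y (nat_lit 112654050267847) (.X (nat_lit 112654050267847) (.Y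 (nat_lit 108256684515779) .L .L) (.X (nat_lit 117051527026179) .L .L)) (.X (nat_lit 112654050267847) .L (.Y (nat_lit 117051527026179) .L .L))) (.X (nat_lit 130243443849507) (.Y (nat_lit 112654050267847) (.X (nat_lit 125846380816331) .L .L) (.X (nat_lit 125846380816331) .L .L)) (.Y (nat_lit 112654050267847) (.X (nat_lit 134640880706275) .L .L) (.X (nat_lit 134640880706275) (.Y (nat_lit 117051527026179) .L .L) (.Y (nat_lit 117051527026179) .L .L))))) (.X (nat_lit 121448891127573) .L (.Y (nat_lit 130243443849507) (.X (nat_lit 130243443849507) (.Y (nat_lit 125846380816331) (.X (nat_lit 125846380816331) .L .L) (.X (nat_lit 125846380816331) .L .L)) (.X (nat_lit 134640880706275) (.Y (nat_lit 125846380816331) .L .L) (.Y (nat_lit 125846380816331) .L .L))) (.X (nat_lit 130243443849507) .L (.Y (nat_lit 134640880706275) (.X (nat_lit 134640880706275) .L .L) (.X (nat_lit 134640880706275) .L .L)))))))) (.X (nat_lit 210256669841949) (.X (nat_lit 174647696868047) (.Y (nat_lit 103859012916201) (.X (nat_lit 156843312390733) (.Y (nat_lit 86269377673611)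 (.X (nat_lit 147940757062355) (.Y (nat_lit 77474561708915) .L (.X (nat_lit 143489873654663) .L .L)) (.Y (nat_lit 77474561708915) .L (.X (nat_lit 152392169458221) .L .L))) (.X (nat_lit 147940757062355) (.Y (nat_lit 95064410208767) (.X (nat_lit 143489873654663) .L .L) (.X (nat_lit 143489873654663) .L .L)) (.Y (nat_lit 95064410208767) (.X (nat_lit 152392169458221) .L .L) (.X (nat_lit 152392169458221) .L .L)))) (.Y (nat_lit 86269377673611) (.X (nat_lit 165745444340553) (.Y (nat_lit 77474561708915) .L (.X (nat_lit 161294022574073) .L .L)) (.Y (nat_lit 77474561708915) .L (.X (nat_lit 170196665525931) .L .L))) (.X (nat_lit 165745444340553) (.Y (nat_lit 95064410208767) (.X (nat_lit 161294022574073) .L .L) (.X (nat_lit 161294022574073) .L .L)) (.Y (nat_lit 95064410208767) (.X (nat_lit 170196665525931) .L .L) (.X (nat_lit 170196665525931) .L .L))))) (.X (nat_lit 156843312390733) (.Y (nat_lit 121448891127573) (.X (nat_lit 147940757062355) (.Y (nat_lit 112654050267847) (.X (nat_lit 143489873654663) .L (.Y (nat_lit 108256684515779) .L .L)) (.X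 (nat_lit 143489873654663) (.Y (nat_lit 117051527026179) .L .L) (.Y (nat_lit 117051527026179) .L .L))) (.Y (nat_lit 112654050267847) (.X (nat_lit 152392169458221) (.Y (nat_lit 108256684515779) .L .L) .L) (.X (nat_lit 152392169458221) (.Y (nat_lit 117051527026179) .L .L) (.Y (nat_lit 117051527026179) .L .L)))) (.X (nat_lit 147940757062355) (.Y (nat_lit 130243443849507) (.X (nat_lit 143489873654663) (.Y (nat_lit 125846380816331) .L .L) (.Y (nat_lit 125846380816331) .L .L)) (.X (nat_lit 143489873654663) (.Y (nat_lit 134640880706275) .L .L) (.Y (nat_lit 134640880706275) .L .L))) (.Y (nat_lit 130243443849507) (.X (nat_lit 152392169458221) (.Y (nat_lit 125846380816331) .L .L) (.Y (nat_lit 125846380816331) .L .L)) (.X (nat_lit 152392169458221) (.Y (nat_lit 134640880706275) .L .L) (.Y (nat_lit 134640880706275) .L .L))))) (.Y (nat_lit 121448891127573) (.X (nat_lit 165745444340553) (.Y (nat_lit 112654050267847) (.X (nat_lit 161294022574073) .L .L) (.X (nat_lit 161294022574073) (.Y (nat_lit 117051527026179) .L .L) (.Y (nat_lit 117051527026179)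 .L .L))) (.Y (nat_lit 112654050267847) (.X (nat_lit 170196665525931) .L .L) (.X (nat_lit 170196665525931) (.Y (nat_lit 117051527026179) .L .L) (.Y (nat_lit 117051527026179) .L .L)))) (.X (nat_lit 165745444340553) (.Y (nat_lit 130243443849507) (.X (nat_lit 161294022574073) (.Y (nat_lit 125846380816331) .L .L) (.Y (nat_lit 125846380816331) .L .L)) (.X (nat_lit 161294022574073) (.Y (nat_lit 134640880706275) .L .L) (.Y (nat_lit 134640880706275) .L .L))) (.Y (nat_lit 130243443849507) (.X (nat_lit 170196665525931) (.Y (nat_lit 125846380816331) .L .L) (.Y (nat_lit 125846380816331) .L .L)) (.X (nat_lit 170196665525931) (.Y (nat_lit 134640880706275) .L .L) (.Y (nat_lit 134640880706275) .L .L))))))) (.Y (nat_lit 103859012916201) (.X (nat_lit 192452523712745) (.Y (nat_lit 86269377673611) (.X (nat_lit 183549935441963) (.Y (nat_lit 77474561708915) .L (.X (nat_lit 179098897607177) .L .L)) (.Y (nat_lit 77474561708915) .L .L)) (.X (nat_lit 183549935441963) (.Y (nat_lit 95064410208767) (.X (nat_lit 179098897607177) .L .L) (.X (nat_lit 179098897607177)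 .L .L)) (.Y (nat_lit 95064410208767) (.X (nat_lit 188001364356125) .L .L) (.X (nat_lit 188001364356125) .L .L)))) (.Y (nat_lit 86269377673611) (.X (nat_lit 201355017419213) (.Y (nat_lit 77474561708915) .L .L) (.Y (nat_lit 77474561708915) .L .L)) (.X (nat_lit 201355017419213) (.Y (nat_lit 95064410208767) (.X (nat_lit 196903182808431) .L .L) (.X (nat_lit 196903182808431) .L .L)) (.Y (nat_lit 95064410208767) .L (.X (nat_lit 205806212999861) .L .L))))) (.X (nat_lit 192452523712745) (.Y (nat_lit 121448891127573) (.X (nat_lit 183549935441963) (.Y (nat_lit 112654050267847) (.X (nat_lit 179098897607177) .L .L) (.X (nat_lit 179098897607177) (.Y (nat_lit 117051527026179) .L .L) (.Y (nat_lit 117051527026179) .L .L))) (.Y (nat_lit 112654050267847) (.X (nat_lit 188001364356125) .L .L) (.X (nat_lit 188001364356125) (.Y (nat_lit 117051527026179) .L .L) (.Y (nat_lit 117051527026179) .L .L)))) (.X (nat_lit 183549935441963) (.Y (nat_lit 130243443849507) (.X (nat_lit 179098897607177) (.Y (nat_lit 125846380816331) .L .L) (.Y (nat_lit 125846380816331)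 .L .L)) (.X (nat_lit 179098897607177) (.Y (nat_lit 134640880706275) .L .L) (.Y (nat_lit 134640880706275) .L .L))) (.Y (nat_lit 130243443849507) (.X (nat_lit 188001364356125) (.Y (nat_lit 125846380816331) .L .L) (.Y (nat_lit 125846380816331) .L .L)) (.X (nat_lit 188001364356125) (.Y (nat_lit 134640880706275) .L .L) (.Y (nat_lit 134640880706275) .L .L))))) (.Y (nat_lit 121448891127573) (.X (nat_lit 201355017419213) (.Y (nat_lit 112654050267847) (.X (nat_lit 196903182808431) .L .L) (.X (nat_lit 196903182808431) .L .L)) (.Y (nat_lit 112654050267847) (.X (nat_lit 205806212999861) .L .L) (.X (nat_lit 205806212999861) .L .L))) (.X (nat_lit 201355017419213) (.Y (nat_lit 130243443849507) (.X (nat_lit 196903182808431) (.Y (nat_lit 125846380816331) .L .L) (.Y (nat_lit 125846380816331) .L .L)) (.X (nat_lit 196903182808431) (.Y (nat_lit 134640880706275) .L .L) (.Y (nat_lit 134640880706275) .L .L))) (.Y (nat_lit 130243443849507) (.X (nat_lit 205806212999861) (.Y (nat_lit 125846380816331) .L .L) (.Y (nat_lit 125846380816331) .L .L)) .L)))))) (.X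 (nat_lit 245866404782387) (.Y (nat_lit 103859012916201) (.X (nat_lit 228061847230771) (.Y (nat_lit 86269377673611) (.X (nat_lit 219159370657957) (.Y (nat_lit 77474561708915) .L .L) (.Y (nat_lit 77474561708915) .L .L)) (.X (nat_lit 219159370657957) (.Y (nat_lit 95064410208767) .L (.X (nat_lit 214708407948035) .L .L)) (.Y (nat_lit 95064410208767) .L .L))) (.Y (nat_lit 86269377673611) (.X (nat_lit 236964263934025) (.Y (nat_lit 77474561708915) .L .L) (.Y (nat_lit 77474561708915) .L .L)) (.X (nat_lit 236964263934025) (.Y (nat_lit 95064410208767) .L .L) (.Y (nat_lit 95064410208767) .L .L)))) (.X (nat_lit 228061847230771) (.Y (nat_lit 121448891127573) (.X (nat_lit 219159370657957) (.Y (nat_lit 112654050267847) (.X (nat_lit 214708407948035) .L .L) (.X (nat_lit 214708407948035) .L .L)) (.Y (nat_lit 112654050267847) (.X (nat_lit 223610068782927) .L .L) (.X (nat_lit 223610068782927) .L .L))) .L) (.Y (nat_lit 121448891127573) (.X (nat_lit 236964263934025) (.Y (nat_lit 112654050267847) (.X (nat_lit 232512453866717) .L .L) .L) .L) .L))) (.Y (nat_lit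 103859012916201) (.X (nat_lit 263671018975401) (.Y (nat_lit 86269377673611) (.X (nat_lit 254768785197061) (.Y (nat_lit 77474561708915) .L .L) (.Y (nat_lit 77474561708915) .L .L)) (.X (nat_lit 254768785197061) (.Y (nat_lit 95064410208767) .L .L) (.Y (nat_lit 95064410208767) .L .L))) (.Y (nat_lit 86269377673611) (.X (nat_lit 272572771474163) (.Y (nat_lit 77474561708915) .L .L) (.Y (nat_lit 77474561708915) .L .L)) .L)) .L)))) (.X (nat_lit 139038643500387) .L (.Y (nat_lit 210256669841949) (.X (nat_lit 210256669841949) (.Y (nat_lit 174647696868047) (.X (nat_lit 174647696868047) (.Y (nat_lit 156843312390733) (.X (nat_lit 156843312390733) (.Y (nat_lit 147940757062355) (.X (nat_lit 147940757062355) (.Y (nat_lit 143489873654663) (.X (nat_lit 143489873654663) .L .L) (.X (nat_lit 143489873654663) .L .L)) (.X (nat_lit 152392169458221) (.Y (nat_lit 143489873654663) .L .L) (.Y (nat_lit 143489873654663) .L .L))) (.X (nat_lit 147940757062355) .L (.Y (nat_lit 152392169458221) (.X (nat_lit 152392169458221) .L .L) (.X (nat_lit 152392169458221) .L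 .L)))) (.X (nat_lit 165745444340553) (.Y (nat_lit 147940757062355) (.X (nat_lit 161294022574073) (.Y (nat_lit 143489873654663) .L .L) (.Y (nat_lit 143489873654663) .L .L)) (.X (nat_lit 161294022574073) (.Y (nat_lit 152392169458221) .L .L) (.Y (nat_lit 152392169458221) .L .L))) (.Y (nat_lit 147940757062355) (.X (nat_lit 170196665525931) (.Y (nat_lit 143489873654663) .L .L) (.Y (nat_lit 143489873654663) .L .L)) (.X (nat_lit 170196665525931) (.Y (nat_lit 152392169458221) .L .L) (.Y (nat_lit 152392169458221) .L .L))))) (.X (nat_lit 156843312390733) .L (.Y (nat_lit 165745444340553) (.X (nat_lit 165745444340553) (.Y (nat_lit 161294022574073) (.X (nat_lit 161294022574073) .L .L) (.X (nat_lit 161294022574073) .L .L)) (.X (nat_lit 170196665525931) (.Y (nat_lit 161294022574073) .L .L) .L)) (.X (nat_lit 165745444340553) .L .L)))) (.X (nat_lit 192452523712745) (.Y (nat_lit 156843312390733) (.X (nat_lit 183549935441963) (.Y (nat_lit 147940757062355) (.X (nat_lit 179098897607177) (.Y (nat_lit 143489873654663) .L .L) (.Y (nat_lit 143489873654663)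 .L .L)) (.X (nat_lit 179098897607177) (.Y (nat_lit 152392169458221) .L .L) .L)) (.Y (nat_lit 147940757062355) (.X (nat_lit 188001364356125) (.Y (nat_lit 143489873654663) .L .L) .L) .L)) .L) .L)) (.X (nat_lit 174647696868047) .L .L)) .L) .L)))
    (nat_lit 68679748288512) (nat_lit 281474976710656) (nat_lit 68679748288512) (nat_lit 281474976710656) = true := by
  decide +kernel

theorem cM7m_0 : chk true SM7 (nat_lit 422212465065984) FS PSm PM7m AM7m HM7m
    (.Y (nat_lit 139038643500387) (.X (nat_lit 351844899895973) (.X (nat_lit 316660049597371) (.Y (nat_lit 103859012916201) (.X (nat_lit 299068103576911) (.Y (nat_lit 86269377673611) (.X (nat_lit 290271227798693) (.Y (nat_lit 77474561708915) (.X (nat_lit 285873246671361) (.Y (nat_lit 73077240357527) .L .L) .L) .L) (.Y (nat_lit 77474561708915) (.X (nat_lit 294669233875347) .L .L) .L)) .L) .L) .L) .L) .L) .L)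
    (nat_lit 281474976710656) (nat_lit 422212465065984) (nat_lit 68679748288512) (nat_lit 281474976710656) = true := by
  decide +kernel

end Crest.Agent.R163.Win
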