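import Crest.Agent.R163.WinD0

/-! Row 163, window engine: kernel checks, part 7 (generated). -/

set_option autoImplicit false
set_option maxRecDepth 1000000

namespace Crest.Agent.R163.Win


theorem cM11p_0 : chk true SM11 (nat_lit 281474976710656) FS PSp PM11p AM11p HM11p
    (.Y (nat_lit 196596255409587) (.X (nat_lit 196596255409587) (.Y (nat_lit 154156681379267) (.X (nat_lit 154156681379267) (.Y (nat_lit 132937287685617) (.X (nat_lit 132937287685617) (.Y (nat_lit 122327453892383) (.X (nat_lit 122327453892383) .L (.X (nat_lit 127632056785561) .L .L)) (.X (nat_lit 122327453892383) .L (.Y (nat_lit 127632056785561) .L .L))) (.X (nat_lit 143547243652073) (.Y (nat_lit 122327453892383) (.X (nat_lit 138242356105745) .L .L) (.X (nat_lit 138242356105745) .L .L)) (.Y (nat_lit 122327453892383) (.X (nat_lit 148851739859877) .L .L) (.X (nat_lit 148851739859877) .L .L)))) (.X (nat_lit 132937287685617) .L (.Y (nat_lit 143547243652073) (.X (nat_lit 143547243652073) (.Y (nat_lit 138242356105745) .L .L) (.X (nat_lit 148851739859877) .L .L)) (.X (nat_lit 143547243652073)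 .L (.Y (nat_lit 148851739859877) (.X (nat_lit 148851739859877) .L .L) (.X (nat_lit 148851739859877) .L .L)))))) (.X (nat_lit 175376701501749) (.Y (nat_lit 132937287685617) (.X (nat_lit 164766964665883) (.Y (nat_lit 122327453892383) (.X (nat_lit 159461646856717) .L .L) (.X (nat_lit 159461646856717) .L .L)) (.Y (nat_lit 122327453892383) (.X (nat_lit 170071841589043) .L .L) (.X (nat_lit 170071841589043) .L .L))) (.X (nat_lit 164766964665883) (.Y (nat_lit 143547243652073) (.X (nat_lit 159461646856717) (.Y (nat_lit 138242356105745) .L .L) (.Y (nat_lit 138242356105745) .L .L)) (.X (nat_lit 159461646856717) (.Y (nat_lit 148851739859877) .L .L) (.Y (nat_lit 148851739859877) .L .L))) (.Y (nat_lit 143547243652073) (.X (nat_lit 170071841589043) (.Y (nat_lit 138242356105745) .L .L) (.Y (nat_lit 138242356105745) .L .L)) (.X (nat_lit 170071841589043) (.Y (nat_lit 148851739859877) .L .L) (.Y (nat_lit 148851739859877) .L .L))))) (.Y (nat_lit 132937287685617) (.X (nat_lit 185986321880255) (.Y (nat_lit 122327453892383) (.X (nat_lit 180681507506469) .L .L) (.X (nat_lit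 180681507506469) (.Y (nat_lit 127632056785561) .L .L) (.Y (nat_lit 127632056785561) .L .L))) (.Y (nat_lit 122327453892383) (.X (nat_lit 191291513067629) .L .L) (.X (nat_lit 191291513067629) (.Y (nat_lit 127632056785561) .L .L) (.Y (nat_lit 127632056785561) .L .L)))) (.X (nat_lit 185986321880255) (.Y (nat_lit 143547243652073) (.X (nat_lit 180681507506469) (.Y (nat_lit 138242356105745) .L .L) (.Y (nat_lit 138242356105745) .L .L)) (.X (nat_lit 180681507506469) (.Y (nat_lit 148851739859877) .L .L) (.Y (nat_lit 148851739859877) .L .L))) (.Y (nat_lit 143547243652073) (.X (nat_lit 191291513067629) (.Y (nat_lit 138242356105745) .L .L) (.Y (nat_lit 138242356105745) .L .L)) (.X (nat_lit 191291513067629) (.Y (nat_lit 148851739859877) .L .L) (.Y (nat_lit 148851739859877) .L .L))))))) (.X (nat_lit 154156681379267) .L (.Y (nat_lit 175376701501749) (.X (nat_lit 175376701501749) (.Y (nat_lit 164766964665883) (.X (nat_lit 164766964665883) (.Y (nat_lit 159461646856717) (.X (nat_lit 159461646856717) .L .L) (.X (nat_lit 159461646856717) .L .L)) (.X (nat_lit 170071841589043)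 (.Y (nat_lit 159461646856717) .L .L) (.Y (nat_lit 159461646856717) .L .L))) (.X (nat_lit 164766964665883) .L (.Y (nat_lit 170071841589043) (.X (nat_lit 170071841589043) .L .L) (.X (nat_lit 170071841589043) .L (.Y (nat_lit 172724483066731) .L .L))))) (.X (nat_lit 185986321880255) (.Y (nat_lit 164766964665883) (.X (nat_lit 180681507506469) (.Y (nat_lit 159461646856717) .L .L) (.Y (nat_lit 159461646856717) .L .L)) (.X (nat_lit 180681507506469) (.Y (nat_lit 170071841589043) (.X (nat_lit 178029430261565) .L .L) (.X (nat_lit 178029430261565) .L .L)) (.Y (nat_lit 170071841589043) (.X (nat_lit 183334077054027) .L .L) (.X (nat_lit 183334077054027) .L .L)))) (.Y (nat_lit 164766964665883) (.X (nat_lit 191291513067629) (.Y (nat_lit 159461646856717) .L (.X (nat_lit 188639329157861) .L .L)) (.Y (nat_lit 159461646856717) .L (.X (nat_lit 193944002054237) .L .L))) (.X (nat_lit 191291513067629) (.Y (nat_lit 170071841589043) (.X (nat_lit 188639329157861) .L .L) (.X (nat_lit 188639329157861) .L .L)) (.Y (nat_lit 170071841589043) (.X (nat_lit 193944002054237) .L .L)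 (.X (nat_lit 193944002054237) .L .L)))))) (.X (nat_lit 175376701501749) .L (.Y (nat_lit 185986321880255) (.X (nat_lit 185986321880255) (.Y (nat_lit 180681507506469) (.X (nat_lit 180681507506469) (.Y (nat_lit 178029430261565) .L .L) (.X (nat_lit 183334077054027) .L .L)) (.X (nat_lit 180681507506469) .L (.Y (nat_lit 183334077054027) .L .L))) (.X (nat_lit 191291513067629) (.Y (nat_lit 180681507506469) (.X (nat_lit 188639329157861) .L .L) .L) .L)) (.X (nat_lit 185986321880255) .L .L)))))) (.X (nat_lit 239036246245767) (.Y (nat_lit 154156681379267) (.X (nat_lit 217816302430783) (.Y (nat_lit 132937287685617) (.X (nat_lit 207206560971289) (.Y (nat_lit 122327453892383) (.X (nat_lit 201901463942947) .L .L) (.X (nat_lit 201901463942947) (.Y (nat_lit 127632056785561) .L .L) (.Y (nat_lit 127632056785561) .L .L))) (.Y (nat_lit 122327453892383) (.X (nat_lit 212511261073739) .L (.Y (nat_lit 117022477548993) .L .L)) (.X (nat_lit 212511261073739) (.Y (nat_lit 127632056785561) .L .L) (.Y (nat_lit 127632056785561) .L .L)))) (.X (nat_lit 207206560971289) (.Y (nat_lit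 143547243652073) (.X (nat_lit 201901463942947) (.Y (nat_lit 138242356105745) .L .L) (.Y (nat_lit 138242356105745) .L .L)) (.X (nat_lit 201901463942947) (.Y (nat_lit 148851739859877) .L .L) (.Y (nat_lit 148851739859877) .L .L))) (.Y (nat_lit 143547243652073) (.X (nat_lit 212511261073739) (.Y (nat_lit 138242356105745) .L .L) (.Y (nat_lit 138242356105745) .L .L)) (.X (nat_lit 212511261073739) (.Y (nat_lit 148851739859877) .L .L) (.Y (nat_lit 148851739859877) .L .L))))) (.Y (nat_lit 132937287685617) (.X (nat_lit 228426363425713) (.Y (nat_lit 122327453892383) (.X (nat_lit 223120987026511) (.Y (nat_lit 117022477548993) .L .L) (.Y (nat_lit 117022477548993) .L .L)) (.X (nat_lit 223120987026511) (.Y (nat_lit 127632056785561) .L .L) (.Y (nat_lit 127632056785561) .L .L))) (.Y (nat_lit 122327453892383) (.X (nat_lit 233730869040083) (.Y (nat_lit 117022477548993) .L .L) (.Y (nat_lit 117022477548993) .L .L)) (.X (nat_lit 233730869040083) (.Y (nat_lit 127632056785561) .L .L) (.Y (nat_lit 127632056785561) .L .L)))) (.X (nat_lit 228426363425713) (.Y (nat_lit 143547243652073)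 (.X (nat_lit 223120987026511) (.Y (nat_lit 138242356105745) .L .L) (.Y (nat_lit 138242356105745) .L .L)) (.X (nat_lit 223120987026511) (.Y (nat_lit 148851739859877) .L .L) (.Y (nat_lit 148851739859877) .L .L))) (.Y (nat_lit 143547243652073) (.X (nat_lit 233730869040083) (.Y (nat_lit 138242356105745) .L .L) (.Y (nat_lit 138242356105745) .L .L)) .L)))) (.X (nat_lit 217816302430783) (.Y (nat_lit 175376701501749) (.X (nat_lit 207206560971289) (.Y (nat_lit 164766964665883) (.X (nat_lit 201901463942947) (.Y (nat_lit 159461646856717) .L (.X (nat_lit 199249236951285) .L .L)) (.Y (nat_lit 159461646856717) .L (.X (nat_lit 204553576068331) .L .L))) (.X (nat_lit 201901463942947) (.Y (nat_lit 170071841589043) (.X (nat_lit 199249236951285) .L .L) .L) .L)) (.Y (nat_lit 164766964665883) (.X (nat_lit 212511261073739) (.Y (nat_lit 159461646856717) .L .L) (.Y (nat_lit 159461646856717) .L .L)) .L)) .L) .L)) (.Y (nat_lit 154156681379267) (.X (nat_lit 260255678040001) (.Y (nat_lit 132937287685617) (.X (nat_lit 249645613797015) (.Y (nat_lit 122327453892383) (.X (nat_lit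 244340984347583) (.Y (nat_lit 117022477548993) .L .L) (.Y (nat_lit 117022477548993) .L .L)) (.X (nat_lit 244340984347583) (.Y (nat_lit 127632056785561) .L .L) (.Y (nat_lit 127632056785561) .L .L))) (.Y (nat_lit 122327453892383) (.X (nat_lit 254950333846953) (.Y (nat_lit 117022477548993) .L .L) (.Y (nat_lit 117022477548993) .L .L)) (.X (nat_lit 254950333846953) (.Y (nat_lit 127632056785561) .L .L) (.Y (nat_lit 127632056785561) .L .L)))) (.X (nat_lit 249645613797015) (.Y (nat_lit 143547243652073) (.X (nat_lit 244340984347583) (.Y (nat_lit 138242356105745) .L .L) .L) .L) .L)) (.Y (nat_lit 132937287685617) (.X (nat_lit 270865408724417) (.Y (nat_lit 122327453892383) (.X (nat_lit 265561042963995) (.Y (nat_lit 117022477548993) .L .L) (.Y (nat_lit 117022477548993) .L .L)) .L) (.Y (nat_lit 122327453892383) (.X (nat_lit 276170705064391) (.Y (nat_lit 117022477548993) .L .L) (.Y (nat_lit 117022477548993) .L .L)) .L)) .L)) .L))) (.X (nat_lit 196596255409587) .L .L))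
    (nat_lit 111717199642624) (nat_lit 281474976710656) (nat_lit 111717199642624) (nat_lit 281474976710656) = true := by
  decide +kernel

theorem cM11m_0 : chk true SM11 (nat_lit 422212465065984) FS PSm PM11m AM11m HM11m
    .L
    (nat_lit 281474976710656) (nat_lit 422212465065984) (nat_lit 111717199642624) (nat_lit 281474976710656) = true := by
  decide +kernel

end Crest.Agent.R163.Win
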