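import Crest.Agent.R163.WinAsm0
import Crest.Agent.R163.WinRows

/-!
Row 163, window engine: the packed rows of the data.
-/

set_option autoImplicit false
set_option maxRecDepth 1000000

namespace Crest.Agent.R163.Win

/-- posterior side rows -/
def rowsB (pos : Bool) : List (List Int) := (wPois ++ wR7 ++ wR11).map fun D => D.rowB pos

/-- message side rows, `ρ = 1` -/
def rowsM1 (pos : Bool) : List (List Int) :=
  wPois.map (fun D => D.rowM pos) ++ pinRows 183 560 pos

theorem pkBp : Packed 10 (rowsB true) PBp ABp HBp :=
  ⟨by decide +kernel, by decide +kernel, by decide +kernel, by decide +kernel, by decide +kernel⟩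

theorem pkBm : Packed 9 (rowsB false) PBm ABm HBm :=
  ⟨by decide +kernel, by decide +kernel, by decide +kernel, by decide +kernel, by decide +kernel⟩

theorem pkM1p : Packed 10 (rowsM1 true) PM1p AM1p HM1p :=
  ⟨by decide +kernel, by decide +kernel, by decide +kernel, by decide +kernel, by decide +kernel⟩

theorem pkM1m : Packed 9 (rowsM1 false) PM1m AM1m HM1m :=
  ⟨by decide +kernel, by decide +kernel, by decide +kernel, by decide +kernel, by decide +kernel⟩

theorem pkM7p : Packed 10 (grpM7 true) PM7p AM7p HM7p :=
  ⟨by decide +kernel, by decide +kernel, by decide +kernel, by decide +kernel, by decide +kernel⟩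

theorem pkM7m : Packed 9 (grpM7 false) PM7m AM7m HM7m :=
  ⟨by decide +kernel, by decide +kernel, by decide +kernel, by decide +kernel, by decide +kernel⟩

theorem pkM11p : Packed 10 (grpM11 true) PM11p AM11p HM11p :=
  ⟨by decide +kernel, by decide +kernel, by decide +kernel, by decide +kernel, by decide +kernel⟩

theorem pkM11m : Packed 9 (grpM11 false) PM11m AM11m HM11m :=
  ⟨by decide +kernel, by decide +kernel, by decide +kernel, by decide +kernel, by decide +kernel⟩

end Crest.Agent.R163.Win
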