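import Crest.Agent.R163.WinLeaf2
import Crest.Agent.R163.WinPk
import Crest.Agent.R163.WinD1
import Crest.Agent.R163.WinD2
import Crest.Agent.R163.WinD3
import Crest.Agent.R163.WinD4
import Crest.Agent.R163.WinD5
import Crest.Agent.R163.WinD6
import Crest.Agent.R163.WinD7

/-!
Row 163, window engine: assembly of the kernel checks (generated).
-/

set_option autoImplicit false
set_option maxRecDepth 100000

namespace Crest.Agent.R163.Win

lemma PSp_ok : ∀ p ∈ PSp, p.j = 0 ∨ (p.j = 1 ∧ 281474976710656 ≤ 281474976710656) := by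
  unfold PSp; decide

lemma PSm_ok : ∀ p ∈ PSm, p.j = 0 ∨ (p.j = 1 ∧ 422212465065984 ≤ 281474976710656) := by
  unfold PSm; decide

lemma SB_le : ((SB : Nat) : ℝ) ≤ 3 * 2 ^ 96 * ((9 / 100 : ℚ) : ℝ) := by
  unfold SB; push_cast; norm_num

lemma tBp (CFs : CellFacts) {t : Tr} {X0 X1 Y0 Y1 : Nat}
    (h : chk false SB (nat_lit 281474976710656) FS PSp PBp ABp HBp t X0 X1 Y0 Y1 = true) :
    Good false true (9 / 100) (rowsB true) X0 X1 Y0 Y1 :=
  tree_good CFs pkBp SB_le FS_ok PSp_ok (by norm_num) (evalL_p false) h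

theorem rBp (CFs : CellFacts) : Good false true (9 / 100) (rowsB true)
    (nat_lit 0) (nat_lit 281474976710656) (nat_lit 0) (nat_lit 281474976710656) :=
  (Good.splitY (nat_lit 70368900064303) (Good.splitX (nat_lit 70368900064303) (Good.splitY (nat_lit 17592208417917) (Good.splitX (nat_lit 17592208417917) (tBp CFs cBp_0)
    (tBp CFs cBp_1))
    (tBp CFs cBp_2))
    (Good.splitX (nat_lit 175922061124267) (Good.splitX (nat_lit 123145539196135) (tBp CFs cBp_3)
    (tBp CFs cBp_4))
    (Good.splitY (nat_lit 17592208417917) (tBp CFs cBp_5)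
    (tBp CFs cBp_6))))
    (Good.splitY (nat_lit 175922061124267) (Good.splitY (nat_lit 123145539196135) (Good.splitX (nat_lit 70368900064303) (tBp CFs cBp_7)
    (Good.splitX (nat_lit 175922061124267) (tBp CFs cBp_8)
    (tBp CFs cBp_9)))
    (Good.splitX (nat_lit 70368900064303) (tBp CFs cBp_10)
    (Good.splitX (nat_lit 175922061124267) (tBp CFs cBp_11)
    (Good.splitX (nat_lit 228698491831029) (tBp CFs cBp_12)
    (tBp CFs cBp_13)))))
    (Good.splitX (nat_lit 70368900064303) (tBp CFs cBp_14)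
    (Good.splitX (nat_lit 175922061124267) (tBp CFs cBp_15)
    (Good.splitY (nat_lit 228698491831029) (Good.splitX (nat_lit 228698491831029) (tBp CFs cBp_16)
    (tBp CFs cBp_17))
    (tBp CFs cBp_18))))))

theorem outBp (CFs : CellFacts) : ∀ w ∈ rowsB true, OutOK false true (0) (9 / 100) w :=
  outOK_of_good_pos (Z := 0) (by norm_num) (rBp CFs)

lemma tBm (CFs : CellFacts) {t : Tr} {X0 X1 Y0 Y1 : Nat}
    (h : chk false SB (nat_lit 422212465065984) FS PSm PBm ABm HBm t X0 X1 Y0 Y1 = true) :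
    Good false false (9 / 100) (rowsB false) X0 X1 Y0 Y1 :=
  tree_good CFs pkBm SB_le FS_ok PSm_ok (by norm_num) (evalL_m false) h

theorem rBm (CFs : CellFacts) : Good false false (9 / 100) (rowsB false)
    (nat_lit 281474976710656) (nat_lit 422212465065984) (nat_lit 0) (nat_lit 281474976710656) :=
  (Good.splitX (nat_lit 351844899895973) (Good.splitY (nat_lit 70368900064303) (tBm CFs cBm_0)
    (Good.splitY (nat_lit 175922061124267) (Good.splitY (nat_lit 123145539196135) (tBm CFs cBm_1)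
    (tBm CFs cBm_2))
    (tBm CFs cBm_3)))
    (Good.splitY (nat_lit 70368900064303) (Good.splitY (nat_lit 17592208417917) (Good.splitY (nat_lit 4398056427309) (tBm CFs cBm_4)
    (tBm CFs cBm_5))
    (tBm CFs cBm_6))
    (tBm CFs cBm_7)))

theorem outBm (CFs : CellFacts) : ∀ w ∈ rowsB false, OutOK false false (0) (9 / 100) w :=
  outOK_of_good_neg (Z := 0) (by norm_num) (rBm CFs)

lemma SM1_le : ((SM1 : Nat) : ℝ) ≤ 3 * 2 ^ 96 * ((43 / 100 : ℚ) : ℝ) := by
  unfold SM1; push_cast; norm_num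

lemma tM1p (CFs : CellFacts) {t : Tr} {X0 X1 Y0 Y1 : Nat}
    (h : chk true SM1 (nat_lit 281474976710656) FS PSp PM1p AM1p HM1p t X0 X1 Y0 Y1 = true) :
    Good true true (43 / 100) (rowsM1 true) X0 X1 Y0 Y1 :=
  tree_good CFs pkM1p SM1_le FS_ok PSp_ok (by norm_num) (evalL_p true) h

theorem rM1p (CFs : CellFacts) : Good true true (43 / 100) (rowsM1 true)
    (nat_lit 0) (nat_lit 281474976710656) (nat_lit 0) (nat_lit 281474976710656) :=
  (Good.splitY (nat_lit 70368900064303) (Good.splitX (nat_lit 70368900064303) (Good.splitY (nat_lit 17592208417917) (Good.splitX (nat_lit 17592208417917) (tM1p CFs cM1p_0)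
    (tM1p CFs cM1p_1))
    (tM1p CFs cM1p_2))
    (Good.splitX (nat_lit 175922061124267) (tM1p CFs cM1p_3)
    (tM1p CFs cM1p_4)))
    (tM1p CFs cM1p_5))

theorem outM1p (CFs : CellFacts) : ∀ w ∈ rowsM1 true, OutOK true true (0) (43 / 100) w :=
  outOK_of_good_pos (Z := 0) (by norm_num) (rM1p CFs)

lemma tM1m (CFs : CellFacts) {t : Tr} {X0 X1 Y0 Y1 : Nat}
    (h : chk true SM1 (nat_lit 422212465065984) FS PSm PM1m AM1m HM1m t X0 X1 Y0 Y1 = true) :
    Good true false (43 / 100) (rowsM1 false) X0 X1 Y0 Y1 :=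
  tree_good CFs pkM1m SM1_le FS_ok PSm_ok (by norm_num) (evalL_m true) h

theorem rM1m (CFs : CellFacts) : Good true false (43 / 100) (rowsM1 false)
    (nat_lit 281474976710656) (nat_lit 422212465065984) (nat_lit 0) (nat_lit 281474976710656) :=
  (tM1m CFs cM1m_0)

theorem outM1m (CFs : CellFacts) : ∀ w ∈ rowsM1 false, OutOK true false (0) (43 / 100) w :=
  outOK_of_good_neg (Z := 0) (by norm_num) (rM1m CFs)

lemma SM7_le : ((SM7 : Nat) : ℝ) ≤ 3 * 2 ^ 96 * ((9 / 25 : ℚ) : ℝ) := by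
  unfold SM7; push_cast; norm_num

lemma tM7p (CFs : CellFacts) {t : Tr} {X0 X1 Y0 Y1 : Nat}
    (h : chk true SM7 (nat_lit 281474976710656) FS PSp PM7p AM7p HM7p t X0 X1 Y0 Y1 = true) :
    Good true true (9 / 25) (grpM7 true) X0 X1 Y0 Y1 :=
  tree_good CFs pkM7p SM7_le FS_ok PSp_ok (by norm_num) (evalL_p true) h

theorem rM7p (CFs : CellFacts) : Good true true (9 / 25) (grpM7 true)
    (nat_lit 68679748288512) (nat_lit 281474976710656) (nat_lit 68679748288512) (nat_lit 281474976710656) :=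
  (tM7p CFs cM7p_0)

theorem outM7p (CFs : CellFacts) : ∀ w ∈ grpM7 true, OutOK true true (61 / 250) (9 / 25) w :=
  outOK_of_good_pos (Z := 68679748288512) (by norm_num) (rM7p CFs)

lemma tM7m (CFs : CellFacts) {t : Tr} {X0 X1 Y0 Y1 : Nat}
    (h : chk true SM7 (nat_lit 422212465065984) FS PSm PM7m AM7m HM7m t X0 X1 Y0 Y1 = true) :
    Good true false (9 / 25) (grpM7 false) X0 X1 Y0 Y1 :=
  tree_good CFs pkM7m SM7_le FS_ok PSm_ok (by norm_num) (evalL_m true) h

theorem rM7m (CFs : CellFacts) : Good true false (9 / 25) (grpM7 false)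
    (nat_lit 281474976710656) (nat_lit 422212465065984) (nat_lit 68679748288512) (nat_lit 281474976710656) :=
  (tM7m CFs cM7m_0)

theorem outM7m (CFs : CellFacts) : ∀ w ∈ grpM7 false, OutOK true false (61 / 250) (9 / 25) w :=
  outOK_of_good_neg (Z := 68679748288512) (by norm_num) (rM7m CFs)

lemma SM11_le : ((SM11 : Nat) : ℝ) ≤ 3 * 2 ^ 96 * ((1 / 4 : ℚ) : ℝ) := by
  unfold SM11; push_cast; norm_num

lemma tM11p (CFs : CellFacts) {t : Tr} {X0 X1 Y0 Y1 : Nat}
    (h : chk true SM11 (nat_lit 281474976710656) FS PSp PM11p AM11p HM11p t X0 X1 Y0 Y1 = true) :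
    Good true true (1 / 4) (grpM11 true) X0 X1 Y0 Y1 :=
  tree_good CFs pkM11p SM11_le FS_ok PSp_ok (by norm_num) (evalL_p true) h

theorem rM11p (CFs : CellFacts) : Good true true (1 / 4) (grpM11 true)
    (nat_lit 111717199642624) (nat_lit 281474976710656) (nat_lit 111717199642624) (nat_lit 281474976710656) :=
  (tM11p CFs cM11p_0)

theorem outM11p (CFs : CellFacts) : ∀ w ∈ grpM11 true, OutOK true true (3969 / 10000) (1 / 4) w :=
  outOK_of_good_pos (Z := 111717199642624) (by norm_num) (rM11p CFs)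

lemma tM11m (CFs : CellFacts) {t : Tr} {X0 X1 Y0 Y1 : Nat}
    (h : chk true SM11 (nat_lit 422212465065984) FS PSm PM11m AM11m HM11m t X0 X1 Y0 Y1 = true) :
    Good true false (1 / 4) (grpM11 false) X0 X1 Y0 Y1 :=
  tree_good CFs pkM11m SM11_le FS_ok PSm_ok (by norm_num) (evalL_m true) h

theorem rM11m (CFs : CellFacts) : Good true false (1 / 4) (grpM11 false)
    (nat_lit 281474976710656) (nat_lit 422212465065984) (nat_lit 111717199642624) (nat_lit 281474976710656) :=
  (tM11m CFs cM11m_0)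

theorem outM11m (CFs : CellFacts) : ∀ w ∈ grpM11 false, OutOK true false (3969 / 10000) (1 / 4) w :=
  outOK_of_good_neg (Z := 111717199642624) (by norm_num) (rM11m CFs)

end Crest.Agent.R163.Win
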