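import Crest.Agent.R163.WinLeaf
import Crest.Agent.R163.WinD0

/-!
Row 163, window engine: the basis functions of the data.
-/

set_option autoImplicit false

namespace Crest.Agent.R163.Win

open Set Crest.Agent.R163.Bern

lemma arg_A1 (side : Bool) (x y : ℝ) : aff (A1 side) x y = arg side (3 - x - y) := by
  cases side
  · simp only [aff, A1, arg, Bool.false_eq_true, if_false]; ring
  · simp only [aff, A1, arg, if_true]; ring

lemma arg_A2 (side : Bool) (x y : ℝ) : aff (A2 side) x y = arg side x := by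
  cases side
  · simp only [aff, A2, arg, Bool.false_eq_true, if_false]; ring
  · simp only [aff, A2, arg, if_true]; ring

lemma arg_A3 (side : Bool) (x y : ℝ) : aff (A3 side) x y = arg side y := by
  cases side
  · simp only [aff, A3, arg, Bool.false_eq_true, if_false]; ring
  · simp only [aff, A3, arg, if_true]; ring

lemma evalL_p (side : Bool) (x y : ℝ) :
    evalL (gsL side FS PSp) x y = basis side true (3 - x - y) x y := by
  have e0 : (⟨0, 0, 513⟩ : Fn).x = 1 / 2 ∧ (⟨0, 0, 513⟩ : Fn).t = 0 := by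
    constructor <;> norm_num [Fn.x, Fn.t]
  have e1 : (⟨0, 10, 725⟩ : Fn).x = 1 / 2 ∧ (⟨0, 10, 725⟩ : Fn).t = 1 / 2 := by
    constructor <;> norm_num [Fn.x, Fn.t]
  have e2 : (⟨0, 30, 1620⟩ : Fn).x = 1 / 2 ∧ (⟨0, 30, 1620⟩ : Fn).t = 3 / 2 := by
    constructor <;> norm_num [Fn.x, Fn.t]
  have e3 : (⟨1, 10, 683⟩ : Fn).x = 1 / 6 ∧ (⟨1, 10, 683⟩ : Fn).t = 1 / 2 := by
    constructor <;> norm_num [Fn.x, Fn.t]
  have e4 : (⟨2, 10, 616⟩ : Fn).x = 1 / 3 ∧ (⟨2, 10, 616⟩ : Fn).t = 1 / 2 := by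
    constructor <;> norm_num [Fn.x, Fn.t]
  simp only [evalL, gsL, FS, PSp, List.map_cons, List.map_nil, List.cons_append, List.nil_append,
    basis, basF, basP, if_true, Po.R, arg_A1, arg_A2, arg_A3, e0, e1, e2, e3, e4, pow_zero, pow_one,
    mul_one, div_one]

lemma evalL_m (side : Bool) (x y : ℝ) :
    evalL (gsL side FS PSm) x y = basis side false (3 - x - y) x y := by
  have e0 : (⟨0, 0, 513⟩ : Fn).x = 1 / 2 ∧ (⟨0, 0, 513⟩ : Fn).t = 0 := by
    constructor <;> norm_num [Fn.x, Fn.t]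
  have e1 : (⟨0, 10, 725⟩ : Fn).x = 1 / 2 ∧ (⟨0, 10, 725⟩ : Fn).t = 1 / 2 := by
    constructor <;> norm_num [Fn.x, Fn.t]
  have e2 : (⟨0, 30, 1620⟩ : Fn).x = 1 / 2 ∧ (⟨0, 30, 1620⟩ : Fn).t = 3 / 2 := by
    constructor <;> norm_num [Fn.x, Fn.t]
  have e3 : (⟨1, 10, 683⟩ : Fn).x = 1 / 6 ∧ (⟨1, 10, 683⟩ : Fn).t = 1 / 2 := by
    constructor <;> norm_num [Fn.x, Fn.t]
  have e4 : (⟨2, 10, 616⟩ : Fn).x = 1 / 3 ∧ (⟨2, 10, 616⟩ : Fn).t = 1 / 2 := by
    constructor <;> norm_num [Fn.x, Fn.t]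
  simp only [evalL, gsL, FS, PSm, List.map_cons, List.map_nil, List.cons_append, List.nil_append,
    basis, basF, basP, Bool.false_eq_true, if_false, Po.R, arg_A1, arg_A2, arg_A3, e0, e1, e2, e3,
    e4, pow_zero, pow_one, mul_one, div_one]

lemma FS_ok : ∀ f ∈ FS, gOK f := by
  unfold FS
  decide +kernel

end Crest.Agent.R163.Win
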