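import Crest.Agent.R163.WinLeaf2

/-!
Row 163, window engine: the facts about the arguments on a cell.
-/

set_option autoImplicit false

namespace Crest.Agent.R163.Win

open Set Crest.Agent.R163.Bern

lemma dom_iff {lo hi : Nat} (h : dom lo hi = true) :
    (lo = 0 ∨ 8192 ≤ lo) ∧ 8192 ≤ hi ∧ hi ≤ 2 ^ 50 := by
  unfold dom at h
  rw [band_iff, band_iff, bor_eq] at h
  obtain ⟨h1, h2, h3⟩ := h
  refine ⟨?_, Nat.le_of_ble_eq_true h2, ?_⟩
  · rcases h1 with h | h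
    · exact Or.inl (Nat.eq_of_beq_eq_true h)
    · exact Or.inr (Nat.le_of_ble_eq_true h)
  · have := Nat.le_of_ble_eq_true h3
    norm_num
    exact this

lemma us_spec {d lo : Nat} (hlo : 0 < lo) : (d : ℝ) ≤ ((us d lo : Nat) : ℝ) / 2 ^ 20 * lo := by
  have h : us d lo = d * 1048576 / lo + 1 := rfl
  rw [h]
  have h1 := Nat.lt_div_mul_add hlo (a := d * 1048576)
  have h2 : ((d * 1048576 : ℕ) : ℝ) < ((d * 1048576 / lo : ℕ) : ℝ) * lo + lo := by exact_mod_cast h1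
  have h3 : (0 : ℝ) < 2 ^ 20 := by positivity
  rw [div_mul_eq_mul_div, le_div_iff₀ h3]
  push_cast at h2 ⊢
  have : (d : ℝ) * 2 ^ 20 = d * 1048576 := by norm_num
  rw [this]
  nlinarith

/-- one argument -/
lemma CF_of {side : Bool} {p : ℝ × ℝ × ℝ} {x0 x1 y0 y1 : ℝ} {lo hi dX dY ux uy : Nat}
    (hd : dom lo hi = true)
    (hlo : ∀ x ∈ Icc x0 x1, ∀ y ∈ Icc y0 y1, (lo : ℝ) / den side ≤ aff p x y)
    (hhi : ∀ x ∈ Icc x0 x1, ∀ y ∈ Icc y0 y1, aff p x y ≤ (hi : ℝ) / den side)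
    (hx : (|p.2.1| * (x1 - x0) = dX / den side ∧ ux = us dX lo) ∨ |p.2.1| * (x1 - x0) = 0)
    (hy : (|p.2.2| * (y1 - y0) = dY / den side ∧ uy = us dY lo) ∨ |p.2.2| * (y1 - y0) = 0) :
    CF p x0 x1 y0 y1 (Nat.ble 1 lo) (sqU side hi) ux uy := by
  obtain ⟨d1, d2, d3⟩ := dom_iff hd
  have hden := den_pos side
  refine ⟨?_, ?_, ?_⟩
  · intro hk x hx' y hy'
    have h1 : 1 ≤ lo := Nat.le_of_ble_eq_true hk
    have hl : (0 : ℝ) < lo := by exact_mod_cast h1
    have ha : 0 < aff p x y := lt_of_lt_of_le (div_pos hl hden) (hlo x hx' y hy')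
    have step : ∀ d u : Nat, u = us d lo → (d : ℝ) / den side ≤ (u / 2 ^ 20 : ℝ) * aff p x y := by
      intro d u hu
      rw [hu]
      have h2 := us_spec (d := d) (lo := lo) h1
      calc (d : ℝ) / den side ≤ ((us d lo : Nat) : ℝ) / 2 ^ 20 * lo / den side :=
            div_le_div_of_nonneg_right h2 hden.le
        _ = ((us d lo : Nat) : ℝ) / 2 ^ 20 * (lo / den side) := by ring
        _ ≤ _ := mul_le_mul_of_nonneg_left (hlo x hx' y hy') (by positivity)
    refine ⟨ha, ?_, ?_⟩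
    · rcases hx with ⟨h, hu⟩ | h
      · rw [h]; exact step _ _ hu
      · rw [h]; positivity
    · rcases hy with ⟨h, hu⟩ | h
      · rw [h]; exact step _ _ hu
      · rw [h]; positivity
  · intro x hx' y hy'
    exact le_trans (by positivity) (hlo x hx' y hy')
  · intro x hx' y hy'
    exact (Real.sqrt_le_sqrt (hhi x hx' y hy')).trans (sqU_spec d2 d3)

lemma nn1 {side : Bool} {X Y : Nat} (h : X + Y ≤ 844424930131968) :
    ((n1 side X Y : Nat) : ℝ) / den side = aff (A1 side) ((X : ℝ) / 2 ^ 48) ((Y : ℝ) / 2 ^ 48) := by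
  cases side
  · have e : n1 false X Y = 844424930131968 - (X + Y) := rfl
    rw [e, Nat.cast_sub h]
    simp only [den, aff, A1, Bool.false_eq_true, if_false]
    push_cast
    field_simp
    ring
  · have e : n1 true X Y = X + Y := rfl
    rw [e]
    simp only [den, aff, A1, if_true]
    push_cast
    ring

lemma nn2 {side : Bool} {X : Nat} (h : X ≤ 844424930131968) (y : ℝ) :
    ((n2 side X : Nat) : ℝ) / den side = aff (A2 side) ((X : ℝ) / 2 ^ 48) y := by
  cases side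
  · have e : n2 false X = X := rfl
    rw [e]
    simp only [den, aff, A2, Bool.false_eq_true, if_false]
    ring
  · have e : n2 true X = 844424930131968 - X := rfl
    rw [e, Nat.cast_sub h]
    simp only [den, aff, A2, if_true]
    push_cast
    field_simp
    ring

lemma nn3 {side : Bool} {Y : Nat} (h : Y ≤ 844424930131968) (x : ℝ) :
    ((n2 side Y : Nat) : ℝ) / den side = aff (A3 side) x ((Y : ℝ) / 2 ^ 48) := by
  cases side
  · have e : n2 false Y = Y := rfl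
    rw [e]
    simp only [den, aff, A3, Bool.false_eq_true, if_false]
    ring
  · have e : n2 true Y = 844424930131968 - Y := rfl
    rw [e, Nat.cast_sub h]
    simp only [den, aff, A3, if_true]
    push_cast
    field_simp
    ring

lemma six_le {a b c a' b' c' : ℝ} (ha : 0 ≤ a) (hb : 0 ≤ b) (hc : 0 ≤ c) (ha' : a ≤ a')
    (hb' : b ≤ b') (hc' : c ≤ c') (pa : 0 < a') (pb : 0 < b') (pc : 0 < c') :
    a ^ (1 / 6 : ℝ) * b ^ (1 / 6 : ℝ) * c ^ (1 / 6 : ℝ) ≤
      Real.exp ((Real.log a' + Real.log b' + Real.log c') / 6) := by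
  have e : Real.exp ((Real.log a' + Real.log b' + Real.log c') / 6) =
      a' ^ (1 / 6 : ℝ) * b' ^ (1 / 6 : ℝ) * c' ^ (1 / 6 : ℝ) := by
    rw [Real.rpow_def_of_pos pa, Real.rpow_def_of_pos pb, Real.rpow_def_of_pos pc,
      ← Real.exp_add, ← Real.exp_add]
    congr 1
    ring
  rw [e]
  have h1 := Real.rpow_le_rpow ha ha' (by norm_num : (0 : ℝ) ≤ 1 / 6)
  have h2 := Real.rpow_le_rpow hb hb' (by norm_num : (0 : ℝ) ≤ 1 / 6)
  have h3 := Real.rpow_le_rpow hc hc' (by norm_num : (0 : ℝ) ≤ 1 / 6)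
  gcongr

theorem cellFacts' : CellFacts := by
  intro side X0 X1 Y0 Y1 hX hY hX1 hY1 d1 d2 d3
  have p48 : (0 : ℝ) < 2 ^ 48 := by positivity
  have hX' : (X0 : ℝ) / 2 ^ 48 < (X1 : ℝ) / 2 ^ 48 :=
    div_lt_div_of_pos_right (by exact_mod_cast hX) (by positivity)
  have hY' : (Y0 : ℝ) / 2 ^ 48 < (Y1 : ℝ) / 2 ^ 48 :=
    div_lt_div_of_pos_right (by exact_mod_cast hY) (by positivity)
  -- the three arguments at the corners
  have E1 : ∀ X Y : Nat, X ≤ X1 → Y ≤ Y1 → ((n1 side X Y : Nat) : ℝ) / den side =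
      aff (A1 side) ((X : ℝ) / 2 ^ 48) ((Y : ℝ) / 2 ^ 48) := fun X Y h1 h2 => nn1 (by omega)
  have E2 : ∀ X : Nat, X ≤ X1 → ∀ y : ℝ, ((n2 side X : Nat) : ℝ) / den side =
      aff (A2 side) ((X : ℝ) / 2 ^ 48) y := fun X h1 y => nn2 (by omega) y
  have E3 : ∀ Y : Nat, Y ≤ Y1 → ∀ x : ℝ, ((n2 side Y : Nat) : ℝ) / den side =
      aff (A3 side) x ((Y : ℝ) / 2 ^ 48) := fun Y h1 x => nn3 (by omega) x
  have q1lo : ∀ x ∈ Icc ((X0 : ℝ) / 2 ^ 48) ((X1 : ℝ) / 2 ^ 48),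
      ∀ y ∈ Icc ((Y0 : ℝ) / 2 ^ 48) ((Y1 : ℝ) / 2 ^ 48),
      ((lo1 side X0 X1 Y0 Y1 : Nat) : ℝ) / den side ≤ aff (A1 side) x y := by
    intro x hx y hy
    cases side
    · have e : lo1 false X0 X1 Y0 Y1 = n1 false X1 Y1 := rfl
      rw [e, E1 X1 Y1 le_rfl le_rfl]
      simp only [aff, A1, Bool.false_eq_true, if_false]
      linarith [hx.2, hy.2]
    · have e : lo1 true X0 X1 Y0 Y1 = n1 true X0 Y0 := rfl
      rw [e, E1 X0 Y0 hX.le hY.le]
      simp only [aff, A1, if_true]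
      linarith [hx.1, hy.1]
  have q1hi : ∀ x ∈ Icc ((X0 : ℝ) / 2 ^ 48) ((X1 : ℝ) / 2 ^ 48),
      ∀ y ∈ Icc ((Y0 : ℝ) / 2 ^ 48) ((Y1 : ℝ) / 2 ^ 48),
      aff (A1 side) x y ≤ ((hi1 side X0 X1 Y0 Y1 : Nat) : ℝ) / den side := by
    intro x hx y hy
    cases side
    · have e : hi1 false X0 X1 Y0 Y1 = n1 false X0 Y0 := rfl
      rw [e, E1 X0 Y0 hX.le hY.le]
      simp only [aff, A1, Bool.false_eq_true, if_false]
      linarith [hx.1, hy.1]
    · have e : hi1 true X0 X1 Y0 Y1 = n1 true X1 Y1 := rfl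
      rw [e, E1 X1 Y1 le_rfl le_rfl]
      simp only [aff, A1, if_true]
      linarith [hx.2, hy.2]
  have q2lo : ∀ x ∈ Icc ((X0 : ℝ) / 2 ^ 48) ((X1 : ℝ) / 2 ^ 48),
      ∀ y ∈ Icc ((Y0 : ℝ) / 2 ^ 48) ((Y1 : ℝ) / 2 ^ 48),
      ((lo2 side X0 X1 : Nat) : ℝ) / den side ≤ aff (A2 side) x y := by
    intro x hx y hy
    cases side
    · have e : lo2 false X0 X1 = n2 false X0 := rfl
      rw [e, E2 X0 hX.le y]
      simp only [aff, A2, Bool.false_eq_true, if_false]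
      linarith [hx.1]
    · have e : lo2 true X0 X1 = n2 true X1 := rfl
      rw [e, E2 X1 le_rfl y]
      simp only [aff, A2, if_true]
      linarith [hx.2]
  have q2hi : ∀ x ∈ Icc ((X0 : ℝ) / 2 ^ 48) ((X1 : ℝ) / 2 ^ 48),
      ∀ y ∈ Icc ((Y0 : ℝ) / 2 ^ 48) ((Y1 : ℝ) / 2 ^ 48),
      aff (A2 side) x y ≤ ((hi2 side X0 X1 : Nat) : ℝ) / den side := by
    intro x hx y hy
    cases side
    · have e : hi2 false X0 X1 = n2 false X1 := rfl
      rw [e, E2 X1 le_rfl y]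
      simp only [aff, A2, Bool.false_eq_true, if_false]
      linarith [hx.2]
    · have e : hi2 true X0 X1 = n2 true X0 := rfl
      rw [e, E2 X0 hX.le y]
      simp only [aff, A2, if_true]
      linarith [hx.1]
  have q3lo : ∀ x ∈ Icc ((X0 : ℝ) / 2 ^ 48) ((X1 : ℝ) / 2 ^ 48),
      ∀ y ∈ Icc ((Y0 : ℝ) / 2 ^ 48) ((Y1 : ℝ) / 2 ^ 48),
      ((lo2 side Y0 Y1 : Nat) : ℝ) / den side ≤ aff (A3 side) x y := by
    intro x hx y hy
    cases side
    · have e : lo2 false Y0 Y1 = n2 false Y0 := rfl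
      rw [e, E3 Y0 hY.le x]
      simp only [aff, A3, Bool.false_eq_true, if_false]
      linarith [hy.1]
    · have e : lo2 true Y0 Y1 = n2 true Y1 := rfl
      rw [e, E3 Y1 le_rfl x]
      simp only [aff, A3, if_true]
      linarith [hy.2]
  have q3hi : ∀ x ∈ Icc ((X0 : ℝ) / 2 ^ 48) ((X1 : ℝ) / 2 ^ 48),
      ∀ y ∈ Icc ((Y0 : ℝ) / 2 ^ 48) ((Y1 : ℝ) / 2 ^ 48),
      aff (A3 side) x y ≤ ((hi2 side Y0 Y1 : Nat) : ℝ) / den side := by
    intro x hx y hy
    cases side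
    · have e : hi2 false Y0 Y1 = n2 false Y1 := rfl
      rw [e, E3 Y1 le_rfl x]
      simp only [aff, A3, Bool.false_eq_true, if_false]
      linarith [hy.2]
    · have e : hi2 true Y0 Y1 = n2 true Y0 := rfl
      rw [e, E3 Y0 hY.le x]
      simp only [aff, A3, if_true]
      linarith [hy.1]
  have dx : ((Nat.sub X1 X0 : Nat) : ℝ) = X1 - X0 := Nat.cast_sub hX.le
  have dy : ((Nat.sub Y1 Y0 : Nat) : ℝ) = Y1 - Y0 := Nat.cast_sub hY.le
  have s1x : |(A1 side).2.1| * ((X1 : ℝ) / 2 ^ 48 - (X0 : ℝ) / 2 ^ 48) =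
      ((Nat.sub X1 X0 : Nat) : ℝ) / den side := by
    rw [dx]
    cases side
    · simp only [A1, den, Bool.false_eq_true, if_false]
      rw [abs_neg, abs_one]; ring
    · simp only [A1, den, if_true]
      rw [abs_of_pos (by norm_num)]; ring
  have s1y : |(A1 side).2.2| * ((Y1 : ℝ) / 2 ^ 48 - (Y0 : ℝ) / 2 ^ 48) =
      ((Nat.sub Y1 Y0 : Nat) : ℝ) / den side := by
    rw [dy]
    cases side
    · simp only [A1, den, Bool.false_eq_true, if_false]
      rw [abs_neg, abs_one]; ring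
    · simp only [A1, den, if_true]
      rw [abs_of_pos (by norm_num)]; ring
  have s2x : |(A2 side).2.1| * ((X1 : ℝ) / 2 ^ 48 - (X0 : ℝ) / 2 ^ 48) =
      ((Nat.sub X1 X0 : Nat) : ℝ) / den side := by
    rw [dx]
    cases side
    · simp only [A2, den, Bool.false_eq_true, if_false]
      rw [abs_one]; ring
    · simp only [A2, den, if_true]
      rw [abs_neg, abs_of_pos (by norm_num)]; ring
  have s2y : |(A2 side).2.2| * ((Y1 : ℝ) / 2 ^ 48 - (Y0 : ℝ) / 2 ^ 48) = 0 := by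
    cases side <;> simp [A2]
  have s3x : |(A3 side).2.1| * ((X1 : ℝ) / 2 ^ 48 - (X0 : ℝ) / 2 ^ 48) = 0 := by
    cases side <;> simp [A3]
  have s3y : |(A3 side).2.2| * ((Y1 : ℝ) / 2 ^ 48 - (Y0 : ℝ) / 2 ^ 48) =
      ((Nat.sub Y1 Y0 : Nat) : ℝ) / den side := by
    rw [dy]
    cases side
    · simp only [A3, den, Bool.false_eq_true, if_false]
      rw [abs_one]; ring
    · simp only [A3, den, if_true]
      rw [abs_neg, abs_of_pos (by norm_num)]; ring
  have c1 := CF_of (side := side) d1 q1lo q1hi (ux := us (Nat.sub X1 X0) (lo1 side X0 X1 Y0 Y1))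
    (uy := us (Nat.sub Y1 Y0) (lo1 side X0 X1 Y0 Y1)) (Or.inl ⟨s1x, rfl⟩) (Or.inl ⟨s1y, rfl⟩)
  have c2 := CF_of (side := side) (dY := 0) d2 q2lo q2hi
    (ux := us (Nat.sub X1 X0) (lo2 side X0 X1)) (uy := 0) (Or.inl ⟨s2x, rfl⟩) (Or.inr s2y)
  have c3 := CF_of (side := side) (dX := 0) d3 q3lo q3hi (ux := 0)
    (uy := us (Nat.sub Y1 Y0) (lo2 side Y0 Y1)) (Or.inr s3x) (Or.inl ⟨s3y, rfl⟩)
  obtain ⟨g1, g1', g1''⟩ := dom_iff d1
  obtain ⟨g2, g2', g2''⟩ := dom_iff d2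
  obtain ⟨g3, g3', g3''⟩ := dom_iff d3
  have hden := den_pos side
  refine ⟨c1, c2, c3, ?_, ?_⟩
  · intro x hx y hy
    refine (six_le (c1.nn x hx y hy) (c2.nn x hx y hy) (c3.nn x hx y hy) (q1hi x hx y hy)
      (q2hi x hx y hy) (q3hi x hx y hy) ?_ ?_ ?_).trans
      (e6U_spec g1' g1'' g2' g2'' g3' g3'')
    · exact div_pos (Nat.cast_pos.mpr (by omega)) hden
    · exact div_pos (Nat.cast_pos.mpr (by omega)) hden
    · exact div_pos (Nat.cast_pos.mpr (by omega)) hden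
  · intro f hf X Y hXc hYc
    have hXl : X ≤ X1 := by rcases hXc with rfl | rfl <;> omega
    have hXg : X0 ≤ X := by rcases hXc with rfl | rfl <;> omega
    have hYl : Y ≤ Y1 := by rcases hYc with rfl | rfl <;> omega
    have hYg : Y0 ≤ Y := by rcases hYc with rfl | rfl <;> omega
    rw [← E1 X Y hXl hYl, ← E2 X hXl, ← E3 Y hYl]
    have l1 : lo1 side X0 X1 Y0 Y1 ≤ n1 side X Y := by
      cases side
      · show 844424930131968 - (X1 + Y1) ≤ 844424930131968 - (X + Y); omega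
      · show X0 + Y0 ≤ X + Y; omega
    have l2 : lo2 side X0 X1 ≤ n2 side X := by
      cases side
      · show X0 ≤ X; omega
      · show 844424930131968 - X1 ≤ 844424930131968 - X; omega
    have l3 : lo2 side Y0 Y1 ≤ n2 side Y := by
      cases side
      · show Y0 ≤ Y; omega
      · show 844424930131968 - Y1 ≤ 844424930131968 - Y; omega
    have u1 : n1 side X Y ≤ 2 ^ 50 := by
      cases side
      · show 844424930131968 - (X + Y) ≤ 2 ^ 50; omega
      · show X + Y ≤ 2 ^ 50; omega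
    have u2 : n2 side X ≤ 2 ^ 50 := by
      cases side
      · show X ≤ 2 ^ 50; omega
      · show 844424930131968 - X ≤ 2 ^ 50; omega
    have u3 : n2 side Y ≤ 2 ^ 50 := by
      cases side
      · show Y ≤ 2 ^ 50; omega
      · show 844424930131968 - Y ≤ 2 ^ 50; omega
    refine fval_spec hf ?_ ?_ ?_ u1 u2 u3
    · intro hk
      have := Nat.le_of_ble_eq_true hk
      rcases g1 with h | h <;> omega
    · intro hk
      have := Nat.le_of_ble_eq_true hk
      rcases g2 with h | h <;> omega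
    · intro hk
      have := Nat.le_of_ble_eq_true hk
      rcases g3 with h | h <;> omega

end Crest.Agent.R163.Win
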