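import Mathlib

/-!
Row 163: kernel-cheap fixed point evaluators (scale `2^44`) for `log`, `exp`, `cos`, `sin`
with error bounds.  In the kernel each evaluation costs about 0.1 ms.
-/

set_option autoImplicit false
set_option exponentiation.threshold 3000

noncomputable section

namespace Crest.Agent.R163.Win

/-- `m - n` as an integer -/
def subI (m n : Nat) : Int :=
  Nat.rec (Int.ofNat (Nat.sub m n)) (fun k _ => Int.negSucc k) (Nat.sub n m)

/-- absolute value -/
def absN (y : Int) : Nat := Int.rec (fun n => n) (fun n => Nat.succ n) y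

/-- `max (y + c) 0` -/
def offN (c : Nat) (y : Int) : Nat := Int.rec (fun n => Nat.add n c) (fun n => Nat.sub c (Nat.succ n)) y

/-! ### exp -/

def exH (r : Nat) : Nat := (Nat.add (Nat.mul (Nat.add (Nat.mul (Nat.add (Nat.mul (Nat.add (Nat.mul (Nat.add (Nat.mul (Nat.add (Nat.mul (Nat.add (Nat.mul (Nat.add r (nat_lit 36893488147419103232)) r) (nat_lit 1190988284223284622121811126011188740096)) r) (nat_lit 32954784110780074010137894471840248684537366083436181192704)) r) (nat_lit 759885585619887532467184589119514395287084274368266201508940395051929913262080)) r) (nat_lit 14017414923230972415717329946737685752080248427965533802777460551333316950435453609525688695521280)) r) (nat_lit 193931749247879077372935900492894349196876841721822120318808006599021911844087833478054591723261694169595122139791360)) r) (nat_lit 1788704673071220082211226558474386158760914286066446788973979787046104498091565201935548288865902524622189018015420672258307808695418880)) r) (nat_lit 8248944331898277512433238036005549863585937956028523269497894247602257166939779878305840632661278476020234444001451378943227486495631190494387889525227520))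

def exD (k E : Nat) : Nat :=
  Nat.shiftRight (Nat.shiftLeft (Nat.shiftRight (Nat.mul E E) (nat_lit 60)) k) (nat_lit 60)

def exC (k E : Nat) : Nat := exD k (Nat.shiftRight (Nat.mul E E) (nat_lit 60))

def exB (k r : Nat) : Nat := exC k (Nat.div (exH r) (nat_lit 7154818692284880328844906233897544635043657144265787155895919148184417992366260807742193155463610098488756072061682689033231234781675520))

def exA (R : Nat) : Nat := exB (Nat.div R (nat_lit 799144290325165979)) (Nat.mod R (nat_lit 799144290325165979))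

/-- `exp`, scale `2^44` -/
def ex (y : Int) : Int := Int.ofNat (exA (Nat.shiftLeft (offN (nat_lit 536534862889210) y) (nat_lit 16)))

/-! ### log -/

def lgH (q : Nat) : Nat := (Nat.add (Nat.mul (Nat.add (Nat.mul (Nat.add (Nat.mul (Nat.add (Nat.mul (Nat.add (Nat.mul (Nat.add (Nat.mul (Nat.add (Nat.mul (Nat.add (Nat.mul (Nat.add (Nat.mul (Nat.add (Nat.mul (nat_lit 692835) q) (nat_lit 1017876276192236103414183813515578064240640)) q) (nat_lit 1512164894625904120395513082498330526363531230560482863403167275407295098388480)) q) (nat_lit 2278013500470552242222731604987156447106563426282054116670080316366125255881391637298040653764275714111182936735744)) q) (nat_lit 3493845368770906925401126711598362763562302298279922387185814173427917923228387583210545989018144896662222502176422685311470897140381052473373433528320)) q) (nat_lit 5488502000225356171329984195186343487026897444693587651070756015121881113863682411620696518036599982148085021652468384339716330400181024023112351039960028059420519253632125624335791554560))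 q) (nat_lit 8916686183314619196934342951055926705687009773843628906379019164964050364393298658057293689042390120220914165688492935797153893677406240198822851799110008554389885592641271721210010933345296705998324225964601727162504970240)) q) (nat_lit 15238682877201868604976758912016081965352342650381455906740915305856526871154185743288312338672081715576781026997564675372347967249377484502722173146245679760418332624257621056159246785533533384017714401871289255834869513043039257915504976843454042916918394880)) q) (nat_lit 28357957458970937123913869884154725592136908666503715567485609075189159885902058680547410539515522827391529352876189703407725122604943539787795611279451264374068001698047240564932219914038095541717350006662331915213189837202292024368751963709198451319526726937324758964196242586817600814927839232)) q) (nat_lit 62823651596236407415280498867712480448496452484824053248168081070242745292937241161423334853919765187031076713271524394521235645181875428148230438568677821353620587042597375029225792651420932787614718788902569619650566987740789040699488990008211086625388540705675559470050332749094564899405516770314834575748580470374629133485342720))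 q) (nat_lit 250520869497465452118842944146937181810588040381271804720404989723511150713145971350520380186474657059846118709437691240185589000090192188166251302695107368511230508843480347281112481118214920227206479280112317595381382144909250550139254348249051206153435022076553045553497016173194986134457782522590574468527938136636821313898165474992354731747328887319397021159260160))

def lgC (L z : Nat) : Int :=
  subI (Nat.shiftRight (Nat.add (Nat.mul L (nat_lit 799144290325165979))
    (Nat.div (Nat.mul z (lgH (Nat.mul z z))) (nat_lit 125260434748732726059421472073468590905294020190635902360202494861755575356572985675260190093237328529923059354718845620092794500045096094083125651347553684255615254421740173640556240559107460113603239640056158797690691072454625275069627174124525603076717511038276522776748508086597493067228891261295287234263969068318410656949082737496177365873664443659698510579630080))) (nat_lit 16)) (nat_lit 499952940419492)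

def lgB (L c a : Nat) : Int :=
  lgC L (Nat.div (Nat.shiftLeft (Nat.sub a c) (nat_lit 60)) (Nat.add a c))

/-- test `c ≤ a ≤ 2 c`, otherwise use the (slow) `Nat.log2` -/
def lgT (L c a : Nat) : Int :=
  Bool.rec (motive := fun _ => Int) (lgB (Nat.log2 a) (Nat.pow 2 (Nat.log2 a)) a) (lgB L c a)
    (Bool.rec (motive := fun _ => Bool) false (Nat.ble a (Nat.mul 2 c)) (Nat.ble c a))

def lgA (L a : Nat) : Int := lgT L (Nat.pow (nat_lit 2) L) a

def h0 (L b a : Nat) : Int :=
  Bool.rec (motive := fun _ => Int) (lgA L a) (lgA (Nat.succ L) a) (Nat.ble (nat_lit 2) b)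
def h1 (L b a : Nat) : Int :=
  Bool.rec (motive := fun _ => Int) (h0 L b a) (h0 (Nat.add L (nat_lit 2)) (Nat.shiftRight b (nat_lit 2)) a)
    (Nat.ble (nat_lit 4) b)
def h2 (L b a : Nat) : Int :=
  Bool.rec (motive := fun _ => Int) (h1 L b a) (h1 (Nat.add L (nat_lit 4)) (Nat.shiftRight b (nat_lit 4)) a)
    (Nat.ble (nat_lit 16) b)
def h3 (L b a : Nat) : Int :=
  Bool.rec (motive := fun _ => Int) (h2 L b a) (h2 (Nat.add L (nat_lit 8)) (Nat.shiftRight b (nat_lit 8)) a)
    (Nat.ble (nat_lit 256) b)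
def h4 (L b a : Nat) : Int :=
  Bool.rec (motive := fun _ => Int) (h3 L b a) (h3 (Nat.add L (nat_lit 16)) (Nat.shiftRight b (nat_lit 16)) a)
    (Nat.ble (nat_lit 65536) b)

/-- `log (a / 2^41)`, scale `2^44` -/
def lg (a : Nat) : Int :=
  Bool.rec (motive := fun _ => Int) (h4 (nat_lit 0) a a) (h4 (nat_lit 32) (Nat.shiftRight a (nat_lit 32)) a)
    (Nat.ble (nat_lit 4294967296) a)

/-! ### cos, sin -/

def coH (Q : Nat) : Nat := (Nat.sub (nat_lit 16521713176740683778669390774903697270865344238941352728019219026243718644937791317077956234943407416579833809660848596745134721954339616119541121171874338543153529325785482218939639075688801897515125837438376406616337507692746597046681600) (Nat.mul Q (Nat.sub (nat_lit 16184317087637352960365711529578107789972968901084646338244003498790861930169546238918758853631040832863529248235976606088160350453730582614714176420317362126147624133391453105773041604192676033331200) (Nat.mul Q (Nat.sub (nat_lit 6341524436144775006678275538463914557529234350580135776845357164940692037713960697485424491489745731453123593046107773687427108338273399053989589054530110095360)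 (Nat.mul Q (Nat.sub (nat_lit 1331147526837441987087832020983226812887362641578587033868298157295686402897818888993366717588468268780100918367527895040) (Nat.mul Q (Nat.sub (nat_lit 173861821989830267428491833990544893641684881975459306905245562387881564154363904) (Nat.mul Q (Nat.sub (nat_lit 15482847694902700087583544638145453621248) Q)))))))))))

def dbl (u : Nat) : Nat :=
  Nat.shiftRight (Nat.mul u (Nat.sub (nat_lit 2305843009213693952) u)) (nat_lit 59)

def coC (Q : Nat) : Nat := Nat.div (Nat.mul Q (coH Q)) (nat_lit 2438174517044561745886253391132604058649519800509707111626624292478737549648919763251068743235193027973597293285335002118519780460396479779061222314299902564221344579853525621287089238736075932064560293352810043231125721477837284517972751108249044453739724800)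

def coB (r : Nat) : Nat := dbl (dbl (dbl (coC (Nat.mul r r))))

/-- `cos`, scale `2^44` -/
def co (y : Int) : Int :=
  subI (nat_lit 17592186044416) (Nat.shiftRight (coB (Nat.mod (Nat.shiftLeft (absN y) (nat_lit 16)) (nat_lit 7244019458077122842))) (nat_lit 16))

/-- `sin`, scale `2^44` -/
def si (y : Int) : Int := co (subI (offN (nat_lit 703687441776640) y) (nat_lit 731321182995501))

/-- `(cos, sin)`, scale `2^44` -/
def cs (y : Int) : Int × Int := (co y, si y)

/-! ### basic facts -/

lemma subI_eq (m n : ℕ) : subI m n = (m : ℤ) - n := by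
  unfold subI
  show Nat.rec (motive := fun _ => Int) (Int.ofNat (m - n)) (fun k _ => Int.negSucc k) (n - m) = _
  rcases le_or_gt n m with h | h
  · have : n - m = 0 := Nat.sub_eq_zero_of_le h
    rw [this]
    show ((m - n : ℕ) : ℤ) = _
    omega
  · obtain ⟨k, hk⟩ : ∃ k, n - m = k + 1 := ⟨n - m - 1, by omega⟩
    rw [hk]
    show Int.negSucc k = _
    omega

lemma absN_eq (y : ℤ) : absN y = y.natAbs := by
  cases y <;> rfl

lemma offN_eq (c : ℕ) (y : ℤ) (h : -(c : ℤ) ≤ y) : ((offN c y : ℕ) : ℤ) = y + c := by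
  cases y with
  | ofNat n => show ((n + c : ℕ) : ℤ) = (n : ℤ) + c; push_cast; ring
  | negSucc n =>
    show ((c - (n + 1) : ℕ) : ℤ) = _
    omega

/-! ### series for the logarithm -/

lemma atanh_series {z : ℝ} (h0 : 0 ≤ z) (h1 : z ≤ 1 / 3) (n : ℕ) :
    0 ≤ Real.log ((1 + z) / (1 - z)) - ∑ k ∈ Finset.range n, 2 * (1 / (2 * (k : ℝ) + 1)) * z ^ (2 * k + 1) ∧
    Real.log ((1 + z) / (1 - z)) - ∑ k ∈ Finset.range n, 2 * (1 / (2 * (k : ℝ) + 1)) * z ^ (2 * k + 1) ≤
      (9 / 4) * (1 / 3) ^ (2 * n + 1) / (2 * n + 1) := by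
  have hs := Real.hasSum_log_sub_log_of_abs_lt_one (x := z) (by rw [abs_of_nonneg h0]; linarith)
  rw [← Real.log_div (by linarith) (by linarith)] at hs
  have h2 := hs.summable.sum_add_tsum_nat_add n
  rw [hs.tsum_eq] at h2
  have h3 : Real.log ((1 + z) / (1 - z)) -
      ∑ k ∈ Finset.range n, 2 * (1 / (2 * (k : ℝ) + 1)) * z ^ (2 * k + 1) =
      ∑' k : ℕ, 2 * (1 / (2 * ((k + n : ℕ) : ℝ) + 1)) * z ^ (2 * (k + n) + 1) := by
    rw [← h2]; ring
  rw [h3]
  have hsum : Summable (fun k : ℕ => 2 * (1 / (2 * ((k + n : ℕ) : ℝ) + 1)) * z ^ (2 * (k + n) + 1)) :=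
    (summable_nat_add_iff n).2 hs.summable
  constructor
  · exact tsum_nonneg fun k => by positivity
  · have hg : HasSum (fun k : ℕ => (2 * (1 / 3) ^ (2 * n + 1) / (2 * (n : ℝ) + 1)) * (1 / 9 : ℝ) ^ k)
        ((2 * (1 / 3) ^ (2 * n + 1) / (2 * (n : ℝ) + 1)) * (1 - 1 / 9)⁻¹) :=
      (hasSum_geometric_of_lt_one (by norm_num) (by norm_num)).mul_left _
    have : ∑' k : ℕ, 2 * (1 / (2 * ((k + n : ℕ) : ℝ) + 1)) * z ^ (2 * (k + n) + 1) ≤
        (2 * (1 / 3) ^ (2 * n + 1) / (2 * (n : ℝ) + 1)) * (1 - 1 / 9)⁻¹ := by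
      rw [← hg.tsum_eq]
      refine hsum.tsum_le_tsum (fun k => ?_) hg.summable
      have e1 : z ^ (2 * (k + n) + 1) ≤ (1 / 3) ^ (2 * (k + n) + 1) :=
        pow_le_pow_left₀ h0 h1 _
      have e2 : ((1 : ℝ) / 3) ^ (2 * (k + n) + 1) = (1 / 3) ^ (2 * n + 1) * (1 / 9) ^ k := by
        rw [show 2 * (k + n) + 1 = (2 * n + 1) + 2 * k by ring, pow_add, pow_mul]; norm_num
      have e3 : 1 / (2 * ((k + n : ℕ) : ℝ) + 1) ≤ 1 / (2 * (n : ℝ) + 1) := by
        apply one_div_le_one_div_of_le (by positivity)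
        push_cast
        have : (0 : ℝ) ≤ k := Nat.cast_nonneg k
        linarith
      calc 2 * (1 / (2 * ((k + n : ℕ) : ℝ) + 1)) * z ^ (2 * (k + n) + 1)
          ≤ 2 * (1 / (2 * (n : ℝ) + 1)) * ((1 / 3) ^ (2 * n + 1) * (1 / 9) ^ k) := by
            rw [← e2]
            gcongr
        _ = _ := by ring
    refine this.trans (le_of_eq ?_)
    ring

lemma log_two_bd : |(799144290325165979 : ℝ) / 2 ^ 60 - Real.log 2| ≤ 1 / 2 ^ 60 := by
  have h := atanh_series (z := 1 / 3) (by norm_num) le_rfl 20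
  rw [show ((1 : ℝ) + 1 / 3) / (1 - 1 / 3) = 2 by norm_num] at h
  simp only [Finset.sum_range_succ, Finset.sum_range_zero] at h
  norm_num at h
  rw [abs_le]
  constructor
  · have := h.2
    norm_num
    linarith
  · have := h.1
    norm_num
    linarith

/-! ### exp -/

lemma exH_eq (r : ℕ) : exH r = (((((((((((((((r + 36893488147419103232) * r) + 1190988284223284622121811126011188740096) * r) + 32954784110780074010137894471840248684537366083436181192704) * r) + 759885585619887532467184589119514395287084274368266201508940395051929913262080) * r) + 14017414923230972415717329946737685752080248427965533802777460551333316950435453609525688695521280) * r) + 193931749247879077372935900492894349196876841721822120318808006599021911844087833478054591723261694169595122139791360) * r) + 1788704673071220082211226558474386158760914286066446788973979787046104498091565201935548288865902524622189018015420672258307808695418880) * r) + 8248944331898277512433238036005549863585937956028523269497894247602257166939779878305840632661278476020234444001451378943227486495631190494387889525227520)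 := rfl

lemma exH_real (r : ℕ) (v : ℝ) (hv : (r : ℝ) = v * 2 ^ 62) : ((exH r : ℕ) : ℝ) =
    40320 * 2 ^ 496 * (1 + v + v ^ 2 / 2 + v ^ 3 / 6 + v ^ 4 / 24 + v ^ 5 / 120 + v ^ 6 / 720 +
      v ^ 7 / 5040 + v ^ 8 / 40320) := by
  rw [exH_eq]
  push_cast
  rw [hv]
  norm_num
  ring

lemma div_bd (a b : ℕ) (hb : 0 < b) : (a : ℝ) / b - 1 < ((a / b : ℕ) : ℝ) ∧ ((a / b : ℕ) : ℝ) ≤ (a : ℝ) / b := by
  refine ⟨?_, Nat.cast_div_le⟩
  have hb' : (0 : ℝ) < b := by exact_mod_cast hb
  have h := Nat.lt_div_mul_add (a := a) (b := b) hb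
  have h' : (a : ℝ) < ((a / b : ℕ) : ℝ) * b + b := by exact_mod_cast h
  rw [sub_lt_iff_lt_add, div_lt_iff₀ hb']
  linarith

lemma shr_bd (a k : ℕ) : (a : ℝ) / 2 ^ k - 1 < ((Nat.shiftRight a k : ℕ) : ℝ) ∧
    ((Nat.shiftRight a k : ℕ) : ℝ) ≤ (a : ℝ) / 2 ^ k := by
  have h1 : Nat.shiftRight a k = a / 2 ^ k := Nat.shiftRight_eq_div_pow a k
  rw [h1]
  have := div_bd a (2 ^ k) (by positivity)
  push_cast at this ⊢
  exact this

/-- Taylor bounds for `exp` on `[0, 1/5]`, relative form -/
lemma exp_taylor {v : ℝ} (h0 : 0 ≤ v) (h1 : v ≤ 1 / 5) :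
    Real.exp v * (1 - v ^ 9 / 300000) ≤ 1 + v + v ^ 2 / 2 + v ^ 3 / 6 + v ^ 4 / 24 + v ^ 5 / 120 +
      v ^ 6 / 720 + v ^ 7 / 5040 + v ^ 8 / 40320 ∧
    1 + v + v ^ 2 / 2 + v ^ 3 / 6 + v ^ 4 / 24 + v ^ 5 / 120 +
      v ^ 6 / 720 + v ^ 7 / 5040 + v ^ 8 / 40320 ≤ Real.exp v := by
  have hl := Real.sum_le_exp_of_nonneg h0 9
  have hu := Real.exp_bound' h0 (by linarith) (n := 9) (by norm_num)
  simp only [Finset.sum_range_succ, Finset.sum_range_zero, Nat.factorial] at hl hu
  norm_num at hl hu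
  have h9 : 0 ≤ v ^ 9 := by positivity
  have he : 1 ≤ Real.exp v := Real.one_le_exp h0
  constructor
  · nlinarith
  · linarith

lemma sq_step (E : ℕ) (x w η : ℝ) (hw : 1 ≤ w) (h0 : w * (1 - η) ≤ x) (h1 : x ≤ w) (_hη : 0 ≤ η)
    (hη1 : η ≤ 1 / 2) (hx : (E : ℝ) = x * 2 ^ 60) :
    w ^ 2 * (1 - (2 * η + 1 / 10 ^ 18)) ≤ ((Nat.shiftRight (Nat.mul E E) (nat_lit 60) : ℕ) : ℝ) / 2 ^ 60 ∧
    ((Nat.shiftRight (Nat.mul E E) (nat_lit 60) : ℕ) : ℝ) / 2 ^ 60 ≤ w ^ 2 := by
  have h := shr_bd (Nat.mul E E) 60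
  have e : ((Nat.mul E E : ℕ) : ℝ) = x ^ 2 * 2 ^ 120 := by
    show ((E * E : ℕ) : ℝ) = _
    push_cast; rw [hx]; ring
  rw [e] at h
  have hx0 : 0 ≤ x := le_trans (by nlinarith) h0
  have hw0 : 0 ≤ w * (1 - η) := by nlinarith
  have hx2 : x ^ 2 ≤ w ^ 2 := by nlinarith
  have hx3 : (w * (1 - η)) ^ 2 ≤ x ^ 2 := by nlinarith
  constructor
  · rw [le_div_iff₀ (by positivity)]
    refine le_trans ?_ h.1.le
    have h3 : (w * (1 - η)) ^ 2 = w ^ 2 * (1 - 2 * η) + w ^ 2 * η ^ 2 := by ring
    have h4 : 0 ≤ w ^ 2 * η ^ 2 := by positivity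
    have h5 : (1 : ℝ) ≤ w ^ 2 := by nlinarith
    have h6 : x ^ 2 * 2 ^ 120 / 2 ^ 60 = x ^ 2 * 2 ^ 60 := by norm_num; ring
    rw [h6]
    have h7 : (1 : ℝ) ≤ w ^ 2 * (1 / 10 ^ 18) * 2 ^ 60 := by
      norm_num; nlinarith
    have h8 : w ^ 2 * (1 - 2 * η) * 2 ^ 60 ≤ x ^ 2 * 2 ^ 60 := by
      apply mul_le_mul_of_nonneg_right _ (by positivity)
      linarith
    nlinarith
  · rw [div_le_iff₀ (by positivity)]
    refine h.2.trans ?_
    rw [show x ^ 2 * 2 ^ 120 / 2 ^ 60 = x ^ 2 * 2 ^ 60 by norm_num; ring]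
    exact mul_le_mul_of_nonneg_right hx2 (by positivity)

lemma exB_spec (k r : ℕ) (hr : r < 799144290325165979) :
    2 ^ k * Real.exp ((r : ℝ) / 2 ^ 60) * (1 - 21 / 10 ^ 13) - 1 ≤ ((exB k r : ℕ) : ℝ) ∧
    ((exB k r : ℕ) : ℝ) ≤ 2 ^ k * Real.exp ((r : ℝ) / 2 ^ 60) := by
  set v : ℝ := (r : ℝ) / 2 ^ 62 with hv
  have hv0 : 0 ≤ v := by positivity
  have hv1 : v ≤ 1734 / 10000 := by
    rw [hv, div_le_iff₀ (by positivity)]
    have : (r : ℝ) ≤ 799144290325165979 := by exact_mod_cast hr.le
    norm_num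
    linarith
  have hv9 : v ^ 9 / 300000 ≤ 5 / 10 ^ 13 := by
    have : v ^ 9 ≤ (1734 / 10000) ^ 9 := pow_le_pow_left₀ hv0 hv1 9
    norm_num at this ⊢
    linarith
  obtain ⟨hl, hu⟩ := exp_taylor hv0 (by linarith)
  set T : ℝ := 1 + v + v ^ 2 / 2 + v ^ 3 / 6 + v ^ 4 / 24 + v ^ 5 / 120 + v ^ 6 / 720 + v ^ 7 / 5040 +
    v ^ 8 / 40320 with hT
  have he1 : 1 ≤ Real.exp v := Real.one_le_exp hv0
  -- first step
  set E0 : ℕ := Nat.div (exH r) (nat_lit 7154818692284880328844906233897544635043657144265787155895919148184417992366260807742193155463610098488756072061682689033231234781675520) with hE0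
  have hd : ((exH r : ℕ) : ℝ) = 40320 * 2 ^ 496 * T := exH_real r v (by rw [hv]; norm_num)
  have hE := div_bd (exH r) 7154818692284880328844906233897544635043657144265787155895919148184417992366260807742193155463610098488756072061682689033231234781675520 (by norm_num)
  have hEE : ((exH r : ℕ) : ℝ) / ((7154818692284880328844906233897544635043657144265787155895919148184417992366260807742193155463610098488756072061682689033231234781675520 : ℕ) : ℝ) = T * 2 ^ 60 := by
    rw [hd]; push_cast
    rw [show (7154818692284880328844906233897544635043657144265787155895919148184417992366260807742193155463610098488756072061682689033231234781675520 : ℝ) = 40320 * 2 ^ 436 by norm_num]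
    rw [show (40320 : ℝ) * 2 ^ 496 * T = (T * 2 ^ 60) * (40320 * 2 ^ 436) by ring]
    rw [mul_div_assoc, div_self (by positivity), mul_one]
  rw [hEE] at hE
  have hE' : T * 2 ^ 60 - 1 < (E0 : ℝ) ∧ (E0 : ℝ) ≤ T * 2 ^ 60 := hE
  set x0 : ℝ := (E0 : ℝ) / 2 ^ 60 with hx0
  have hx0' : (E0 : ℝ) = x0 * 2 ^ 60 := by rw [hx0]; field_simp
  have a0 : Real.exp v * (1 - 51 / 10 ^ 14) ≤ x0 := by
    rw [hx0, le_div_iff₀ (by positivity)]
    refine le_trans ?_ hE'.1.le
    have h1 : Real.exp v * (1 - 5 / 10 ^ 13) ≤ T := by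
      refine le_trans ?_ hl
      exact mul_le_mul_of_nonneg_left (by linarith) (by linarith)
    have h2 : (1 : ℝ) ≤ Real.exp v * (1 / 10 ^ 14) * 2 ^ 60 := by norm_num; nlinarith
    nlinarith
  have b0 : x0 ≤ Real.exp v := by
    rw [hx0, div_le_iff₀ (by positivity)]
    exact hE'.2.trans (mul_le_mul_of_nonneg_right hu (by positivity))
  obtain ⟨a1, b1⟩ := sq_step E0 x0 _ _ he1 a0 b0 (by norm_num) (by norm_num) hx0'
  set E1 : ℕ := Nat.shiftRight (Nat.mul E0 E0) (nat_lit 60) with hE1
  have hx1' : (E1 : ℝ) = ((E1 : ℝ) / 2 ^ 60) * 2 ^ 60 := by field_simp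
  obtain ⟨a2, b2⟩ := sq_step E1 _ _ _ (by nlinarith : (1 : ℝ) ≤ Real.exp v ^ 2) a1 b1 (by norm_num) (by norm_num) hx1'
  set E2 : ℕ := Nat.shiftRight (Nat.mul E1 E1) (nat_lit 60) with hE2
  have hexp : (Real.exp v ^ 2) ^ 2 = Real.exp ((r : ℝ) / 2 ^ 60) := by
    rw [← pow_mul, ← Real.exp_nat_mul, hv]
    congr 1
    push_cast
    norm_num
    ring
  rw [hexp] at a2 b2
  set w : ℝ := Real.exp ((r : ℝ) / 2 ^ 60) with hw
  have hw0 : 0 < w := Real.exp_pos _
  have hB : exB k r = Nat.shiftRight (Nat.shiftLeft E2 k) (nat_lit 60) := rfl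
  rw [hB]
  have hs := shr_bd (Nat.shiftLeft E2 k) 60
  have hsl : ((Nat.shiftLeft E2 k : ℕ) : ℝ) = (E2 : ℝ) * 2 ^ k := by
    have : Nat.shiftLeft E2 k = E2 * 2 ^ k := Nat.shiftLeft_eq E2 k
    rw [this]; push_cast; ring
  rw [hsl] at hs
  have h2k : (0 : ℝ) < 2 ^ k := by positivity
  have e2 : (E2 : ℝ) * 2 ^ k / 2 ^ 60 = 2 ^ k * ((E2 : ℝ) / 2 ^ 60) := by ring
  rw [e2] at hs
  have hkw : 0 < 2 ^ k * w := by positivity
  constructor
  · have h1 : 2 ^ k * (w * (1 - 21 / 10 ^ 13)) ≤ 2 ^ k * ((E2 : ℝ) / 2 ^ 60) := by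
      apply mul_le_mul_of_nonneg_left _ h2k.le
      refine le_trans (mul_le_mul_of_nonneg_left ?_ hw0.le) a2
      norm_num
    have h2 := hs.1
    have h3 : 2 ^ k * w * (1 - 21 / 10 ^ 13) = 2 ^ k * (w * (1 - 21 / 10 ^ 13)) := by ring
    rw [h3]
    linarith
  · exact hs.2.trans (mul_le_mul_of_nonneg_left b2 h2k.le)

lemma ex_real (y k r X : ℝ) (hy : y ≤ 2 * 2 ^ 44) (hk0 : 0 ≤ k) (hr0 : 0 ≤ r)
    (e1 : 799144290325165979 * k + r = (y + 536534862889210) * 2 ^ 16)
    (ha : Real.exp (k * Real.log 2) * Real.exp (r / 2 ^ 60) * (1 - 21 / 10 ^ 13) - 1 ≤ X)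
    (hb : X ≤ Real.exp (k * Real.log 2) * Real.exp (r / 2 ^ 60)) :
    |X / 2 ^ 44 - Real.exp (y / 2 ^ 44)| ≤ 1 / 2 ^ 34 := by
  have hk50 : k ≤ 50 := by
    norm_num at hy e1
    linarith
  have hkey : (y / 2 ^ 44 + 44 * Real.log 2) - (k * Real.log 2 + r / 2 ^ 60) =
      k * ((799144290325165979 : ℝ) / 2 ^ 60 - Real.log 2) - ((536534862889210 : ℝ) / 2 ^ 44 - 44 * Real.log 2) := by
    have e2 : y = (799144290325165979 * k + r) / 2 ^ 16 - 536534862889210 := by rw [e1]; ring
    rw [e2]
    ring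
  obtain ⟨ε, hε⟩ : ∃ ε : ℝ, ε = k * ((799144290325165979 : ℝ) / 2 ^ 60 - Real.log 2) -
    ((536534862889210 : ℝ) / 2 ^ 44 - 44 * Real.log 2) := ⟨_, rfl⟩
  have hl2 := abs_le.1 log_two_bd
  have hεa : |ε| ≤ 1 / 10 ^ 13 := by
    rw [abs_le]
    have c1 : k * ((799144290325165979 : ℝ) / 2 ^ 60 - Real.log 2) ≤ 50 * (1 / 2 ^ 60) :=
      (mul_le_mul_of_nonneg_left hl2.2 hk0).trans (mul_le_mul_of_nonneg_right hk50 (by positivity))
    have c2 : -(50 * (1 / 2 ^ 60)) ≤ k * ((799144290325165979 : ℝ) / 2 ^ 60 - Real.log 2) := by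
      have c3 := mul_le_mul_of_nonneg_left hl2.1 hk0
      have c4 : k * (1 / 2 ^ 60 : ℝ) ≤ 50 * (1 / 2 ^ 60) :=
        mul_le_mul_of_nonneg_right hk50 (by positivity)
      linarith
    norm_num at c1 c2 hl2 hε ⊢
    constructor
    · linarith [hl2.1, hl2.2]
    · linarith [hl2.1, hl2.2]
  rw [← hε] at hkey
  obtain ⟨hε1, hε2⟩ := abs_le.1 hεa
  have hV : Real.exp (k * Real.log 2) * Real.exp (r / 2 ^ 60) =
      Real.exp (y / 2 ^ 44) * 2 ^ 44 * Real.exp (-ε) := by
    have q2 : (2 : ℝ) ^ 44 = Real.exp (44 * Real.log 2) := by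
      have := Real.exp_nat_mul (Real.log 2) 44
      rw [Real.exp_log (by norm_num)] at this
      rw [← this]; norm_num
    rw [← Real.exp_add]
    nth_rewrite 2 [q2]
    rw [← Real.exp_add, ← Real.exp_add]
    congr 1
    linarith
  have hV1 : Real.exp (y / 2 ^ 44) ≤ 74 / 10 := by
    have : y / 2 ^ 44 ≤ 2 := by
      rw [div_le_iff₀ (by positivity)]; exact hy
    have h3 : Real.exp (y / 2 ^ 44) ≤ Real.exp 2 := Real.exp_le_exp.2 this
    have h4 : Real.exp 2 = Real.exp 1 ^ 2 := by rw [← Real.exp_nat_mul]; norm_num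
    have h5 := Real.exp_one_lt_d9
    have h6 := Real.exp_pos 1
    rw [h4] at h3
    nlinarith
  have hm1 : 1 - 1 / 10 ^ 13 ≤ Real.exp (-ε) := by
    have := Real.add_one_le_exp (-ε)
    linarith
  have hm2 : Real.exp (-ε) ≤ 1 + 2 / 10 ^ 13 := by
    have h3 : Real.exp (-ε) * Real.exp ε = 1 := by rw [← Real.exp_add]; simp
    have h4 := Real.add_one_le_exp ε
    have h5 := Real.exp_pos (-ε)
    have h6 : Real.exp (-ε) * (1 - 1 / 10 ^ 13) ≤ 1 := by
      rw [← h3]
      exact mul_le_mul_of_nonneg_left (by linarith) h5.le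
    by_contra hcon
    push Not at hcon
    have : (1 + 2 / 10 ^ 13) * (1 - 1 / 10 ^ 13 : ℝ) < Real.exp (-ε) * (1 - 1 / 10 ^ 13) :=
      mul_lt_mul_of_pos_right hcon (by norm_num)
    norm_num at this h6
    linarith
  rw [hV] at ha hb
  have hV0 : 0 < Real.exp (y / 2 ^ 44) := Real.exp_pos _
  generalize Real.exp (y / 2 ^ 44) = V at *
  have p1 : V * 2 ^ 44 * Real.exp (-ε) ≤ V * 2 ^ 44 * (1 + 2 / 10 ^ 13) :=
    mul_le_mul_of_nonneg_left hm2 (by positivity)
  have p2 : V * 2 ^ 44 * (1 - 1 / 10 ^ 13) ≤ V * 2 ^ 44 * Real.exp (-ε) :=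
    mul_le_mul_of_nonneg_left hm1 (by positivity)
  generalize V * 2 ^ 44 * Real.exp (-ε) = Wm at ha hb p1 p2
  rw [abs_le]
  constructor
  · rw [le_sub_iff_add_le, le_div_iff₀ (by positivity)]
    linarith
  · rw [sub_le_iff_le_add, div_le_iff₀ (by positivity)]
    linarith

theorem ex_spec (y : ℤ) (h1 : -30 * 2 ^ 44 ≤ y) (h2 : y ≤ 2 * 2 ^ 44) :
    |(ex y : ℝ) / 2 ^ 44 - Real.exp ((y : ℝ) / 2 ^ 44)| ≤ 1 / 2 ^ 34 := by
  have hn' : ((offN 536534862889210 y : ℕ) : ℤ) = y + 536534862889210 := offN_eq 536534862889210 y (by norm_num; linarith)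
  have hex : ex y = Int.ofNat (exA (Nat.shiftLeft (offN 536534862889210 y) 16)) := rfl
  have hexA : ∀ R : ℕ, exA R = exB (R / 799144290325165979) (R % 799144290325165979) := fun R => rfl
  rw [hex, hexA, show Nat.shiftLeft (offN 536534862889210 y) 16 = offN 536534862889210 y * 2 ^ 16 from Nat.shiftLeft_eq _ _]
  generalize offN 536534862889210 y = n at hn' ⊢
  have hnr : (n : ℝ) = (y : ℝ) + 536534862889210 := by exact_mod_cast hn'
  have hkr := Nat.div_add_mod (n * 2 ^ 16) 799144290325165979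
  have hrlt : n * 2 ^ 16 % 799144290325165979 < 799144290325165979 := Nat.mod_lt _ (by norm_num)
  generalize n * 2 ^ 16 / 799144290325165979 = k at hkr ⊢
  generalize n * 2 ^ 16 % 799144290325165979 = r at hkr hrlt ⊢
  obtain ⟨ha, hb⟩ := exB_spec k r hrlt
  have q1 : (2 : ℝ) ^ k = Real.exp (k * Real.log 2) := by
    rw [Real.exp_nat_mul, Real.exp_log (by norm_num)]
  rw [q1] at ha hb
  refine ex_real y k r _ (by exact_mod_cast h2) (Nat.cast_nonneg k) (Nat.cast_nonneg r) ?_ ha hb
  rw [← hnr]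
  exact_mod_cast hkr

/-! ### log -/

lemma lgH_eq (q : ℕ) : lgH q = ((((((((((692835 * q + 1017876276192236103414183813515578064240640) * q + 1512164894625904120395513082498330526363531230560482863403167275407295098388480) * q + 2278013500470552242222731604987156447106563426282054116670080316366125255881391637298040653764275714111182936735744) * q + 3493845368770906925401126711598362763562302298279922387185814173427917923228387583210545989018144896662222502176422685311470897140381052473373433528320) * q + 5488502000225356171329984195186343487026897444693587651070756015121881113863682411620696518036599982148085021652468384339716330400181024023112351039960028059420519253632125624335791554560) * q + 8916686183314619196934342951055926705687009773843628906379019164964050364393298658057293689042390120220914165688492935797153893677406240198822851799110008554389885592641271721210010933345296705998324225964601727162504970240) * q + 15238682877201868604976758912016081965352342650381455906740915305856526871154185743288312338672081715576781026997564675372347967249377484502722173146245679760418332624257621056159246785533533384017714401871289255834869513043039257915504976843454042916918394880)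 * q + 28357957458970937123913869884154725592136908666503715567485609075189159885902058680547410539515522827391529352876189703407725122604943539787795611279451264374068001698047240564932219914038095541717350006662331915213189837202292024368751963709198451319526726937324758964196242586817600814927839232) * q + 62823651596236407415280498867712480448496452484824053248168081070242745292937241161423334853919765187031076713271524394521235645181875428148230438568677821353620587042597375029225792651420932787614718788902569619650566987740789040699488990008211086625388540705675559470050332749094564899405516770314834575748580470374629133485342720) * q + 250520869497465452118842944146937181810588040381271804720404989723511150713145971350520380186474657059846118709437691240185589000090192188166251302695107368511230508843480347281112481118214920227206479280112317595381382144909250550139254348249051206153435022076553045553497016173194986134457782522590574468527938136636821313898165474992354731747328887319397021159260160)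 := rfl

lemma lgH_real (q : ℕ) (w : ℝ) (hw : (q : ℝ) = w * 2 ^ 120) : ((lgH q : ℕ) : ℝ) =
    14549535 * 2 ^ 1200 * (1 + w / 3 + w ^ 2 / 5 + w ^ 3 / 7 + w ^ 4 / 9 + w ^ 5 / 11 + w ^ 6 / 13 +
      w ^ 7 / 15 + w ^ 8 / 17 + w ^ 9 / 19 + w ^ 10 / 21) := by
  rw [lgH_eq]
  push_cast
  rw [hw]
  norm_num
  ring

/-- real core of the logarithm -/
lemma lg_real (z z' L S X : ℝ) (hz0 : 0 ≤ z') (hz1 : z' ≤ z) (hz2 : z ≤ 1 / 3) (hz3 : z - 1 / 2 ^ 60 ≤ z')
    (hL0 : 0 ≤ L) (hL : L ≤ 50)
    (hS1 : S ≤ 2 * z' * (1 + z' ^ 2 / 3 + (z' ^ 2) ^ 2 / 5 + (z' ^ 2) ^ 3 / 7 + (z' ^ 2) ^ 4 / 9 + (z' ^ 2) ^ 5 / 11 +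
      (z' ^ 2) ^ 6 / 13 + (z' ^ 2) ^ 7 / 15 + (z' ^ 2) ^ 8 / 17 + (z' ^ 2) ^ 9 / 19 + (z' ^ 2) ^ 10 / 21))
    (hS2 : 2 * z' * (1 + z' ^ 2 / 3 + (z' ^ 2) ^ 2 / 5 + (z' ^ 2) ^ 3 / 7 + (z' ^ 2) ^ 4 / 9 + (z' ^ 2) ^ 5 / 11 +
      (z' ^ 2) ^ 6 / 13 + (z' ^ 2) ^ 7 / 15 + (z' ^ 2) ^ 8 / 17 + (z' ^ 2) ^ 9 / 19 + (z' ^ 2) ^ 10 / 21) - 1 / 2 ^ 60 ≤ S)
    (hX1 : X ≤ L * (799144290325165979 / 2 ^ 60) + S) (hX2 : L * (799144290325165979 / 2 ^ 60) + S - 1 / 2 ^ 44 ≤ X) :
    |X - 499952940419492 / 2 ^ 44 - (Real.log ((1 + z) / (1 - z)) + L * Real.log 2 - 41 * Real.log 2)| ≤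
      1 / 2 ^ 34 := by
  obtain ⟨t1, t2⟩ := atanh_series hz0 (hz1.trans hz2) 11
  simp only [Finset.sum_range_succ, Finset.sum_range_zero] at t1 t2
  have hT : 2 * z' * (1 + z' ^ 2 / 3 + (z' ^ 2) ^ 2 / 5 + (z' ^ 2) ^ 3 / 7 + (z' ^ 2) ^ 4 / 9 + (z' ^ 2) ^ 5 / 11 +
      (z' ^ 2) ^ 6 / 13 + (z' ^ 2) ^ 7 / 15 + (z' ^ 2) ^ 8 / 17 + (z' ^ 2) ^ 9 / 19 + (z' ^ 2) ^ 10 / 21) =
      0 + 2 * (1 / (2 * ((0 : ℕ) : ℝ) + 1)) * z' ^ (2 * 0 + 1) + 2 * (1 / (2 * ((1 : ℕ) : ℝ) + 1)) * z' ^ (2 * 1 + 1) +
      2 * (1 / (2 * ((2 : ℕ) : ℝ) + 1)) * z' ^ (2 * 2 + 1) + 2 * (1 / (2 * ((3 : ℕ) : ℝ) + 1)) * z' ^ (2 * 3 + 1) +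
      2 * (1 / (2 * ((4 : ℕ) : ℝ) + 1)) * z' ^ (2 * 4 + 1) + 2 * (1 / (2 * ((5 : ℕ) : ℝ) + 1)) * z' ^ (2 * 5 + 1) +
      2 * (1 / (2 * ((6 : ℕ) : ℝ) + 1)) * z' ^ (2 * 6 + 1) + 2 * (1 / (2 * ((7 : ℕ) : ℝ) + 1)) * z' ^ (2 * 7 + 1) +
      2 * (1 / (2 * ((8 : ℕ) : ℝ) + 1)) * z' ^ (2 * 8 + 1) + 2 * (1 / (2 * ((9 : ℕ) : ℝ) + 1)) * z' ^ (2 * 9 + 1) +
      2 * (1 / (2 * ((10 : ℕ) : ℝ) + 1)) * z' ^ (2 * 10 + 1) := by
    push_cast
    ring
  rw [← hT] at t1 t2
  generalize 2 * z' * (1 + z' ^ 2 / 3 + (z' ^ 2) ^ 2 / 5 + (z' ^ 2) ^ 3 / 7 + (z' ^ 2) ^ 4 / 9 + (z' ^ 2) ^ 5 / 11 +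
      (z' ^ 2) ^ 6 / 13 + (z' ^ 2) ^ 7 / 15 + (z' ^ 2) ^ 8 / 17 + (z' ^ 2) ^ 9 / 19 + (z' ^ 2) ^ 10 / 21) = T at *
  -- Lipschitz
  have hz'1 : z' ≤ 1 / 3 := hz1.trans hz2
  have k1 : Real.log ((1 + z') / (1 - z')) ≤ Real.log ((1 + z) / (1 - z)) := by
    apply Real.log_le_log (div_pos (by linarith) (by linarith))
    rw [div_le_div_iff₀ (by linarith) (by linarith)]
    nlinarith
  have k2 : Real.log ((1 + z) / (1 - z)) - Real.log ((1 + z') / (1 - z')) ≤ 3 / 2 ^ 60 := by
    rw [← Real.log_div (ne_of_gt (div_pos (by linarith) (by linarith)))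
      (ne_of_gt (div_pos (by linarith) (by linarith)))]
    have hq : 0 < ((1 + z) / (1 - z)) / ((1 + z') / (1 - z')) :=
      div_pos (div_pos (by linarith) (by linarith)) (div_pos (by linarith) (by linarith))
    have := Real.log_le_sub_one_of_pos hq
    refine this.trans ?_
    have hq2 : ((1 + z) / (1 - z)) / ((1 + z') / (1 - z')) - 1 = 2 * (z - z') / ((1 - z) * (1 + z')) := by
      have a1 : (1 - z) ≠ 0 := by linarith
      have a2 : (1 + z') ≠ 0 := by linarith
      have a3 : (1 - z') ≠ 0 := by linarith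
      field_simp
      ring
    rw [hq2, div_le_iff₀ (mul_pos (by linarith) (by linarith))]
    have a4 : (2 : ℝ) / 3 ≤ (1 - z) * (1 + z') := by nlinarith
    have a5 : z - z' ≤ 1 / 2 ^ 60 := by linarith
    have a6 : 3 / 2 ^ 60 * (2 / 3 : ℝ) ≤ 3 / 2 ^ 60 * ((1 - z) * (1 + z')) :=
      mul_le_mul_of_nonneg_left a4 (by positivity)
    refine le_trans ?_ a6
    linarith
  have hl2 := abs_le.1 log_two_bd
  have c1 : L * ((799144290325165979 : ℝ) / 2 ^ 60 - Real.log 2) ≤ 50 * (1 / 2 ^ 60) :=
    (mul_le_mul_of_nonneg_left hl2.2 hL0).trans (mul_le_mul_of_nonneg_right hL (by positivity))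
  have c2 : -(50 * (1 / 2 ^ 60)) ≤ L * ((799144290325165979 : ℝ) / 2 ^ 60 - Real.log 2) := by
    have c3 := mul_le_mul_of_nonneg_left hl2.1 hL0
    have c4 : L * (1 / 2 ^ 60 : ℝ) ≤ 50 * (1 / 2 ^ 60) :=
      mul_le_mul_of_nonneg_right hL (by positivity)
    linarith
  have c5 : L * ((799144290325165979 : ℝ) / 2 ^ 60 - Real.log 2) = L * (799144290325165979 / 2 ^ 60) - L * Real.log 2 := by ring
  rw [c5] at c1 c2
  generalize L * (799144290325165979 / 2 ^ 60) = LL at *
  generalize L * Real.log 2 = LM at *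
  generalize Real.log ((1 + z) / (1 - z)) = A at *
  generalize Real.log ((1 + z') / (1 - z')) = B at *
  generalize Real.log 2 = l at *
  norm_num at t2 k2 hl2 hS2 hX2 c1 c2
  rw [abs_le]
  constructor
  · norm_num
    linarith [hl2.1, hl2.2]
  · norm_num
    linarith [hl2.1, hl2.2]

lemma lgC_spec (L Z : ℕ) (z : ℝ) (hz1 : (Z : ℝ) / 2 ^ 60 ≤ z) (hz2 : z ≤ 1 / 3)
    (hz3 : z - 1 / 2 ^ 60 ≤ (Z : ℝ) / 2 ^ 60) (hL : L ≤ 50) :
    |(lgC L Z : ℝ) / 2 ^ 44 - (Real.log ((1 + z) / (1 - z)) + L * Real.log 2 - 41 * Real.log 2)| ≤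
      1 / 2 ^ 34 := by
  have hC : lgC L Z = subI (Nat.shiftRight (L * 799144290325165979 + Z * lgH (Z * Z) / 125260434748732726059421472073468590905294020190635902360202494861755575356572985675260190093237328529923059354718845620092794500045096094083125651347553684255615254421740173640556240559107460113603239640056158797690691072454625275069627174124525603076717511038276522776748508086597493067228891261295287234263969068318410656949082737496177365873664443659698510579630080) 16) 499952940419492 := rfl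
  have hd := div_bd (Z * lgH (Z * Z)) 125260434748732726059421472073468590905294020190635902360202494861755575356572985675260190093237328529923059354718845620092794500045096094083125651347553684255615254421740173640556240559107460113603239640056158797690691072454625275069627174124525603076717511038276522776748508086597493067228891261295287234263969068318410656949082737496177365873664443659698510579630080 (by norm_num)
  have hH := lgH_real (Z * Z) (((Z : ℝ) / 2 ^ 60) ^ 2) (by push_cast; ring)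
  have hx := shr_bd (L * 799144290325165979 + Z * lgH (Z * Z) / 125260434748732726059421472073468590905294020190635902360202494861755575356572985675260190093237328529923059354718845620092794500045096094083125651347553684255615254421740173640556240559107460113603239640056158797690691072454625275069627174124525603076717511038276522776748508086597493067228891261295287234263969068318410656949082737496177365873664443659698510579630080) 16
  rw [hC, subI_eq]
  push_cast at hd hx ⊢
  rw [hH] at hd
  generalize ((Nat.shiftRight (L * 799144290325165979 + Z * lgH (Z * Z) / 125260434748732726059421472073468590905294020190635902360202494861755575356572985675260190093237328529923059354718845620092794500045096094083125651347553684255615254421740173640556240559107460113603239640056158797690691072454625275069627174124525603076717511038276522776748508086597493067228891261295287234263969068318410656949082737496177365873664443659698510579630080) 16 : ℕ) : ℝ) = X at hx ⊢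
  generalize ((Z * lgH (Z * Z) / 125260434748732726059421472073468590905294020190635902360202494861755575356572985675260190093237328529923059354718845620092794500045096094083125651347553684255615254421740173640556240559107460113603239640056158797690691072454625275069627174124525603076717511038276522776748508086597493067228891261295287234263969068318410656949082737496177365873664443659698510579630080 : ℕ) : ℝ) = S at hd hx ⊢
  have hL' : (L : ℝ) ≤ 50 := by exact_mod_cast hL
  have hL0 : (0 : ℝ) ≤ L := Nat.cast_nonneg L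
  have hZ0 : (0 : ℝ) ≤ (Z : ℝ) / 2 ^ 60 := by positivity
  obtain ⟨z', hz'⟩ : ∃ z' : ℝ, z' = (Z : ℝ) / 2 ^ 60 := ⟨_, rfl⟩
  have hZ : (Z : ℝ) = z' * 2 ^ 60 := by rw [hz']; field_simp
  rw [← hz'] at hd hz1 hz3 hZ0
  rw [hZ] at hd
  rw [sub_div]
  rw [show (125260434748732726059421472073468590905294020190635902360202494861755575356572985675260190093237328529923059354718845620092794500045096094083125651347553684255615254421740173640556240559107460113603239640056158797690691072454625275069627174124525603076717511038276522776748508086597493067228891261295287234263969068318410656949082737496177365873664443659698510579630080 : ℝ) = 14549535 * 2 ^ 1199 by norm_num] at hd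
  have e' : ∀ P : ℝ, z' * 2 ^ 60 * (14549535 * 2 ^ 1200 * P) / (14549535 * 2 ^ 1199) =
      2 * z' * P * 2 ^ 60 := by
    intro P
    rw [div_eq_iff (by positivity)]
    ring
  rw [e'] at hd
  refine lg_real z z' L (S / 2 ^ 60) (X / 2 ^ 44) hZ0 hz1 hz2 hz3 hL0 hL' ?_ ?_ ?_ ?_
  · rw [div_le_iff₀ (by positivity)]
    exact hd.2
  · rw [le_div_iff₀ (by positivity), sub_mul]
    have := hd.1
    norm_num at this ⊢
    linarith
  · rw [div_le_iff₀ (by positivity)]
    have := hx.2
    norm_num at this ⊢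
    linarith
  · rw [le_div_iff₀ (by positivity)]
    have := hx.1
    norm_num at this ⊢
    linarith

lemma lgB_spec (L c a : ℕ) (hc : c = 2 ^ L) (h1 : c ≤ a) (h2 : a ≤ 2 * c) (hL : L ≤ 50) :
    |(lgB L c a : ℝ) / 2 ^ 44 - Real.log ((a : ℝ) / 2 ^ 41)| ≤ 1 / 2 ^ 34 := by
  have hB : lgB L c a = lgC L (Nat.shiftLeft (a - c) 60 / (a + c)) := rfl
  have hc0 : 0 < c := by rw [hc]; positivity
  have hc0' : (0 : ℝ) < c := by exact_mod_cast hc0
  have h1' : (c : ℝ) ≤ a := by exact_mod_cast h1
  have h2' : (a : ℝ) ≤ 2 * c := by exact_mod_cast h2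
  have ha0 : (0 : ℝ) < a := lt_of_lt_of_le hc0' h1'
  have hd := div_bd (Nat.shiftLeft (a - c) 60) (a + c) (by omega)
  have hsl : ((Nat.shiftLeft (a - c) 60 : ℕ) : ℝ) = ((a : ℝ) - c) * 2 ^ 60 := by
    have : Nat.shiftLeft (a - c) 60 = (a - c) * 2 ^ 60 := Nat.shiftLeft_eq _ _
    rw [this]; push_cast [Nat.cast_sub h1]; ring
  rw [hsl] at hd
  rw [hB]
  generalize Nat.shiftLeft (a - c) 60 / (a + c) = Z at hd ⊢
  push_cast at hd
  have hac : (0 : ℝ) < a + c := by linarith
  have e1 : ((a : ℝ) - c) * 2 ^ 60 / (a + c) = ((a : ℝ) - c) / (a + c) * 2 ^ 60 := by ring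
  rw [e1] at hd
  have hz : (1 + ((a : ℝ) - c) / (a + c)) / (1 - ((a : ℝ) - c) / (a + c)) = a / c := by
    have : (a : ℝ) + c ≠ 0 := hac.ne'
    have hcne : (c : ℝ) ≠ 0 := hc0'.ne'
    have e3 : 1 + ((a : ℝ) - c) / (a + c) = 2 * a / (a + c) := by field_simp; ring
    have e4 : 1 - ((a : ℝ) - c) / (a + c) = 2 * c / (a + c) := by field_simp; ring
    rw [e3, e4]
    field_simp
  have hlog : Real.log ((a : ℝ) / 2 ^ 41) = Real.log ((1 + ((a : ℝ) - c) / (a + c)) / (1 - ((a : ℝ) - c) / (a + c))) +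
      L * Real.log 2 - 41 * Real.log 2 := by
    rw [hz, Real.log_div ha0.ne' (by positivity), Real.log_div ha0.ne' hc0'.ne', Real.log_pow]
    have : Real.log (c : ℝ) = L * Real.log 2 := by
      rw [hc]; push_cast; rw [Real.log_pow]
    rw [this]; push_cast; ring
  rw [hlog]
  refine lgC_spec L Z _ ?_ ?_ ?_ hL
  · rw [div_le_iff₀ (by positivity)]
    exact hd.2
  · rw [div_le_iff₀ hac]
    linarith
  · rw [le_div_iff₀ (by positivity), sub_mul]
    have := hd.1
    norm_num at this ⊢
    linarith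

lemma lgT_spec (L c a : ℕ) (hc : c = 2 ^ L) (ha : 1 ≤ a) (ha2 : a ≤ 2 ^ 43) :
    |(lgT L c a : ℝ) / 2 ^ 44 - Real.log ((a : ℝ) / 2 ^ 41)| ≤ 1 / 2 ^ 34 := by
  have hslow : |(lgB (Nat.log2 a) (2 ^ Nat.log2 a) a : ℝ) / 2 ^ 44 - Real.log ((a : ℝ) / 2 ^ 41)| ≤ 1 / 2 ^ 34 := by
    have h3 : 2 ^ Nat.log2 a ≤ a := Nat.log2_self_le (by omega)
    have h4 : a < 2 ^ (Nat.log2 a + 1) := Nat.lt_log2_self
    apply lgB_spec _ _ _ rfl h3
    · rw [pow_succ] at h4; omega
    · by_contra hcon
      push Not at hcon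
      have : 2 ^ 51 ≤ 2 ^ Nat.log2 a := Nat.pow_le_pow_right (by norm_num) (by omega)
      have h5 : (2 : ℕ) ^ 43 < 2 ^ 51 := by norm_num
      omega
  have hT : lgT L c a = Bool.rec (motive := fun _ => Int) (lgB (Nat.log2 a) (2 ^ Nat.log2 a) a) (lgB L c a)
    (Bool.rec (motive := fun _ => Bool) false (Nat.ble a (2 * c)) (Nat.ble c a)) := rfl
  rw [hT]
  cases h5 : Nat.ble c a with
  | false => exact hslow
  | true =>
    cases h6 : Nat.ble a (2 * c) with
    | false => exact hslow
    | true =>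
      have h7 : c ≤ a := Nat.le_of_ble_eq_true h5
      have h8 : a ≤ 2 * c := Nat.le_of_ble_eq_true h6
      show |(lgB L c a : ℝ) / 2 ^ 44 - Real.log ((a : ℝ) / 2 ^ 41)| ≤ 1 / 2 ^ 34
      refine lgB_spec L c a hc h7 h8 ?_
      by_contra hcon
      push Not at hcon
      have : 2 ^ 51 ≤ 2 ^ L := Nat.pow_le_pow_right (by norm_num) (by omega)
      have h5 : (2 : ℕ) ^ 43 < 2 ^ 51 := by norm_num
      omega

theorem lg_spec (a : ℕ) (ha : 1 ≤ a) (ha2 : a ≤ 2 ^ 43) :
    |(lg a : ℝ) / 2 ^ 44 - Real.log ((a : ℝ) / 2 ^ 41)| ≤ 1 / 2 ^ 34 := by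
  have hA : ∀ L, |(lgA L a : ℝ) / 2 ^ 44 - Real.log ((a : ℝ) / 2 ^ 41)| ≤ 1 / 2 ^ 34 :=
    fun L => lgT_spec L (2 ^ L) a rfl ha ha2
  have h0' : ∀ L b, |(h0 L b a : ℝ) / 2 ^ 44 - Real.log ((a : ℝ) / 2 ^ 41)| ≤ 1 / 2 ^ 34 := by
    intro L b
    unfold h0
    cases Nat.ble (nat_lit 2) b with
    | false => exact hA _
    | true => exact hA _
  have h1' : ∀ L b, |(h1 L b a : ℝ) / 2 ^ 44 - Real.log ((a : ℝ) / 2 ^ 41)| ≤ 1 / 2 ^ 34 := by
    intro L b
    unfold h1
    cases Nat.ble (nat_lit 4) b with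
    | false => exact h0' _ _
    | true => exact h0' _ _
  have h2' : ∀ L b, |(h2 L b a : ℝ) / 2 ^ 44 - Real.log ((a : ℝ) / 2 ^ 41)| ≤ 1 / 2 ^ 34 := by
    intro L b
    unfold h2
    cases Nat.ble (nat_lit 16) b with
    | false => exact h1' _ _
    | true => exact h1' _ _
  have h3' : ∀ L b, |(h3 L b a : ℝ) / 2 ^ 44 - Real.log ((a : ℝ) / 2 ^ 41)| ≤ 1 / 2 ^ 34 := by
    intro L b
    unfold h3
    cases Nat.ble (nat_lit 256) b with
    | false => exact h2' _ _
    | true => exact h2' _ _
  have h4' : ∀ L b, |(h4 L b a : ℝ) / 2 ^ 44 - Real.log ((a : ℝ) / 2 ^ 41)| ≤ 1 / 2 ^ 34 := by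
    intro L b
    unfold h4
    cases Nat.ble (nat_lit 65536) b with
    | false => exact h3' _ _
    | true => exact h3' _ _
  unfold lg
  cases Nat.ble (nat_lit 4294967296) a with
  | false => exact h4' _ _
  | true => exact h4' _ _

/-! ### cos, sin -/

lemma coH_eq (Q : ℕ) : coH Q = (16521713176740683778669390774903697270865344238941352728019219026243718644937791317077956234943407416579833809660848596745134721954339616119541121171874338543153529325785482218939639075688801897515125837438376406616337507692746597046681600 - Q * (16184317087637352960365711529578107789972968901084646338244003498790861930169546238918758853631040832863529248235976606088160350453730582614714176420317362126147624133391453105773041604192676033331200 - Q * (6341524436144775006678275538463914557529234350580135776845357164940692037713960697485424491489745731453123593046107773687427108338273399053989589054530110095360 - Q * (1331147526837441987087832020983226812887362641578587033868298157295686402897818888993366717588468268780100918367527895040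 - Q * (173861821989830267428491833990544893641684881975459306905245562387881564154363904 - Q * (15482847694902700087583544638145453621248 - Q)))))) := rfl

lemma cast_sub_le {a b : ℕ} (B : ℕ) (ha : B ≤ a) (hb : b ≤ B) : ((a - b : ℕ) : ℝ) = (a : ℝ) - b ∧ a - b ≤ a :=
  ⟨Nat.cast_sub (hb.trans ha), Nat.sub_le _ _⟩

lemma coH_real (Q : ℕ) (P : ℝ) (hQ : Q ≤ 2 ^ 126) (hP : (Q : ℝ) = P * 2 ^ 126) : ((coH Q : ℕ) : ℝ) =
    87178291200 * 2 ^ 756 * (1 / 2 - P / 24 + P ^ 2 / 720 - P ^ 3 / 40320 + P ^ 4 / 3628800 -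
      P ^ 5 / 479001600 + P ^ 6 / 87178291200) := by
  rw [coH_eq]
  have s6 := cast_sub_le (b := Q) (a := 15482847694902700087583544638145453621248) (2 ^ 126) (by norm_num) hQ
  obtain ⟨r6, l6⟩ := s6
  generalize hx6 : (15482847694902700087583544638145453621248 - Q : ℕ) = x6 at r6 l6 ⊢
  have s5 := cast_sub_le (b := Q * x6) (a := 173861821989830267428491833990544893641684881975459306905245562387881564154363904) (2 ^ 126 * 15482847694902700087583544638145453621248) (by norm_num) (Nat.mul_le_mul hQ l6)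
  obtain ⟨r5, l5⟩ := s5
  generalize hx5 : (173861821989830267428491833990544893641684881975459306905245562387881564154363904 - Q * x6 : ℕ) = x5 at r5 l5 ⊢
  have s4 := cast_sub_le (b := Q * x5) (a := 1331147526837441987087832020983226812887362641578587033868298157295686402897818888993366717588468268780100918367527895040) (2 ^ 126 * 173861821989830267428491833990544893641684881975459306905245562387881564154363904) (by norm_num) (Nat.mul_le_mul hQ l5)
  obtain ⟨r4, l4⟩ := s4
  generalize hx4 : (1331147526837441987087832020983226812887362641578587033868298157295686402897818888993366717588468268780100918367527895040 - Q * x5 : ℕ) = x4 at r4 l4 ⊢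
  have s3 := cast_sub_le (b := Q * x4) (a := 6341524436144775006678275538463914557529234350580135776845357164940692037713960697485424491489745731453123593046107773687427108338273399053989589054530110095360) (2 ^ 126 * 1331147526837441987087832020983226812887362641578587033868298157295686402897818888993366717588468268780100918367527895040) (by norm_num) (Nat.mul_le_mul hQ l4)
  obtain ⟨r3, l3⟩ := s3
  generalize hx3 : (6341524436144775006678275538463914557529234350580135776845357164940692037713960697485424491489745731453123593046107773687427108338273399053989589054530110095360 - Q * x4 : ℕ) = x3 at r3 l3 ⊢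
  have s2 := cast_sub_le (b := Q * x3) (a := 16184317087637352960365711529578107789972968901084646338244003498790861930169546238918758853631040832863529248235976606088160350453730582614714176420317362126147624133391453105773041604192676033331200) (2 ^ 126 * 6341524436144775006678275538463914557529234350580135776845357164940692037713960697485424491489745731453123593046107773687427108338273399053989589054530110095360) (by norm_num) (Nat.mul_le_mul hQ l3)
  obtain ⟨r2, l2⟩ := s2
  generalize hx2 : (16184317087637352960365711529578107789972968901084646338244003498790861930169546238918758853631040832863529248235976606088160350453730582614714176420317362126147624133391453105773041604192676033331200 - Q * x3 : ℕ) = x2 at r2 l2 ⊢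
  have s1 := cast_sub_le (b := Q * x2) (a := 16521713176740683778669390774903697270865344238941352728019219026243718644937791317077956234943407416579833809660848596745134721954339616119541121171874338543153529325785482218939639075688801897515125837438376406616337507692746597046681600) (2 ^ 126 * 16184317087637352960365711529578107789972968901084646338244003498790861930169546238918758853631040832863529248235976606088160350453730582614714176420317362126147624133391453105773041604192676033331200) (by norm_num) (Nat.mul_le_mul hQ l2)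
  obtain ⟨r1, l1⟩ := s1
  rw [r1]
  push_cast at r2 r3 r4 r5 r6 ⊢
  rw [r2, r3, r4, r5, r6, hP]
  norm_num
  ring

/-- Taylor bound for `1 - cos` on `[0, 4/5]` -/
lemma cos_taylor {φ : ℝ} (h0 : 0 ≤ φ) (h1 : φ ≤ 4 / 5) :
    |1 - Real.cos φ - φ ^ 2 * (1 / 2 - φ ^ 2 / 24 + (φ ^ 2) ^ 2 / 720 - (φ ^ 2) ^ 3 / 40320 +
      (φ ^ 2) ^ 4 / 3628800 - (φ ^ 2) ^ 5 / 479001600 + (φ ^ 2) ^ 6 / 87178291200)| ≤ 1 / 2 ^ 49 := by
  have hn : ‖(φ : ℂ) * Complex.I‖ = φ := by
    rw [norm_mul, Complex.norm_I, mul_one, Complex.norm_real, Real.norm_of_nonneg h0]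
  have hb := Complex.exp_bound (x := (φ : ℂ) * Complex.I) (by rw [hn]; linarith) (n := 16) (by norm_num)
  rw [hn] at hb
  have hre := (Complex.abs_re_le_norm _).trans hb
  rw [Complex.sub_re, Complex.exp_ofReal_mul_I_re] at hre
  have hsum : (∑ m ∈ Finset.range 16, ((φ : ℂ) * Complex.I) ^ m / (m.factorial : ℂ)).re =
      1 - φ ^ 2 * (1 / 2 - φ ^ 2 / 24 + (φ ^ 2) ^ 2 / 720 - (φ ^ 2) ^ 3 / 40320 +
      (φ ^ 2) ^ 4 / 3628800 - (φ ^ 2) ^ 5 / 479001600 + (φ ^ 2) ^ 6 / 87178291200) := by
    have hI2 : Complex.I ^ 2 = -1 := Complex.I_sq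
    have e : (∑ m ∈ Finset.range 16, ((φ : ℂ) * Complex.I) ^ m / (m.factorial : ℂ)) =
        ((1 - φ ^ 2 * (1 / 2 - φ ^ 2 / 24 + (φ ^ 2) ^ 2 / 720 - (φ ^ 2) ^ 3 / 40320 +
      (φ ^ 2) ^ 4 / 3628800 - (φ ^ 2) ^ 5 / 479001600 + (φ ^ 2) ^ 6 / 87178291200) : ℝ) : ℂ) +
        ((φ * (1 - φ ^ 2 / 6 + (φ ^ 2) ^ 2 / 120 - (φ ^ 2) ^ 3 / 5040 + (φ ^ 2) ^ 4 / 362880 -
          (φ ^ 2) ^ 5 / 39916800 + (φ ^ 2) ^ 6 / 6227020800 - (φ ^ 2) ^ 7 / 1307674368000) : ℝ) : ℂ) * Complex.I := by
      have i4 : Complex.I ^ 4 = 1 := Complex.I_pow_four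
      have i3 : Complex.I ^ 3 = -Complex.I := by rw [pow_succ, hI2]; ring
      have i5 : Complex.I ^ 5 = Complex.I := by rw [show 5 = 4 + 1 by norm_num, pow_add, i4, one_mul, pow_one]
      have i6 : Complex.I ^ 6 = -1 := by rw [show 6 = 4 + 2 by norm_num, pow_add, i4, one_mul, hI2]
      have i7 : Complex.I ^ 7 = -Complex.I := by rw [show 7 = 4 + 3 by norm_num, pow_add, i4, one_mul, i3]
      have i8 : Complex.I ^ 8 = 1 := by rw [show 8 = 4 + 4 by norm_num, pow_add, i4, one_mul]
      have i9 : Complex.I ^ 9 = Complex.I := by rw [show 9 = 4 + 5 by norm_num, pow_add, i4, one_mul, i5]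
      have i10 : Complex.I ^ 10 = -1 := by rw [show 10 = 4 + 6 by norm_num, pow_add, i4, one_mul, i6]
      have i11 : Complex.I ^ 11 = -Complex.I := by rw [show 11 = 4 + 7 by norm_num, pow_add, i4, one_mul, i7]
      have i12 : Complex.I ^ 12 = 1 := by rw [show 12 = 4 + 8 by norm_num, pow_add, i4, one_mul, i8]
      have i13 : Complex.I ^ 13 = Complex.I := by rw [show 13 = 4 + 9 by norm_num, pow_add, i4, one_mul, i9]
      have i14 : Complex.I ^ 14 = -1 := by rw [show 14 = 4 + 10 by norm_num, pow_add, i4, one_mul, i10]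
      have i15 : Complex.I ^ 15 = -Complex.I := by rw [show 15 = 4 + 11 by norm_num, pow_add, i4, one_mul, i11]
      simp only [Finset.sum_range_succ, Finset.sum_range_zero, Nat.factorial, mul_pow, hI2, i3, i4, i5, i6, i7, i8, i9, i10, i11, i12, i13, i14, i15]
      push_cast
      ring
    rw [e, Complex.add_re, Complex.ofReal_re, Complex.re_ofReal_mul, Complex.I_re, mul_zero, add_zero]
  rw [hsum] at hre
  have hpow : φ ^ 16 ≤ (4 / 5) ^ 16 := pow_le_pow_left₀ h0 h1 16
  rw [show (1 - Real.cos φ - φ ^ 2 * (1 / 2 - φ ^ 2 / 24 + (φ ^ 2) ^ 2 / 720 - (φ ^ 2) ^ 3 / 40320 +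
      (φ ^ 2) ^ 4 / 3628800 - (φ ^ 2) ^ 5 / 479001600 + (φ ^ 2) ^ 6 / 87178291200)) =
      -(Real.cos φ - (1 - φ ^ 2 * (1 / 2 - φ ^ 2 / 24 + (φ ^ 2) ^ 2 / 720 - (φ ^ 2) ^ 3 / 40320 +
      (φ ^ 2) ^ 4 / 3628800 - (φ ^ 2) ^ 5 / 479001600 + (φ ^ 2) ^ 6 / 87178291200))) by ring, abs_neg]
  refine hre.trans ?_
  have : φ ^ 16 * ((Nat.succ 16 : ℝ) * ((Nat.factorial 16 : ℝ) * (16 : ℕ))⁻¹) ≤
      (4 / 5) ^ 16 * ((Nat.succ 16 : ℝ) * ((Nat.factorial 16 : ℝ) * (16 : ℕ))⁻¹) :=
    mul_le_mul_of_nonneg_right hpow (by positivity)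
  refine this.trans ?_
  norm_num [Nat.factorial]

lemma dbl_spec (U : ℕ) (c δ : ℝ) (hc : |c| ≤ 1) (hδ : |(U : ℝ) / 2 ^ 60 - (1 - c)| ≤ δ) (hU : U ≤ 2 ^ 61) :
    |((dbl U : ℕ) : ℝ) / 2 ^ 60 - (1 - (2 * c ^ 2 - 1))| ≤ 4 * δ + 1 / 2 ^ 60 ∧ dbl U ≤ 2 ^ 61 := by
  have hD : dbl U = Nat.shiftRight (U * (2305843009213693952 - U)) 59 := rfl
  have hs := shr_bd (U * (2305843009213693952 - U)) 59
  rw [hD]
  have hcast : ((U * (2305843009213693952 - U) : ℕ) : ℝ) = (U : ℝ) * (2 ^ 61 - U) := by
    rw [Nat.cast_mul, Nat.cast_sub (hU.trans (by norm_num))]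
    norm_num
  rw [hcast] at hs
  have hU' : (U : ℝ) ≤ 2 ^ 61 := by exact_mod_cast hU
  have hU0 : (0 : ℝ) ≤ U := Nat.cast_nonneg U
  constructor
  · generalize ((Nat.shiftRight (U * (2305843009213693952 - U)) 59 : ℕ) : ℝ) = X at hs ⊢
    obtain ⟨u, hu⟩ : ∃ u : ℝ, u = (U : ℝ) / 2 ^ 60 := ⟨_, rfl⟩
    have hUu : (U : ℝ) = u * 2 ^ 60 := by rw [hu]; field_simp
    rw [← hu] at hδ
    rw [hUu] at hs hU' hU0
    have hu0 : 0 ≤ u := by
      have h3 : (0 : ℝ) < 2 ^ 60 := by positivity
      by_contra hcon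
      push Not at hcon
      nlinarith
    have hu2 : u ≤ 2 := by
      norm_num at hU'
      linarith
    have hg : u * 2 ^ 60 * (2 ^ 61 - u * 2 ^ 60) / 2 ^ 59 = 2 * u * (2 - u) * 2 ^ 60 := by
      norm_num; ring
    rw [hg] at hs
    obtain ⟨hc1, hc2⟩ := abs_le.1 hc
    have hkey : 2 * u * (2 - u) - (1 - (2 * c ^ 2 - 1)) = 2 * (u - (1 - c)) * (2 - u - (1 - c)) := by ring
    have hb1 : |2 * u * (2 - u) - (1 - (2 * c ^ 2 - 1))| ≤ 4 * δ := by
      rw [hkey, abs_mul, abs_mul, abs_two]
      have h4 : |2 - u - (1 - c)| ≤ 2 := by rw [abs_le]; constructor <;> linarith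
      have h5 : 0 ≤ |u - (1 - c)| := abs_nonneg _
      nlinarith [abs_nonneg (2 - u - (1 - c))]
    have hb2 : |X / 2 ^ 60 - 2 * u * (2 - u)| ≤ 1 / 2 ^ 60 := by
      rw [abs_le]
      constructor
      · rw [le_sub_iff_add_le, le_div_iff₀ (by positivity), add_mul]
        have := hs.1
        norm_num at this ⊢
        linarith
      · rw [sub_le_iff_le_add, div_le_iff₀ (by positivity), add_mul]
        have := hs.2
        norm_num at this ⊢
        linarith
    calc |X / 2 ^ 60 - (1 - (2 * c ^ 2 - 1))|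
        = |(X / 2 ^ 60 - 2 * u * (2 - u)) + (2 * u * (2 - u) - (1 - (2 * c ^ 2 - 1)))| := by congr 1; ring
      _ ≤ |X / 2 ^ 60 - 2 * u * (2 - u)| + |2 * u * (2 - u) - (1 - (2 * c ^ 2 - 1))| := abs_add_le _ _
      _ ≤ 4 * δ + 1 / 2 ^ 60 := by linarith
  · have h3 : ((Nat.shiftRight (U * (2305843009213693952 - U)) 59 : ℕ) : ℝ) ≤ ((2 ^ 61 : ℕ) : ℝ) := by
      refine hs.2.trans ?_
      rw [div_le_iff₀ (by positivity)]
      push_cast
      nlinarith [sq_nonneg ((U : ℝ) - 2 ^ 60)]
    exact_mod_cast h3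

lemma coB_spec (r : ℕ) (hr : r < 7244019458077122842) :
    |((coB r : ℕ) : ℝ) / 2 ^ 60 - (1 - Real.cos ((r : ℝ) / 2 ^ 60))| ≤ 1 / 2 ^ 42 := by
  have hr' : (r : ℝ) ≤ 7244019458077122842 := by exact_mod_cast hr.le
  have hr0 : (0 : ℝ) ≤ r := Nat.cast_nonneg r
  obtain ⟨φ, hφ⟩ : ∃ φ : ℝ, φ = (r : ℝ) / 2 ^ 63 := ⟨_, rfl⟩
  have hrφ : (r : ℝ) = φ * 2 ^ 63 := by rw [hφ]; field_simp
  have hφ0 : 0 ≤ φ := by rw [hφ]; positivity
  have hφ1 : φ ≤ 4 / 5 := by
    rw [hφ, div_le_iff₀ (by positivity)]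
    norm_num; linarith
  have hQ : r * r ≤ 2 ^ 126 := by
    calc r * r ≤ 7244019458077122842 * 7244019458077122842 := Nat.mul_le_mul hr.le hr.le
      _ ≤ 2 ^ 126 := by norm_num
  have hH := coH_real (r * r) (φ ^ 2) hQ (by push_cast; rw [hrφ]; ring)
  have hd := div_bd (r * r * coH (r * r)) 2438174517044561745886253391132604058649519800509707111626624292478737549648919763251068743235193027973597293285335002118519780460396479779061222314299902564221344579853525621287089238736075932064560293352810043231125721477837284517972751108249044453739724800 (by norm_num)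
  have hC : coC (r * r) = r * r * coH (r * r) / 2438174517044561745886253391132604058649519800509707111626624292478737549648919763251068743235193027973597293285335002118519780460396479779061222314299902564221344579853525621287089238736075932064560293352810043231125721477837284517972751108249044453739724800 := rfl
  have hBB : coB r = dbl (dbl (dbl (coC (r * r)))) := rfl
  rw [← hC] at hd
  push_cast at hd
  rw [hH, hrφ] at hd
  have ht := cos_taylor hφ0 hφ1
  generalize hP : (1 / 2 - φ ^ 2 / 24 + (φ ^ 2) ^ 2 / 720 - (φ ^ 2) ^ 3 / 40320 + (φ ^ 2) ^ 4 / 3628800 -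
      (φ ^ 2) ^ 5 / 479001600 + (φ ^ 2) ^ 6 / 87178291200) = P at ht hd
  have e : φ * 2 ^ 63 * (φ * 2 ^ 63) * (87178291200 * 2 ^ 756 * P) / 2438174517044561745886253391132604058649519800509707111626624292478737549648919763251068743235193027973597293285335002118519780460396479779061222314299902564221344579853525621287089238736075932064560293352810043231125721477837284517972751108249044453739724800 = φ ^ 2 * P * 2 ^ 60 := by
    rw [show (2438174517044561745886253391132604058649519800509707111626624292478737549648919763251068743235193027973597293285335002118519780460396479779061222314299902564221344579853525621287089238736075932064560293352810043231125721477837284517972751108249044453739724800 : ℝ) = 87178291200 * 2 ^ 822 by norm_num, div_eq_iff (by positivity)]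
    ring
  rw [e] at hd
  rw [hBB]
  obtain ⟨U, hU⟩ : ∃ U : ℕ, U = coC (r * r) := ⟨_, rfl⟩
  rw [← hU] at hd ⊢
  have hcos : |Real.cos φ| ≤ 1 := Real.abs_cos_le_one φ
  have a0 : |(U : ℝ) / 2 ^ 60 - (1 - Real.cos φ)| ≤ 1 / 2 ^ 49 + 1 / 2 ^ 60 := by
    have h1 : |(U : ℝ) / 2 ^ 60 - φ ^ 2 * P| ≤ 1 / 2 ^ 60 := by
      rw [abs_le]
      constructor
      · rw [le_sub_iff_add_le, le_div_iff₀ (by positivity), add_mul]
        have := hd.1
        norm_num at this ⊢
        linarith
      · rw [sub_le_iff_le_add, div_le_iff₀ (by positivity), add_mul]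
        have := hd.2
        norm_num at this ⊢
        linarith
    calc |(U : ℝ) / 2 ^ 60 - (1 - Real.cos φ)|
        = |((U : ℝ) / 2 ^ 60 - φ ^ 2 * P) - (1 - Real.cos φ - φ ^ 2 * P)| := by congr 1; ring
      _ ≤ |(U : ℝ) / 2 ^ 60 - φ ^ 2 * P| + |1 - Real.cos φ - φ ^ 2 * P| := abs_sub _ _
      _ ≤ _ := by linarith
  have hU61 : U ≤ 2 ^ 61 := by
    have h1 := (abs_le.1 a0).2
    have h2 := (abs_le.1 hcos).1
    have h3 : (U : ℝ) / 2 ^ 60 ≤ 2 + 1 / 2 ^ 48 := by norm_num at h1 ⊢; linarith
    -- use the exact Taylor value instead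
    have hc2 : 0 ≤ Real.cos φ := Real.cos_nonneg_of_neg_pi_div_two_le_of_le (by linarith [Real.pi_pos])
      (by linarith [Real.pi_gt_three])
    have h4 : (U : ℝ) / 2 ^ 60 ≤ 2 := by norm_num at h1 ⊢; linarith
    rw [div_le_iff₀ (by positivity)] at h4
    have h5 : (U : ℝ) ≤ ((2 ^ 61 : ℕ) : ℝ) := by push_cast; norm_num at h4 ⊢; linarith
    exact_mod_cast h5
  obtain ⟨a1, u1⟩ := dbl_spec U (Real.cos φ) _ hcos a0 hU61
  rw [← Real.cos_two_mul] at a1
  obtain ⟨a2, u2⟩ := dbl_spec _ (Real.cos (2 * φ)) _ (Real.abs_cos_le_one _) a1 u1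
  rw [← Real.cos_two_mul] at a2
  obtain ⟨a3, _⟩ := dbl_spec _ (Real.cos (2 * (2 * φ))) _ (Real.abs_cos_le_one _) a2 u2
  rw [← Real.cos_two_mul] at a3
  have hθ : 2 * (2 * (2 * φ)) = φ * 2 ^ 63 / 2 ^ 60 := by norm_num; ring
  rw [hθ, ← hrφ] at a3
  refine a3.trans ?_
  norm_num

lemma abs_cos_sub_le (a b : ℝ) : |Real.cos a - Real.cos b| ≤ |a - b| := by
  rw [Real.cos_sub_cos, abs_mul, abs_mul, abs_neg, abs_two]
  have h1 := Real.abs_sin_le_one ((a + b) / 2)
  have h2 : |Real.sin ((a - b) / 2)| ≤ |(a - b) / 2| := Real.abs_sin_le_abs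
  rw [abs_div, abs_two] at h2
  have h3 := abs_nonneg (Real.sin ((a - b) / 2))
  nlinarith [abs_nonneg (Real.sin ((a + b) / 2))]

lemma two_pi_bd : |(7244019458077122842 : ℝ) / 2 ^ 60 - 2 * Real.pi| ≤ 1 / 2 ^ 60 := by
  have h1 := Real.pi_gt_d20
  have h2 := Real.pi_lt_d20
  rw [abs_le]
  constructor
  · norm_num at h1 h2 ⊢; linarith
  · norm_num at h1 h2 ⊢; linarith

theorem co_spec' (y : ℤ) (h : |y| ≤ 40 * 2 ^ 44) :
    |(co y : ℝ) / 2 ^ 44 - Real.cos ((y : ℝ) / 2 ^ 44)| ≤ 1 / 2 ^ 41 := by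
  have hco : co y = subI 17592186044416 (Nat.shiftRight (coB (Nat.shiftLeft (absN y) 16 % 7244019458077122842)) 16) := rfl
  rw [hco, subI_eq, show Nat.shiftLeft (absN y) 16 = absN y * 2 ^ 16 from Nat.shiftLeft_eq _ _, absN_eq]
  obtain ⟨N, hN⟩ : ∃ N : ℕ, N = y.natAbs := ⟨_, rfl⟩
  have hN1 : ((N : ℕ) : ℤ) = |y| := by rw [hN]; exact Int.natCast_natAbs y
  have hNr : (N : ℝ) = |(y : ℝ)| := by exact_mod_cast hN1
  rw [← hN]
  have hNle : (N : ℝ) ≤ 40 * 2 ^ 44 := by rw [hNr]; exact_mod_cast h
  have hcosN : Real.cos ((y : ℝ) / 2 ^ 44) = Real.cos ((N : ℝ) / 2 ^ 44) := by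
    rw [hNr, ← Real.cos_abs ((y : ℝ) / 2 ^ 44), abs_div, abs_of_pos (by positivity : (0 : ℝ) < 2 ^ 44)]
  rw [hcosN]
  have hkr := Nat.div_add_mod (N * 2 ^ 16) 7244019458077122842
  have hrlt : N * 2 ^ 16 % 7244019458077122842 < 7244019458077122842 := Nat.mod_lt _ (by norm_num)
  generalize N * 2 ^ 16 / 7244019458077122842 = k at hkr
  generalize N * 2 ^ 16 % 7244019458077122842 = r at hkr hrlt ⊢
  have hB := coB_spec r hrlt
  have hs := shr_bd (coB r) 16
  have e1 : (7244019458077122842 : ℝ) * k + r = N * 2 ^ 16 := by exact_mod_cast hkr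
  have hr0 : (0 : ℝ) ≤ r := Nat.cast_nonneg r
  have hk0 : (0 : ℝ) ≤ k := Nat.cast_nonneg k
  have hk7 : (k : ℝ) ≤ 7 := by
    have e1' : (7244019458077122842 : ℝ) * k + r = N * 65536 := by rw [e1]; norm_num
    linarith
  have hδ : |k * ((7244019458077122842 : ℝ) / 2 ^ 60 - 2 * Real.pi)| ≤ 7 / 2 ^ 60 := by
    rw [abs_mul, abs_of_nonneg hk0]
    calc (k : ℝ) * |(7244019458077122842 : ℝ) / 2 ^ 60 - 2 * Real.pi| ≤ 7 * (1 / 2 ^ 60) :=
          mul_le_mul hk7 two_pi_bd (abs_nonneg _) (by norm_num)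
      _ = 7 / 2 ^ 60 := by ring
  have hN2 : (N : ℝ) / 2 ^ 44 = (r / 2 ^ 60 + k * ((7244019458077122842 : ℝ) / 2 ^ 60 - 2 * Real.pi)) + k * (2 * Real.pi) := by
    have : (N : ℝ) = (7244019458077122842 * k + r) / 2 ^ 16 := by rw [e1]; ring
    rw [this]; ring
  rw [hN2, Real.cos_add_nat_mul_two_pi]
  have hc := abs_cos_sub_le ((r : ℝ) / 2 ^ 60 + k * ((7244019458077122842 : ℝ) / 2 ^ 60 - 2 * Real.pi)) (r / 2 ^ 60)
  rw [add_sub_cancel_left] at hc
  have hc' := hc.trans hδ
  generalize Real.cos ((r : ℝ) / 2 ^ 60 + k * ((7244019458077122842 : ℝ) / 2 ^ 60 - 2 * Real.pi)) = A at hc' ⊢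
  generalize Real.cos ((r : ℝ) / 2 ^ 60) = C at hB hc'
  push_cast at hs ⊢
  generalize ((Nat.shiftRight (coB r) 16 : ℕ) : ℝ) = X at hs ⊢
  generalize ((coB r : ℕ) : ℝ) = B at hB hs
  obtain ⟨b1, b2⟩ := abs_le.1 hB
  obtain ⟨c1, c2⟩ := abs_le.1 hc'
  obtain ⟨s1, s2⟩ := hs
  have hX : (17592186044416 - X) / 2 ^ 44 = 1 - X / 2 ^ 44 := by norm_num; ring
  rw [hX, abs_le]
  norm_num at b1 b2 c1 c2 s1 s2 ⊢
  constructor <;> linarith

theorem co_spec (y : ℤ) (h : |y| ≤ 40 * 2 ^ 44) :
    |(co y : ℝ) / 2 ^ 44 - Real.cos ((y : ℝ) / 2 ^ 44)| ≤ 1 / 2 ^ 34 :=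
  (co_spec' y h).trans (by norm_num)

theorem si_spec (y : ℤ) (h : |y| ≤ 38 * 2 ^ 44) :
    |(si y : ℝ) / 2 ^ 44 - Real.sin ((y : ℝ) / 2 ^ 44)| ≤ 1 / 2 ^ 34 := by
  obtain ⟨y1, y2⟩ := abs_le.1 h
  have hoff : ((offN 703687441776640 y : ℕ) : ℤ) = y + 703687441776640 := offN_eq 703687441776640 y (by norm_num; linarith)
  have harg : subI (offN 703687441776640 y) 731321182995501 = y - 27633741218861 := by
    rw [subI_eq, hoff]
    push_cast
    ring
  have hsi : si y = co (subI (offN 703687441776640 y) 731321182995501) := rfl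
  rw [hsi, harg]
  have hc := co_spec' (y - 27633741218861) (by rw [abs_le]; constructor <;> linarith)
  have hcos := abs_cos_sub_le ((y : ℝ) / 2 ^ 44 - 27633741218861 / 2 ^ 44) ((y : ℝ) / 2 ^ 44 - Real.pi / 2)
  rw [Real.cos_sub_pi_div_two] at hcos
  have hp : |(y : ℝ) / 2 ^ 44 - 27633741218861 / 2 ^ 44 - ((y : ℝ) / 2 ^ 44 - Real.pi / 2)| ≤ 1 / 2 ^ 44 := by
    have h1 := Real.pi_gt_d20
    have h2 := Real.pi_lt_d20
    rw [abs_le]
    constructor
    · norm_num at h1 h2 ⊢; linarith
    · norm_num at h1 h2 ⊢; linarith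
  have hcos' := hcos.trans hp
  push_cast at hc
  rw [sub_div] at hc
  exact (abs_sub_le _ _ _).trans ((add_le_add hc hcos').trans (by norm_num))

lemma cs_eq (y : ℤ) : cs y = (co y, si y) := rfl

theorem cs_spec (y : ℤ) (h : |y| ≤ 38 * 2 ^ 44) :
    |(((cs y).1 : ℤ) : ℝ) / 2 ^ 44 - Real.cos ((y : ℝ) / 2 ^ 44)| ≤ 1 / 2 ^ 34 ∧
    |(((cs y).2 : ℤ) : ℝ) / 2 ^ 44 - Real.sin ((y : ℝ) / 2 ^ 44)| ≤ 1 / 2 ^ 34 := by
  have h40 : |y| ≤ 40 * 2 ^ 44 := by linarith [abs_nonneg y]
  have h1 := co_spec y h40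
  have h2 := si_spec y h
  rw [cs_eq]
  dsimp only
  exact And.intro h1 h2

end Crest.Agent.R163.Win
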