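import Crest.Agent.R163.WinPack
import Crest.Agent.R163.WinEval

/-!
Row 163, window engine: kernel evaluation of vertices, cells and cell trees (definitions only).

Coordinates: `X, Y` are natural numbers, `y = X / 2^48` (second coordinate), `z = Y / 2^48` (third
coordinate), first coordinate `3 - y - z`.  Side `false`: arguments `3-y-z, y, z` (numerators over
`2^48`); side `true`: arguments `(y+z)/2, (3-y)/2, (3-z)/2` (numerators over `2^49`).
Fixed point numbers have scale `2^44`.
-/

set_option autoImplicit false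

namespace Crest.Agent.R163.Win

open Crest.Agent.R163.Bern

noncomputable section

/-- or -/
def bor (a b : Bool) : Bool := Bool.rec b true a

/-- and -/
def band (a b : Bool) : Bool := Bool.rec false b a

/-- evaluate the argument first -/
def st {α : Type} (f : Nat → α) (n : Nat) : α := Nat.rec (f 0) (fun m _ => f (Nat.succ m)) n

/-- evaluate the argument first -/
def wb {α : Type} (f : Bool → α) (b : Bool) : α := Bool.rec (f false) (f true) b

/-- negation -/
def ng (x : Int) : Int := Int.rec (fun m => negN m) (fun m => Int.ofNat (Nat.succ m)) x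

/-- quotient, truncated towards 0 -/
def idv (x : Int) (k : Nat) : Int :=
  Int.rec (fun m => Int.ofNat (Nat.div m k)) (fun m => negN (Nat.div (Nat.succ m) k)) x

/-- positive part -/
def ntn (x : Int) : Nat := Int.rec (fun m => m) (fun _ => 0) x

/-- a functional `C(x,t)`: kind `0` = `1/2`, `1` = `1/6`, `≥ 2` = `1/3`; `t = tn/20`;
`gg/2^10` bounds the exponents -/
structure Fn where
  /-- kind -/
  kind : Nat
  /-- `20 t` -/
  tn : Nat
  /-- exponent bound -/
  gg : Nat

/-- a polynomial `s^i c^j / 2^h` -/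
structure Po where
  /-- power of `s` -/
  i : Nat
  /-- power of `c` -/
  j : Nat
  /-- power of `1/2` -/
  h : Nat

/-- numerator of the first argument -/
def n1 (side : Bool) (X Y : Nat) : Nat :=
  Bool.rec (Nat.sub 844424930131968 (Nat.add X Y)) (Nat.add X Y) side

/-- numerator of the second/third argument -/
def n2 (side : Bool) (X : Nat) : Nat := Bool.rec X (Nat.sub 844424930131968 X) side

/-- logarithm of `N / 2^48` resp. `N / 2^49` -/
def lq (side : Bool) (N : Nat) : Int :=
  ia (lg N) (ng (lg (Bool.rec 281474976710656 562949953421312 side)))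

/-- square root -/
def sq (side : Bool) (N : Nat) : Int := ex (idv (lq side N) 2)

/-- cosine and sine of `t log` -/
def ct (side : Bool) (tn N : Nat) : Int × Int := cs (idv (im (Int.ofNat tn) (lq side N)) 20)

/-- `cos (t (log - log))`, scale `2^88` -/
def dd (side : Bool) (tn N M : Nat) : Int :=
  ia (im (ct side tn N).1 (ct side tn M).1) (im (ct side tn N).2 (ct side tn M).2)

/-- sixth root of the product -/
def e6 (side : Bool) (N1 N2 N3 : Nat) : Int :=
  ex (idv (ia (lq side N1) (ia (lq side N2) (lq side N3))) 6)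

/-- a pair term, scale `2^176` -/
def hp (side : Bool) (tn : Nat) (k : Bool) (N M : Nat) : Int :=
  Bool.rec (Int.ofNat 0) (im (im (sq side N) (sq side M)) (dd side tn N M)) k

/-- `3 * 2^132` -/
def c132 : Nat := 16333553612205046246241981156724874149888

/-- value of a functional at a vertex, scale `2^44` -/
def fval (side k1 k2 k3 : Bool) (N1 N2 N3 : Nat) (f : Fn) : Int :=
  idv (Nat.rec
    (ia (hp side f.tn (band k1 k2) N1 N2)
      (ia (hp side f.tn (band k1 k3) N1 N3) (hp side f.tn (band k2 k3) N2 N3)))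
    (fun k _ => Bool.rec (Int.ofNat 0)
      (Nat.rec
        (im (e6 side N1 N2 N3) (ia (im (sq side N3) (dd side f.tn N1 N2))
          (ia (im (sq side N2) (dd side f.tn N1 N3)) (im (sq side N1) (dd side f.tn N2 N3)))))
        (fun _ _ => im (im (e6 side N1 N2 N3) (e6 side N1 N2 N3))
          (ia (dd side f.tn N1 N2) (ia (dd side f.tn N1 N3) (dd side f.tn N2 N3)))) k)
      (band k1 (band k2 k3))) f.kind) c132

/-- absolute difference -/
def ad (a b : Nat) : Nat := Nat.add (Nat.sub a b) (Nat.sub b a)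

/-- maximum -/
def mx (a b : Nat) : Nat := Nat.add a (Nat.sub b a)

/-- square -/
def sqr (a : Nat) : Nat := Nat.mul a a

/-- `s` at a vertex, denominator `3 * 2^96` -/
def sn (X Y : Nat) : Nat :=
  Nat.add (sqr (ad 562949953421312 (Nat.add X Y)))
    (Nat.add (sqr (ad X 281474976710656)) (sqr (ad Y 281474976710656)))

/-- `c` at a vertex (`X, Y ≤ 2^48`), denominator `2^144` -/
def cn (X Y : Nat) : Nat :=
  Nat.mul (Nat.sub 562949953421312 (Nat.add X Y))
    (Nat.mul (Nat.sub 281474976710656 X) (Nat.sub 281474976710656 Y))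

/-- `3 * 2^96` -/
def c96 : Nat := 237684487542793012780631851008

/-- `2^144` -/
def c144 : Nat := 22300745198530623141535718272648361505980416

/-- denominator of a polynomial -/
def pden (p : Po) : Nat := Nat.mul (Nat.mul (Nat.pow c96 p.i) (Nat.pow c144 p.j)) (Nat.pow 2 p.h)

/-- value of a polynomial at a vertex, scale `2^44` -/
def pval (S C : Nat) (p : Po) : Nat :=
  Nat.div (Nat.mul (Nat.mul (Nat.pow S p.i) (Nat.pow C p.j)) 17592186044416) (pden p)

/-- all values of functionals -/
def fvals (side k1 k2 k3 : Bool) (N1 N2 N3 : Nat) (tl : List Int) (fs : List Fn) : List Int :=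
  List.rec tl (fun f _ ih => fval side k1 k2 k3 N1 N2 N3 f :: ih) fs

/-- all values of polynomials -/
def pvals (S C : Nat) (ps : List Po) : List Int :=
  List.rec [] (fun p _ ih => Int.ofNat (pval S C p) :: ih) ps

/-- all values at a vertex -/
def vV (side k1 k2 k3 : Bool) (fs : List Fn) (ps : List Po) (X Y : Nat) : List Int :=
  st (fun N1 => st (fun N2 => st (fun N3 => st (fun S => st (fun C =>
    Int.ofNat 17592186044416 :: fvals side k1 k2 k3 N1 N2 N3 (pvals S C ps) fs)
    (cn X Y)) (sn X Y)) (n2 side Y)) (n2 side X)) (n1 side X Y)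

/-- size test -/
def bndI (V : List Int) : Bool :=
  List.rec true (fun v _ ih => band (Int.rec
    (fun m => Nat.ble m 1329227995784915872903807060280344576)
    (fun m => Nat.ble (Nat.succ m) 1329227995784915872903807060280344576) v) ih) V

/-- corner test: `H` packed half widths, `HE = H - packed error` -/
def corner (side k1 k2 k3 : Bool) (fs : List Fn) (ps : List Po) (P : List Int) (H : Nat) (HE : Int)
    (X Y : Nat) : Bool :=
  band (bndI (vV side k1 k2 k3 fs ps X Y))
    (Int.rec (fun n => Nat.beq (Nat.land n H) H) (fun _ => false)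
      (ia (fdot P (vV side k1 k2 k3 fs ps X Y)) HE))

/-- upper bound for the square root -/
def sqU (side : Bool) (N : Nat) : Nat := Nat.add (ntn (sq side N)) 8192

/-- upper bound for the sixth root -/
def e6U (side : Bool) (N1 N2 N3 : Nat) : Nat := Nat.add (ntn (e6 side N1 N2 N3)) 8192

/-- weight `γ² ((a+b)² + (c+d)²) + γ (a²+b²+c²+d²)`, scale `2^60`; `2^63` for a dropped term -/
def pw (g : Nat) (k : Bool) (a b c d : Nat) : Nat :=
  Bool.rec 9223372036854775808
    (Nat.add (Nat.mul (sqr g) (Nat.add (sqr (Nat.add a b)) (sqr (Nat.add c d))))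
      (Nat.mul (Nat.mul g 1024) (Nat.add (Nat.add (sqr a) (sqr b)) (Nat.add (sqr c) (sqr d))))) k

/-- `24 * 2^104` -/
def c24 : Nat := 486777830487640090174734030864384

/-- `8 * 2^104` -/
def c8 : Nat := 162259276829213363391578010288128

/-- relative steps in the two directions of the first argument, of the second in the first
direction and of the third in the second direction; error bound of a functional -/
def fer (k1 k2 k3 : Bool) (U1 U2 U3 E u1x u1y u2 u3 : Nat) (f : Fn) : Nat :=
  Nat.add (Nat.rec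
    (Nat.div (Nat.add (Nat.mul (Nat.mul U1 U2) (pw f.gg (band k1 k2) u1x u2 u1y 0))
      (Nat.add (Nat.mul (Nat.mul U1 U3) (pw f.gg (band k1 k3) u1x 0 u1y u3))
        (Nat.mul (Nat.mul U2 U3) (pw f.gg (band k2 k3) u2 0 0 u3)))) c24)
    (fun k _ => Nat.rec
      (Nat.div (Nat.mul (Nat.mul E (Nat.add U1 (Nat.add U2 U3)))
        (pw f.gg (band k1 (band k2 k3)) u1x u2 u1y u3)) c24)
      (fun _ _ => Nat.div (Nat.mul (Nat.mul E E)
        (pw f.gg (band k1 (band k2 k3)) u1x u2 u1y u3)) c8) k) f.kind) 262146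

/-- second derivative bound of `s^i c^j`, `j ≤ 1` -/
def jet (i j S0 S1 S2 C0 C1 C2 : Nat) : Nat :=
  st (fun a2 => Nat.rec a2 (fun _ _ =>
    Nat.add (Nat.mul a2 C0) (Nat.add
      (Nat.mul (Nat.mul 2 (Nat.mul i (Nat.mul (Nat.pow S0 (Nat.sub i 1)) S1))) C1)
      (Nat.mul (Nat.pow S0 i) C2))) j)
    (Nat.add (Nat.mul (Nat.mul (Nat.mul i (Nat.sub i 1)) (Nat.pow S0 (Nat.sub i 2))) (sqr S1))
      (Nat.mul i (Nat.mul (Nat.pow S0 (Nat.sub i 1)) S2)))

/-- error bound of a polynomial -/
def per (S0 S1x S2x S1y S2y C0 C1x C2x C1y C2y : Nat) (p : Po) : Nat :=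
  Nat.add (Nat.div (Nat.mul (Nat.add (jet p.i p.j S0 S1x S2x C0 C1x C2x)
    (jet p.i p.j S0 S1y S2y C0 C1y C2y)) 2199023255552) (pden p)) 2

/-- errors of the functionals -/
def fers (k1 k2 k3 : Bool) (U1 U2 U3 E u1x u1y u2 u3 : Nat) (tl : List Nat) (fs : List Fn) :
    List Nat :=
  List.rec tl (fun f _ ih => fer k1 k2 k3 U1 U2 U3 E u1x u1y u2 u3 f :: ih) fs

/-- errors of the polynomials -/
def pers (S0 S1x S2x S1y S2y C0 C1x C2x C1y C2y : Nat) (ps : List Po) : List Nat :=
  List.rec [] (fun p _ ih => per S0 S1x S2x S1y S2y C0 C1x C2x C1y C2y p :: ih) ps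

/-- polynomial part of the error list: `D`'s bound the directional differences -/
def ePo (ps : List Po) (dx dy z1 z2 z3 d12 d13 : Nat) : List Nat :=
  st (fun S0 => st (fun S1x => st (fun S2x => st (fun S1y => st (fun S2y => st (fun C0 =>
    st (fun C1x => st (fun C2x => st (fun C1y => st (fun C2y =>
      pers S0 S1x S2x S1y S2y C0 C1x C2x C1y C2y ps)
    (Nat.mul 2 (Nat.mul z2 (sqr dy)))) (Nat.mul z2 (Nat.mul d13 dy)))
    (Nat.mul 2 (Nat.mul z3 (sqr dx)))) (Nat.mul z3 (Nat.mul d12 dx)))
    (Nat.mul z1 (Nat.mul z2 z3))) (Nat.mul 4 (sqr dy))) (Nat.mul 2 (Nat.mul d13 dy)))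
    (Nat.mul 4 (sqr dx))) (Nat.mul 2 (Nat.mul d12 dx)))
    (Nat.add (sqr z1) (Nat.add (sqr z2) (sqr z3)))

/-- polynomial part of the error list -/
def ePol (ps : List Po) (X0 X1 Y0 Y1 : Nat) : List Nat :=
  st (fun dx => st (fun dy => st (fun z1 => st (fun z2 => st (fun z3 => st (fun d12 => st (fun d13 =>
    ePo ps dx dy z1 z2 z3 d12 d13)
    (mx (ad 844424930131968 (Nat.add X0 (Nat.add Y0 Y0)))
      (ad 844424930131968 (Nat.add X1 (Nat.add Y1 Y1)))))
    (mx (ad 844424930131968 (Nat.add (Nat.add X0 X0) Y0))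
      (ad 844424930131968 (Nat.add (Nat.add X1 X1) Y1))))
    (mx (ad 281474976710656 Y0) (ad 281474976710656 Y1)))
    (mx (ad 281474976710656 X0) (ad 281474976710656 X1)))
    (mx (ad 562949953421312 (Nat.add X0 Y0)) (ad 562949953421312 (Nat.add X1 Y1))))
    (Nat.sub Y1 Y0)) (Nat.sub X1 X0)

/-- relative step, scale `2^20`, rounded up -/
def us (d lo : Nat) : Nat := Nat.succ (Nat.div (Nat.mul d 1048576) lo)

/-- lower and upper ends of the numerators -/
def lo1 (side : Bool) (X0 X1 Y0 Y1 : Nat) : Nat := Bool.rec (n1 false X1 Y1) (n1 true X0 Y0) side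
/-- upper end of the first numerator -/
def hi1 (side : Bool) (X0 X1 Y0 Y1 : Nat) : Nat := Bool.rec (n1 false X0 Y0) (n1 true X1 Y1) side
/-- lower end of the second/third numerator -/
def lo2 (side : Bool) (X0 X1 : Nat) : Nat := Bool.rec X0 (n2 true X1) side
/-- upper end of the second/third numerator -/
def hi2 (side : Bool) (X0 X1 : Nat) : Nat := Bool.rec X1 (n2 true X0) side

/-- all error bounds of a cell -/
def vE (side k1 k2 k3 : Bool) (fs : List Fn) (ps : List Po) (l1 h1 l2 h2 l3 h3 X0 X1 Y0 Y1 : Nat) :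
    List Nat :=
  st (fun U1 => st (fun U2 => st (fun U3 => st (fun E =>
  st (fun u1x => st (fun u1y => st (fun u2 => st (fun u3 =>
    0 :: fers k1 k2 k3 U1 U2 U3 E u1x u1y u2 u3 (ePol ps X0 X1 Y0 Y1) fs)
    (us (Nat.sub Y1 Y0) l3)) (us (Nat.sub X1 X0) l2))
    (us (Nat.sub Y1 Y0) l1)) (us (Nat.sub X1 X0) l1))
    (e6U side h1 h2 h3)) (sqU side h3)) (sqU side h2)) (sqU side h1)

/-- dot product of natural numbers -/
def ndot (xs : List Nat) : List Nat → Nat :=
  List.rec (fun _ => 0)
    (fun x _ ih ys => List.rec 0 (fun y ys _ => Nat.add (Nat.mul x y) (ih ys)) ys) xs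

/-- size test -/
def bndN (V : List Nat) : Bool :=
  List.rec true (fun v _ ih => band (Nat.ble v 1329227995784915872903807060280344576) ih) V

/-- admissible range of numerators -/
def dom (lo hi : Nat) : Bool :=
  band (bor (Nat.beq lo 0) (Nat.ble 8192 lo)) (band (Nat.ble 8192 hi) (Nat.ble hi 1125899906842624))

/-- the four corner tests -/
def corners (side k1 k2 k3 : Bool) (fs : List Fn) (ps : List Po) (P : List Int) (A : List Nat)
    (H : Nat) (E : List Nat) (X0 X1 Y0 Y1 : Nat) : Bool :=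
  band (bndN E)
    ((fun HE : Int => band (corner side k1 k2 k3 fs ps P H HE X0 Y0)
      (band (corner side k1 k2 k3 fs ps P H HE X0 Y1)
        (band (corner side k1 k2 k3 fs ps P H HE X1 Y0)
          (corner side k1 k2 k3 fs ps P H HE X1 Y1)))) (subN H (ndot A E)))

/-- full test of a cell -/
def full (side : Bool) (fs : List Fn) (ps : List Po) (P : List Int) (A : List Nat)
    (H : Nat) (X0 X1 Y0 Y1 : Nat) : Bool :=
  st (fun l1 => st (fun h1 => st (fun l2 => st (fun h2 => st (fun l3 => st (fun h3 =>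
    band (dom l1 h1) (band (dom l2 h2) (band (dom l3 h3)
    (wb (fun k1 => wb (fun k2 => wb (fun k3 =>
      corners side k1 k2 k3 fs ps P A H
        (vE side k1 k2 k3 fs ps l1 h1 l2 h2 l3 h3 X0 X1 Y0 Y1) X0 X1 Y0 Y1)
      (Nat.ble 1 l3)) (Nat.ble 1 l2)) (Nat.ble 1 l1)))))
    (hi2 side Y0 Y1)) (lo2 side Y0 Y1)) (hi2 side X0 X1)) (lo2 side X0 X1))
    (hi1 side X0 X1 Y0 Y1)) (lo1 side X0 X1 Y0 Y1)

/-- cell inside the centre -/
def cen (S X0 X1 Y0 Y1 : Nat) : Bool :=
  band (Nat.ble (sn X0 Y0) S) (band (Nat.ble (sn X0 Y1) S)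
    (band (Nat.ble (sn X1 Y0) S) (Nat.ble (sn X1 Y1) S)))

/-- test of a cell; `XB` bounds the first coordinate -/
def leaf (side : Bool) (S XB : Nat) (fs : List Fn) (ps : List Po) (P : List Int) (A : List Nat)
    (H : Nat) (X0 X1 Y0 Y1 : Nat) : Bool :=
  bor (Nat.ble X1 Y0) (bor (Nat.ble 844424930131968 (Nat.add (Nat.add X0 X0) Y0))
    (band (Nat.ble (Nat.succ X0) X1) (band (Nat.ble (Nat.succ Y0) Y1)
    (band (Nat.ble X1 XB) (band (Nat.ble Y1 281474976710656)
    (bor (cen S X0 X1 Y0 Y1) (full side fs ps P A H X0 X1 Y0 Y1)))))))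

/-- cell trees -/
inductive Tr : Type
  /-- leaf -/
  | L : Tr
  /-- split the first direction at `m` -/
  | X (m : Nat) (a b : Tr) : Tr
  /-- split the second direction at `m` -/
  | Y (m : Nat) (a b : Tr) : Tr

/-- test of a tree -/
def chk (side : Bool) (S XB : Nat) (fs : List Fn) (ps : List Po) (P : List Int) (A : List Nat)
    (H : Nat) (t : Tr) : Nat → Nat → Nat → Nat → Bool :=
  Tr.rec (motive := fun _ => Nat → Nat → Nat → Nat → Bool)
    (fun X0 X1 Y0 Y1 => leaf side S XB fs ps P A H X0 X1 Y0 Y1)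
    (fun m _ _ iha ihb X0 X1 Y0 Y1 => band (iha X0 m Y0 Y1) (ihb m X1 Y0 Y1))
    (fun m _ _ iha ihb X0 X1 Y0 Y1 => band (iha X0 X1 Y0 m) (ihb X0 X1 m Y1)) t

end

end Crest.Agent.R163.Win
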