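import Crest.Agent.R163.WinRows

/-!
Row 163 (S0244 antiferro): from the engine's strict inequalities (`OutOK`, `CenOK`) on the rows of
`WinRows` to `HWin.Pt2`, `PinBd2`, `PosM`, and the final statements on `J chi`.
-/

set_option autoImplicit false

open Filter Topology

namespace Crest.Agent.R163

open Win

/-! ### closure -/

/-- the row inequality on all sorted points (non-strict) -/
def Full (side pos : Bool) (zmin : ℚ) (w : List Int) : Prop :=
  ∀ x y z : ℝ, 0 < z → (zmin : ℝ) < z → z ≤ y → y ≤ x → x + y + z = 3 →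
    (if pos then y ≤ 1 else 1 ≤ y) → 0 ≤ dotR w (basis side pos x y z)

lemma continuousAt_fxt {a b c : ℝ → ℝ} (ha : Continuous a) (hb : Continuous b)
    (hc : Continuous c) (x τ : ℝ) {t : ℝ} (h1 : 0 < a t) (h2 : 0 < b t) (h3 : 0 < c t) :
    ContinuousAt (fun t => fxt x τ (a t) (b t) (c t)) t := by
  have ca := ha.continuousAt (x := t)
  have cb := hb.continuousAt (x := t)
  have cc := hc.continuousAt (x := t)
  have la : ContinuousAt (fun t => Real.log (a t)) t := ca.log h1.ne'
  have lb : ContinuousAt (fun t => Real.log (b t)) t := cb.log h2.ne'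
  have lc : ContinuousAt (fun t => Real.log (c t)) t := cc.log h3.ne'
  have key : ∀ {u v w : ℝ → ℝ}, ContinuousAt u t → ContinuousAt v t → ContinuousAt w t →
      0 < u t → 0 < v t → 0 < w t → ContinuousAt (fun t => Real.log (v t)) t →
      ContinuousAt (fun t => Real.log (w t)) t →
      ContinuousAt (fun t => u t ^ (1 - 2 * x) * (v t * w t) ^ x *
        Real.cos (τ * (Real.log (v t) - Real.log (w t)))) t := by
    intro u v w hu hv hw pu pv pw lv lw
    refine ((hu.rpow_const (Or.inl pu.ne')).mul ((hv.mul hw).rpow_const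
      (Or.inl (mul_pos pv pw).ne'))).mul ?_
    exact Real.continuous_cos.continuousAt.comp (continuousAt_const.mul (lv.sub lw))
  unfold fxt
  exact (((key ca cb cc h1 h2 h3 lb lc).add (key cb cc ca h2 h3 h1 lc la)).add
    (key cc ca cb h3 h1 h2 la lb)).div_const 3

lemma continuousAt_dotR {t : ℝ} : ∀ (w : List Int) (fs : List (ℝ → ℝ)),
    (∀ f ∈ fs, ContinuousAt f t) → ContinuousAt (fun t => dotR w (fs.map fun f => f t)) t
  | [], _, _ => by simp only [dotR]; exact continuousAt_const
  | _ :: _, [], _ => by simp only [dotR, List.map_nil]; exact continuousAt_const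
  | _ :: ws, f :: fs, h => by
      simp only [dotR, List.map_cons]
      exact (continuousAt_const.mul (h f (List.mem_cons_self ..))).add
        (continuousAt_dotR ws fs fun g hg => h g (List.mem_cons_of_mem _ hg))

lemma continuousAt_basis {a b c : ℝ → ℝ} (ha : Continuous a) (hb : Continuous b)
    (hc : Continuous c) (side pos : Bool) {t : ℝ} (h1 : 0 < arg side (a t))
    (h2 : 0 < arg side (b t)) (h3 : 0 < arg side (c t)) (w : List Int) :
    ContinuousAt (fun t => dotR w (basis side pos (a t) (b t) (c t))) t := by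
  have harg : ∀ {u : ℝ → ℝ}, Continuous u → Continuous fun t => arg side (u t) := by
    intro u hu
    unfold arg
    cases side
    · simpa using hu
    · simpa using (continuous_const.sub hu).div_const 2
  have hs : Continuous fun t => s3 (a t) (b t) (c t) := by unfold s3; fun_prop
  have hcc : Continuous fun t => c3 (a t) (b t) (c t) := by unfold c3; fun_prop
  have hF : ∀ x τ : ℝ, ContinuousAt (fun t => fxt x τ (arg side (a t)) (arg side (b t))
      (arg side (c t))) t := fun x τ =>
    continuousAt_fxt (harg ha) (harg hb) (harg hc) x τ h1 h2 h3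
  cases pos
  · have := continuousAt_dotR (t := t) w
      [fun _ => 1, fun t => fxt (1 / 2) 0 (arg side (a t)) (arg side (b t)) (arg side (c t)),
        fun t => fxt (1 / 2) (1 / 2) (arg side (a t)) (arg side (b t)) (arg side (c t)),
        fun t => fxt (1 / 2) (3 / 2) (arg side (a t)) (arg side (b t)) (arg side (c t)),
        fun t => fxt (1 / 6) (1 / 2) (arg side (a t)) (arg side (b t)) (arg side (c t)),
        fun t => fxt (1 / 3) (1 / 2) (arg side (a t)) (arg side (b t)) (arg side (c t)),
        fun t => s3 (a t) (b t) (c t), fun t => s3 (a t) (b t) (c t) ^ 2,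
        fun t => s3 (a t) (b t) (c t) ^ 5] (by
      intro f hf
      simp only [List.mem_cons, List.not_mem_nil, or_false] at hf
      rcases hf with rfl | rfl | rfl | rfl | rfl | rfl | rfl | rfl | rfl
      · exact continuousAt_const
      · exact hF _ _
      · exact hF _ _
      · exact hF _ _
      · exact hF _ _
      · exact hF _ _
      · exact hs.continuousAt
      · exact (hs.pow 2).continuousAt
      · exact (hs.pow 5).continuousAt)
    exact this
  · have := continuousAt_dotR (t := t) w
      [fun _ => 1, fun t => fxt (1 / 2) 0 (arg side (a t)) (arg side (b t)) (arg side (c t)),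
        fun t => fxt (1 / 2) (1 / 2) (arg side (a t)) (arg side (b t)) (arg side (c t)),
        fun t => fxt (1 / 2) (3 / 2) (arg side (a t)) (arg side (b t)) (arg side (c t)),
        fun t => fxt (1 / 6) (1 / 2) (arg side (a t)) (arg side (b t)) (arg side (c t)),
        fun t => fxt (1 / 3) (1 / 2) (arg side (a t)) (arg side (b t)) (arg side (c t)),
        fun t => s3 (a t) (b t) (c t), fun t => s3 (a t) (b t) (c t) ^ 2,
        fun t => s3 (a t) (b t) (c t) * c3 (a t) (b t) (c t),
        fun t => s3 (a t) (b t) (c t) ^ 17 / 2 ^ 16] (by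
      intro f hf
      simp only [List.mem_cons, List.not_mem_nil, or_false] at hf
      rcases hf with rfl | rfl | rfl | rfl | rfl | rfl | rfl | rfl | rfl | rfl
      · exact continuousAt_const
      · exact hF _ _
      · exact hF _ _
      · exact hF _ _
      · exact hF _ _
      · exact hF _ _
      · exact hs.continuousAt
      · exact (hs.pow 2).continuousAt
      · exact (hs.mul hcc).continuousAt
      · exact ((hs.pow 17).div_const _).continuousAt)
    exact this

lemma arg_pos (side : Bool) {x : ℝ} (h0 : 0 < x) (h3 : x < 3) : 0 < arg side x := by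
  unfold arg
  cases side
  · simpa using h0
  · simp only [if_true]; linarith

/-- closure: the strict inequalities suffice -/
theorem full_of {side pos : Bool} {zmin s0 : ℚ} {w : List Int} (hz : zmin < 4 / 5)
    (h1 : OutOK side pos zmin s0 w) (h2 : CenOK side pos s0 w) : Full side pos zmin w := by
  intro x y z hz0 hzm hzy hyx hs hy
  have hzr : (zmin : ℝ) < 4 / 5 := by
    have : ((zmin : ℚ) : ℝ) < ((4 / 5 : ℚ) : ℝ) := by exact_mod_cast hz
    push_cast at this
    exact this
  -- the interior point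
  obtain ⟨p1, p2, p3, hp12, hp23, hps, hp3, hp2⟩ : ∃ p1 p2 p3 : ℝ, p2 < p1 ∧ p3 < p2 ∧
      p1 + p2 + p3 = 3 ∧ 4 / 5 ≤ p3 ∧ (if pos then p2 < 1 else 1 < p2) := by
    cases pos
    · exact ⟨23 / 20, 21 / 20, 4 / 5, by norm_num, by norm_num, by norm_num, by norm_num,
        by norm_num⟩
    · exact ⟨6 / 5, 19 / 20, 17 / 20, by norm_num, by norm_num, by norm_num, by norm_num,
        by norm_num⟩
  let X : ℝ → ℝ := fun t => x + t * (p1 - x)
  let Y : ℝ → ℝ := fun t => y + t * (p2 - y)
  let Z : ℝ → ℝ := fun t => z + t * (p3 - z)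
  have hX : Continuous X := by fun_prop
  have hY : Continuous Y := by fun_prop
  have hZ : Continuous Z := by fun_prop
  have hx0 : 0 < x := by linarith
  have hy0 : 0 < y := by linarith
  have hx3 : x < 3 := by linarith
  have hy3 : y < 3 := by linarith
  have hz3 : z < 3 := by linarith
  have hcont : ContinuousAt (fun t => dotR w (basis side pos (X t) (Y t) (Z t))) 0 := by
    refine continuousAt_basis hX hY hZ side pos ?_ ?_ ?_ w
    · exact arg_pos side (by show 0 < x + 0 * (p1 - x); linarith)
        (by show x + 0 * (p1 - x) < 3; linarith)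
    · exact arg_pos side (by show 0 < y + 0 * (p2 - y); linarith)
        (by show y + 0 * (p2 - y) < 3; linarith)
    · exact arg_pos side (by show 0 < z + 0 * (p3 - z); linarith)
        (by show z + 0 * (p3 - z) < 3; linarith)
  have hlim : Tendsto (fun t => dotR w (basis side pos (X t) (Y t) (Z t))) (𝓝[>] (0 : ℝ))
      (𝓝 (dotR w (basis side pos (X 0) (Y 0) (Z 0)))) := hcont.tendsto.mono_left nhdsWithin_le_nhds
  have hev : ∀ᶠ t in 𝓝[>] (0 : ℝ), 0 ≤ dotR w (basis side pos (X t) (Y t) (Z t)) := by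
    have : ∀ᶠ t in 𝓝[>] (0 : ℝ), t < 1 :=
      nhdsWithin_le_nhds (Iio_mem_nhds one_pos)
    filter_upwards [self_mem_nhdsWithin, this] with t ht0 ht1
    rw [Set.mem_Ioi] at ht0
    have hu : 0 < 1 - t := by linarith
    have e1 : X t = (1 - t) * x + t * p1 := by show x + t * (p1 - x) = _; ring
    have e2 : Y t = (1 - t) * y + t * p2 := by show y + t * (p2 - y) = _; ring
    have e3 : Z t = (1 - t) * z + t * p3 := by show z + t * (p3 - z) = _; ring
    have a1 : 0 < Z t := by
      rw [e3]
      have := mul_pos hu hz0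
      have := mul_pos ht0 (show 0 < p3 by linarith)
      linarith
    have a2 : (zmin : ℝ) < Z t := by
      rw [e3]
      have b1 := mul_lt_mul_of_pos_left hzm hu
      have b2 := mul_lt_mul_of_pos_left (lt_of_lt_of_le hzr hp3) ht0
      linarith
    have a3 : Z t < Y t := by
      rw [e2, e3]
      have b1 := mul_le_mul_of_nonneg_left hzy hu.le
      have b2 := mul_lt_mul_of_pos_left hp23 ht0
      linarith
    have a4 : Y t < X t := by
      rw [e1, e2]
      have b1 := mul_le_mul_of_nonneg_left hyx hu.le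
      have b2 := mul_lt_mul_of_pos_left hp12 ht0
      linarith
    have a5 : X t + Y t + Z t = 3 := by
      rw [e1, e2, e3]
      linear_combination (1 - t) * hs + t * hps
    have a6 : if pos then Y t < 1 else 1 < Y t := by
      rw [e2]
      cases pos
      · simp only [Bool.false_eq_true, if_false] at hy hp2 ⊢
        have b1 := mul_le_mul_of_nonneg_left hy hu.le
        have b2 := mul_lt_mul_of_pos_left hp2 ht0
        linarith
      · simp only [if_true] at hy hp2 ⊢
        have b1 := mul_le_mul_of_nonneg_left hy hu.le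
        have b2 := mul_lt_mul_of_pos_left hp2 ht0
        linarith
    rcases le_or_gt (s3 (X t) (Y t) (Z t)) (s0 : ℝ) with h | h
    · exact h2 _ _ _ a1 a3 a4 a5 a6 h
    · exact h1 _ _ _ a1 a3 a4 a5 a6 a2 h
  have := ge_of_tendsto hlim hev
  have e1 : X 0 = x := by show x + 0 * (p1 - x) = x; ring
  have e2 : Y 0 = y := by show y + 0 * (p2 - y) = y; ring
  have e3 : Z 0 = z := by show z + 0 * (p3 - z) = z; ring
  rwa [e1, e2, e3] at this

/-! ### rows -/

/-- exponents of the functionals -/
noncomputable def xaF : Fin 4 → ℝ := ![1 / 2, 1 / 2, 1 / 2, 1 / 6]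
/-- frequencies of the functionals -/
noncomputable def taF : Fin 4 → ℝ := ![0, 1 / 2, 3 / 2, 1 / 2]

lemma xaF_ok : ∀ j, 0 < xaF j ∧ xaF j ≤ 1 / 2 := by
  intro j
  fin_cases j <;> simp [xaF] <;> norm_num

lemma sum_four (f : Fin 4 → ℝ) : ∑ j, f j = f 0 + f 1 + f 2 + f 3 := Fin.sum_univ_four f

/-- posterior side -/
lemma RawWin.bp {D : RawWin} (h : Full false true 0 (D.rowB true)) (x y z : ℝ) (h0 : 0 < z)
    (h1 : z ≤ y) (h2 : y ≤ x) (hs : x + y + z = 3) (hy : y ≤ 1) :
    4 * pol (castPol D.toH.PB) (s3 x y z) (c3 x y z) ≤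
      ∑ j, (D.toH.mu j : ℝ) * (1 - fxt (xaF j) (taF j) x y z) -
        D.toH.m * (1 - fxt (1 / 3) (1 / 2) x y z) := by
  have := h x y z h0 (by simpa using h0) h1 h2 hs (by simpa using hy)
  simp only [RawWin.rowB, basis, basF, basP, arg, if_true, Bool.false_eq_true, if_false, dotR,
    List.cons_append, List.nil_append] at this
  simp only [RawWin.toH, castPol, pol, List.map_cons, List.map_nil, List.sum_cons, List.sum_nil,
    sum_four, xaF, taF, Matrix.cons_val_zero, Matrix.cons_val_one, Matrix.cons_val]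
  push_cast at this ⊢
  linarith

lemma RawWin.bm {D : RawWin} (h : Full false false 0 (D.rowB false)) (x y z : ℝ) (h0 : 0 < z)
    (h1 : z ≤ y) (h2 : y ≤ x) (hs : x + y + z = 3) (hy : 1 ≤ y) :
    4 * pol (castPol D.toH.QB) (s3 x y z) (-c3 x y z) ≤
      ∑ j, (D.toH.mu j : ℝ) * (1 - fxt (xaF j) (taF j) x y z) -
        D.toH.m * (1 - fxt (1 / 3) (1 / 2) x y z) := by
  have := h x y z h0 (by simpa using h0) h1 h2 hs (by simpa using hy)
  simp only [RawWin.rowB, basis, basF, basP, arg, Bool.false_eq_true, if_false, dotR,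
    List.cons_append, List.nil_append] at this
  simp only [RawWin.toH, castPol, pol, List.map_cons, List.map_nil, List.sum_cons, List.sum_nil,
    sum_four, xaF, taF, Matrix.cons_val_zero, Matrix.cons_val_one, Matrix.cons_val]
  push_cast at this ⊢
  linarith

lemma RawWin.mp {D : RawWin} {ρ : ℚ} (hρ : ρ ≤ 1) (h : Full true true (1 - ρ) (D.rowM true))
    (x y z : ℝ) (h0 : 1 - (ρ : ℝ) < z)
    (h1 : z ≤ y) (h2 : y ≤ x) (hs : x + y + z = 3) (hy : y ≤ 1) :
    ∑ j, (D.toH.al j : ℝ) * (1 - fxt (xaF j) (taF j) ((3 - x) / 2) ((3 - y) / 2) ((3 - z) / 2)) -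
      D.toH.be * (1 - fxt (1 / 3) (1 / 2) ((3 - x) / 2) ((3 - y) / 2) ((3 - z) / 2)) +
        D.toH.xi * s3 x y z ≤ pol (castPol D.toH.P) (s3 x y z) (c3 x y z) := by
  have hρ' : (ρ : ℝ) ≤ 1 := by exact_mod_cast hρ
  have := h x y z (by linarith) (by push_cast; exact h0) h1 h2 hs (by simpa using hy)
  simp only [RawWin.rowM, basis, basF, basP, arg, if_true, dotR,
    List.cons_append, List.nil_append] at this
  simp only [RawWin.toH, castPol, pol, List.map_cons, List.map_nil, List.sum_cons, List.sum_nil,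
    sum_four, xaF, taF, Matrix.cons_val_zero, Matrix.cons_val_one, Matrix.cons_val]
  push_cast at this ⊢
  linarith

lemma RawWin.mm {D : RawWin} {ρ : ℚ} (hρ : ρ ≤ 1) (h : Full true false (1 - ρ) (D.rowM false))
    (x y z : ℝ) (h0 : 1 - (ρ : ℝ) < z)
    (h1 : z ≤ y) (h2 : y ≤ x) (hs : x + y + z = 3) (hy : 1 ≤ y) :
    ∑ j, (D.toH.al j : ℝ) * (1 - fxt (xaF j) (taF j) ((3 - x) / 2) ((3 - y) / 2) ((3 - z) / 2)) -
      D.toH.be * (1 - fxt (1 / 3) (1 / 2) ((3 - x) / 2) ((3 - y) / 2) ((3 - z) / 2)) +
        D.toH.xi * s3 x y z ≤ pol (castPol D.toH.Q) (s3 x y z) (-c3 x y z) := by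
  have hρ' : (ρ : ℝ) ≤ 1 := by exact_mod_cast hρ
  have := h x y z (by linarith) (by push_cast; exact h0) h1 h2 hs (by simpa using hy)
  simp only [RawWin.rowM, basis, basF, basP, arg, if_true, Bool.false_eq_true, if_false, dotR,
    List.cons_append, List.nil_append] at this
  simp only [RawWin.toH, castPol, pol, List.map_cons, List.map_nil, List.sum_cons, List.sum_nil,
    sum_four, xaF, taF, Matrix.cons_val_zero, Matrix.cons_val_one, Matrix.cons_val]
  push_cast at this ⊢
  linarith

/-- rows to window conditions -/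
theorem RawWin.pt2 {D : RawWin} {ρ : ℚ} (hρ : ρ ≤ 1)
    (hB : ∀ pos, Full false pos 0 (D.rowB pos)) (hM : ∀ pos, Full true pos (1 - ρ) (D.rowM pos)) :
    D.toH.Pt2 xaF taF (1 / 3) (1 / 2) ρ where
  Mp := RawWin.mp hρ (hM true)
  Mm := RawWin.mm hρ (hM false)
  Bp := RawWin.bp (hB true)
  Bm := RawWin.bm (hB false)

/-- rows of the pin bounds -/
theorem pin_rows {ρ : ℚ} (hρ : ρ ≤ 1) {c p : ℤ}
    (h : ∀ pos, ∀ w ∈ pinRows c p pos, Full true pos (1 - ρ) w) :
    PinBd2 (1 / 3) (1 / 2) ρ ((c / 1000 : ℚ) : ℝ) ((p / 1000 : ℚ) : ℝ) := by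
  have hρ' : (ρ : ℝ) ≤ 1 := by exact_mod_cast hρ
  intro x y z h0 h1 h2 hs
  have h0' : 0 < z := by linarith
  rcases le_total y 1 with hy | hy
  · have k1 := h true _ (List.mem_cons_self ..) x y z h0' (by push_cast; exact h0) h1 h2 hs
      (by simpa using hy)
    have k2 := h true _ (List.mem_cons_of_mem _ (List.mem_cons_self ..)) x y z h0'
      (by push_cast; exact h0) h1 h2 hs (by simpa using hy)
    simp only [basis, basF, basP, arg, if_true, dotR,
      List.cons_append, List.nil_append] at k1 k2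
    push_cast at k1 k2 ⊢
    constructor <;> linarith
  · have k1 := h false _ (List.mem_cons_self ..) x y z h0' (by push_cast; exact h0) h1 h2 hs
      (by simpa using hy)
    have k2 := h false _ (List.mem_cons_of_mem _ (List.mem_cons_self ..)) x y z h0'
      (by push_cast; exact h0) h1 h2 hs (by simpa using hy)
    simp only [basis, basF, basP, arg, if_true, Bool.false_eq_true, if_false, dotR,
      List.cons_append, List.nil_append] at k1 k2
    push_cast at k1 k2 ⊢
    constructor <;> linarith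

/-- rows of the positivity -/
theorem pos_rows {ρ : ℚ} (hρ : ρ ≤ 1)
    (h : ∀ pos, ∀ w ∈ posRows pos, Full true pos (1 - ρ) w) : PosM xaF taF ρ := by
  have hρ' : (ρ : ℝ) ≤ 1 := by exact_mod_cast hρ
  intro j x y z h0 h1 h2 hs
  have h0' : 0 < z := by linarith
  have m0 : ∀ pos, ([0, 100000, 0, 0, 0, 0, 0, 0, 0] ++ (if pos then [0] else []) : List Int) ∈
      posRows pos := fun pos => List.mem_cons_self ..
  have m1 : ∀ pos, ([0, 0, 100000, 0, 0, 0, 0, 0, 0] ++ (if pos then [0] else []) : List Int) ∈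
      posRows pos := fun pos => List.mem_cons_of_mem _ (List.mem_cons_self ..)
  have m2 : ∀ pos, ([0, 0, 0, 100000, 0, 0, 0, 0, 0] ++ (if pos then [0] else []) : List Int) ∈
      posRows pos := fun pos => List.mem_cons_of_mem _ (List.mem_cons_of_mem _
        (List.mem_cons_self ..))
  have m3 : ∀ pos, ([0, 0, 0, 0, 100000, 0, 0, 0, 0] ++ (if pos then [0] else []) : List Int) ∈
      posRows pos := fun pos => List.mem_cons_of_mem _ (List.mem_cons_of_mem _
        (List.mem_cons_of_mem _ (List.mem_cons_self ..)))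
  rcases le_total y 1 with hy | hy
  · have k0 := h true _ (m0 true) x y z h0' (by push_cast; exact h0) h1 h2 hs (by simpa using hy)
    have k1 := h true _ (m1 true) x y z h0' (by push_cast; exact h0) h1 h2 hs (by simpa using hy)
    have k2 := h true _ (m2 true) x y z h0' (by push_cast; exact h0) h1 h2 hs (by simpa using hy)
    have k3 := h true _ (m3 true) x y z h0' (by push_cast; exact h0) h1 h2 hs (by simpa using hy)
    simp only [basis, basF, basP, arg, if_true, dotR,
      List.cons_append, List.nil_append] at k0 k1 k2 k3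
    push_cast at k0 k1 k2 k3
    fin_cases j <;> simp only [xaF, taF, Fin.zero_eta, Fin.mk_one, Fin.reduceFinMk,
      Matrix.cons_val_zero, Matrix.cons_val_one, Matrix.cons_val] <;> linarith
  · have k0 := h false _ (m0 false) x y z h0' (by push_cast; exact h0) h1 h2 hs (by simpa using hy)
    have k1 := h false _ (m1 false) x y z h0' (by push_cast; exact h0) h1 h2 hs (by simpa using hy)
    have k2 := h false _ (m2 false) x y z h0' (by push_cast; exact h0) h1 h2 hs (by simpa using hy)
    have k3 := h false _ (m3 false) x y z h0' (by push_cast; exact h0) h1 h2 hs (by simpa using hy)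
    simp only [basis, basF, basP, arg, if_true, Bool.false_eq_true, if_false, dotR,
      List.cons_append, List.nil_append] at k0 k1 k2 k3
    push_cast at k0 k1 k2 k3
    fin_cases j <;> simp only [xaF, taF, Fin.zero_eta, Fin.mk_one, Fin.reduceFinMk,
      Matrix.cons_val_zero, Matrix.cons_val_one, Matrix.cons_val] <;> linarith

/-! ### the engine's output and the conclusions -/

/-- both regions of the engine for a list of rows -/
def RowsOK (side pos : Bool) (zmin s0 : ℚ) (ws : List (List Int)) : Prop :=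
  ∀ w ∈ ws, OutOK side pos zmin s0 w ∧ CenOK side pos s0 w

lemma RowsOK.full {side pos : Bool} {zmin s0 : ℚ} {ws : List (List Int)} (hz : zmin < 4 / 5)
    (h : RowsOK side pos zmin s0 ws) : ∀ w ∈ ws, Full side pos zmin w :=
  fun w hw => full_of hz (h w hw).1 (h w hw).2

/-- Poisson trees: `χ < 1/10` at some level, all `d ≥ 4` -/
theorem gw_of_rows (hB : ∀ D ∈ wPois, ∀ pos, Full false pos 0 (D.rowB pos))
    (hM : ∀ D ∈ wPois, ∀ pos, Full true pos 0 (D.rowM pos))
    (hpin : ∀ pos, ∀ w ∈ pinRows 183 560 pos, Full true pos 0 w) {d : ℝ} (hd : 4 ≤ d) :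
    GwLt (1 / Real.sqrt d) d (1 / 10) := by
  have hpin' : PinBd2 (1 / 3) (1 / 2) ((1 : ℚ) : ℝ) (((183 : ℤ) / 1000 : ℚ) : ℝ)
      (((560 : ℤ) / 1000 : ℚ) : ℝ) := pin_rows le_rfl fun pos w hw => by
    rw [sub_self]
    exact hpin pos w hw
  have := gwLt_H (xa := xaF) (ta := taF) xaF_ok (xr := 1 / 3) (tr := 1 / 2)
    ⟨by norm_num, by norm_num⟩ (wPois.map RawWin.toH) (x0 := 1 / 10) (c := (183 : ℤ) / 1000)
    (p := (560 : ℤ) / 1000) (by norm_num) (by norm_num) (by rw [Rat.cast_one] at hpin'; exact hpin')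
    (by decide +kernel) (by decide +kernel) (fun D hD => by
      rw [List.mem_map] at hD
      obtain ⟨D', hD', rfl⟩ := hD
      have := RawWin.pt2 (D := D') (ρ := 1) le_rfl (hB D' hD')
        (by rw [sub_self]; exact hM D' hD')
      rw [Rat.cast_one] at this
      exact this) hd
  push_cast at this
  exact this

/-- `b = 4` -/
theorem four_of_rows (hB : ∀ D ∈ wR4, ∀ pos, Full false pos 0 (D.rowB pos))
    (hM : ∀ D ∈ wR4, ∀ pos, Full true pos 0 (D.rowM pos))
    (hpin : ∀ pos, ∀ w ∈ pinRows 183 560 pos, Full true pos 0 w)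
    (hxm : ∃ n, J chi (reg 3 4 (-(1 / 2)) n) ≤ 3128 / 10000) :
    RegLt 4 (1 / 2) (1 / 5) := by
  have hpin' : PinBd2 (1 / 3) (1 / 2) ((1 : ℚ) : ℝ) (((183 : ℤ) / 1000 : ℚ) : ℝ)
      (((560 : ℤ) / 1000 : ℚ) : ℝ) := pin_rows le_rfl fun pos w hw => by
    rw [sub_self]
    exact hpin pos w hw
  have := regLt_four (xa := xaF) (ta := taF) xaF_ok (xr := 1 / 3) (tr := 1 / 2)
    ⟨by norm_num, by norm_num⟩ (wR4.map RawWin.toH) (x0 := 1 / 5) (xm := 3128 / 10000)
    (c := (183 : ℤ) / 1000)
    (p := (560 : ℤ) / 1000) (by norm_num) (by norm_num) (by rw [Rat.cast_one] at hpin'; exact hpin')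
    (by decide +kernel) (by decide +kernel) (fun D hD => by
      rw [List.mem_map] at hD
      obtain ⟨D', hD', rfl⟩ := hD
      have := RawWin.pt2 (D := D') (ρ := 1) le_rfl (hB D' hD')
        (by rw [sub_self]; exact hM D' hD')
      rw [Rat.cast_one] at this
      exact this) (by push_cast; exact hxm)
  push_cast at this
  exact this

/-- `b = 5, 6` -/
theorem r5_of_rows (hB : ∀ D ∈ wR5, ∀ pos, Full false pos 0 (D.rowB pos))
    (hM : ∀ D ∈ wR5, ∀ pos, Full true pos (211 / 2000) (D.rowM pos))
    (hpin : ∀ pos, ∀ w ∈ pinRows 185 450 pos, Full true pos (211 / 2000) w)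
    (hpos : ∀ pos, ∀ w ∈ posRows pos, Full true pos (211 / 2000) w)
    {b : ℕ} (hb : 5 ≤ b) (hb' : b ≤ 6) : RegLt b (1 / Real.sqrt b) (1 / 5) := by
  have e : (1 - 1789 / 2000 : ℚ) = 211 / 2000 := by norm_num
  have := regLt_F (xa := xaF) (ta := taF) xaF_ok (xr := 1 / 3) (tr := 1 / 2)
    ⟨by norm_num, by norm_num⟩ (wR5.map RawWin.toH) (b1 := 5) (b2 := 6) (x0 := 1 / 5)
    (c := (185 : ℤ) / 1000) (p := (450 : ℤ) / 1000) (ρ0 := 1789 / 2000) (by norm_num)
    (by norm_num) (by norm_num) (by norm_num) (by norm_num)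
    (pin_rows (by norm_num) fun pos w hw => by rw [e]; exact hpin pos w hw)
    (pos_rows (by norm_num) fun pos w hw => by rw [e]; exact hpos pos w hw)
    (by decide +kernel) (by decide +kernel) (fun D hD => by
      rw [List.mem_map] at hD
      obtain ⟨D', hD', rfl⟩ := hD
      exact RawWin.pt2 (D := D') (by norm_num) (hB D' hD') (by rw [e]; exact hM D' hD')) hb hb'
  push_cast at this
  exact this

/-- `7 ≤ b ≤ 10` -/
theorem r7_of_rows (hB : ∀ D ∈ wR7, ∀ pos, Full false pos 0 (D.rowB pos))
    (hM : ∀ D ∈ wR7, ∀ pos, Full true pos (61 / 250) (D.rowM pos))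
    (hpin : ∀ pos, ∀ w ∈ pinRows 185 370 pos, Full true pos (61 / 250) w)
    (hpos : ∀ pos, ∀ w ∈ posRows pos, Full true pos (61 / 250) w)
    {b : ℕ} (hb : 7 ≤ b) (hb' : b ≤ 10) : RegLt b (1 / Real.sqrt b) (1 / 5) := by
  have e : (1 - 189 / 250 : ℚ) = 61 / 250 := by norm_num
  have := regLt_F (xa := xaF) (ta := taF) xaF_ok (xr := 1 / 3) (tr := 1 / 2)
    ⟨by norm_num, by norm_num⟩ (wR7.map RawWin.toH) (b1 := 7) (b2 := 10) (x0 := 1 / 5)
    (c := (185 : ℤ) / 1000) (p := (370 : ℤ) / 1000) (ρ0 := 189 / 250) (by norm_num)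
    (by norm_num) (by norm_num) (by norm_num) (by norm_num)
    (pin_rows (by norm_num) fun pos w hw => by rw [e]; exact hpin pos w hw)
    (pos_rows (by norm_num) fun pos w hw => by rw [e]; exact hpos pos w hw)
    (by decide +kernel) (by decide +kernel) (fun D hD => by
      rw [List.mem_map] at hD
      obtain ⟨D', hD', rfl⟩ := hD
      exact RawWin.pt2 (D := D') (by norm_num) (hB D' hD') (by rw [e]; exact hM D' hD')) hb hb'
  push_cast at this
  exact this

/-- `b ≥ 11` -/
theorem r11_of_rows (hB : ∀ D ∈ wR11, ∀ pos, Full false pos 0 (D.rowB pos))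
    (hM : ∀ D ∈ wR11, ∀ pos, Full true pos (3969 / 10000) (D.rowM pos))
    (hpin : ∀ pos, ∀ w ∈ pinRows 185 320 pos, Full true pos (3969 / 10000) w)
    (hpos : ∀ pos, ∀ w ∈ posRows pos, Full true pos (3969 / 10000) w)
    {b : ℕ} (hb : 11 ≤ b) : RegLt b (1 / Real.sqrt b) (1 / 5) := by
  have e : (1 - 6031 / 10000 : ℚ) = 3969 / 10000 := by norm_num
  have := regLt_G (xa := xaF) (ta := taF) xaF_ok (xr := 1 / 3) (tr := 1 / 2)
    ⟨by norm_num, by norm_num⟩ (wR11.map RawWin.toH) (b1 := 11) (x0 := 1 / 5)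
    (c := (185 : ℤ) / 1000) (p := (320 : ℤ) / 1000) (ρ0 := 6031 / 10000) (by norm_num)
    (by norm_num) (by norm_num) (by norm_num) (by norm_num)
    (pin_rows (by norm_num) fun pos w hw => by rw [e]; exact hpin pos w hw)
    (pos_rows (by norm_num) fun pos w hw => by rw [e]; exact hpos pos w hw)
    (by decide +kernel) (by decide +kernel) (fun D hD => by
      rw [List.mem_map] at hD
      obtain ⟨D', hD', rfl⟩ := hD
      exact RawWin.pt2 (D := D') (by norm_num) (hB D' hD') (by rw [e]; exact hM D' hD')) hb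
  push_cast at this
  exact this

/-- what is needed from the engine: Poisson, `7 ≤ b ≤ 10`, `b ≥ 11` -/
structure Engine : Prop where
  B : ∀ pos, ∀ w ∈ (wPois ++ wR7 ++ wR11).map (fun D => D.rowB pos), Full false pos 0 w
  M1 : ∀ pos, ∀ w ∈ wPois.map (fun D => D.rowM pos) ++ pinRows 183 560 pos, Full true pos 0 w
  M7 : ∀ pos, ∀ w ∈ grpM7 pos, Full true pos (61 / 250) w
  M11 : ∀ pos, ∀ w ∈ grpM11 pos, Full true pos (3969 / 10000) w

/-- Poisson trees -/
theorem Engine.gw (E : Engine) {d : ℝ} (hd : 4 ≤ d) : GwLt (1 / Real.sqrt d) d (1 / 10) :=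
  gw_of_rows (fun _ hD pos => E.B pos _ (List.mem_map_of_mem
      (List.mem_append_left _ (List.mem_append_left _ hD))))
    (fun D hD pos => E.M1 pos _ (List.mem_append_left _
      (List.mem_map_of_mem (f := fun D : RawWin => D.rowM pos) hD)))
    (fun pos w hw => E.M1 pos w (List.mem_append_right _ hw)) hd

/-- regular trees `7 ≤ b ≤ 10` -/
theorem Engine.r7 (E : Engine) {b : ℕ} (hb : 7 ≤ b) (hb' : b ≤ 10) :
    RegLt b (1 / Real.sqrt b) (1 / 5) :=
  r7_of_rows (fun _ hD pos => E.B pos _ (List.mem_map_of_mem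
      (List.mem_append_left _ (List.mem_append_right _ hD))))
    (fun D hD pos => E.M7 pos _ (List.mem_append_left _ (List.mem_append_left _
      (List.mem_map_of_mem (f := fun D : RawWin => D.rowM pos) hD))))
    (fun pos w hw => E.M7 pos w (List.mem_append_left _ (List.mem_append_right _ hw)))
    (fun pos w hw => E.M7 pos w (List.mem_append_right _ hw)) hb hb'

/-- regular trees `b ≥ 11` -/
theorem Engine.r11 (E : Engine) {b : ℕ} (hb : 11 ≤ b) :
    RegLt b (1 / Real.sqrt b) (1 / 5) :=
  r11_of_rows (fun _ hD pos => E.B pos _ (List.mem_map_of_mem (List.mem_append_right _ hD)))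
    (fun D hD pos => E.M11 pos _ (List.mem_append_left _ (List.mem_append_left _
      (List.mem_map_of_mem (f := fun D : RawWin => D.rowM pos) hD))))
    (fun pos w hw => E.M11 pos w (List.mem_append_left _ (List.mem_append_right _ hw)))
    (fun pos w hw => E.M11 pos w (List.mem_append_right _ hw)) hb

end Crest.Agent.R163
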