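import Crest.Agent.R163.WinEval

/-! `lg_spec50` : the specification of `lg` up to `2^50` (helper806). -/

set_option autoImplicit false

namespace Crest.Agent.R163.Win

lemma lgT_spec50 (L c a : ℕ) (hc : c = 2 ^ L) (ha : 1 ≤ a) (ha2 : a ≤ 2 ^ 50) :
    |(lgT L c a : ℝ) / 2 ^ 44 - Real.log ((a : ℝ) / 2 ^ 41)| ≤ 1 / 2 ^ 34 := by
  have hslow : |(lgB (Nat.log2 a) (2 ^ Nat.log2 a) a : ℝ) / 2 ^ 44 - Real.log ((a : ℝ) / 2 ^ 41)| ≤ 1 / 2 ^ 34 := by
    have h3 : 2 ^ Nat.log2 a ≤ a := Nat.log2_self_le (by omega)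
    have h4 : a < 2 ^ (Nat.log2 a + 1) := Nat.lt_log2_self
    apply lgB_spec _ _ _ rfl h3
    · rw [pow_succ] at h4; omega
    · by_contra hcon
      push Not at hcon
      have : 2 ^ 51 ≤ 2 ^ Nat.log2 a := Nat.pow_le_pow_right (by norm_num) (by omega)
      have h5 : (2 : ℕ) ^ 43 < 2 ^ 51 := by norm_num
      omega
  have hT : lgT L c a = Bool.rec (motive := fun _ => Int) (lgB (Nat.log2 a) (2 ^ Nat.log2 a) a) (lgB L c a)
    (Bool.rec (motive := fun _ => Bool) false (Nat.ble a (2 * c)) (Nat.ble c a)) := rfl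
  rw [hT]
  cases h5 : Nat.ble c a with
  | false => exact hslow
  | true =>
    cases h6 : Nat.ble a (2 * c) with
    | false => exact hslow
    | true =>
      have h7 : c ≤ a := Nat.le_of_ble_eq_true h5
      have h8 : a ≤ 2 * c := Nat.le_of_ble_eq_true h6
      show |(lgB L c a : ℝ) / 2 ^ 44 - Real.log ((a : ℝ) / 2 ^ 41)| ≤ 1 / 2 ^ 34
      refine lgB_spec L c a hc h7 h8 ?_
      by_contra hcon
      push Not at hcon
      have : 2 ^ 51 ≤ 2 ^ L := Nat.pow_le_pow_right (by norm_num) (by omega)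
      have h5 : (2 : ℕ) ^ 43 < 2 ^ 51 := by norm_num
      omega

theorem lg_spec50 (a : ℕ) (ha : 1 ≤ a) (ha2 : a ≤ 2 ^ 50) :
    |(lg a : ℝ) / 2 ^ 44 - Real.log ((a : ℝ) / 2 ^ 41)| ≤ 1 / 2 ^ 34 := by
  have hA : ∀ L, |(lgA L a : ℝ) / 2 ^ 44 - Real.log ((a : ℝ) / 2 ^ 41)| ≤ 1 / 2 ^ 34 :=
    fun L => lgT_spec50 L (2 ^ L) a rfl ha ha2
  have h0' : ∀ L b, |(h0 L b a : ℝ) / 2 ^ 44 - Real.log ((a : ℝ) / 2 ^ 41)| ≤ 1 / 2 ^ 34 := by
    intro L b
    unfold h0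
    cases Nat.ble (nat_lit 2) b with
    | false => exact hA _
    | true => exact hA _
  have h1' : ∀ L b, |(h1 L b a : ℝ) / 2 ^ 44 - Real.log ((a : ℝ) / 2 ^ 41)| ≤ 1 / 2 ^ 34 := by
    intro L b
    unfold h1
    cases Nat.ble (nat_lit 4) b with
    | false => exact h0' _ _
    | true => exact h0' _ _
  have h2' : ∀ L b, |(h2 L b a : ℝ) / 2 ^ 44 - Real.log ((a : ℝ) / 2 ^ 41)| ≤ 1 / 2 ^ 34 := by
    intro L b
    unfold h2
    cases Nat.ble (nat_lit 16) b with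
    | false => exact h1' _ _
    | true => exact h1' _ _
  have h3' : ∀ L b, |(h3 L b a : ℝ) / 2 ^ 44 - Real.log ((a : ℝ) / 2 ^ 41)| ≤ 1 / 2 ^ 34 := by
    intro L b
    unfold h3
    cases Nat.ble (nat_lit 256) b with
    | false => exact h2' _ _
    | true => exact h2' _ _
  have h4' : ∀ L b, |(h4 L b a : ℝ) / 2 ^ 44 - Real.log ((a : ℝ) / 2 ^ 41)| ≤ 1 / 2 ^ 34 := by
    intro L b
    unfold h4
    cases Nat.ble (nat_lit 65536) b with
    | false => exact h3' _ _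
    | true => exact h3' _ _
  unfold lg
  cases Nat.ble (nat_lit 4294967296) a with
  | false => exact h4' _ _
  | true => exact h4' _ _


end Crest.Agent.R163.Win
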