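import Crest.Agent.R163.WinClose
import Crest.Agent.R163.DGFin
import Crest.Agent.R163.LocFinal
import Crest.Agent.R163.AntiMain

/-!
Row 163 (S0244 antiferro): conclusion from the engine, the density evolution for `4 ≤ b ≤ 7` and the
local lemma.
-/

set_option autoImplicit false

namespace Crest.Agent.R163

open Crest.ProbabilityR.Broadcast

/-- all regular trees `b ≥ 4` -/
theorem Engine.reg (E : Engine) {b : ℕ} (hb : 4 ≤ b) : RegLt b (1 / Real.sqrt b) (1 / 5) := by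
  rcases lt_or_ge b 8 with h | h
  · exact DG.regLt_crit hb (by omega)
  rcases lt_or_ge b 11 with h' | h'
  · exact E.r7 (by omega) (by omega)
  · exact E.r11 h'

/-- all Poisson trees `d ≥ 4` -/
theorem Engine.gwP (E : Engine) {d : ℝ} (hd : 4 ≤ d) :
    GwLt (1 / Real.sqrt d) d (xPs d) := by
  obtain ⟨n, hn⟩ := E.gw hd
  exact ⟨n, hn.trans_le (le_trans (by norm_num) (xPs_ge d))⟩

/-- S0244 from the engine -/
theorem Engine.main (E : Engine) :
    (∀ b : ℕ, 2 ≤ b → ∀ lam : ℝ, -(1 / 2 : ℝ) ≤ lam → lam ≤ 1 → (b : ℝ) * lam ^ 2 ≤ 1 →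
      Filter.Tendsto (advantage 3 b lam) Filter.atTop (nhds 0)) ∧
    (∀ d : ℝ, 1 < d → ∀ lam : ℝ, -(1 / 2 : ℝ) ≤ lam → lam ≤ 1 → d * lam ^ 2 ≤ 1 →
      Filter.Tendsto (gwAdvantage 3 lam d) Filter.atTop (nhds 0)) :=
  main244_of_lt (fun _ hb => E.reg hb) (fun _ hd => E.gwP hd)

end Crest.Agent.R163
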