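import Crest.Agent.R163.WinTerm
import Crest.Agent.R163.WinDec

/-!
Row 163, window engine: the explicit forms of `fxt` used by the kernel evaluation.
-/

set_option autoImplicit false

namespace Crest.Agent.R163.Win

/-- `fxt` as a sum of `ctm` -/
lemma fxt_ctm {x : ℝ} (t : ℝ) {a b c : ℝ} (ha : 0 ≤ a) (hb : 0 ≤ b) (hc : 0 ≤ c) :
    fxt x t a b c = (ctm x t a b c + ctm x t b c a + ctm x t c a b) / 3 := by
  unfold fxt ctm
  rw [Real.mul_rpow hb hc, Real.mul_rpow hc ha, Real.mul_rpow ha hb]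

lemma fxt_half (t : ℝ) {a b c : ℝ} (ha : 0 ≤ a) (hb : 0 ≤ b) (hc : 0 ≤ c) :
    fxt (1 / 2) t a b c =
      (Real.sqrt b * Real.sqrt c * Real.cos (t * (Real.log b - Real.log c)) +
        Real.sqrt c * Real.sqrt a * Real.cos (t * (Real.log c - Real.log a)) +
        Real.sqrt a * Real.sqrt b * Real.cos (t * (Real.log a - Real.log b))) / 3 := by
  rw [fxt_ctm t ha hb hc, ctm_half, ctm_half, ctm_half]

lemma fxt_half_zero {a b c : ℝ} (ha : 0 ≤ a) (hb : 0 ≤ b) (hc : 0 ≤ c) :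
    fxt (1 / 2) 0 a b c =
      (Real.sqrt b * Real.sqrt c + Real.sqrt c * Real.sqrt a + Real.sqrt a * Real.sqrt b) / 3 := by
  rw [fxt_half 0 ha hb hc]
  simp only [zero_mul, Real.cos_zero, mul_one]

lemma fxt_sixth (t : ℝ) {a b c : ℝ} (ha : 0 < a) (hb : 0 < b) (hc : 0 < c) :
    fxt (1 / 6) t a b c = Real.exp ((Real.log a + Real.log b + Real.log c) / 6) *
      (Real.sqrt a * Real.cos (t * (Real.log b - Real.log c)) +
        Real.sqrt b * Real.cos (t * (Real.log c - Real.log a)) +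
        Real.sqrt c * Real.cos (t * (Real.log a - Real.log b))) / 3 := by
  rw [fxt_ctm t ha.le hb.le hc.le, ctm_sixth t ha hb hc, ctm_sixth t hb hc ha,
    ctm_sixth t hc ha hb]
  rw [show (Real.log b + Real.log c + Real.log a) / 6 =
      (Real.log a + Real.log b + Real.log c) / 6 by ring,
    show (Real.log c + Real.log a + Real.log b) / 6 =
      (Real.log a + Real.log b + Real.log c) / 6 by ring]
  ring

lemma fxt_third (t : ℝ) {a b c : ℝ} (ha : 0 < a) (hb : 0 < b) (hc : 0 < c) :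
    fxt (1 / 3) t a b c = Real.exp ((Real.log a + Real.log b + Real.log c) / 3) *
      (Real.cos (t * (Real.log b - Real.log c)) + Real.cos (t * (Real.log c - Real.log a)) +
        Real.cos (t * (Real.log a - Real.log b))) / 3 := by
  rw [fxt_ctm t ha.le hb.le hc.le, ctm_third t ha hb hc, ctm_third t hb hc ha,
    ctm_third t hc ha hb]
  rw [show (Real.log b + Real.log c + Real.log a) / 3 =
      (Real.log a + Real.log b + Real.log c) / 3 by ring,
    show (Real.log c + Real.log a + Real.log b) / 3 =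
      (Real.log a + Real.log b + Real.log c) / 3 by ring]
  ring

/-- `cos (3u/2)` from `cos (u/2)` -/
lemma cos_three_half (u : ℝ) :
    Real.cos (3 / 2 * u) = 4 * Real.cos (1 / 2 * u) ^ 3 - 3 * Real.cos (1 / 2 * u) := by
  rw [show 3 / 2 * u = 3 * (1 / 2 * u) by ring, Real.cos_three_mul]

/-- bound of a pair term by monotonicity -/
lemma abs_pair_le (t : ℝ) {a b a' b' : ℝ} (ha' : a ≤ a') (hb' : b ≤ b') :
    |Real.sqrt a * Real.sqrt b * Real.cos (t * (Real.log a - Real.log b))| ≤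
      Real.sqrt a' * Real.sqrt b' := by
  rw [abs_mul, abs_of_nonneg (mul_nonneg (Real.sqrt_nonneg _) (Real.sqrt_nonneg _))]
  refine (mul_le_of_le_one_right (by positivity) (Real.abs_cos_le_one _)).trans ?_
  exact mul_le_mul (Real.sqrt_le_sqrt ha') (Real.sqrt_le_sqrt hb') (Real.sqrt_nonneg _)
    (Real.sqrt_nonneg _)

/-- bound of `fxt (1/3)`, `fxt (1/6)` near an edge, `c` small -/
lemma abs_fxt_le_of_le {x : ℝ} (h0 : 0 ≤ x) (h1 : x ≤ 1 / 2) (t : ℝ) {a b c a' b' c' : ℝ}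
    (ha : 0 ≤ a) (hb : 0 ≤ b) (hc : 0 ≤ c) (ha' : a ≤ a') (hb' : b ≤ b') (hc' : c ≤ c') :
    |fxt x t a b c| ≤ (a' ^ (1 - 2 * x) * (b' ^ x * c' ^ x) + b' ^ (1 - 2 * x) * (c' ^ x * a' ^ x) +
      c' ^ (1 - 2 * x) * (a' ^ x * b' ^ x)) / 3 := by
  rw [fxt_ctm t ha hb hc, abs_div, abs_of_pos (by norm_num : (0 : ℝ) < 3)]
  refine div_le_div_of_nonneg_right ?_ (by norm_num)
  have h2 := abs_ctm_le_of_le h0 h1 t ha hb hc ha' hb' hc'
  have h3 := abs_ctm_le_of_le h0 h1 t hb hc ha hb' hc' ha'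
  have h4 := abs_ctm_le_of_le h0 h1 t hc ha hb hc' ha' hb'
  exact (abs_add_le _ _).trans (add_le_add ((abs_add_le _ _).trans (add_le_add h2 h3)) h4)

end Crest.Agent.R163.Win
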