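import Crest.Agent.R163.WinReal

/-!
Row 163, window engine: the error bounds of the functionals on a cell.
-/

set_option autoImplicit false

namespace Crest.Agent.R163.Win

open Set Crest.Agent.R163.Bern

/-- affine function -/
def aff (p : ℝ × ℝ × ℝ) (x y : ℝ) : ℝ := p.1 + p.2.1 * x + p.2.2 * y

/-- first argument -/
noncomputable def A1 (side : Bool) : ℝ × ℝ × ℝ := if side then (0, 1 / 2, 1 / 2) else (3, -1, -1)

/-- second argument -/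
noncomputable def A2 (side : Bool) : ℝ × ℝ × ℝ := if side then (3 / 2, -(1 / 2), 0) else (0, 1, 0)

/-- third argument -/
noncomputable def A3 (side : Bool) : ℝ × ℝ × ℝ := if side then (3 / 2, 0, -(1 / 2)) else (0, 0, 1)

/-- facts about one argument on a cell: `k`: kept, `U` bounds the square root, `ux, uy` relative
steps -/
structure CF (p : ℝ × ℝ × ℝ) (x0 x1 y0 y1 : ℝ) (k : Bool) (U ux uy : Nat) : Prop where
  pos : k = true → ∀ x ∈ Icc x0 x1, ∀ y ∈ Icc y0 y1, 0 < aff p x y ∧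
    |p.2.1| * (x1 - x0) ≤ (ux / 2 ^ 20 : ℝ) * aff p x y ∧
    |p.2.2| * (y1 - y0) ≤ (uy / 2 ^ 20 : ℝ) * aff p x y
  nn : ∀ x ∈ Icc x0 x1, ∀ y ∈ Icc y0 y1, 0 ≤ aff p x y
  sup : ∀ x ∈ Icc x0 x1, ∀ y ∈ Icc y0 y1, Real.sqrt (aff p x y) ≤ (U : ℝ) / 2 ^ 44

lemma pw_false (g a b c d : Nat) : pw g false a b c d = 2 ^ 63 := rfl

lemma pw_true (g a b c d : Nat) : pw g true a b c d =
    g * g * ((a + b) * (a + b) + (c + d) * (c + d)) +
      g * 1024 * (a * a + b * b + (c * c + d * d)) := rfl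

lemma pw_true_real (g a b c d : Nat) : ((pw g true a b c d : Nat) : ℝ) / 2 ^ 63 =
    ((g / 2 ^ 10 : ℝ) ^ 2 * (((a / 2 ^ 20 : ℝ) + b / 2 ^ 20) ^ 2 + ((c / 2 ^ 20 : ℝ) + d / 2 ^ 20) ^ 2) +
      (g / 2 ^ 10 : ℝ) * ((a / 2 ^ 20 : ℝ) ^ 2 + (b / 2 ^ 20 : ℝ) ^ 2 + (c / 2 ^ 20 : ℝ) ^ 2 +
        (d / 2 ^ 20 : ℝ) ^ 2)) / 8 := by
  rw [pw_true]
  push_cast
  ring

variable {x0 x1 y0 y1 : ℝ}

/-- a kept or dropped pair term -/
theorem pair_k {p p' : ℝ × ℝ × ℝ} {k k' : Bool} {U U' ux uy ux' uy' g : Nat} {t : ℝ}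
    (hx01 : x0 < x1) (hy01 : y0 < y1) (h : CF p x0 x1 y0 y1 k U ux uy)
    (h' : CF p' x0 x1 y0 y1 k' U' ux' uy') (hg : 1 / 4 + t ^ 2 ≤ (g / 2 ^ 10 : ℝ) ^ 2) :
    Mdl x0 x1 y0 y1 (fun x y => prR t (aff p x y) (aff p' x y))
      (if k && k' then prR t (aff p x0 y0) (aff p' x0 y0) else 0)
      (if k && k' then prR t (aff p x0 y1) (aff p' x0 y1) else 0)
      (if k && k' then prR t (aff p x1 y0) (aff p' x1 y0) else 0)
      (if k && k' then prR t (aff p x1 y1) (aff p' x1 y1) else 0)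
      ((U : ℝ) / 2 ^ 44 * (U' / 2 ^ 44) * (((pw g (band k k') ux ux' uy uy' : Nat) : ℝ) / 2 ^ 63)) := by
  have hU : ∀ x ∈ Icc x0 x1, ∀ y ∈ Icc y0 y1,
      Real.sqrt (aff p x y) * Real.sqrt (aff p' x y) ≤ (U : ℝ) / 2 ^ 44 * (U' / 2 ^ 44) := by
    intro x hx y hy
    exact mul_le_mul (h.sup x hx y hy) (h'.sup x hx y hy) (Real.sqrt_nonneg _)
      ((Real.sqrt_nonneg _).trans (h.sup x hx y hy))
  have small : Mdl x0 x1 y0 y1 (fun x y => prR t (aff p x y) (aff p' x y)) 0 0 0 0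
      ((U : ℝ) / 2 ^ 44 * (U' / 2 ^ 44) * (((2 ^ 63 : Nat) : ℝ) / 2 ^ 63)) := by
    refine Mdl.small fun x hx y hy _ _ => ?_
    have e : (((2 ^ 63 : Nat) : ℝ) / 2 ^ 63) = 1 := by norm_num
    rw [e, mul_one]
    refine le_trans ?_ (hU x hx y hy)
    unfold prR
    exact abs_pair_le t le_rfl le_rfl
  rcases k with _ | _
  · rw [show band false k' = false from rfl, pw_false]
    simp only [Bool.false_and, Bool.false_eq_true, if_false]
    exact small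
  · rcases k' with _ | _
    · rw [show band true false = false from rfl, pw_false]
      simp only [Bool.and_false, Bool.false_eq_true, if_false]
      exact small
    · have key := pair_mdl (t := t) (γ := (g / 2 ^ 10 : ℝ)) hx01 hy01
        (fun x hx y hy => h.pos rfl x hx y hy) (fun x hx y hy => h'.pos rfl x hx y hy)
        hU (by positivity) hg
      have e : band true true = true := rfl
      rw [e, pw_true_real]
      simp only [Bool.and_self, if_true]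
      refine key.mono (le_of_eq ?_)
      ring

/-- range of the exponents bound -/
def gOK (f : Fn) : Prop :=
  f.tn ≤ 30 ∧ (f.kind = 0 → (100 + f.tn ^ 2) * 2 ^ 20 ≤ 400 * f.gg ^ 2) ∧
    (f.kind = 1 → 2048 ≤ 3 * f.gg ∧ (100 + 9 * f.tn ^ 2) * 2 ^ 20 ≤ 3600 * f.gg ^ 2) ∧
    (2 ≤ f.kind → 1024 ≤ 3 * f.gg ∧ (400 + 9 * f.tn ^ 2) * 2 ^ 20 ≤ 3600 * f.gg ^ 2)

instance (f : Fn) : Decidable (gOK f) := by unfold gOK; infer_instance

lemma gOK.half {f : Fn} (h : gOK f) (hk : f.kind = 0) :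
    1 / 4 + f.t ^ 2 ≤ (f.gg / 2 ^ 10 : ℝ) ^ 2 := by
  have h1 : ((100 + f.tn ^ 2 : ℝ)) * 2 ^ 20 ≤ 400 * (f.gg : ℝ) ^ 2 := by exact_mod_cast h.2.1 hk
  unfold Fn.t
  rw [div_pow, div_pow, le_div_iff₀ (by positivity)]
  nlinarith

lemma gOK.sixth {f : Fn} (h : gOK f) (hk : f.kind = 1) :
    |1 - 2 * (1 / 6 : ℝ)| ≤ (f.gg / 2 ^ 10 : ℝ) ∧
      (1 / 6 : ℝ) ^ 2 + f.t ^ 2 ≤ (f.gg / 2 ^ 10 : ℝ) ^ 2 := by
  obtain ⟨h0, h1⟩ := h.2.2.1 hk
  have h0 : (2048 : ℝ) ≤ 3 * f.gg := by exact_mod_cast h0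
  have h1 : ((100 + 9 * f.tn ^ 2 : ℝ)) * 2 ^ 20 ≤ 3600 * (f.gg : ℝ) ^ 2 := by exact_mod_cast h1
  refine ⟨?_, ?_⟩
  · rw [abs_of_nonneg (by norm_num), le_div_iff₀ (by positivity)]
    linarith
  · unfold Fn.t
    rw [div_pow (f.tn : ℝ), div_pow (f.gg : ℝ), le_div_iff₀ (by positivity)]
    nlinarith

lemma gOK.third {f : Fn} (h : gOK f) (hk : 2 ≤ f.kind) :
    |1 - 2 * (1 / 3 : ℝ)| ≤ (f.gg / 2 ^ 10 : ℝ) ∧
      (1 / 3 : ℝ) ^ 2 + f.t ^ 2 ≤ (f.gg / 2 ^ 10 : ℝ) ^ 2 := by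
  obtain ⟨h0, h1⟩ := h.2.2.2 hk
  have h0 : (1024 : ℝ) ≤ 3 * f.gg := by exact_mod_cast h0
  have h1 : ((400 + 9 * f.tn ^ 2 : ℝ)) * 2 ^ 20 ≤ 3600 * (f.gg : ℝ) ^ 2 := by exact_mod_cast h1
  refine ⟨?_, ?_⟩
  · rw [abs_of_nonneg (by norm_num), le_div_iff₀ (by positivity)]
    linarith
  · unfold Fn.t
    rw [div_pow (f.tn : ℝ), div_pow (f.gg : ℝ), le_div_iff₀ (by positivity)]
    nlinarith

/-- one monomial of `C(x,t)`, kept or dropped -/
theorem tri_k {p1 p2 p3 : ℝ × ℝ × ℝ} {k1 k2 k3 : Bool} {U1 U2 U3 ux1 uy1 ux2 uy2 ux3 uy3 g : Nat}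
    {xx t P : ℝ} (h0 : 0 ≤ xx) (h2 : xx ≤ 1 / 2)
    (hx01 : x0 < x1) (hy01 : y0 < y1) (c1 : CF p1 x0 x1 y0 y1 k1 U1 ux1 uy1)
    (c2 : CF p2 x0 x1 y0 y1 k2 U2 ux2 uy2) (c3 : CF p3 x0 x1 y0 y1 k3 U3 ux3 uy3)
    (hP : ∀ x ∈ Icc x0 x1, ∀ y ∈ Icc y0 y1, aff p1 x y ^ (1 - 2 * xx) *
      (aff p2 x y ^ xx * aff p3 x y ^ xx) ≤ P)
    (hg1 : |1 - 2 * xx| ≤ (g / 2 ^ 10 : ℝ)) (hg2 : xx ^ 2 + t ^ 2 ≤ (g / 2 ^ 10 : ℝ) ^ 2)
    {W a b c d : Nat} (hab : (a : ℝ) + b = ux1 + ux2 + ux3) (hcd : (c : ℝ) + d = uy1 + uy2 + uy3)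
    (hsq : (a : ℝ) ^ 2 + b ^ 2 + c ^ 2 + d ^ 2 =
      (ux1 ^ 2 + ux2 ^ 2 + ux3 ^ 2) + (uy1 ^ 2 + uy2 ^ 2 + uy3 ^ 2))
    (hW : W = pw g (band k1 (band k2 k3)) a b c d) :
    Mdl x0 x1 y0 y1 (fun x y => ctm xx t (aff p1 x y) (aff p2 x y) (aff p3 x y))
      (if k1 && (k2 && k3) then ctm xx t (aff p1 x0 y0) (aff p2 x0 y0) (aff p3 x0 y0) else 0)
      (if k1 && (k2 && k3) then ctm xx t (aff p1 x0 y1) (aff p2 x0 y1) (aff p3 x0 y1) else 0)
      (if k1 && (k2 && k3) then ctm xx t (aff p1 x1 y0) (aff p2 x1 y0) (aff p3 x1 y0) else 0)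
      (if k1 && (k2 && k3) then ctm xx t (aff p1 x1 y1) (aff p2 x1 y1) (aff p3 x1 y1) else 0)
      (P * ((W : ℝ) / 2 ^ 63)) := by
  have small : Mdl x0 x1 y0 y1 (fun x y => ctm xx t (aff p1 x y) (aff p2 x y) (aff p3 x y)) 0 0 0 0
      (P * (((2 ^ 63 : Nat) : ℝ) / 2 ^ 63)) := by
    refine Mdl.small fun x hx y hy _ _ => ?_
    have e : (((2 ^ 63 : Nat) : ℝ) / 2 ^ 63) = 1 := by norm_num
    rw [e, mul_one]
    refine le_trans ?_ (hP x hx y hy)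
    exact abs_ctm_le_of_le h0 h2 t (c1.nn x hx y hy) (c2.nn x hx y hy) (c3.nn x hx y hy)
      le_rfl le_rfl le_rfl
  subst hW
  by_cases hk : (k1 && (k2 && k3)) = true
  · have e1 : k1 = true := by revert hk; cases k1 <;> simp
    have e2 : k2 = true := by revert hk; cases k1 <;> cases k2 <;> simp
    have e3 : k3 = true := by revert hk; cases k1 <;> cases k2 <;> cases k3 <;> simp
    subst e1; subst e2; subst e3
    have key := tri_mdl (xx := xx) (t := t) (γ := (g / 2 ^ 10 : ℝ)) (P := P) hx01 hy01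
      (fun x hx y hy => c1.pos rfl x hx y hy) (fun x hx y hy => c2.pos rfl x hx y hy)
      (fun x hx y hy => c3.pos rfl x hx y hy) hP (by positivity) hg1 hg2
    have e : band true (band true true) = true := rfl
    rw [e, pw_true_real]
    simp only [Bool.and_self, if_true]
    refine key.mono (le_of_eq ?_)
    have q1 : ((ux1 : ℝ) / 2 ^ 20 + ux2 / 2 ^ 20 + ux3 / 2 ^ 20) = (a : ℝ) / 2 ^ 20 + b / 2 ^ 20 := by
      rw [← add_div, ← add_div, ← add_div, hab]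
    have q2 : ((uy1 : ℝ) / 2 ^ 20 + uy2 / 2 ^ 20 + uy3 / 2 ^ 20) = (c : ℝ) / 2 ^ 20 + d / 2 ^ 20 := by
      rw [← add_div, ← add_div, ← add_div, hcd]
    have q3 : ((ux1 : ℝ) / 2 ^ 20) ^ 2 + (ux2 / 2 ^ 20) ^ 2 + (ux3 / 2 ^ 20) ^ 2 +
        (((uy1 : ℝ) / 2 ^ 20) ^ 2 + (uy2 / 2 ^ 20) ^ 2 + (uy3 / 2 ^ 20) ^ 2) =
        ((a : ℝ) / 2 ^ 20) ^ 2 + (b / 2 ^ 20) ^ 2 + (c / 2 ^ 20) ^ 2 + (d / 2 ^ 20) ^ 2 := by
      have : (((a : ℝ) / 2 ^ 20) ^ 2 + (b / 2 ^ 20) ^ 2 + (c / 2 ^ 20) ^ 2 + (d / 2 ^ 20) ^ 2) =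
        ((a : ℝ) ^ 2 + b ^ 2 + c ^ 2 + d ^ 2) / (2 ^ 20) ^ 2 := by ring
      rw [this, hsq]
      ring
    rw [q1, q2, q3]
    ring
  · have hk' : (k1 && (k2 && k3)) = false := by simpa using hk
    have e : band k1 (band k2 k3) = false := by
      revert hk'; cases k1 <;> cases k2 <;> cases k3 <;> simp [band]
    rw [e, pw_false]
    simp only [hk', Bool.false_eq_true, if_false]
    exact small

/-! ### the functionals -/

lemma prR_comm (t a b : ℝ) : prR t a b = prR t b a := by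
  unfold prR
  have h : Real.cos (t * (Real.log a - Real.log b)) = Real.cos (t * (Real.log b - Real.log a)) := by
    rw [← Real.cos_neg]; congr 1; ring
  rw [h, mul_comm (Real.sqrt a)]

lemma fxt_half' (t : ℝ) {a b c : ℝ} (ha : 0 ≤ a) (hb : 0 ≤ b) (hc : 0 ≤ c) :
    fxt (1 / 2) t a b c = 1 / 3 * (prR t a b + prR t a c + prR t b c) := by
  rw [fxt_half t ha hb hc]
  change (prR t b c + prR t c a + prR t a b) / 3 = _
  rw [prR_comm t c a]
  ring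

lemma fR_half {k1 k2 k3 : Bool} {f : Fn} (hk : f.kind = 0) (a b c : ℝ) :
    fR k1 k2 k3 f a b c = 1 / 3 * ((if k1 && k2 then prR f.t a b else 0) +
      (if k1 && k3 then prR f.t a c else 0) + (if k2 && k3 then prR f.t b c else 0)) := by
  unfold fR
  rw [if_pos hk]
  ring

lemma fxt_tri (x t : ℝ) {a b c : ℝ} (ha : 0 ≤ a) (hb : 0 ≤ b) (hc : 0 ≤ c) :
    fxt x t a b c = 1 / 3 * (ctm x t a b c + ctm x t b c a + ctm x t c a b) := by
  rw [fxt_ctm t ha hb hc]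
  ring

lemma fR_tri {k1 k2 k3 : Bool} {f : Fn} (hk : f.kind ≠ 0) {a b c : ℝ} (ha : 0 ≤ a) (hb : 0 ≤ b)
    (hc : 0 ≤ c) :
    fR k1 k2 k3 f a b c = 1 / 3 * ((if k1 && (k2 && k3) then ctm f.x f.t a b c else 0) +
      (if k2 && (k3 && k1) then ctm f.x f.t b c a else 0) +
      (if k3 && (k1 && k2) then ctm f.x f.t c a b else 0)) := by
  have e2 : (k2 && (k3 && k1)) = (k1 && (k2 && k3)) := by
    cases k1 <;> cases k2 <;> cases k3 <;> rfl
  have e3 : (k3 && (k1 && k2)) = (k1 && (k2 && k3)) := by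
    cases k1 <;> cases k2 <;> cases k3 <;> rfl
  rw [e2, e3]
  unfold fR
  rw [if_neg hk]
  by_cases h : (k1 && (k2 && k3)) = true
  · simp only [h, if_true]
    unfold Fn.x
    rw [if_neg hk]
    by_cases h1 : f.kind = 1
    · rw [if_pos h1, if_pos h1, fxt_tri _ _ ha hb hc]
    · rw [if_neg h1, if_neg h1, fxt_tri _ _ ha hb hc]
  · simp only [h, if_false, Bool.false_eq_true]
    ring

lemma nat_div_real (n c : Nat) (hc : 0 < c) : (n : ℝ) / c ≤ ((Nat.div n c : Nat) : ℝ) + 1 := by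
  rw [div_le_iff₀ (by exact_mod_cast hc)]
  have h1 := Nat.lt_div_mul_add hc (a := n)
  have h2 : (n : ℝ) < ((n / c : ℕ) : ℝ) * c + c := by exact_mod_cast h1
  have h3 : ((Nat.div n c : Nat) : ℝ) = ((n / c : ℕ) : ℝ) := rfl
  rw [h3]
  linarith

lemma c24_eq : c24 = 3 * 2 ^ 107 := by norm_num [c24]

lemma c8_eq : c8 = 2 ^ 107 := by norm_num [c8]

lemma rpow_six {a : ℝ} (ha : 0 ≤ a) : a ^ (1 - 2 * (1 / 6) : ℝ) = a ^ (1 / 6 : ℝ) * Real.sqrt a := by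
  rw [show (1 - 2 * (1 / 6) : ℝ) = 1 / 6 + 1 / 2 by norm_num,
    Real.rpow_add_of_nonneg ha (by norm_num) (by norm_num), Real.sqrt_eq_rpow]

lemma rpow_three {a : ℝ} (ha : 0 ≤ a) : a ^ (1 / 3 : ℝ) = a ^ (1 / 6 : ℝ) * a ^ (1 / 6 : ℝ) := by
  rw [← Real.rpow_add_of_nonneg ha (by norm_num) (by norm_num)]
  norm_num

theorem fun_mdl {p1 p2 p3 : ℝ × ℝ × ℝ} {k1 k2 k3 : Bool} {U1 U2 U3 E u1x u1y u2 u3 : Nat}
    {f : Fn} (hf : gOK f) (hx01 : x0 < x1) (hy01 : y0 < y1)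
    (h1 : CF p1 x0 x1 y0 y1 k1 U1 u1x u1y) (h2 : CF p2 x0 x1 y0 y1 k2 U2 u2 0)
    (h3 : CF p3 x0 x1 y0 y1 k3 U3 0 u3)
    (hE : ∀ x ∈ Icc x0 x1, ∀ y ∈ Icc y0 y1, aff p1 x y ^ (1 / 6 : ℝ) * aff p2 x y ^ (1 / 6 : ℝ) *
      aff p3 x y ^ (1 / 6 : ℝ) ≤ (E : ℝ) / 2 ^ 44) :
    Mdl x0 x1 y0 y1 (fun x y => fxt f.x f.t (aff p1 x y) (aff p2 x y) (aff p3 x y))
      (fR k1 k2 k3 f (aff p1 x0 y0) (aff p2 x0 y0) (aff p3 x0 y0))
      (fR k1 k2 k3 f (aff p1 x0 y1) (aff p2 x0 y1) (aff p3 x0 y1))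
      (fR k1 k2 k3 f (aff p1 x1 y0) (aff p2 x1 y0) (aff p3 x1 y0))
      (fR k1 k2 k3 f (aff p1 x1 y1) (aff p2 x1 y1) (aff p3 x1 y1))
      ((((fer k1 k2 k3 U1 U2 U3 E u1x u1y u2 u3 f : Nat) : ℝ) - 262145) / 2 ^ 44) := by
  have mx0 : x0 ∈ Icc x0 x1 := left_mem_Icc.mpr hx01.le
  have mx1 : x1 ∈ Icc x0 x1 := right_mem_Icc.mpr hx01.le
  have my0 : y0 ∈ Icc y0 y1 := left_mem_Icc.mpr hy01.le
  have my1 : y1 ∈ Icc y0 y1 := right_mem_Icc.mpr hy01.le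
  rcases hk : f.kind with _ | k
  · -- pairs
    have g := hf.half hk
    have m12 := pair_k (t := f.t) (g := f.gg) hx01 hy01 h1 h2 g
    have m13 := pair_k (t := f.t) (g := f.gg) hx01 hy01 h1 h3 g
    have m23 := pair_k (t := f.t) (g := f.gg) hx01 hy01 h2 h3 g
    have m := ((m12.add m13).add m23).const_mul (1 / 3)
    have e : ∀ x y, x ∈ Icc x0 x1 → y ∈ Icc y0 y1 →
        fxt f.x f.t (aff p1 x y) (aff p2 x y) (aff p3 x y) =
        1 / 3 * (prR f.t (aff p1 x y) (aff p2 x y) + prR f.t (aff p1 x y) (aff p3 x y) +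
          prR f.t (aff p2 x y) (aff p3 x y)) := by
      intro x y hx hy
      have : f.x = 1 / 2 := by unfold Fn.x; rw [if_pos hk]
      rw [this]
      exact fxt_half' f.t (h1.nn x hx y hy) (h2.nn x hx y hy) (h3.nn x hx y hy)
    have m' := m.congr (g' := fun x y => fxt f.x f.t (aff p1 x y) (aff p2 x y) (aff p3 x y))
      (fun x hx y hy _ _ => e x y hx hy)
    simp only [← fR_half hk] at m'
    refine m'.mono ?_
    have ef : fer k1 k2 k3 U1 U2 U3 E u1x u1y u2 u3 f =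
        Nat.div (U1 * U2 * pw f.gg (band k1 k2) u1x u2 u1y 0 +
          (U1 * U3 * pw f.gg (band k1 k3) u1x 0 u1y u3 +
            U2 * U3 * pw f.gg (band k2 k3) u2 0 0 u3)) c24 + 262146 := by
      unfold fer
      rw [hk]
      rfl
    rw [ef]
    set n := U1 * U2 * pw f.gg (band k1 k2) u1x u2 u1y 0 +
          (U1 * U3 * pw f.gg (band k1 k3) u1x 0 u1y u3 +
            U2 * U3 * pw f.gg (band k2 k3) u2 0 0 u3) with hn
    have hc : 0 < c24 := by norm_num [c24]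
    have key := nat_div_real n c24 hc
    have hn' : (n : ℝ) = (U1 : ℝ) * U2 * pw f.gg (band k1 k2) u1x u2 u1y 0 +
          ((U1 : ℝ) * U3 * pw f.gg (band k1 k3) u1x 0 u1y u3 +
            (U2 : ℝ) * U3 * pw f.gg (band k2 k3) u2 0 0 u3) := by
      rw [hn]; push_cast; ring
    have hcr : ((c24 : Nat) : ℝ) = 3 * 2 ^ 107 := by rw [c24_eq]; push_cast; ring
    rw [hcr] at key
    have e1 : |(1 / 3 : ℝ)| = 1 / 3 := abs_of_pos (by norm_num)
    rw [e1]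
    have lhs : 1 / 3 * ((U1 : ℝ) / 2 ^ 44 * (U2 / 2 ^ 44) *
        ((pw f.gg (band k1 k2) u1x u2 u1y 0 : ℝ) / 2 ^ 63) +
        (U1 : ℝ) / 2 ^ 44 * (U3 / 2 ^ 44) * ((pw f.gg (band k1 k3) u1x 0 u1y u3 : ℝ) / 2 ^ 63) +
        (U2 : ℝ) / 2 ^ 44 * (U3 / 2 ^ 44) * ((pw f.gg (band k2 k3) u2 0 0 u3 : ℝ) / 2 ^ 63)) =
        (n : ℝ) / (3 * 2 ^ 107) / 2 ^ 44 := by
      rw [hn']; ring
    rw [lhs, div_le_div_iff_of_pos_right (by positivity)]
    push_cast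
    linarith
  · -- triples
    have hk0 : f.kind ≠ 0 := by omega
    have hW : ∀ a b : Nat, True := fun _ _ => trivial
    have xval : f.x = 1 / 6 ∧ k = 0 ∨ f.x = 1 / 3 ∧ k ≠ 0 := by
      unfold Fn.x
      rw [if_neg hk0]
      rcases Nat.eq_zero_or_pos k with h0 | h0
      · left
        rw [if_pos (by omega)]
        exact ⟨rfl, h0⟩
      · right
        rw [if_neg (by omega)]
        exact ⟨rfl, by omega⟩
    have gcond : |1 - 2 * f.x| ≤ (f.gg / 2 ^ 10 : ℝ) ∧ f.x ^ 2 + f.t ^ 2 ≤ (f.gg / 2 ^ 10 : ℝ) ^ 2 := by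
      rcases xval with ⟨h, hk'⟩ | ⟨h, hk'⟩
      · rw [h]; exact hf.sixth (by omega)
      · rw [h]; exact hf.third (by omega)
    have x0' : 0 ≤ f.x := by rcases xval with ⟨h, _⟩ | ⟨h, _⟩ <;> rw [h] <;> norm_num
    have x1' : f.x ≤ 1 / 2 := by rcases xval with ⟨h, _⟩ | ⟨h, _⟩ <;> rw [h] <;> norm_num
    set W := pw f.gg (band k1 (band k2 k3)) u1x u2 u1y u3 with hWd
    -- bounds
    obtain ⟨P1, P2, P3, hP1, hP2, hP3, hsum⟩ : ∃ P1 P2 P3 : ℝ,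
        (∀ x ∈ Icc x0 x1, ∀ y ∈ Icc y0 y1, aff p1 x y ^ (1 - 2 * f.x) *
          (aff p2 x y ^ f.x * aff p3 x y ^ f.x) ≤ P1) ∧
        (∀ x ∈ Icc x0 x1, ∀ y ∈ Icc y0 y1, aff p2 x y ^ (1 - 2 * f.x) *
          (aff p3 x y ^ f.x * aff p1 x y ^ f.x) ≤ P2) ∧
        (∀ x ∈ Icc x0 x1, ∀ y ∈ Icc y0 y1, aff p3 x y ^ (1 - 2 * f.x) *
          (aff p1 x y ^ f.x * aff p2 x y ^ f.x) ≤ P3) ∧
        1 / 3 * (P1 + P2 + P3) * ((W : ℝ) / 2 ^ 63) ≤
          (((fer k1 k2 k3 U1 U2 U3 E u1x u1y u2 u3 f : Nat) : ℝ) - 262145) / 2 ^ 44 := by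
      rcases xval with ⟨h, hk'⟩ | ⟨h, hk'⟩
      · -- 1/6
        have aux : ∀ a b c : ℝ, ∀ U : Nat, 0 ≤ a → 0 ≤ b → 0 ≤ c →
            a ^ (1 / 6 : ℝ) * b ^ (1 / 6 : ℝ) * c ^ (1 / 6 : ℝ) ≤ (E : ℝ) / 2 ^ 44 →
            Real.sqrt a ≤ (U : ℝ) / 2 ^ 44 →
            a ^ (1 - 2 * (1 / 6) : ℝ) * (b ^ (1 / 6 : ℝ) * c ^ (1 / 6 : ℝ)) ≤
              (E : ℝ) / 2 ^ 44 * (U / 2 ^ 44) := by
          intro a b c U ha hb hc hE hU
          rw [rpow_six ha]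
          calc a ^ (1 / 6 : ℝ) * Real.sqrt a * (b ^ (1 / 6 : ℝ) * c ^ (1 / 6 : ℝ)) =
              (a ^ (1 / 6 : ℝ) * b ^ (1 / 6 : ℝ) * c ^ (1 / 6 : ℝ)) * Real.sqrt a := by ring
            _ ≤ _ := mul_le_mul hE hU (Real.sqrt_nonneg _) ((by positivity : (0:ℝ) ≤ _).trans hE)
        refine ⟨(E : ℝ) / 2 ^ 44 * (U1 / 2 ^ 44), (E : ℝ) / 2 ^ 44 * (U2 / 2 ^ 44),
          (E : ℝ) / 2 ^ 44 * (U3 / 2 ^ 44), ?_, ?_, ?_, ?_⟩
        · intro x hx y hy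
          rw [h]
          exact aux _ _ _ U1 (h1.nn x hx y hy) (h2.nn x hx y hy) (h3.nn x hx y hy)
            (hE x hx y hy) (h1.sup x hx y hy)
        · intro x hx y hy
          rw [h]
          refine aux _ _ _ U2 (h2.nn x hx y hy) (h3.nn x hx y hy) (h1.nn x hx y hy)
            (le_of_eq_of_le (by ring) (hE x hx y hy)) (h2.sup x hx y hy)
        · intro x hx y hy
          rw [h]
          refine aux _ _ _ U3 (h3.nn x hx y hy) (h1.nn x hx y hy) (h2.nn x hx y hy)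
            (le_of_eq_of_le (by ring) (hE x hx y hy)) (h3.sup x hx y hy)
        · have ef : fer k1 k2 k3 U1 U2 U3 E u1x u1y u2 u3 f =
              Nat.div (E * (U1 + (U2 + U3)) * W) c24 + 262146 := by
            unfold fer
            rw [hk, hk']
            rfl
          rw [ef]
          have hc : 0 < c24 := by norm_num [c24]
          have key := nat_div_real (E * (U1 + (U2 + U3)) * W) c24 hc
          have hcr : ((c24 : Nat) : ℝ) = 3 * 2 ^ 107 := by rw [c24_eq]; push_cast; ring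
          rw [hcr] at key
          have lhs : 1 / 3 * ((E : ℝ) / 2 ^ 44 * (U1 / 2 ^ 44) + (E : ℝ) / 2 ^ 44 * (U2 / 2 ^ 44) +
              (E : ℝ) / 2 ^ 44 * (U3 / 2 ^ 44)) * ((W : ℝ) / 2 ^ 63) =
              ((E * (U1 + (U2 + U3)) * W : Nat) : ℝ) / (3 * 2 ^ 107) / 2 ^ 44 := by
            push_cast; ring
          rw [lhs, div_le_div_iff_of_pos_right (by positivity)]
          push_cast at key ⊢
          linarith
      · -- 1/3
        have aux : ∀ a b c : ℝ, 0 ≤ a → 0 ≤ b → 0 ≤ c →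
            a ^ (1 / 6 : ℝ) * b ^ (1 / 6 : ℝ) * c ^ (1 / 6 : ℝ) ≤ (E : ℝ) / 2 ^ 44 →
            a ^ (1 - 2 * (1 / 3) : ℝ) * (b ^ (1 / 3 : ℝ) * c ^ (1 / 3 : ℝ)) ≤
              (E : ℝ) / 2 ^ 44 * (E / 2 ^ 44) := by
          intro a b c ha hb hc hE
          rw [show (1 - 2 * (1 / 3) : ℝ) = 1 / 3 by norm_num, rpow_three ha, rpow_three hb,
            rpow_three hc]
          calc a ^ (1 / 6 : ℝ) * a ^ (1 / 6 : ℝ) * (b ^ (1 / 6 : ℝ) * b ^ (1 / 6 : ℝ) *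
                (c ^ (1 / 6 : ℝ) * c ^ (1 / 6 : ℝ))) =
              (a ^ (1 / 6 : ℝ) * b ^ (1 / 6 : ℝ) * c ^ (1 / 6 : ℝ)) *
                (a ^ (1 / 6 : ℝ) * b ^ (1 / 6 : ℝ) * c ^ (1 / 6 : ℝ)) := by ring
            _ ≤ _ := mul_le_mul hE hE (by positivity) ((by positivity : (0:ℝ) ≤ _).trans hE)
        refine ⟨(E : ℝ) / 2 ^ 44 * (E / 2 ^ 44), (E : ℝ) / 2 ^ 44 * (E / 2 ^ 44),
          (E : ℝ) / 2 ^ 44 * (E / 2 ^ 44), ?_, ?_, ?_, ?_⟩
        · intro x hx y hy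
          rw [h]
          exact aux _ _ _ (h1.nn x hx y hy) (h2.nn x hx y hy) (h3.nn x hx y hy) (hE x hx y hy)
        · intro x hx y hy
          rw [h]
          exact aux _ _ _ (h2.nn x hx y hy) (h3.nn x hx y hy) (h1.nn x hx y hy)
            (le_of_eq_of_le (by ring) (hE x hx y hy))
        · intro x hx y hy
          rw [h]
          exact aux _ _ _ (h3.nn x hx y hy) (h1.nn x hx y hy) (h2.nn x hx y hy)
            (le_of_eq_of_le (by ring) (hE x hx y hy))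
        · obtain ⟨j, rfl⟩ := Nat.exists_eq_succ_of_ne_zero hk'
          have ef : fer k1 k2 k3 U1 U2 U3 E u1x u1y u2 u3 f =
              Nat.div (E * E * W) c8 + 262146 := by
            unfold fer
            rw [hk]
            rfl
          rw [ef]
          have hc : 0 < c8 := by norm_num [c8]
          have key := nat_div_real (E * E * W) c8 hc
          have hcr : ((c8 : Nat) : ℝ) = 2 ^ 107 := by rw [c8_eq]; push_cast; ring
          rw [hcr] at key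
          have lhs : 1 / 3 * ((E : ℝ) / 2 ^ 44 * (E / 2 ^ 44) + (E : ℝ) / 2 ^ 44 * (E / 2 ^ 44) +
              (E : ℝ) / 2 ^ 44 * (E / 2 ^ 44)) * ((W : ℝ) / 2 ^ 63) =
              ((E * E * W : Nat) : ℝ) / (2 ^ 107) / 2 ^ 44 := by
            push_cast; ring
          rw [lhs, div_le_div_iff_of_pos_right (by positivity)]
          push_cast at key ⊢
          linarith
    have b2 : band k2 (band k3 k1) = band k1 (band k2 k3) := by
      cases k1 <;> cases k2 <;> cases k3 <;> rfl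
    have b3 : band k3 (band k1 k2) = band k1 (band k2 k3) := by
      cases k1 <;> cases k2 <;> cases k3 <;> rfl
    have m1 := tri_k (t := f.t) (g := f.gg) (W := W) (a := u1x) (b := u2) (c := u1y) (d := u3)
      x0' x1' hx01 hy01 h1 h2 h3 hP1 gcond.1 gcond.2 (by push_cast; ring) (by push_cast; ring)
      (by push_cast; ring) hWd
    have m2 := tri_k (t := f.t) (g := f.gg) (W := W) (a := u1x) (b := u2) (c := u1y) (d := u3)
      x0' x1' hx01 hy01 h2 h3 h1 hP2 gcond.1 gcond.2 (by push_cast; ring) (by push_cast; ring)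
      (by push_cast; ring) (by rw [b2])
    have m3 := tri_k (t := f.t) (g := f.gg) (W := W) (a := u1x) (b := u2) (c := u1y) (d := u3)
      x0' x1' hx01 hy01 h3 h1 h2 hP3 gcond.1 gcond.2 (by push_cast; ring) (by push_cast; ring)
      (by push_cast; ring) (by rw [b3])
    have m := ((m1.add m2).add m3).const_mul (1 / 3)
    have e : ∀ x y, x ∈ Icc x0 x1 → y ∈ Icc y0 y1 →
        fxt f.x f.t (aff p1 x y) (aff p2 x y) (aff p3 x y) =
        1 / 3 * (ctm f.x f.t (aff p1 x y) (aff p2 x y) (aff p3 x y) +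
          ctm f.x f.t (aff p2 x y) (aff p3 x y) (aff p1 x y) +
          ctm f.x f.t (aff p3 x y) (aff p1 x y) (aff p2 x y)) := by
      intro x y hx hy
      exact fxt_tri f.x f.t (h1.nn x hx y hy) (h2.nn x hx y hy) (h3.nn x hx y hy)
    have m' := m.congr (g' := fun x y => fxt f.x f.t (aff p1 x y) (aff p2 x y) (aff p3 x y))
      (fun x hx y hy _ _ => e x y hx hy)
    have cc : ∀ x y, x ∈ Icc x0 x1 → y ∈ Icc y0 y1 →
        1 / 3 * ((if k1 && (k2 && k3) then ctm f.x f.t (aff p1 x y) (aff p2 x y) (aff p3 x y) else 0) +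
          (if k2 && (k3 && k1) then ctm f.x f.t (aff p2 x y) (aff p3 x y) (aff p1 x y) else 0) +
          (if k3 && (k1 && k2) then ctm f.x f.t (aff p3 x y) (aff p1 x y) (aff p2 x y) else 0)) =
        fR k1 k2 k3 f (aff p1 x y) (aff p2 x y) (aff p3 x y) := by
      intro x y hx hy
      exact (fR_tri hk0 (h1.nn x hx y hy) (h2.nn x hx y hy) (h3.nn x hx y hy)).symm
    rw [cc x0 y0 mx0 my0, cc x0 y1 mx0 my1, cc x1 y0 mx1 my0, cc x1 y1 mx1 my1] at m'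
    refine m'.mono ?_
    have e1 : |(1 / 3 : ℝ)| = 1 / 3 := abs_of_pos (by norm_num)
    rw [e1]
    refine le_trans (le_of_eq ?_) hsum
    ring

end Crest.Agent.R163.Win
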