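import Crest.Agent.R163.WinReal

/-!
Row 163, window engine: the kernel values and error bounds of the polynomials are models.
-/

set_option autoImplicit false
set_option maxHeartbeats 400000

namespace Crest.Agent.R163.Win

open Set

namespace PolM

lemma st_eq {α : Type} (f : Nat → α) (n : Nat) : st f n = f n := by cases n <;> rfl

lemma ad_real (a b : ℕ) : ((ad a b : ℕ) : ℝ) = |(a : ℝ) - b| := by
  have h : ad a b = (a - b) + (b - a) := rfl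
  rw [h]
  rcases le_total a b with hab | hab
  · rw [Nat.sub_eq_zero_of_le hab, zero_add, Nat.cast_sub hab, abs_sub_comm, abs_of_nonneg]
    exact sub_nonneg.2 (Nat.cast_le.2 hab)
  · rw [Nat.sub_eq_zero_of_le hab, add_zero, Nat.cast_sub hab, abs_of_nonneg]
    exact sub_nonneg.2 (Nat.cast_le.2 hab)

lemma le_mx_left (a b : ℕ) : a ≤ mx a b := Nat.le_add_right _ _

lemma le_mx_right (a b : ℕ) : b ≤ mx a b := by
  have h : mx a b = a + (b - a) := rfl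
  omega

lemma sqr_real (a : ℕ) : ((sqr a : ℕ) : ℝ) = (a : ℝ) ^ 2 := by
  have h : sqr a = a * a := rfl
  rw [h]; push_cast; ring

lemma sn_real (X Y : ℕ) : ((sn X Y : ℕ) : ℝ) =
    s3 (3 - (X : ℝ) / 2 ^ 48 - (Y : ℝ) / 2 ^ 48) ((X : ℝ) / 2 ^ 48) ((Y : ℝ) / 2 ^ 48) *
      (3 * 2 ^ 96) := by
  have h : sn X Y = sqr (ad 562949953421312 (X + Y)) +
    (sqr (ad X 281474976710656) + sqr (ad Y 281474976710656)) := rfl
  rw [h]
  push_cast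
  rw [sqr_real, sqr_real, sqr_real, ad_real, ad_real, ad_real, sq_abs, sq_abs, sq_abs]
  unfold s3
  push_cast
  ring

lemma cn_real {X Y : ℕ} (hX : X ≤ 281474976710656) (hY : Y ≤ 281474976710656) :
    ((cn X Y : ℕ) : ℝ) =
    c3 (3 - (X : ℝ) / 2 ^ 48 - (Y : ℝ) / 2 ^ 48) ((X : ℝ) / 2 ^ 48) ((Y : ℝ) / 2 ^ 48) *
      2 ^ 144 := by
  have h : cn X Y = (562949953421312 - (X + Y)) *
    ((281474976710656 - X) * (281474976710656 - Y)) := rfl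
  rw [h, Nat.cast_mul, Nat.cast_mul, Nat.cast_sub hX, Nat.cast_sub hY,
    Nat.cast_sub (by omega)]
  unfold c3
  push_cast
  ring

lemma c96_real : ((c96 : ℕ) : ℝ) = 3 * 2 ^ 96 := by
  have h : c96 = 237684487542793012780631851008 := rfl
  rw [h]; norm_num

lemma c144_real : ((c144 : ℕ) : ℝ) = 2 ^ 144 := by
  have h : c144 = 22300745198530623141535718272648361505980416 := rfl
  rw [h]; norm_num

lemma pden_real (p : Po) : ((pden p : ℕ) : ℝ) = (3 * 2 ^ 96) ^ p.i * (2 ^ 144) ^ p.j * 2 ^ p.h := by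
  have h : pden p = c96 ^ p.i * c144 ^ p.j * 2 ^ p.h := rfl
  rw [h]
  push_cast
  rw [c96_real, c144_real]

lemma pden_pos (p : Po) : (0 : ℝ) < ((pden p : ℕ) : ℝ) := by
  rw [pden_real]; positivity

lemma div_bounds (a b : ℕ) (hb : (0 : ℝ) < b) :
    ((a / b : ℕ) : ℝ) ≤ (a : ℝ) / b ∧ (a : ℝ) / b ≤ ((a / b : ℕ) : ℝ) + 1 := by
  have hb' : 0 < b := by exact_mod_cast hb
  constructor
  · rw [le_div_iff₀ hb]
    exact_mod_cast Nat.div_mul_le_self a b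
  · rw [div_le_iff₀ hb]
    have h := Nat.lt_div_mul_add hb' (a := a)
    have h2 : (a : ℝ) < (a / b : ℕ) * b + b := by exact_mod_cast h
    linarith

/-- vertex values -/
lemma pval_real (p : Po) {S C : ℕ} {s c : ℝ} (hS : (S : ℝ) = s * (3 * 2 ^ 96))
    (hC : (C : ℝ) ^ p.j = (c * 2 ^ 144) ^ p.j) :
    |((pval S C p : ℕ) : ℝ) / 2 ^ 44 - p.R s c| ≤ 1 / 2 ^ 44 := by
  have h : pval S C p = (S ^ p.i * C ^ p.j) * 17592186044416 / pden p := rfl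
  rw [h]
  obtain ⟨h1, h2⟩ := div_bounds ((S ^ p.i * C ^ p.j) * 17592186044416) (pden p) (pden_pos p)
  have e : (((S ^ p.i * C ^ p.j) * 17592186044416 : ℕ) : ℝ) / ((pden p : ℕ) : ℝ) =
      p.R s c * 2 ^ 44 := by
    rw [pden_real]
    push_cast
    rw [hC, hS, mul_pow s, mul_pow c]
    unfold Po.R
    have p1 : ((3 : ℝ) * 2 ^ 96) ^ p.i ≠ 0 := by positivity
    have p2 : ((2 : ℝ) ^ 144) ^ p.j ≠ 0 := by positivity
    have p3 : (2 : ℝ) ^ p.h ≠ 0 := by positivity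
    generalize ((3 : ℝ) * 2 ^ 96) ^ p.i = K at p1 ⊢
    generalize ((2 : ℝ) ^ 144) ^ p.j = K' at p2 ⊢
    generalize (2 : ℝ) ^ p.h = K'' at p3 ⊢
    have e44 : (17592186044416 : ℝ) = 2 ^ 44 := by norm_num
    rw [e44]
    field_simp
  rw [e] at h1 h2
  have e2 : (((S ^ p.i * C ^ p.j) * 17592186044416 / pden p : ℕ) : ℝ) / 2 ^ 44 - p.R s c =
      ((((S ^ p.i * C ^ p.j) * 17592186044416 / pden p : ℕ) : ℝ) - p.R s c * 2 ^ 44) / 2 ^ 44 := by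
    field_simp
  rw [e2, abs_div, abs_of_pos (by positivity : (0 : ℝ) < 2 ^ 44)]
  refine div_le_div_of_nonneg_right ?_ (by positivity)
  rw [abs_le]
  constructor <;> linarith

lemma PP2_div (i : ℕ) (S0 S1 S2 : ℝ) {k : ℝ} (hk : k ≠ 0) :
    PP2 i (S0 / k) (S1 / k) (S2 / k) = PP2 i S0 S1 S2 / k ^ i := by
  unfold PP2
  rcases i with _ | _ | i
  · simp
  · simp
  · have h1 : i + 1 + 1 - 2 = i := by omega
    have h2 : i + 1 + 1 - 1 = i + 1 := by omega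
    rw [h1, h2]
    simp only [div_pow]
    field_simp
    try ring

lemma PP1_div (i : ℕ) (S0 S1 : ℝ) {k : ℝ} (hk : k ≠ 0) :
    PP1 i (S0 / k) (S1 / k) = PP1 i S0 S1 / k ^ i := by
  unfold PP1
  rcases i with _ | i
  · simp
  · have h2 : i + 1 - 1 = i := by omega
    have e : (S0 / k) ^ i = S0 ^ i / k ^ i := div_pow _ _ _
    rw [h2, e, pow_succ k i]
    have hki : k ^ i ≠ 0 := pow_ne_zero i hk
    generalize k ^ i = K at hki ⊢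
    generalize S0 ^ i = L
    field_simp

lemma GG_div (i : ℕ) (S0 S1 S2 C0 C1 C2 : ℝ) {k l : ℝ} (hk : k ≠ 0) (hl : l ≠ 0) :
    GG i (S0 / k) (S1 / k) (S2 / k) (C0 / l) (C1 / l) (C2 / l) =
      GG i S0 S1 S2 C0 C1 C2 / (k ^ i * l) := by
  unfold GG
  rw [PP2_div i S0 S1 S2 hk, PP1_div i S0 S1 hk, div_pow]
  field_simp

lemma jet_zero (i S0 S1 S2 C0 C1 C2 : ℕ) :
    ((jet i 0 S0 S1 S2 C0 C1 C2 : ℕ) : ℝ) = PP2 i S0 S1 S2 := by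
  have h : jet i 0 S0 S1 S2 C0 C1 C2 = st (fun a2 => a2)
    (i * (i - 1) * S0 ^ (i - 2) * sqr S1 + i * (S0 ^ (i - 1) * S2)) := rfl
  rw [h, st_eq]
  unfold PP2
  push_cast
  rw [sqr_real]
  ring

lemma jet_one (i S0 S1 S2 C0 C1 C2 : ℕ) :
    ((jet i 1 S0 S1 S2 C0 C1 C2 : ℕ) : ℝ) = GG i S0 S1 S2 C0 C1 C2 := by
  have h : jet i 1 S0 S1 S2 C0 C1 C2 = st (fun a2 => a2 * C0 +
      (2 * (i * (S0 ^ (i - 1) * S1)) * C1 + S0 ^ i * C2))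
    (i * (i - 1) * S0 ^ (i - 2) * sqr S1 + i * (S0 ^ (i - 1) * S2)) := rfl
  rw [h, st_eq]
  unfold GG PP2 PP1
  push_cast
  rw [sqr_real]
  ring

/-- passage from the exact bound to the kernel bound -/
lemma per_ge (p : Po) {A B : ℕ} {E : ℝ}
    (hE : E * (((pden p : ℕ) : ℝ) * 8) = (A : ℝ) + B) :
    E + 1 / 2 ^ 44 ≤ (((A + B) * 2199023255552 / pden p + 2 : ℕ) : ℝ) / 2 ^ 44 := by
  have hp := pden_pos p
  obtain ⟨-, h2⟩ := div_bounds ((A + B) * 2199023255552) (pden p) hp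
  have e : (((A + B) * 2199023255552 : ℕ) : ℝ) / ((pden p : ℕ) : ℝ) = E * 2 ^ 44 := by
    push_cast
    rw [← hE]
    have e44 : (2199023255552 : ℝ) = 2 ^ 41 := by norm_num
    rw [e44]
    field_simp
    norm_num
  rw [e] at h2
  rw [le_div_iff₀ (by positivity)]
  push_cast at h2 ⊢
  have e3 : (E + 1 / 2 ^ 44) * 2 ^ 44 = E * 2 ^ 44 + 1 := by ring
  rw [e3]
  linarith

section cell

variable {X0 X1 Y0 Y1 : ℕ}

lemma abs_le_mx {a b : ℝ} {t A B : ℝ} {m : ℕ} (h1 : a ≤ t) (h2 : t ≤ b) (hA : |a| ≤ A)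
    (hB : |b| ≤ B) (hAm : A ≤ (m : ℝ)) (hBm : B ≤ (m : ℝ)) : |t| ≤ (m : ℝ) := by
  have h3 := abs_le.1 (hA.trans hAm)
  have h4 := abs_le.1 (hB.trans hBm)
  exact abs_le.2 ⟨by linarith, by linarith⟩

lemma abs_le_div {A m : ℝ} (h : |A * 2 ^ 48| ≤ m) : |A| ≤ m / 2 ^ 48 := by
  rw [le_div_iff₀ (by positivity)]
  rwa [abs_mul, abs_of_pos (by positivity : (0 : ℝ) < 2 ^ 48)] at h

/-- the numbers of `ePol` -/
structure Dat (X0 X1 Y0 Y1 z1 z2 z3 d12 d13 dx dy : ℕ) : Prop where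
  h1 : ∀ x ∈ Icc ((X0 : ℝ) / 2 ^ 48) ((X1 : ℝ) / 2 ^ 48),
    ∀ y ∈ Icc ((Y0 : ℝ) / 2 ^ 48) ((Y1 : ℝ) / 2 ^ 48), |2 - x - y| ≤ (z1 : ℝ) / 2 ^ 48
  h2 : ∀ x ∈ Icc ((X0 : ℝ) / 2 ^ 48) ((X1 : ℝ) / 2 ^ 48), |x - 1| ≤ (z2 : ℝ) / 2 ^ 48
  h3 : ∀ y ∈ Icc ((Y0 : ℝ) / 2 ^ 48) ((Y1 : ℝ) / 2 ^ 48), |y - 1| ≤ (z3 : ℝ) / 2 ^ 48
  h12 : ∀ x ∈ Icc ((X0 : ℝ) / 2 ^ 48) ((X1 : ℝ) / 2 ^ 48),
    ∀ y ∈ Icc ((Y0 : ℝ) / 2 ^ 48) ((Y1 : ℝ) / 2 ^ 48), |3 - 2 * x - y| ≤ (d12 : ℝ) / 2 ^ 48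
  h13 : ∀ x ∈ Icc ((X0 : ℝ) / 2 ^ 48) ((X1 : ℝ) / 2 ^ 48),
    ∀ y ∈ Icc ((Y0 : ℝ) / 2 ^ 48) ((Y1 : ℝ) / 2 ^ 48), |3 - x - 2 * y| ≤ (d13 : ℝ) / 2 ^ 48
  hdx : (dx : ℝ) = X1 - X0
  hdy : (dy : ℝ) = Y1 - Y0

lemma scale_mem {X : ℝ} {a b : ℕ} (h : X ∈ Icc ((a : ℝ) / 2 ^ 48) ((b : ℝ) / 2 ^ 48)) :
    (a : ℝ) ≤ X * 2 ^ 48 ∧ X * 2 ^ 48 ≤ b := by
  obtain ⟨h1, h2⟩ := h
  rw [div_le_iff₀ (by positivity)] at h1
  rw [le_div_iff₀ (by positivity)] at h2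
  exact ⟨h1, h2⟩

lemma dat (hX : X0 < X1) (hY : Y0 < Y1) :
    Dat X0 X1 Y0 Y1
      (mx (ad 562949953421312 (Nat.add X0 Y0)) (ad 562949953421312 (Nat.add X1 Y1)))
      (mx (ad 281474976710656 X0) (ad 281474976710656 X1))
      (mx (ad 281474976710656 Y0) (ad 281474976710656 Y1))
      (mx (ad 844424930131968 (Nat.add (Nat.add X0 X0) Y0))
        (ad 844424930131968 (Nat.add (Nat.add X1 X1) Y1)))
      (mx (ad 844424930131968 (Nat.add X0 (Nat.add Y0 Y0)))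
        (ad 844424930131968 (Nat.add X1 (Nat.add Y1 Y1))))
      (Nat.sub X1 X0) (Nat.sub Y1 Y0) where
  h1 x hx y hy := by
    obtain ⟨a1, a2⟩ := scale_mem hx
    obtain ⟨b1, b2⟩ := scale_mem hy
    refine abs_le_div ?_
    have g1 : ((ad 562949953421312 (X0 + Y0) : ℕ) : ℝ) ≤
        (mx (ad 562949953421312 (X0 + Y0)) (ad 562949953421312 (X1 + Y1)) : ℕ) :=
      Nat.cast_le.2 (le_mx_left _ _)
    have g2 : ((ad 562949953421312 (X1 + Y1) : ℕ) : ℝ) ≤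
        (mx (ad 562949953421312 (X0 + Y0)) (ad 562949953421312 (X1 + Y1)) : ℕ) :=
      Nat.cast_le.2 (le_mx_right _ _)
    rw [ad_real] at g1 g2
    push_cast at g1 g2
    exact abs_le_mx (by linarith) (by linarith) le_rfl le_rfl g2 g1
  h2 x hx := by
    obtain ⟨a1, a2⟩ := scale_mem hx
    refine abs_le_div ?_
    have g1 : ((ad 281474976710656 X0 : ℕ) : ℝ) ≤
        (mx (ad 281474976710656 X0) (ad 281474976710656 X1) : ℕ) :=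
      Nat.cast_le.2 (le_mx_left _ _)
    have g2 : ((ad 281474976710656 X1 : ℕ) : ℝ) ≤
        (mx (ad 281474976710656 X0) (ad 281474976710656 X1) : ℕ) :=
      Nat.cast_le.2 (le_mx_right _ _)
    rw [ad_real] at g1 g2
    rw [abs_sub_comm] at g1 g2
    push_cast at g1 g2
    exact abs_le_mx (by linarith) (by linarith) le_rfl le_rfl g1 g2
  h3 x hx := by
    obtain ⟨a1, a2⟩ := scale_mem hx
    refine abs_le_div ?_
    have g1 : ((ad 281474976710656 Y0 : ℕ) : ℝ) ≤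
        (mx (ad 281474976710656 Y0) (ad 281474976710656 Y1) : ℕ) :=
      Nat.cast_le.2 (le_mx_left _ _)
    have g2 : ((ad 281474976710656 Y1 : ℕ) : ℝ) ≤
        (mx (ad 281474976710656 Y0) (ad 281474976710656 Y1) : ℕ) :=
      Nat.cast_le.2 (le_mx_right _ _)
    rw [ad_real] at g1 g2
    rw [abs_sub_comm] at g1 g2
    push_cast at g1 g2
    exact abs_le_mx (by linarith) (by linarith) le_rfl le_rfl g1 g2
  h12 x hx y hy := by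
    obtain ⟨a1, a2⟩ := scale_mem hx
    obtain ⟨b1, b2⟩ := scale_mem hy
    refine abs_le_div ?_
    have g1 : ((ad 844424930131968 (X0 + X0 + Y0) : ℕ) : ℝ) ≤
        (mx (ad 844424930131968 (X0 + X0 + Y0)) (ad 844424930131968 (X1 + X1 + Y1)) : ℕ) :=
      Nat.cast_le.2 (le_mx_left _ _)
    have g2 : ((ad 844424930131968 (X1 + X1 + Y1) : ℕ) : ℝ) ≤
        (mx (ad 844424930131968 (X0 + X0 + Y0)) (ad 844424930131968 (X1 + X1 + Y1)) : ℕ) :=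
      Nat.cast_le.2 (le_mx_right _ _)
    rw [ad_real] at g1 g2
    push_cast at g1 g2
    exact abs_le_mx (by linarith) (by linarith) le_rfl le_rfl g2 g1
  h13 x hx y hy := by
    obtain ⟨a1, a2⟩ := scale_mem hx
    obtain ⟨b1, b2⟩ := scale_mem hy
    refine abs_le_div ?_
    have g1 : ((ad 844424930131968 (X0 + (Y0 + Y0)) : ℕ) : ℝ) ≤
        (mx (ad 844424930131968 (X0 + (Y0 + Y0))) (ad 844424930131968 (X1 + (Y1 + Y1))) : ℕ) :=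
      Nat.cast_le.2 (le_mx_left _ _)
    have g2 : ((ad 844424930131968 (X1 + (Y1 + Y1)) : ℕ) : ℝ) ≤
        (mx (ad 844424930131968 (X0 + (Y0 + Y0))) (ad 844424930131968 (X1 + (Y1 + Y1))) : ℕ) :=
      Nat.cast_le.2 (le_mx_right _ _)
    rw [ad_real] at g1 g2
    push_cast at g1 g2
    exact abs_le_mx (by linarith) (by linarith) le_rfl le_rfl g2 g1
  hdx := by
    show ((X1 - X0 : ℕ) : ℝ) = _
    rw [Nat.cast_sub hX.le]
  hdy := by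
    show ((Y1 - Y0 : ℕ) : ℝ) = _
    rw [Nat.cast_sub hY.le]

/-- the model of one polynomial -/
theorem pol_one {z1 z2 z3 d12 d13 dx dy : ℕ} (hX : X0 < X1) (hY : Y0 < Y1)
    (D : Dat X0 X1 Y0 Y1 z1 z2 z3 d12 d13 dx dy) (p : Po)
    (hj : p.j = 0 ∨ (p.j = 1 ∧ X1 ≤ 281474976710656 ∧ Y1 ≤ 281474976710656)) :
    Mdl ((X0 : ℝ) / 2 ^ 48) ((X1 : ℝ) / 2 ^ 48) ((Y0 : ℝ) / 2 ^ 48) ((Y1 : ℝ) / 2 ^ 48)
      (fun x y => p.R (s3 (3 - x - y) x y) (c3 (3 - x - y) x y))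
      (((pval (sn X0 Y0) (cn X0 Y0) p : ℕ) : ℝ) / 2 ^ 44)
      (((pval (sn X0 Y1) (cn X0 Y1) p : ℕ) : ℝ) / 2 ^ 44)
      (((pval (sn X1 Y0) (cn X1 Y0) p : ℕ) : ℝ) / 2 ^ 44)
      (((pval (sn X1 Y1) (cn X1 Y1) p : ℕ) : ℝ) / 2 ^ 44)
      (((per (sqr z1 + (sqr z2 + sqr z3)) (2 * (d12 * dx)) (4 * sqr dx) (2 * (d13 * dy))
        (4 * sqr dy) (z1 * (z2 * z3)) (z3 * (d12 * dx)) (2 * (z3 * sqr dx)) (z2 * (d13 * dy))
        (2 * (z2 * sqr dy)) p : ℕ) : ℝ) / 2 ^ 44) := by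
  have hx01 : (X0 : ℝ) / 2 ^ 48 < (X1 : ℝ) / 2 ^ 48 :=
    div_lt_div_of_pos_right (Nat.cast_lt.2 hX) (by positivity)
  have hy01 : (Y0 : ℝ) / 2 ^ 48 < (Y1 : ℝ) / 2 ^ 48 :=
    div_lt_div_of_pos_right (Nat.cast_lt.2 hY) (by positivity)
  have hC : ∀ X Y : ℕ, X ≤ X1 → Y ≤ Y1 → ((cn X Y : ℕ) : ℝ) ^ p.j =
      (c3 (3 - (X : ℝ) / 2 ^ 48 - (Y : ℝ) / 2 ^ 48) ((X : ℝ) / 2 ^ 48) ((Y : ℝ) / 2 ^ 48) *
      2 ^ 144) ^ p.j := by
    intro X Y hXX hYY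
    rcases hj with h | ⟨h, hx, hy⟩
    · rw [h, pow_zero, pow_zero]
    · rw [cn_real (hXX.trans hx) (hYY.trans hy)]
  have v00 := pval_real p (sn_real X0 Y0) (hC X0 Y0 hX.le hY.le)
  have v01 := pval_real p (sn_real X0 Y1) (hC X0 Y1 hX.le le_rfl)
  have v10 := pval_real p (sn_real X1 Y0) (hC X1 Y0 le_rfl hY.le)
  have v11 := pval_real p (sn_real X1 Y1) (hC X1 Y1 le_rfl le_rfl)
  set x0 : ℝ := (X0 : ℝ) / 2 ^ 48 with hx0
  set x1 : ℝ := (X1 : ℝ) / 2 ^ 48 with hx1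
  set y0 : ℝ := (Y0 : ℝ) / 2 ^ 48 with hy0
  set y1 : ℝ := (Y1 : ℝ) / 2 ^ 48 with hy1
  have hdx : x1 - x0 = (dx : ℝ) / 2 ^ 48 := by rw [hx0, hx1, D.hdx]; ring
  have hdy : y1 - y0 = (dy : ℝ) / 2 ^ 48 := by rw [hy0, hy1, D.hdy]; ring
  have k1 : (3 * 2 ^ 96 : ℝ) ≠ 0 := by positivity
  have k2 : (2 ^ 144 : ℝ) ≠ 0 := by positivity
  -- the real bounds as quotients
  have eS0 : (((z1 : ℝ) / 2 ^ 48) ^ 2 + ((z2 : ℝ) / 2 ^ 48) ^ 2 + ((z3 : ℝ) / 2 ^ 48) ^ 2) / 3 =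
      ((sqr z1 + (sqr z2 + sqr z3) : ℕ) : ℝ) / (3 * 2 ^ 96) := by
    push_cast; rw [sqr_real, sqr_real, sqr_real]; ring
  have eS1x : 2 * ((d12 : ℝ) / 2 ^ 48) * (x1 - x0) / 3 =
      ((2 * (d12 * dx) : ℕ) : ℝ) / (3 * 2 ^ 96) := by
    rw [hdx]; push_cast; ring
  have eS2x : 4 * (x1 - x0) ^ 2 / 3 = ((4 * sqr dx : ℕ) : ℝ) / (3 * 2 ^ 96) := by
    rw [hdx]; push_cast; rw [sqr_real]; ring
  have eS1y : 2 * ((d13 : ℝ) / 2 ^ 48) * (y1 - y0) / 3 =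
      ((2 * (d13 * dy) : ℕ) : ℝ) / (3 * 2 ^ 96) := by
    rw [hdy]; push_cast; ring
  have eS2y : 4 * (y1 - y0) ^ 2 / 3 = ((4 * sqr dy : ℕ) : ℝ) / (3 * 2 ^ 96) := by
    rw [hdy]; push_cast; rw [sqr_real]; ring
  have eC0 : ((z1 : ℝ) / 2 ^ 48) * ((z2 : ℝ) / 2 ^ 48) * ((z3 : ℝ) / 2 ^ 48) =
      ((z1 * (z2 * z3) : ℕ) : ℝ) / 2 ^ 144 := by
    push_cast; ring
  have eC1x : ((z3 : ℝ) / 2 ^ 48) * ((d12 : ℝ) / 2 ^ 48) * (x1 - x0) =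
      ((z3 * (d12 * dx) : ℕ) : ℝ) / 2 ^ 144 := by
    rw [hdx]; push_cast; ring
  have eC2x : 2 * ((z3 : ℝ) / 2 ^ 48) * (x1 - x0) ^ 2 =
      ((2 * (z3 * sqr dx) : ℕ) : ℝ) / 2 ^ 144 := by
    rw [hdx]; push_cast; rw [sqr_real]; ring
  have eC1y : ((z2 : ℝ) / 2 ^ 48) * ((d13 : ℝ) / 2 ^ 48) * (y1 - y0) =
      ((z2 * (d13 * dy) : ℕ) : ℝ) / 2 ^ 144 := by
    rw [hdy]; push_cast; ring
  have eC2y : 2 * ((z2 : ℝ) / 2 ^ 48) * (y1 - y0) ^ 2 =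
      ((2 * (z2 * sqr dy) : ℕ) : ℝ) / 2 ^ 144 := by
    rw [hdy]; push_cast; rw [sqr_real]; ring
  have hper : per (sqr z1 + (sqr z2 + sqr z3)) (2 * (d12 * dx)) (4 * sqr dx) (2 * (d13 * dy))
        (4 * sqr dy) (z1 * (z2 * z3)) (z3 * (d12 * dx)) (2 * (z3 * sqr dx)) (z2 * (d13 * dy))
        (2 * (z2 * sqr dy)) p =
      (jet p.i p.j (sqr z1 + (sqr z2 + sqr z3)) (2 * (d12 * dx)) (4 * sqr dx) (z1 * (z2 * z3))
          (z3 * (d12 * dx)) (2 * (z3 * sqr dx)) +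
        jet p.i p.j (sqr z1 + (sqr z2 + sqr z3)) (2 * (d13 * dy)) (4 * sqr dy) (z1 * (z2 * z3))
          (z2 * (d13 * dy)) (2 * (z2 * sqr dy))) * 2199023255552 / pden p + 2 := rfl
  rw [hper]
  have h2h : (0 : ℝ) < 1 / 2 ^ p.h := by positivity
  rcases hj with h | ⟨h, -, -⟩
  · have M := (poly_mdl0 hx01 hy01 D.h1 D.h2 D.h3 D.h12 D.h13 p.i).const_mul (1 / 2 ^ p.h)
    have hR : ∀ s c : ℝ, p.R s c = 1 / 2 ^ p.h * s ^ p.i := by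
      intro s c
      unfold Po.R
      rw [h, pow_zero]; ring
    rw [hR] at v00 v01 v10 v11
    simp only [hR]
    refine (M.perturb hx01 hy01 v00 v01 v10 v11).mono ?_
    rw [h]
    refine per_ge p ?_
    rw [jet_zero, jet_zero, eS0, eS1x, eS2x, eS1y, eS2y, PP2_div _ _ _ _ k1, PP2_div _ _ _ _ k1,
      abs_of_pos h2h, pden_real, h, pow_zero]
    have p1 : ((3 : ℝ) * 2 ^ 96) ^ p.i ≠ 0 := by positivity
    have p3 : (2 : ℝ) ^ p.h ≠ 0 := by positivity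
    generalize ((3 : ℝ) * 2 ^ 96) ^ p.i = K at p1 ⊢
    generalize (2 : ℝ) ^ p.h = K' at p3 ⊢
    field_simp
  · have M := (poly_mdl1 hx01 hy01 D.h1 D.h2 D.h3 D.h12 D.h13 p.i).const_mul (1 / 2 ^ p.h)
    have hR : ∀ s c : ℝ, p.R s c = 1 / 2 ^ p.h * (s ^ p.i * c) := by
      intro s c
      unfold Po.R
      rw [h, pow_one]; ring
    rw [hR] at v00 v01 v10 v11
    simp only [hR]
    refine (M.perturb hx01 hy01 v00 v01 v10 v11).mono ?_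
    rw [h]
    refine per_ge p ?_
    rw [jet_one, jet_one, eS0, eS1x, eS2x, eS1y, eS2y, eC0, eC1x, eC2x, eC1y, eC2y,
      GG_div _ _ _ _ _ _ _ k1 k2, GG_div _ _ _ _ _ _ _ k1 k2, abs_of_pos h2h, pden_real, h,
      pow_one]
    have p1 : ((3 : ℝ) * 2 ^ 96) ^ p.i ≠ 0 := by positivity
    have p3 : (2 : ℝ) ^ p.h ≠ 0 := by positivity
    generalize ((3 : ℝ) * 2 ^ 96) ^ p.i = K at p1 ⊢
    generalize (2 : ℝ) ^ p.h = K' at p3 ⊢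
    generalize (2 : ℝ) ^ 144 = K'' at k2 ⊢
    field_simp

end cell

end PolM

open PolM

/-- **the models of the polynomials** -/
theorem pol_mdlL {ps : List Po} {X0 X1 Y0 Y1 : ℕ}
    (hj : ∀ p ∈ ps, p.j = 0 ∨ (p.j = 1 ∧ X1 ≤ 281474976710656 ∧ Y1 ≤ 281474976710656))
    (hX : X0 < X1) (hY : Y0 < Y1) :
    MdlL ((X0 : ℝ) / 2 ^ 48) ((X1 : ℝ) / 2 ^ 48) ((Y0 : ℝ) / 2 ^ 48) ((Y1 : ℝ) / 2 ^ 48)
      (ps.map fun p => fun x y => p.R (s3 (3 - x - y) x y) (c3 (3 - x - y) x y))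
      (pvals (sn X0 Y0) (cn X0 Y0) ps) (pvals (sn X0 Y1) (cn X0 Y1) ps)
      (pvals (sn X1 Y0) (cn X1 Y0) ps) (pvals (sn X1 Y1) (cn X1 Y1) ps)
      (ePol ps X0 X1 Y0 Y1) := by
  have D := dat hX hY
  unfold ePol
  simp only [st_eq]
  unfold ePo
  simp only [st_eq]
  generalize (mx (ad 562949953421312 (Nat.add X0 Y0)) (ad 562949953421312 (Nat.add X1 Y1))) = z1
    at D ⊢
  generalize (mx (ad 281474976710656 X0) (ad 281474976710656 X1)) = z2 at D ⊢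
  generalize (mx (ad 281474976710656 Y0) (ad 281474976710656 Y1)) = z3 at D ⊢
  generalize (mx (ad 844424930131968 (Nat.add (Nat.add X0 X0) Y0))
        (ad 844424930131968 (Nat.add (Nat.add X1 X1) Y1))) = d12 at D ⊢
  generalize (mx (ad 844424930131968 (Nat.add X0 (Nat.add Y0 Y0)))
        (ad 844424930131968 (Nat.add X1 (Nat.add Y1 Y1)))) = d13 at D ⊢
  generalize Nat.sub X1 X0 = dx at D ⊢
  generalize Nat.sub Y1 Y0 = dy at D ⊢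
  induction ps with
  | nil => trivial
  | cons p ps ih =>
    refine ⟨?_, ih fun q hq => hj q (List.mem_cons_of_mem _ hq)⟩
    exact pol_one hX hY D p (hj p List.mem_cons_self)

end Crest.Agent.R163.Win
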