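import Crest.Agent.R163.WinInterp
import Crest.Agent.R163.WinDec

/-!
Row 163, window engine: interpolation models of the polynomials `s ^ i` and `s ^ i * c`.
-/

set_option autoImplicit false

namespace Crest.Agent.R163.Win

open Set

/-- bound of the first derivative of `s ^ i` -/
noncomputable def PP1 (i : ℕ) (S0 S1 : ℝ) : ℝ := i * S0 ^ (i - 1) * S1

/-- bound of the second derivative of `s ^ i` -/
noncomputable def PP2 (i : ℕ) (S0 S1 S2 : ℝ) : ℝ :=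
  i * ((i - 1 : ℕ) : ℝ) * S0 ^ (i - 2) * S1 ^ 2 + i * S0 ^ (i - 1) * S2

/-- bound of the second derivative of `s ^ i * c` -/
noncomputable def GG (i : ℕ) (S0 S1 S2 C0 C1 C2 : ℝ) : ℝ :=
  PP2 i S0 S1 S2 * C0 + 2 * PP1 i S0 S1 * C1 + S0 ^ i * C2

theorem interp_poly {s s1 s2 c c1 c2 : ℝ → ℝ} {a b S0 S1 S2 C0 C1 C2 : ℝ} (hab : a < b) (i : ℕ)
    (hs1 : ∀ t ∈ Icc a b, HasDerivAt s (s1 t) t) (hs2 : ∀ t ∈ Icc a b, HasDerivAt s1 (s2 t) t)
    (hc1 : ∀ t ∈ Icc a b, HasDerivAt c (c1 t) t) (hc2 : ∀ t ∈ Icc a b, HasDerivAt c1 (c2 t) t)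
    (b0 : ∀ t ∈ Icc a b, |s t| ≤ S0) (b1 : ∀ t ∈ Icc a b, |s1 t| * (b - a) ≤ S1)
    (b2 : ∀ t ∈ Icc a b, |s2 t| * (b - a) ^ 2 ≤ S2)
    (d0 : ∀ t ∈ Icc a b, |c t| ≤ C0) (d1 : ∀ t ∈ Icc a b, |c1 t| * (b - a) ≤ C1)
    (d2 : ∀ t ∈ Icc a b, |c2 t| * (b - a) ^ 2 ≤ C2) :
    ∀ t ∈ Icc a b, |s t ^ i * c t - lin1 a b t (s a ^ i * c a) (s b ^ i * c b)| ≤
      GG i S0 S1 S2 C0 C1 C2 / 8 := by
  intro t ht
  have hba : 0 < b - a := sub_pos.mpr hab
  have hpow : ∀ (n : ℕ), ∀ t ∈ Icc a b, HasDerivAt (fun t => s t ^ n)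
      ((n : ℝ) * s t ^ (n - 1) * s1 t) t := fun n t ht => (hs1 t ht).fun_pow n
  have key := interp1 (φ := fun t => s t ^ i * c t)
    (φ' := fun t => (i : ℝ) * s t ^ (i - 1) * s1 t * c t + s t ^ i * c1 t)
    (φ'' := fun t => ((((i : ℝ) * (((i - 1 : ℕ) : ℝ) * s t ^ (i - 1 - 1) * s1 t)) * s1 t +
      (i : ℝ) * s t ^ (i - 1) * s2 t) * c t + (i : ℝ) * s t ^ (i - 1) * s1 t * c1 t) +
      ((i : ℝ) * s t ^ (i - 1) * s1 t * c1 t + s t ^ i * c2 t))
    (M := GG i S0 S1 S2 C0 C1 C2 / (b - a) ^ 2) hab (fun t ht => ?_) (fun t ht => ?_)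
    (fun t ht => ?_) ht
  · refine key.trans (le_of_eq ?_)
    have h2 : (b - a) ^ 2 ≠ 0 := by positivity
    rw [div_mul_cancel₀ _ h2]
  · exact (hpow i t ht).fun_mul (hc1 t ht)
  · refine HasDerivAt.fun_add ?_ ?_
    · refine HasDerivAt.fun_mul ?_ (hc1 t ht)
      refine HasDerivAt.fun_mul ?_ (hs2 t ht)
      exact (hpow (i - 1) t ht).const_mul _
    · exact (hpow i t ht).fun_mul (hc2 t ht)
  · have hS0 : 0 ≤ S0 := (abs_nonneg _).trans (b0 t ht)
    have hC0 : 0 ≤ C0 := (abs_nonneg _).trans (d0 t ht)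
    have hS1 : 0 ≤ S1 := (mul_nonneg (abs_nonneg _) hba.le).trans (b1 t ht)
    have hC1 : 0 ≤ C1 := (mul_nonneg (abs_nonneg _) hba.le).trans (d1 t ht)
    rw [le_div_iff₀ (by positivity)]
    have e0 : ∀ n : ℕ, |s t ^ n| ≤ S0 ^ n := fun n => by
      rw [abs_pow]; exact pow_le_pow_left₀ (abs_nonneg _) (b0 t ht) n
    have e1 := b1 t ht
    have e2 := b2 t ht
    have e3 := d0 t ht
    have e4 := d1 t ht
    have e5 := d2 t ht
    have hi : (0 : ℝ) ≤ i := Nat.cast_nonneg i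
    have hi1 : (0 : ℝ) ≤ ((i - 1 : ℕ) : ℝ) := Nat.cast_nonneg _
    have hidx : i - 1 - 1 = i - 2 := by omega
    rw [hidx]
    -- the four parts
    have p1 : |(i : ℝ) * (((i - 1 : ℕ) : ℝ) * s t ^ (i - 2) * s1 t) * s1 t * c t| * (b - a) ^ 2 ≤
        i * ((i - 1 : ℕ) : ℝ) * S0 ^ (i - 2) * S1 ^ 2 * C0 := by
      have : |(i : ℝ) * (((i - 1 : ℕ) : ℝ) * s t ^ (i - 2) * s1 t) * s1 t * c t| * (b - a) ^ 2 =
          i * ((i - 1 : ℕ) : ℝ) * |s t ^ (i - 2)| * (|s1 t| * (b - a)) ^ 2 * |c t| := by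
        rw [abs_mul, abs_mul, abs_mul, abs_mul, abs_mul, abs_of_nonneg hi, abs_of_nonneg hi1]
        ring
      rw [this]
      have hh : 0 ≤ |s1 t| * (b - a) := mul_nonneg (abs_nonneg _) hba.le
      gcongr
      exact e0 _
    have p2 : |(i : ℝ) * s t ^ (i - 1) * s2 t * c t| * (b - a) ^ 2 ≤ i * S0 ^ (i - 1) * S2 * C0 := by
      have : |(i : ℝ) * s t ^ (i - 1) * s2 t * c t| * (b - a) ^ 2 =
          i * |s t ^ (i - 1)| * (|s2 t| * (b - a) ^ 2) * |c t| := by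
        rw [abs_mul, abs_mul, abs_mul, abs_of_nonneg hi]
        ring
      rw [this]
      have hS2 : 0 ≤ S2 := (mul_nonneg (abs_nonneg _) (by positivity)).trans e2
      gcongr
      exact e0 _
    have p3 : |(i : ℝ) * s t ^ (i - 1) * s1 t * c1 t| * (b - a) ^ 2 ≤ i * S0 ^ (i - 1) * S1 * C1 := by
      have : |(i : ℝ) * s t ^ (i - 1) * s1 t * c1 t| * (b - a) ^ 2 =
          i * |s t ^ (i - 1)| * (|s1 t| * (b - a)) * (|c1 t| * (b - a)) := by
        rw [abs_mul, abs_mul, abs_mul, abs_of_nonneg hi]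
        ring
      rw [this]
      have hh : 0 ≤ |c1 t| * (b - a) := mul_nonneg (abs_nonneg _) hba.le
      gcongr
      exact e0 _
    have p4 : |s t ^ i * c2 t| * (b - a) ^ 2 ≤ S0 ^ i * C2 := by
      have : |s t ^ i * c2 t| * (b - a) ^ 2 = |s t ^ i| * (|c2 t| * (b - a) ^ 2) := by
        rw [abs_mul]
        ring
      rw [this]
      have hh : 0 ≤ |c2 t| * (b - a) ^ 2 := by positivity
      gcongr
      exact e0 _
    have htri : ∀ A B C D E : ℝ, |((A + B) * c t + C) + (D + E)| ≤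
        |A * c t| + |B * c t| + |C| + |D| + |E| := fun A B C D E => by
      have h1 : ((A + B) * c t + C) + (D + E) = A * c t + B * c t + C + D + E := by ring
      rw [h1]
      calc |A * c t + B * c t + C + D + E| ≤ |A * c t + B * c t + C + D| + |E| := abs_add_le _ _
        _ ≤ (|A * c t + B * c t + C| + |D|) + |E| := by gcongr; exact abs_add_le _ _
        _ ≤ ((|A * c t + B * c t| + |C|) + |D|) + |E| := by gcongr; exact abs_add_le _ _
        _ ≤ (((|A * c t| + |B * c t|) + |C|) + |D|) + |E| := by gcongr; exact abs_add_le _ _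
    have h6 := mul_le_mul_of_nonneg_right (htri
      ((i : ℝ) * (((i - 1 : ℕ) : ℝ) * s t ^ (i - 2) * s1 t) * s1 t)
      ((i : ℝ) * s t ^ (i - 1) * s2 t) ((i : ℝ) * s t ^ (i - 1) * s1 t * c1 t)
      ((i : ℝ) * s t ^ (i - 1) * s1 t * c1 t) (s t ^ i * c2 t))
      (by positivity : (0 : ℝ) ≤ (b - a) ^ 2)
    refine h6.trans ?_
    unfold GG PP1 PP2
    linarith

/-! ### the two polynomials on the triangle -/

lemma hasDerivAt_s3_x (y t : ℝ) :
    HasDerivAt (fun x => s3 (3 - x - y) x y) (-(2 / 3) * (3 - 2 * t - y)) t := by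
  unfold s3
  have h1 : HasDerivAt (fun x : ℝ => 3 - x - y - 1) (-1) t := by
    have := (((hasDerivAt_id t).const_sub 3).sub_const y).sub_const 1
    simpa using this
  have h2 : HasDerivAt (fun x : ℝ => x - 1) 1 t := (hasDerivAt_id t).sub_const 1
  have h3 := (((h1.fun_pow 2).fun_add (h2.fun_pow 2)).add_const ((y - 1) ^ 2)).div_const 3
  refine h3.congr_deriv ?_
  push_cast
  ring

lemma hasDerivAt_s3_y (x t : ℝ) :
    HasDerivAt (fun y => s3 (3 - x - y) x y) (-(2 / 3) * (3 - x - 2 * t)) t := by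
  unfold s3
  have h1 : HasDerivAt (fun y : ℝ => 3 - x - y - 1) (-1) t := by
    have := ((hasDerivAt_id t).const_sub (3 - x)).sub_const 1
    simpa using this
  have h2 : HasDerivAt (fun y : ℝ => y - 1) 1 t := (hasDerivAt_id t).sub_const 1
  have h3 := (((h1.fun_pow 2).add_const ((x - 1) ^ 2)).fun_add (h2.fun_pow 2)).div_const 3
  refine h3.congr_deriv ?_
  push_cast
  ring

lemma hasDerivAt_c3_x (y t : ℝ) :
    HasDerivAt (fun x => c3 (3 - x - y) x y) ((y - 1) * (3 - 2 * t - y)) t := by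
  unfold c3
  have h1 : HasDerivAt (fun x : ℝ => 3 - x - y - 1) (-1) t := by
    have := (((hasDerivAt_id t).const_sub 3).sub_const y).sub_const 1
    simpa using this
  have h2 : HasDerivAt (fun x : ℝ => x - 1) 1 t := (hasDerivAt_id t).sub_const 1
  have h3 := (h1.fun_mul h2).mul_const (y - 1)
  refine h3.congr_deriv ?_
  ring

lemma hasDerivAt_c3_y (x t : ℝ) :
    HasDerivAt (fun y => c3 (3 - x - y) x y) ((x - 1) * (3 - x - 2 * t)) t := by
  unfold c3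
  have h1 : HasDerivAt (fun y : ℝ => 3 - x - y - 1) (-1) t := by
    have := ((hasDerivAt_id t).const_sub (3 - x)).sub_const 1
    simpa using this
  have h2 : HasDerivAt (fun y : ℝ => y - 1) 1 t := (hasDerivAt_id t).sub_const 1
  have h3 := (h1.mul_const (x - 1)).fun_mul h2
  refine h3.congr_deriv ?_
  ring

section mdl

variable {x0 x1 y0 y1 z1 z2 z3 D12 D13 : ℝ}

lemma abs_s3_le {x y z1 z2 z3 : ℝ} (h1 : |2 - x - y| ≤ z1) (h2 : |x - 1| ≤ z2)
    (h3 : |y - 1| ≤ z3) : |s3 (3 - x - y) x y| ≤ (z1 ^ 2 + z2 ^ 2 + z3 ^ 2) / 3 := by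
  have a1 : (2 - x - y) ^ 2 ≤ z1 ^ 2 := sq_le_sq' (by linarith [(abs_le.1 h1).1]) (abs_le.1 h1).2
  have a2 : (x - 1) ^ 2 ≤ z2 ^ 2 := sq_le_sq' (by linarith [(abs_le.1 h2).1]) (abs_le.1 h2).2
  have a3 : (y - 1) ^ 2 ≤ z3 ^ 2 := sq_le_sq' (by linarith [(abs_le.1 h3).1]) (abs_le.1 h3).2
  unfold s3
  rw [abs_of_nonneg (by positivity)]
  have : (3 - x - y - 1) = 2 - x - y := by ring
  rw [this]
  linarith

lemma abs_c3_le {x y z1 z2 z3 : ℝ} (h1 : |2 - x - y| ≤ z1) (h2 : |x - 1| ≤ z2)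
    (h3 : |y - 1| ≤ z3) : |c3 (3 - x - y) x y| ≤ z1 * z2 * z3 := by
  unfold c3
  have : (3 - x - y - 1) = 2 - x - y := by ring
  rw [this, abs_mul, abs_mul]
  have a1 := (abs_nonneg _).trans h1
  have a2 := (abs_nonneg _).trans h2
  gcongr

/-- model of `s ^ i` -/
theorem poly_mdl0 (hx01 : x0 < x1) (hy01 : y0 < y1)
    (h1 : ∀ x ∈ Icc x0 x1, ∀ y ∈ Icc y0 y1, |2 - x - y| ≤ z1) (h2 : ∀ x ∈ Icc x0 x1, |x - 1| ≤ z2)
    (h3 : ∀ y ∈ Icc y0 y1, |y - 1| ≤ z3)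
    (h12 : ∀ x ∈ Icc x0 x1, ∀ y ∈ Icc y0 y1, |3 - 2 * x - y| ≤ D12)
    (h13 : ∀ x ∈ Icc x0 x1, ∀ y ∈ Icc y0 y1, |3 - x - 2 * y| ≤ D13) (i : ℕ) :
    Mdl x0 x1 y0 y1 (fun x y => s3 (3 - x - y) x y ^ i)
      (s3 (3 - x0 - y0) x0 y0 ^ i) (s3 (3 - x0 - y1) x0 y1 ^ i)
      (s3 (3 - x1 - y0) x1 y0 ^ i) (s3 (3 - x1 - y1) x1 y1 ^ i)
      ((PP2 i ((z1 ^ 2 + z2 ^ 2 + z3 ^ 2) / 3) (2 * D12 * (x1 - x0) / 3) (4 * (x1 - x0) ^ 2 / 3) +
        PP2 i ((z1 ^ 2 + z2 ^ 2 + z3 ^ 2) / 3) (2 * D13 * (y1 - y0) / 3)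
          (4 * (y1 - y0) ^ 2 / 3)) / 8) := by
  have dx : 0 < x1 - x0 := sub_pos.mpr hx01
  have dy : 0 < y1 - y0 := sub_pos.mpr hy01
  have key := interp2 (g := fun x y => s3 (3 - x - y) x y ^ i)
    (Mx := PP2 i ((z1 ^ 2 + z2 ^ 2 + z3 ^ 2) / 3) (2 * D12 * (x1 - x0) / 3)
      (4 * (x1 - x0) ^ 2 / 3) / 8)
    (My := PP2 i ((z1 ^ 2 + z2 ^ 2 + z3 ^ 2) / 3) (2 * D13 * (y1 - y0) / 3)
      (4 * (y1 - y0) ^ 2 / 3) / 8) hx01 hy01 ?_ ?_
  · refine key.mono (le_of_eq ?_)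
    ring
  · intro y hy x hx
    have h := interp_poly (s := fun x => s3 (3 - x - y) x y)
      (s1 := fun t => -(2 / 3) * (3 - 2 * t - y)) (s2 := fun _ => 4 / 3) (c := fun _ => 1)
      (c1 := fun _ => 0) (c2 := fun _ => 0)
      (S0 := (z1 ^ 2 + z2 ^ 2 + z3 ^ 2) / 3) (S1 := 2 * D12 * (x1 - x0) / 3)
      (S2 := 4 * (x1 - x0) ^ 2 / 3) (C0 := 1) (C1 := 0) (C2 := 0) hx01 i
      (fun t _ => hasDerivAt_s3_x y t)
      (fun t _ => by
        have := ((((hasDerivAt_id t).const_mul 2).const_sub 3).sub_const y).const_mul (-(2 / 3 : ℝ))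
        refine this.congr_deriv ?_
        norm_num)
      (fun t _ => hasDerivAt_const t _) (fun t _ => hasDerivAt_const t _)
      (fun t ht => abs_s3_le (h1 t ht y hy) (h2 t ht) (h3 y hy))
      (fun t ht => by
        rw [abs_mul, abs_neg, abs_of_pos (by norm_num : (0 : ℝ) < 2 / 3)]
        have := mul_le_mul_of_nonneg_right (h12 t ht y hy) dx.le
        linarith)
      (fun t ht => by rw [abs_of_pos (by norm_num : (0 : ℝ) < 4 / 3)]; linarith)
      (fun t ht => by simp) (fun t ht => by simp) (fun t ht => by simp) x hx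
    simp only [mul_one] at h
    refine h.trans (le_of_eq ?_)
    unfold GG
    ring
  · intro x hx y hy
    have h := interp_poly (s := fun y => s3 (3 - x - y) x y)
      (s1 := fun t => -(2 / 3) * (3 - x - 2 * t)) (s2 := fun _ => 4 / 3) (c := fun _ => 1)
      (c1 := fun _ => 0) (c2 := fun _ => 0)
      (S0 := (z1 ^ 2 + z2 ^ 2 + z3 ^ 2) / 3) (S1 := 2 * D13 * (y1 - y0) / 3)
      (S2 := 4 * (y1 - y0) ^ 2 / 3) (C0 := 1) (C1 := 0) (C2 := 0) hy01 i
      (fun t _ => hasDerivAt_s3_y x t)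
      (fun t _ => by
        have := (((hasDerivAt_id t).const_mul 2).const_sub (3 - x)).const_mul (-(2 / 3 : ℝ))
        refine this.congr_deriv ?_
        norm_num)
      (fun t _ => hasDerivAt_const t _) (fun t _ => hasDerivAt_const t _)
      (fun t ht => abs_s3_le (h1 x hx t ht) (h2 x hx) (h3 t ht))
      (fun t ht => by
        rw [abs_mul, abs_neg, abs_of_pos (by norm_num : (0 : ℝ) < 2 / 3)]
        have := mul_le_mul_of_nonneg_right (h13 x hx t ht) dy.le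
        linarith)
      (fun t ht => by rw [abs_of_pos (by norm_num : (0 : ℝ) < 4 / 3)]; linarith)
      (fun t ht => by simp) (fun t ht => by simp) (fun t ht => by simp) y hy
    simp only [mul_one] at h
    refine h.trans (le_of_eq ?_)
    unfold GG
    ring

/-- model of `s ^ i * c` -/
theorem poly_mdl1 (hx01 : x0 < x1) (hy01 : y0 < y1)
    (h1 : ∀ x ∈ Icc x0 x1, ∀ y ∈ Icc y0 y1, |2 - x - y| ≤ z1) (h2 : ∀ x ∈ Icc x0 x1, |x - 1| ≤ z2)
    (h3 : ∀ y ∈ Icc y0 y1, |y - 1| ≤ z3)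
    (h12 : ∀ x ∈ Icc x0 x1, ∀ y ∈ Icc y0 y1, |3 - 2 * x - y| ≤ D12)
    (h13 : ∀ x ∈ Icc x0 x1, ∀ y ∈ Icc y0 y1, |3 - x - 2 * y| ≤ D13) (i : ℕ) :
    Mdl x0 x1 y0 y1 (fun x y => s3 (3 - x - y) x y ^ i * c3 (3 - x - y) x y)
      (s3 (3 - x0 - y0) x0 y0 ^ i * c3 (3 - x0 - y0) x0 y0)
      (s3 (3 - x0 - y1) x0 y1 ^ i * c3 (3 - x0 - y1) x0 y1)
      (s3 (3 - x1 - y0) x1 y0 ^ i * c3 (3 - x1 - y0) x1 y0)
      (s3 (3 - x1 - y1) x1 y1 ^ i * c3 (3 - x1 - y1) x1 y1)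
      ((GG i ((z1 ^ 2 + z2 ^ 2 + z3 ^ 2) / 3) (2 * D12 * (x1 - x0) / 3) (4 * (x1 - x0) ^ 2 / 3)
          (z1 * z2 * z3) (z3 * D12 * (x1 - x0)) (2 * z3 * (x1 - x0) ^ 2) +
        GG i ((z1 ^ 2 + z2 ^ 2 + z3 ^ 2) / 3) (2 * D13 * (y1 - y0) / 3) (4 * (y1 - y0) ^ 2 / 3)
          (z1 * z2 * z3) (z2 * D13 * (y1 - y0)) (2 * z2 * (y1 - y0) ^ 2)) / 8) := by
  have dx : 0 < x1 - x0 := sub_pos.mpr hx01
  have dy : 0 < y1 - y0 := sub_pos.mpr hy01
  have hz2 : 0 ≤ z2 := (abs_nonneg _).trans (h2 x0 (left_mem_Icc.mpr hx01.le))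
  have hz3 : 0 ≤ z3 := (abs_nonneg _).trans (h3 y0 (left_mem_Icc.mpr hy01.le))
  have key := interp2 (g := fun x y => s3 (3 - x - y) x y ^ i * c3 (3 - x - y) x y)
    (Mx := GG i ((z1 ^ 2 + z2 ^ 2 + z3 ^ 2) / 3) (2 * D12 * (x1 - x0) / 3)
      (4 * (x1 - x0) ^ 2 / 3) (z1 * z2 * z3) (z3 * D12 * (x1 - x0)) (2 * z3 * (x1 - x0) ^ 2) / 8)
    (My := GG i ((z1 ^ 2 + z2 ^ 2 + z3 ^ 2) / 3) (2 * D13 * (y1 - y0) / 3)
      (4 * (y1 - y0) ^ 2 / 3) (z1 * z2 * z3) (z2 * D13 * (y1 - y0)) (2 * z2 * (y1 - y0) ^ 2) / 8)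
    hx01 hy01 ?_ ?_
  · refine key.mono (le_of_eq ?_)
    ring
  · intro y hy x hx
    exact interp_poly (s := fun x => s3 (3 - x - y) x y)
      (s1 := fun t => -(2 / 3) * (3 - 2 * t - y)) (s2 := fun _ => 4 / 3)
      (c := fun x => c3 (3 - x - y) x y)
      (c1 := fun t => (y - 1) * (3 - 2 * t - y)) (c2 := fun _ => (y - 1) * (-2))
      hx01 i
      (fun t _ => hasDerivAt_s3_x y t)
      (fun t _ => by
        have := ((((hasDerivAt_id t).const_mul 2).const_sub 3).sub_const y).const_mul (-(2 / 3 : ℝ))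
        refine this.congr_deriv ?_
        norm_num)
      (fun t _ => hasDerivAt_c3_x y t)
      (fun t _ => by
        have := ((((hasDerivAt_id t).const_mul 2).const_sub 3).sub_const y).const_mul (y - 1)
        refine this.congr_deriv ?_
        norm_num)
      (fun t ht => abs_s3_le (h1 t ht y hy) (h2 t ht) (h3 y hy))
      (fun t ht => by
        rw [abs_mul, abs_neg, abs_of_pos (by norm_num : (0 : ℝ) < 2 / 3)]
        have := mul_le_mul_of_nonneg_right (h12 t ht y hy) dx.le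
        linarith)
      (fun t ht => by rw [abs_of_pos (by norm_num : (0 : ℝ) < 4 / 3)]; linarith)
      (fun t ht => abs_c3_le (h1 t ht y hy) (h2 t ht) (h3 y hy))
      (fun t ht => by
        rw [abs_mul]
        have := mul_le_mul (h3 y hy) (h12 t ht y hy) (abs_nonneg _) hz3
        exact mul_le_mul_of_nonneg_right this dx.le)
      (fun t ht => by
        rw [abs_mul, abs_neg, abs_of_pos (by norm_num : (0 : ℝ) < 2)]
        have := mul_le_mul_of_nonneg_right (h3 y hy) (by positivity : (0 : ℝ) ≤ 2 * (x1 - x0) ^ 2)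
        linarith) x hx
  · intro x hx y hy
    exact interp_poly (s := fun y => s3 (3 - x - y) x y)
      (s1 := fun t => -(2 / 3) * (3 - x - 2 * t)) (s2 := fun _ => 4 / 3)
      (c := fun y => c3 (3 - x - y) x y)
      (c1 := fun t => (x - 1) * (3 - x - 2 * t)) (c2 := fun _ => (x - 1) * (-2))
      hy01 i
      (fun t _ => hasDerivAt_s3_y x t)
      (fun t _ => by
        have := (((hasDerivAt_id t).const_mul 2).const_sub (3 - x)).const_mul (-(2 / 3 : ℝ))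
        refine this.congr_deriv ?_
        norm_num)
      (fun t _ => hasDerivAt_c3_y x t)
      (fun t _ => by
        have := (((hasDerivAt_id t).const_mul 2).const_sub (3 - x)).const_mul (x - 1)
        refine this.congr_deriv ?_
        norm_num)
      (fun t ht => abs_s3_le (h1 x hx t ht) (h2 x hx) (h3 t ht))
      (fun t ht => by
        rw [abs_mul, abs_neg, abs_of_pos (by norm_num : (0 : ℝ) < 2 / 3)]
        have := mul_le_mul_of_nonneg_right (h13 x hx t ht) dy.le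
        linarith)
      (fun t ht => by rw [abs_of_pos (by norm_num : (0 : ℝ) < 4 / 3)]; linarith)
      (fun t ht => abs_c3_le (h1 x hx t ht) (h2 x hx) (h3 t ht))
      (fun t ht => by
        rw [abs_mul]
        have := mul_le_mul (h2 x hx) (h13 x hx t ht) (abs_nonneg _) hz2
        exact mul_le_mul_of_nonneg_right this dy.le)
      (fun t ht => by
        rw [abs_mul, abs_neg, abs_of_pos (by norm_num : (0 : ℝ) < 2)]
        have := mul_le_mul_of_nonneg_right (h2 x hx) (by positivity : (0 : ℝ) ≤ 2 * (y1 - y0) ^ 2)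
        linarith) y hy

end mdl

/-! ### skipping cells near the centre -/

lemma convexOn_s3_x (y : ℝ) : ConvexOn ℝ Set.univ (fun x => s3 (3 - x - y) x y) := by
  refine ⟨convex_univ, fun a _ b _ α β hα hβ hαβ => ?_⟩
  simp only [smul_eq_mul]
  have hβ' : β = 1 - α := by linarith
  subst hβ'
  have h : 0 ≤ α * (1 - α) * (a - b) ^ 2 := by positivity
  unfold s3
  nlinarith [h]

lemma convexOn_s3_y (x : ℝ) : ConvexOn ℝ Set.univ (fun y => s3 (3 - x - y) x y) := by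
  refine ⟨convex_univ, fun a _ b _ α β hα hβ hαβ => ?_⟩
  simp only [smul_eq_mul]
  have hβ' : β = 1 - α := by linarith
  subst hβ'
  have h : 0 ≤ α * (1 - α) * (a - b) ^ 2 := by positivity
  unfold s3
  nlinarith [h]

/-- a cell whose corners satisfy `s ≤ s0` lies in the centre region -/
theorem s3_le_of_corners {x0 x1 y0 y1 s0 : ℝ} (hx01 : x0 < x1) (hy01 : y0 < y1)
    (h00 : s3 (3 - x0 - y0) x0 y0 ≤ s0) (h01 : s3 (3 - x0 - y1) x0 y1 ≤ s0)
    (h10 : s3 (3 - x1 - y0) x1 y0 ≤ s0) (h11 : s3 (3 - x1 - y1) x1 y1 ≤ s0) :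
    ∀ x ∈ Icc x0 x1, ∀ y ∈ Icc y0 y1, s3 (3 - x - y) x y ≤ s0 := by
  intro x hx y hy
  have e0 := le_lin1_of_convex hy01 ((convexOn_s3_y x0).subset (subset_univ _) (convex_Icc _ _)) hy
  have e1 := le_lin1_of_convex hy01 ((convexOn_s3_y x1).subset (subset_univ _) (convex_Icc _ _)) hy
  have e2 := le_lin1_of_convex hx01 ((convexOn_s3_x y).subset (subset_univ _) (convex_Icc _ _)) hx
  refine e2.trans ?_
  calc lin1 x0 x1 x (s3 (3 - x0 - y) x0 y) (s3 (3 - x1 - y) x1 y) ≤ lin1 x0 x1 x s0 s0 :=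
        lin1_le hx01 hx
          (e0.trans ((lin1_le hy01 hy h00 h01).trans (lin1_const hy01 y s0).le))
          (e1.trans ((lin1_le hy01 hy h10 h11).trans (lin1_const hy01 y s0).le))
    _ = s0 := lin1_const hx01 x s0

end Crest.Agent.R163.Win
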