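import Crest.Agent.R163.WinCell
import Crest.Agent.R163.WinSpec
import Crest.Agent.R163.WinPoly

/-!
Row 163, window engine: cell trees.  `Good` on the leaves gives `Good` on the root, and `Good` on the
root gives `OutOK`; the trivial cases of `leaf` (cells outside the sorted region, centre cells).
-/

set_option autoImplicit false

open Set

namespace Crest.Agent.R163.Win

/-- the row inequalities on a cell; `x` = second, `y` = third coordinate -/
def Good (side pos : Bool) (s0 : ℚ) (ws : List (List Int)) (X0 X1 Y0 Y1 : Nat) : Prop :=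
  ∀ w ∈ ws, ∀ x y : ℝ, (X0 : ℝ) / 2 ^ 48 ≤ x → x ≤ (X1 : ℝ) / 2 ^ 48 → (Y0 : ℝ) / 2 ^ 48 ≤ y →
    y ≤ (Y1 : ℝ) / 2 ^ 48 → 0 < y → y < x → 2 * x + y < 3 → (s0 : ℝ) < s3 (3 - x - y) x y →
    0 ≤ dotR w (basis side pos (3 - x - y) x y)

section

variable {side pos : Bool} {s0 : ℚ} {ws : List (List Int)}

lemma Good.splitX {X0 X1 Y0 Y1 : Nat} (m : Nat) (h1 : Good side pos s0 ws X0 m Y0 Y1)
    (h2 : Good side pos s0 ws m X1 Y0 Y1) : Good side pos s0 ws X0 X1 Y0 Y1 := by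
  intro w hw x y a1 a2 a3 a4 a5 a6 a7 a8
  rcases le_total x ((m : ℝ) / 2 ^ 48) with h | h
  · exact h1 w hw x y a1 h a3 a4 a5 a6 a7 a8
  · exact h2 w hw x y h a2 a3 a4 a5 a6 a7 a8

lemma Good.splitY {X0 X1 Y0 Y1 : Nat} (m : Nat) (h1 : Good side pos s0 ws X0 X1 Y0 m)
    (h2 : Good side pos s0 ws X0 X1 m Y1) : Good side pos s0 ws X0 X1 Y0 Y1 := by
  intro w hw x y a1 a2 a3 a4 a5 a6 a7 a8
  rcases le_total y ((m : ℝ) / 2 ^ 48) with h | h
  · exact h1 w hw x y a1 a2 a3 h a5 a6 a7 a8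
  · exact h2 w hw x y a1 a2 h a4 a5 a6 a7 a8

private lemma band_spec {a b : Bool} (h : band a b = true) : a = true ∧ b = true := by
  cases a <;> cases b <;> first | exact ⟨rfl, rfl⟩ | exact absurd h (by simp [band])

private lemma bor_spec {a b : Bool} (h : bor a b = true) : a = true ∨ b = true := by
  cases a <;> cases b <;> first | exact Or.inl rfl | exact Or.inr rfl | exact absurd h (by simp [bor])

/-- soundness of the tree test from the soundness of the leaf test -/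
theorem chk_good {S XB H : Nat} {fs : List Fn} {ps : List Po} {P : List Int} {A : List Nat}
    (LS : ∀ X0 X1 Y0 Y1, leaf side S XB fs ps P A H X0 X1 Y0 Y1 = true →
      Good side pos s0 ws X0 X1 Y0 Y1) (t : Tr) :
    ∀ X0 X1 Y0 Y1, chk side S XB fs ps P A H t X0 X1 Y0 Y1 = true →
      Good side pos s0 ws X0 X1 Y0 Y1 := by
  induction t with
  | L => exact fun X0 X1 Y0 Y1 h => LS X0 X1 Y0 Y1 h
  | X m a b iha ihb =>
    intro X0 X1 Y0 Y1 h
    obtain ⟨h1, h2⟩ := band_spec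
      (a := chk side S XB fs ps P A H a X0 m Y0 Y1) (b := chk side S XB fs ps P A H b m X1 Y0 Y1) h
    exact (iha _ _ _ _ h1).splitX m (ihb _ _ _ _ h2)
  | Y m a b iha ihb =>
    intro X0 X1 Y0 Y1 h
    obtain ⟨h1, h2⟩ := band_spec
      (a := chk side S XB fs ps P A H a X0 X1 Y0 m) (b := chk side S XB fs ps P A H b X0 X1 m Y1) h
    exact (iha _ _ _ _ h1).splitY m (ihb _ _ _ _ h2)

/-! ### trivial leaves -/

lemma Good.of_diag {X0 X1 Y0 Y1 : Nat} (h : X1 ≤ Y0) : Good side pos s0 ws X0 X1 Y0 Y1 := by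
  intro w hw x y a1 a2 a3 a4 a5 a6 a7 a8
  exfalso
  have h' : (X1 : ℝ) ≤ Y0 := by exact_mod_cast h
  have := div_le_div_of_nonneg_right h' (show (0 : ℝ) ≤ 2 ^ 48 by positivity)
  linarith

lemma Good.of_edge {X0 X1 Y0 Y1 : Nat} (h : 844424930131968 ≤ X0 + X0 + Y0) :
    Good side pos s0 ws X0 X1 Y0 Y1 := by
  intro w hw x y a1 a2 a3 a4 a5 a6 a7 a8
  exfalso
  have h' : (844424930131968 : ℝ) ≤ X0 + X0 + Y0 := by exact_mod_cast h
  rw [div_le_iff₀ (by positivity)] at a1 a3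
  have : (2 * x + y) * 2 ^ 48 < 3 * 2 ^ 48 := mul_lt_mul_of_pos_right a7 (by positivity)
  norm_num at a1 a3 this
  linarith

lemma tree_ad (a b : Nat) : ((ad a b : Nat) : ℝ) = |(a : ℝ) - b| := by
  unfold ad
  show ((a - b + (b - a) : ℕ) : ℝ) = _
  rcases le_total a b with h | h
  · have h' : (a : ℝ) ≤ b := by exact_mod_cast h
    rw [Nat.sub_eq_zero_of_le h, zero_add, Nat.cast_sub h, abs_of_nonpos (by linarith)]
    ring
  · have h' : (b : ℝ) ≤ a := by exact_mod_cast h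
    rw [Nat.sub_eq_zero_of_le h, add_zero, Nat.cast_sub h, abs_of_nonneg (by linarith)]

lemma tree_sn (X Y : Nat) : ((sn X Y : Nat) : ℝ) = 3 * 2 ^ 96 *
    s3 (3 - (X : ℝ) / 2 ^ 48 - (Y : ℝ) / 2 ^ 48) ((X : ℝ) / 2 ^ 48) ((Y : ℝ) / 2 ^ 48) := by
  have e : sn X Y = (ad 562949953421312 (X + Y)) * (ad 562949953421312 (X + Y)) +
      ((ad X 281474976710656) * (ad X 281474976710656) +
        (ad Y 281474976710656) * (ad Y 281474976710656)) := rfl
  rw [e]
  push_cast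
  rw [tree_ad, tree_ad, tree_ad, abs_mul_abs_self, abs_mul_abs_self, abs_mul_abs_self]
  unfold s3
  push_cast
  field_simp
  ring

lemma tree_cen {S X0 X1 Y0 Y1 : Nat} (h : cen S X0 X1 Y0 Y1 = true) :
    sn X0 Y0 ≤ S ∧ sn X0 Y1 ≤ S ∧ sn X1 Y0 ≤ S ∧ sn X1 Y1 ≤ S := by
  obtain ⟨h1, h⟩ := band_spec h
  obtain ⟨h2, h⟩ := band_spec h
  obtain ⟨h3, h4⟩ := band_spec h
  exact ⟨Nat.le_of_ble_eq_true h1, Nat.le_of_ble_eq_true h2, Nat.le_of_ble_eq_true h3,
    Nat.le_of_ble_eq_true h4⟩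

lemma Good.of_cen {S X0 X1 Y0 Y1 : Nat} (hS : (S : ℝ) ≤ 3 * 2 ^ 96 * s0) (hX : X0 < X1)
    (hY : Y0 < Y1) (h : cen S X0 X1 Y0 Y1 = true) : Good side pos s0 ws X0 X1 Y0 Y1 := by
  intro w hw x y a1 a2 a3 a4 a5 a6 a7 a8
  exfalso
  obtain ⟨h1, h2, h3, h4⟩ := tree_cen h
  have key : ∀ X Y : Nat, sn X Y ≤ S →
      s3 (3 - (X : ℝ) / 2 ^ 48 - (Y : ℝ) / 2 ^ 48) ((X : ℝ) / 2 ^ 48) ((Y : ℝ) / 2 ^ 48) ≤ s0 := by
    intro X Y hXY
    have h5 : ((sn X Y : Nat) : ℝ) ≤ S := by exact_mod_cast hXY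
    rw [tree_sn] at h5
    have h6 := h5.trans hS
    exact le_of_mul_le_mul_left h6 (by positivity)
  have hX' : (X0 : ℝ) / 2 ^ 48 < (X1 : ℝ) / 2 ^ 48 :=
    div_lt_div_of_pos_right (by exact_mod_cast hX) (by positivity)
  have hY' : (Y0 : ℝ) / 2 ^ 48 < (Y1 : ℝ) / 2 ^ 48 :=
    div_lt_div_of_pos_right (by exact_mod_cast hY) (by positivity)
  have := s3_le_of_corners hX' hY' (key _ _ h1) (key _ _ h2) (key _ _ h3) (key _ _ h4) x ⟨a1, a2⟩ y
    ⟨a3, a4⟩
  linarith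

/-- soundness of the leaf test from the soundness of the full test of a cell -/
theorem leaf_good {S XB H : Nat} {fs : List Fn} {ps : List Po} {P : List Int} {A : List Nat}
    (hS : (S : ℝ) ≤ 3 * 2 ^ 96 * s0)
    (FS : ∀ X0 X1 Y0 Y1, X0 < X1 → Y0 < Y1 → X1 ≤ XB → Y1 ≤ 281474976710656 →
      full side fs ps P A H X0 X1 Y0 Y1 = true → Good side pos s0 ws X0 X1 Y0 Y1)
    (X0 X1 Y0 Y1 : Nat) (h : leaf side S XB fs ps P A H X0 X1 Y0 Y1 = true) :
    Good side pos s0 ws X0 X1 Y0 Y1 := by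
  rcases bor_spec h with h | h
  · exact Good.of_diag (Nat.le_of_ble_eq_true h)
  rcases bor_spec h with h | h
  · exact Good.of_edge (Nat.le_of_ble_eq_true h)
  obtain ⟨h1, h⟩ := band_spec h
  obtain ⟨h2, h⟩ := band_spec h
  obtain ⟨h3, h⟩ := band_spec h
  obtain ⟨h4, h⟩ := band_spec h
  have h1' : X0 < X1 := Nat.le_of_ble_eq_true h1
  have h2' : Y0 < Y1 := Nat.le_of_ble_eq_true h2
  rcases bor_spec h with h | h
  · exact Good.of_cen hS h1' h2' h
  · exact FS _ _ _ _ h1' h2' (Nat.le_of_ble_eq_true h3) (Nat.le_of_ble_eq_true h4) h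

/-! ### the root -/

/-- root, `c ≥ 0` -/
theorem outOK_of_good_pos {zmin : ℚ} {Z : Nat} (hZ : (Z : ℝ) / 2 ^ 48 ≤ zmin)
    (h : Good side true s0 ws Z 281474976710656 Z 281474976710656) :
    ∀ w ∈ ws, OutOK side true zmin s0 w := by
  intro w hw x y z hz hzy hyx hs hy hzm hs0
  simp only [if_true] at hy
  have e : x = 3 - y - z := by linarith
  have hone : ((281474976710656 : Nat) : ℝ) / 2 ^ 48 = 1 := by norm_num
  have := h w hw y z (by linarith) (by rw [hone]; linarith) (by linarith)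
    (by rw [hone]; linarith) hz hzy (by linarith) (by rw [← e]; exact hs0)
  rw [← e] at this
  exact this

/-- root, `c ≤ 0` -/
theorem outOK_of_good_neg {zmin : ℚ} {Z : Nat} (hZ : (Z : ℝ) / 2 ^ 48 ≤ zmin)
    (h : Good side false s0 ws 281474976710656 422212465065984 Z 281474976710656) :
    ∀ w ∈ ws, OutOK side false zmin s0 w := by
  intro w hw x y z hz hzy hyx hs hy hzm hs0
  simp only [Bool.false_eq_true, if_false] at hy
  have e : x = 3 - y - z := by linarith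
  have hone : ((281474976710656 : Nat) : ℝ) / 2 ^ 48 = 1 := by norm_num
  have hthree : ((422212465065984 : Nat) : ℝ) / 2 ^ 48 = 3 / 2 := by norm_num
  have := h w hw y z (by rw [hone]; linarith) (by rw [hthree]; linarith) (by linarith)
    (by rw [hone]; linarith) hz hzy (by linarith) (by rw [← e]; exact hs0)
  rw [← e] at this
  exact this

end

/-- larger centre radius, fewer points -/
lemma OutOK.mono {side pos : Bool} {zmin s0 s1 : ℚ} {w : List Int} (h : OutOK side pos zmin s0 w)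
    (h01 : s0 ≤ s1) : OutOK side pos zmin s1 w := fun x y z a b c d e f g =>
  h x y z a b c d e f (lt_of_le_of_lt (by exact_mod_cast h01) g)

end Crest.Agent.R163.Win
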