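import Crest.Agent.R163.WinReal
import Crest.Agent.R163.WinEvalB

/-!
Row 163, window engine: soundness of the vertex evaluation of the functionals.
-/

set_option autoImplicit false

namespace Crest.Agent.R163.Win

open Set Crest.Agent.R163.Bern

/-! ### integer helpers -/

lemma st_eq {α : Type} (f : ℕ → α) (n : ℕ) : st f n = f n := by cases n <;> rfl

lemma ng_eq (x : ℤ) : ng x = -x := by
  cases x with
  | ofNat m => exact negN_eq m
  | negSucc m => rfl

lemma band_eq (a b : Bool) : band a b = (a && b) := by cases a <;> rfl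

lemma idv_bd (x : ℤ) {k : ℕ} (hk : 0 < k) : |((idv x k : ℤ) : ℝ) - (x : ℝ) / k| ≤ 1 := by
  have hk' : (0 : ℝ) < k := by exact_mod_cast hk
  have key : ∀ m : ℕ, |((m / k : ℕ) : ℝ) - (m : ℝ) / k| ≤ 1 := by
    intro m
    have h1 := div_bd m k hk
    rw [abs_le]
    constructor <;> linarith [h1.1, h1.2]
  cases x with
  | ofNat m =>
    have e : idv (Int.ofNat m) k = ((m / k : ℕ) : ℤ) := rfl
    rw [e, Int.ofNat_eq_natCast, Int.cast_natCast, Int.cast_natCast]
    exact key m
  | negSucc m =>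
    have e : idv (Int.negSucc m) k = -(((m + 1) / k : ℕ) : ℤ) := negN_eq ((m + 1) / k)
    rw [e]
    have h1 := key (m + 1)
    have h2 : ((Int.negSucc m : ℤ) : ℝ) = -((m + 1 : ℕ) : ℝ) := by
      rw [Int.negSucc_eq]; push_cast; ring
    rw [h2, Int.cast_neg, Int.cast_natCast, ← abs_neg]
    have h3 : -(-(((m + 1) / k : ℕ) : ℝ) - -((m + 1 : ℕ) : ℝ) / k) =
        (((m + 1) / k : ℕ) : ℝ) - ((m + 1 : ℕ) : ℝ) / k := by ring
    rw [h3]
    exact h1

/-- product of two approximations -/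
lemma mul_err {x X y Y ex ey BX BY : ℝ} (hx : |x - X| ≤ ex) (hy : |y - Y| ≤ ey)
    (hX : |X| ≤ BX) (hY : |Y| ≤ BY) : |x * y - X * Y| ≤ ex * (BY + ey) + BX * ey := by
  have h1 : |y| ≤ BY + ey := by
    have : |y| ≤ |Y| + |y - Y| := by
      have := abs_add_le Y (y - Y)
      rwa [add_sub_cancel] at this
    linarith
  have h2 : x * y - X * Y = (x - X) * y + X * (y - Y) := by ring
  rw [h2]
  have h3 : 0 ≤ ex := (abs_nonneg _).trans hx
  have h4 : 0 ≤ BX := (abs_nonneg _).trans hX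
  calc |(x - X) * y + X * (y - Y)| ≤ |(x - X) * y| + |X * (y - Y)| := abs_add_le _ _
    _ ≤ ex * (BY + ey) + BX * ey := by
      rw [abs_mul, abs_mul]
      gcongr

lemma add_err {x X y Y ex ey : ℝ} (hx : |x - X| ≤ ex) (hy : |y - Y| ≤ ey) :
    |(x + y) - (X + Y)| ≤ ex + ey := by
  have : (x + y) - (X + Y) = (x - X) + (y - Y) := by ring
  rw [this]
  exact (abs_add_le _ _).trans (add_le_add hx hy)

/-- exponentials of close arguments -/
lemma exp_err {y L η : ℝ} (h : |y - L| ≤ η) (hη : η ≤ 1) (hL : Real.exp L ≤ 2) :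
    |Real.exp y - Real.exp L| ≤ 2 * (η + η ^ 2) := by
  have h0 : 0 ≤ η := (abs_nonneg _).trans h
  have h1 : |Real.exp (y - L) - 1 - (y - L)| ≤ (y - L) ^ 2 :=
    Real.abs_exp_sub_one_sub_id_le (h.trans hη)
  have h2 : |Real.exp (y - L) - 1| ≤ η + η ^ 2 := by
    have h3 : (y - L) ^ 2 ≤ η ^ 2 := sq_le_sq' (by linarith [(abs_le.1 h).1]) (abs_le.1 h).2
    have h4 : Real.exp (y - L) - 1 = (Real.exp (y - L) - 1 - (y - L)) + (y - L) := by ring
    rw [h4]
    refine (abs_add_le _ _).trans ?_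
    linarith
  have h5 : Real.exp y - Real.exp L = Real.exp L * (Real.exp (y - L) - 1) := by
    rw [mul_sub, mul_one, ← Real.exp_add]
    congr 2
    ring
  rw [h5, abs_mul, abs_of_pos (Real.exp_pos L)]
  exact mul_le_mul hL h2 (abs_nonneg _) (by norm_num)

lemma abs_sin_sub_le' (a b : ℝ) : |Real.sin a - Real.sin b| ≤ |a - b| := by
  rw [← Real.cos_sub_pi_div_two, ← Real.cos_sub_pi_div_two]
  have := abs_cos_sub_le (a - Real.pi / 2) (b - Real.pi / 2)
  rwa [show a - Real.pi / 2 - (b - Real.pi / 2) = a - b by ring] at this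

/-! ### logarithms -/

/-- the real argument -/
noncomputable def rv (side : Bool) (N : ℕ) : ℝ := (N : ℝ) / den side

lemma den_pos (side : Bool) : 0 < den side := by cases side <;> simp [den]

lemma rv_pos (side : Bool) {N : ℕ} (h : 8192 ≤ N) : 0 < rv side N := by
  have : (0 : ℝ) < N := by exact_mod_cast (by omega : 0 < N)
  exact div_pos this (den_pos side)

lemma lq_spec (side : Bool) {N : ℕ} (h : 8192 ≤ N) (H : N ≤ 2 ^ 50) :
    |((lq side N : ℤ) : ℝ) / 2 ^ 44 - Real.log (rv side N)| ≤ 1 / 2 ^ 33 := by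
  have hN : (0 : ℝ) < N := by exact_mod_cast (by omega : 0 < N)
  have h1 := lg_spec50 N (by omega) H
  have key : ∀ D : ℕ, 1 ≤ D → D ≤ 2 ^ 50 →
      |((ia (lg N) (ng (lg D)) : ℤ) : ℝ) / 2 ^ 44 - Real.log ((N : ℝ) / D)| ≤ 1 / 2 ^ 33 := by
    intro D hD1 hD2
    have h2 := lg_spec50 D hD1 hD2
    have hD : (0 : ℝ) < D := by exact_mod_cast (by omega : 0 < D)
    rw [ia_eq, ng_eq]
    push_cast
    have e : Real.log ((N : ℝ) / D) = Real.log ((N : ℝ) / 2 ^ 41) - Real.log ((D : ℝ) / 2 ^ 41) := by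
      rw [Real.log_div hN.ne' hD.ne', Real.log_div hN.ne' (by positivity),
        Real.log_div hD.ne' (by positivity)]
      ring
    rw [e]
    rw [abs_le] at h1 h2 ⊢
    constructor <;> (rw [add_div, neg_div]; linarith [h1.1, h1.2, h2.1, h2.2])
  cases side with
  | false =>
    have := key 281474976710656 (by norm_num) (by norm_num)
    have e : rv false N = (N : ℝ) / ((281474976710656 : ℕ) : ℝ) := by
      unfold rv den; norm_num
    rw [e]
    exact this
  | true =>
    have := key 562949953421312 (by norm_num) (by norm_num)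
    have e : rv true N = (N : ℝ) / ((562949953421312 : ℕ) : ℝ) := by
      unfold rv den; norm_num
    rw [e]
    exact this

lemma log_rv_bd (side : Bool) {N : ℕ} (h : 8192 ≤ N) (H : N ≤ 2 ^ 50) :
    -25 ≤ Real.log (rv side N) ∧ Real.log (rv side N) ≤ 2 * Real.log 2 := by
  have hN : (8192 : ℝ) ≤ N := by exact_mod_cast h
  have hN2 : (N : ℝ) ≤ 2 ^ 50 := by exact_mod_cast H
  have hp := rv_pos side h
  have h2 := Real.log_two_lt_d9
  have lo : (1 / 2 ^ 36 : ℝ) ≤ rv side N := by
    unfold rv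
    rw [le_div_iff₀ (den_pos side)]
    cases side <;> simp only [den] <;> norm_num <;> linarith
  have hi : rv side N ≤ 4 := by
    unfold rv
    rw [div_le_iff₀ (den_pos side)]
    cases side <;> simp only [den] <;> norm_num <;> linarith
  constructor
  · have h3 := Real.log_le_log (by positivity) lo
    rw [Real.log_div (by norm_num) (by positivity), Real.log_one, Real.log_pow] at h3
    push_cast at h3
    linarith
  · have h3 := Real.log_le_log hp hi
    have h4 : Real.log 4 = 2 * Real.log 2 := by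
      rw [show (4 : ℝ) = 2 ^ 2 by norm_num, Real.log_pow]; norm_num
    rwa [h4] at h3

/-! ### square roots and sixth roots -/

lemma exp_half_log {a : ℝ} (ha : 0 < a) : Real.exp (Real.log a / 2) = Real.sqrt a := by
  rw [Real.sqrt_eq_rpow, Real.rpow_def_of_pos ha]
  congr 1
  ring

/-- evaluation of the exponential of a quotient -/
lemma ex_idv_spec (x : ℤ) {k : ℕ} (hk : 0 < k) {L : ℝ} {ε : ℝ} (hx : |(x : ℝ) / 2 ^ 44 / k - L| ≤ ε)
    (hε : ε ≤ 1 / 2 ^ 34) (h1 : -26 ≤ L) (h2 : Real.exp L ≤ 2) :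
    |((ex (idv x k) : ℤ) : ℝ) / 2 ^ 44 - Real.exp L| ≤ 4 / 2 ^ 34 := by
  have hk' : (0 : ℝ) < k := by exact_mod_cast hk
  set y := idv x k with hy
  have hb := idv_bd x hk
  rw [← hy] at hb
  have h3 : |(y : ℝ) / 2 ^ 44 - L| ≤ 1 / 2 ^ 34 + 1 / 2 ^ 44 := by
    have e : (y : ℝ) / 2 ^ 44 - L = ((y : ℝ) - (x : ℝ) / k) / 2 ^ 44 + ((x : ℝ) / 2 ^ 44 / k - L) := by
      field_simp
      ring
    rw [e]
    refine (abs_add_le _ _).trans ?_
    have h4 : |((y : ℝ) - (x : ℝ) / k) / 2 ^ 44| ≤ 1 / 2 ^ 44 := by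
      rw [abs_div, abs_of_pos (by positivity : (0 : ℝ) < 2 ^ 44)]
      exact div_le_div_of_nonneg_right hb (by positivity)
    linarith
  have hL2 : L ≤ 1 := by
    by_contra hcon
    push Not at hcon
    have h5 : Real.exp 1 < Real.exp L := Real.exp_lt_exp.2 hcon
    have h6 := Real.exp_one_gt_d9
    linarith
  have h7 := abs_le.1 h3
  have hy1 : -30 * 2 ^ 44 ≤ y := by
    have : (-30 * 2 ^ 44 : ℝ) ≤ y := by
      have h8 : (-30 : ℝ) ≤ (y : ℝ) / 2 ^ 44 := by
        have := h7.1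
        norm_num at this ⊢
        linarith
      rw [le_div_iff₀ (by positivity)] at h8
      exact h8
    exact_mod_cast this
  have hy2 : y ≤ 2 * 2 ^ 44 := by
    have : (y : ℝ) ≤ 2 * 2 ^ 44 := by
      have h8 : (y : ℝ) / 2 ^ 44 ≤ 2 := by
        have := h7.2
        norm_num at this ⊢
        linarith
      rw [div_le_iff₀ (by positivity)] at h8
      exact h8
    exact_mod_cast this
  have h9 := ex_spec y hy1 hy2
  have h10 := exp_err h3 (by norm_num) h2
  have h11 : |((ex y : ℤ) : ℝ) / 2 ^ 44 - Real.exp L| ≤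
      |((ex y : ℤ) : ℝ) / 2 ^ 44 - Real.exp ((y : ℝ) / 2 ^ 44)| +
        |Real.exp ((y : ℝ) / 2 ^ 44) - Real.exp L| := abs_sub_le _ _ _
  refine h11.trans ((add_le_add h9 h10).trans ?_)
  norm_num

lemma sq_spec (side : Bool) {N : ℕ} (h : 8192 ≤ N) (H : N ≤ 2 ^ 50) :
    |((sq side N : ℤ) : ℝ) / 2 ^ 44 - Real.sqrt (rv side N)| ≤ 4 / 2 ^ 34 := by
  have h1 := lq_spec side h H
  have h2 := log_rv_bd side h H
  have hp := rv_pos side h
  rw [← exp_half_log hp]
  unfold sq
  refine ex_idv_spec _ (by norm_num) (ε := 1 / 2 ^ 34) ?_ le_rfl (by linarith [h2.1]) ?_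
  · have e : ((lq side N : ℤ) : ℝ) / 2 ^ 44 / ((2 : ℕ) : ℝ) - Real.log (rv side N) / 2 =
        (((lq side N : ℤ) : ℝ) / 2 ^ 44 - Real.log (rv side N)) / 2 := by
      push_cast; ring
    rw [e, abs_div, abs_of_pos (by norm_num : (0 : ℝ) < 2)]
    have := div_le_div_of_nonneg_right h1 (by norm_num : (0 : ℝ) ≤ 2)
    refine this.trans ?_
    norm_num
  · have h3 : Real.log (rv side N) / 2 ≤ Real.log 2 := by linarith [h2.2]
    calc Real.exp (Real.log (rv side N) / 2) ≤ Real.exp (Real.log 2) := Real.exp_le_exp.2 h3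
      _ = 2 := Real.exp_log (by norm_num)

lemma sqrt_rv_le (side : Bool) {N : ℕ} (h : 8192 ≤ N) (H : N ≤ 2 ^ 50) :
    |Real.sqrt (rv side N)| ≤ 2 := by
  rw [abs_of_nonneg (Real.sqrt_nonneg _)]
  have hp := rv_pos side h
  have h2 := log_rv_bd side h H
  rw [← exp_half_log hp]
  calc Real.exp (Real.log (rv side N) / 2) ≤ Real.exp (Real.log 2) :=
        Real.exp_le_exp.2 (by linarith [h2.2])
    _ = 2 := Real.exp_log (by norm_num)

lemma e6_spec (side : Bool) {N1 N2 N3 : ℕ} (h1 : 8192 ≤ N1) (H1 : N1 ≤ 2 ^ 50)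
    (h2 : 8192 ≤ N2) (H2 : N2 ≤ 2 ^ 50) (h3 : 8192 ≤ N3) (H3 : N3 ≤ 2 ^ 50) :
    |((e6 side N1 N2 N3 : ℤ) : ℝ) / 2 ^ 44 -
      Real.exp ((Real.log (rv side N1) + Real.log (rv side N2) + Real.log (rv side N3)) / 6)| ≤
        4 / 2 ^ 34 := by
  have a1 := lq_spec side h1 H1
  have a2 := lq_spec side h2 H2
  have a3 := lq_spec side h3 H3
  have b1 := log_rv_bd side h1 H1
  have b2 := log_rv_bd side h2 H2
  have b3 := log_rv_bd side h3 H3
  unfold e6
  refine ex_idv_spec _ (by norm_num) (ε := 1 / 2 ^ 34) ?_ le_rfl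
    (by linarith [b1.1, b2.1, b3.1]) ?_
  · rw [ia_eq, ia_eq]
    push_cast
    have e : ((lq side N1 : ℝ) + ((lq side N2 : ℝ) + (lq side N3 : ℝ))) / 2 ^ 44 / 6 -
        (Real.log (rv side N1) + Real.log (rv side N2) + Real.log (rv side N3)) / 6 =
        (((lq side N1 : ℝ) / 2 ^ 44 - Real.log (rv side N1)) +
          ((lq side N2 : ℝ) / 2 ^ 44 - Real.log (rv side N2)) +
          ((lq side N3 : ℝ) / 2 ^ 44 - Real.log (rv side N3))) / 6 := by ring
    rw [e, abs_div, abs_of_pos (by norm_num : (0 : ℝ) < 6)]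
    have h4 := (abs_add_le (((lq side N1 : ℝ) / 2 ^ 44 - Real.log (rv side N1)) +
          ((lq side N2 : ℝ) / 2 ^ 44 - Real.log (rv side N2)))
          ((lq side N3 : ℝ) / 2 ^ 44 - Real.log (rv side N3)))
    have h5 := abs_add_le ((lq side N1 : ℝ) / 2 ^ 44 - Real.log (rv side N1))
          ((lq side N2 : ℝ) / 2 ^ 44 - Real.log (rv side N2))
    rw [div_le_iff₀ (by norm_num : (0 : ℝ) < 6)]
    norm_num at a1 a2 a3 ⊢
    linarith
  · have h4 : (Real.log (rv side N1) + Real.log (rv side N2) + Real.log (rv side N3)) / 6 ≤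
        Real.log 2 := by linarith [b1.2, b2.2, b3.2]
    calc Real.exp ((Real.log (rv side N1) + Real.log (rv side N2) + Real.log (rv side N3)) / 6) ≤
        Real.exp (Real.log 2) := Real.exp_le_exp.2 h4
      _ = 2 := Real.exp_log (by norm_num)

lemma exp6_le (side : Bool) {N1 N2 N3 : ℕ} (h1 : 8192 ≤ N1) (H1 : N1 ≤ 2 ^ 50)
    (h2 : 8192 ≤ N2) (H2 : N2 ≤ 2 ^ 50) (h3 : 8192 ≤ N3) (H3 : N3 ≤ 2 ^ 50) :
    |Real.exp ((Real.log (rv side N1) + Real.log (rv side N2) + Real.log (rv side N3)) / 6)| ≤ 2 := by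
  have b1 := log_rv_bd side h1 H1
  have b2 := log_rv_bd side h2 H2
  have b3 := log_rv_bd side h3 H3
  rw [abs_of_pos (Real.exp_pos _)]
  calc Real.exp ((Real.log (rv side N1) + Real.log (rv side N2) + Real.log (rv side N3)) / 6) ≤
      Real.exp (Real.log 2) := Real.exp_le_exp.2 (by linarith [b1.2, b2.2, b3.2])
    _ = 2 := Real.exp_log (by norm_num)

/-! ### trigonometric part -/

lemma ct_spec (side : Bool) {tn N : ℕ} (ht : tn ≤ 30) (h : 8192 ≤ N) (H : N ≤ 2 ^ 50) :
    |(((ct side tn N).1 : ℤ) : ℝ) / 2 ^ 44 - Real.cos ((tn : ℝ) / 20 * Real.log (rv side N))| ≤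
      5 / 2 ^ 34 ∧
    |(((ct side tn N).2 : ℤ) : ℝ) / 2 ^ 44 - Real.sin ((tn : ℝ) / 20 * Real.log (rv side N))| ≤
      5 / 2 ^ 34 := by
  have h1 := lq_spec side h H
  have h2 := log_rv_bd side h H
  have ht' : (tn : ℝ) ≤ 30 := by exact_mod_cast ht
  have ht0 : (0 : ℝ) ≤ tn := Nat.cast_nonneg _
  set y := idv (im (Int.ofNat tn) (lq side N)) 20 with hy
  have hct : ct side tn N = cs y := rfl
  have hb := idv_bd (im (Int.ofNat tn) (lq side N)) (k := 20) (by norm_num)
  rw [← hy, im_eq] at hb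
  push_cast at hb
  set t : ℝ := (tn : ℝ) / 20 with htdef
  have ht1 : t ≤ 3 / 2 := by rw [htdef]; linarith
  have ht0' : 0 ≤ t := by positivity
  have h3 : |(y : ℝ) / 2 ^ 44 - t * Real.log (rv side N)| ≤ 3 / 2 ^ 34 + 1 / 2 ^ 44 := by
    have e : (y : ℝ) / 2 ^ 44 - t * Real.log (rv side N) =
        ((y : ℝ) - ((Int.ofNat tn : ℤ) : ℝ) * (lq side N : ℝ) / 20) / 2 ^ 44 +
          t * ((lq side N : ℝ) / 2 ^ 44 - Real.log (rv side N)) := by
      rw [htdef]
      simp only [Int.ofNat_eq_natCast, Int.cast_natCast]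
      ring
    rw [e]
    refine (abs_add_le _ _).trans ?_
    have h4 : |((y : ℝ) - ((Int.ofNat tn : ℤ) : ℝ) * (lq side N : ℝ) / 20) / 2 ^ 44| ≤ 1 / 2 ^ 44 := by
      rw [abs_div, abs_of_pos (by positivity : (0 : ℝ) < 2 ^ 44)]
      refine div_le_div_of_nonneg_right ?_ (by positivity)
      simp only [Int.ofNat_eq_natCast, Int.cast_natCast] at hb ⊢
      exact hb
    have h5 : |t * ((lq side N : ℝ) / 2 ^ 44 - Real.log (rv side N))| ≤ 3 / 2 ^ 34 := by
      rw [abs_mul, abs_of_nonneg ht0']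
      have := mul_le_mul ht1 h1 (abs_nonneg _) (by norm_num)
      refine this.trans ?_
      norm_num
    linarith
  have hlogabs : |Real.log (rv side N)| ≤ 25 := by
    rw [abs_le]
    have := Real.log_two_lt_d9
    constructor
    · linarith [h2.1]
    · linarith [h2.2]
  have h6 : |t * Real.log (rv side N)| ≤ 75 / 2 := by
    rw [abs_mul, abs_of_nonneg ht0']
    have := mul_le_mul ht1 hlogabs (abs_nonneg _) (by norm_num)
    refine this.trans ?_
    norm_num
  have hyabs : |y| ≤ 38 * 2 ^ 44 := by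
    have h7 : |(y : ℝ)| ≤ 38 * 2 ^ 44 := by
      have h8 : |(y : ℝ) / 2 ^ 44| ≤ 38 := by
        have h9 : |(y : ℝ) / 2 ^ 44| ≤ |t * Real.log (rv side N)| +
            |(y : ℝ) / 2 ^ 44 - t * Real.log (rv side N)| := by
          have := abs_add_le (t * Real.log (rv side N))
            ((y : ℝ) / 2 ^ 44 - t * Real.log (rv side N))
          rwa [add_sub_cancel] at this
        refine h9.trans ((add_le_add h6 h3).trans ?_)
        norm_num
      rw [abs_div, abs_of_pos (by positivity : (0 : ℝ) < 2 ^ 44), div_le_iff₀ (by positivity)] at h8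
      exact h8
    exact_mod_cast h7
  have h10 := cs_spec y hyabs
  rw [hct]
  constructor
  · have h11 := abs_cos_sub_le ((y : ℝ) / 2 ^ 44) (t * Real.log (rv side N))
    refine (abs_sub_le _ (Real.cos ((y : ℝ) / 2 ^ 44)) _).trans
      ((add_le_add h10.1 (h11.trans h3)).trans ?_)
    norm_num
  · have h11 := abs_sin_sub_le' ((y : ℝ) / 2 ^ 44) (t * Real.log (rv side N))
    refine (abs_sub_le _ (Real.sin ((y : ℝ) / 2 ^ 44)) _).trans
      ((add_le_add h10.2 (h11.trans h3)).trans ?_)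
    norm_num

lemma dd_spec (side : Bool) {tn N M : ℕ} (ht : tn ≤ 30) (h : 8192 ≤ N) (H : N ≤ 2 ^ 50)
    (h' : 8192 ≤ M) (H' : M ≤ 2 ^ 50) :
    |((dd side tn N M : ℤ) : ℝ) / 2 ^ 88 -
      Real.cos ((tn : ℝ) / 20 * (Real.log (rv side N) - Real.log (rv side M)))| ≤ 21 / 2 ^ 34 := by
  obtain ⟨c1, s1⟩ := ct_spec side ht h H
  obtain ⟨c2, s2⟩ := ct_spec side ht h' H'
  set u := (tn : ℝ) / 20 * Real.log (rv side N) with hu
  set v := (tn : ℝ) / 20 * Real.log (rv side M) with hv
  have e : Real.cos ((tn : ℝ) / 20 * (Real.log (rv side N) - Real.log (rv side M))) =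
      Real.cos u * Real.cos v + Real.sin u * Real.sin v := by
    rw [← Real.cos_sub, hu, hv]
    congr 1
    ring
  rw [e]
  have m1 := mul_err c1 c2 (Real.abs_cos_le_one u) (Real.abs_cos_le_one v)
  have m2 := mul_err s1 s2 (Real.abs_sin_le_one u) (Real.abs_sin_le_one v)
  have m3 := add_err m1 m2
  have e2 : ((dd side tn N M : ℤ) : ℝ) / 2 ^ 88 =
      (((ct side tn N).1 : ℤ) : ℝ) / 2 ^ 44 * ((((ct side tn M).1 : ℤ) : ℝ) / 2 ^ 44) +
      (((ct side tn N).2 : ℤ) : ℝ) / 2 ^ 44 * ((((ct side tn M).2 : ℤ) : ℝ) / 2 ^ 44) := by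
    unfold dd
    rw [ia_eq, im_eq, im_eq]
    push_cast
    ring
  rw [e2]
  refine m3.trans ?_
  norm_num

/-- the pair term -/
lemma pair_spec (side : Bool) {tn N M : ℕ} (ht : tn ≤ 30) (h : 8192 ≤ N) (H : N ≤ 2 ^ 50)
    (h' : 8192 ≤ M) (H' : M ≤ 2 ^ 50) :
    |((im (im (sq side N) (sq side M)) (dd side tn N M) : ℤ) : ℝ) / 2 ^ 176 -
      prR ((tn : ℝ) / 20) (rv side N) (rv side M)| ≤ 102 / 2 ^ 34 := by
  have a1 := sq_spec side h H
  have a2 := sq_spec side h' H'
  have b1 := sqrt_rv_le side h H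
  have b2 := sqrt_rv_le side h' H'
  have m1 := mul_err a1 a2 b1 b2
  have hb : |Real.sqrt (rv side N) * Real.sqrt (rv side M)| ≤ 4 := by
    rw [abs_mul]
    have := mul_le_mul b1 b2 (abs_nonneg _) (by norm_num)
    linarith
  have m2 := mul_err m1 (dd_spec side ht h H h' H') hb (Real.abs_cos_le_one _)
  have e2 : ((im (im (sq side N) (sq side M)) (dd side tn N M) : ℤ) : ℝ) / 2 ^ 176 =
      ((sq side N : ℤ) : ℝ) / 2 ^ 44 * (((sq side M : ℤ) : ℝ) / 2 ^ 44) *
        (((dd side tn N M : ℤ) : ℝ) / 2 ^ 88) := by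
    rw [im_eq, im_eq]
    push_cast
    ring
  rw [e2]
  unfold prR
  refine m2.trans ?_
  norm_num

lemma hp_spec (side k : Bool) {tn N M : ℕ} (ht : tn ≤ 30) (h : k = true → 8192 ≤ N)
    (H : N ≤ 2 ^ 50) (h' : k = true → 8192 ≤ M) (H' : M ≤ 2 ^ 50) :
    |((hp side tn k N M : ℤ) : ℝ) / 2 ^ 176 -
      (if k then prR ((tn : ℝ) / 20) (rv side N) (rv side M) else 0)| ≤ 102 / 2 ^ 34 := by
  cases k with
  | false =>
    have : hp side tn false N M = 0 := rfl
    rw [this]
    norm_num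
  | true =>
    have e : hp side tn true N M = im (im (sq side N) (sq side M)) (dd side tn N M) := rfl
    rw [e, if_pos rfl]
    exact pair_spec side ht (h rfl) H (h' rfl) H'

/-- final division -/
lemma idv_final {x : ℤ} {F ε : ℝ} (hx : |(x : ℝ) / 2 ^ 176 - 3 * F| ≤ ε) (hε : ε ≤ 310 / 2 ^ 34) :
    |((idv x c132 : ℤ) : ℝ) / 2 ^ 44 - F| ≤ 1 / 2 ^ 26 := by
  have hb := idv_bd x (k := c132) (by unfold c132; norm_num)
  have hc : ((c132 : ℕ) : ℝ) = 3 * 2 ^ 132 := by unfold c132; norm_num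
  rw [hc] at hb
  have e : ((idv x c132 : ℤ) : ℝ) / 2 ^ 44 - F =
      (((idv x c132 : ℤ) : ℝ) - (x : ℝ) / (3 * 2 ^ 132)) / 2 ^ 44 +
        ((x : ℝ) / 2 ^ 176 - 3 * F) / 3 := by
    ring
  rw [e]
  refine (abs_add_le _ _).trans ?_
  rw [abs_div, abs_div, abs_of_pos (by positivity : (0 : ℝ) < 2 ^ 44),
    abs_of_pos (by norm_num : (0 : ℝ) < 3)]
  have h1 := div_le_div_of_nonneg_right hb (by positivity : (0 : ℝ) ≤ 2 ^ 44)
  have h2 := div_le_div_of_nonneg_right (hx.trans hε) (by norm_num : (0 : ℝ) ≤ 3)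
  refine (add_le_add h1 h2).trans ?_
  norm_num

/-- soundness of the vertex values -/
theorem fval_spec {side k1 k2 k3 : Bool} {N1 N2 N3 : ℕ} {f : Fn} (ht : f.tn ≤ 30)
    (h1 : k1 = true → 8192 ≤ N1) (h2 : k2 = true → 8192 ≤ N2) (h3 : k3 = true → 8192 ≤ N3)
    (H1 : N1 ≤ 2 ^ 50) (H2 : N2 ≤ 2 ^ 50) (H3 : N3 ≤ 2 ^ 50) :
    |((fval side k1 k2 k3 N1 N2 N3 f : ℤ) : ℝ) / 2 ^ 44 -
      fR k1 k2 k3 f (N1 / den side) (N2 / den side) (N3 / den side)| ≤ 1 / 2 ^ 26 := by
  obtain ⟨kind, tn, gg⟩ := f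
  simp only at ht
  change |((fval side k1 k2 k3 N1 N2 N3 ⟨kind, tn, gg⟩ : ℤ) : ℝ) / 2 ^ 44 -
      fR k1 k2 k3 ⟨kind, tn, gg⟩ (rv side N1) (rv side N2) (rv side N3)| ≤ 1 / 2 ^ 26
  have htt : (⟨kind, tn, gg⟩ : Fn).t = (tn : ℝ) / 20 := rfl
  rcases kind with _ | kind
  · -- pair sums
    have e : fval side k1 k2 k3 N1 N2 N3 ⟨0, tn, gg⟩ =
        idv (ia (hp side tn (band k1 k2) N1 N2)
          (ia (hp side tn (band k1 k3) N1 N3) (hp side tn (band k2 k3) N2 N3))) c132 := rfl
    rw [e]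
    have a12 := hp_spec side (k1 && k2) ht (fun h => h1 (by simp at h; exact h.1)) H1
      (fun h => h2 (by simp at h; exact h.2)) H2 (N := N1) (M := N2)
    have a13 := hp_spec side (k1 && k3) ht (fun h => h1 (by simp at h; exact h.1)) H1
      (fun h => h3 (by simp at h; exact h.2)) H3 (N := N1) (M := N3)
    have a23 := hp_spec side (k2 && k3) ht (fun h => h2 (by simp at h; exact h.1)) H2
      (fun h => h3 (by simp at h; exact h.2)) H3 (N := N2) (M := N3)
    refine idv_final (ε := 306 / 2 ^ 34) ?_ (by norm_num)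
    rw [ia_eq, ia_eq, band_eq, band_eq, band_eq]
    push_cast
    have hF : 3 * fR k1 k2 k3 ⟨0, tn, gg⟩ (rv side N1) (rv side N2) (rv side N3) =
        (if (k1 && k2) = true then prR ((tn : ℝ) / 20) (rv side N1) (rv side N2) else 0) +
        (if (k1 && k3) = true then prR ((tn : ℝ) / 20) (rv side N1) (rv side N3) else 0) +
        (if (k2 && k3) = true then prR ((tn : ℝ) / 20) (rv side N2) (rv side N3) else 0) := by
      unfold fR
      rw [if_pos rfl, htt]
      ring
    rw [hF]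
    have m := add_err (add_err a12 a13) a23
    have e3 : ((hp side tn (k1 && k2) N1 N2 : ℝ) + ((hp side tn (k1 && k3) N1 N3 : ℝ) +
        (hp side tn (k2 && k3) N2 N3 : ℝ))) / 2 ^ 176 =
        (hp side tn (k1 && k2) N1 N2 : ℝ) / 2 ^ 176 + (hp side tn (k1 && k3) N1 N3 : ℝ) / 2 ^ 176 +
          (hp side tn (k2 && k3) N2 N3 : ℝ) / 2 ^ 176 := by ring
    rw [e3]
    refine m.trans ?_
    norm_num
  · -- the other kinds
    cases hk : (k1 && (k2 && k3)) with
    | false =>
      have e : fval side k1 k2 k3 N1 N2 N3 ⟨kind + 1, tn, gg⟩ = idv 0 c132 := by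
        have hb : band k1 (band k2 k3) = false := by rw [band_eq, band_eq]; exact hk
        show idv (Bool.rec (Int.ofNat 0) _ (band k1 (band k2 k3))) c132 = _
        rw [hb]
        rfl
      have e2 : fR k1 k2 k3 ⟨kind + 1, tn, gg⟩ (rv side N1) (rv side N2) (rv side N3) = 0 := by
        unfold fR
        simp [hk]
      rw [e, e2]
      refine idv_final (x := 0) (F := 0) (ε := 0) ?_ (by norm_num)
      norm_num
    | true =>
      have hb : band k1 (band k2 k3) = true := by rw [band_eq, band_eq]; exact hk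
      simp only [Bool.and_eq_true] at hk
      obtain ⟨hk1, hk2, hk3⟩ := hk
      have g1 := h1 hk1
      have g2 := h2 hk2
      have g3 := h3 hk3
      have E := e6_spec side g1 H1 g2 H2 g3 H3
      have EB := exp6_le side g1 H1 g2 H2 g3 H3
      set X := Real.exp ((Real.log (rv side N1) + Real.log (rv side N2) +
        Real.log (rv side N3)) / 6) with hX
      have d12 := dd_spec side ht g1 H1 g2 H2
      have d13 := dd_spec side ht g1 H1 g3 H3
      have d23 := dd_spec side ht g2 H2 g3 H3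
      set C12 := Real.cos ((tn : ℝ) / 20 * (Real.log (rv side N1) - Real.log (rv side N2))) with hC12
      set C13 := Real.cos ((tn : ℝ) / 20 * (Real.log (rv side N1) - Real.log (rv side N3))) with hC13
      set C23 := Real.cos ((tn : ℝ) / 20 * (Real.log (rv side N2) - Real.log (rv side N3))) with hC23
      have p1 := rv_pos side g1
      have p2 := rv_pos side g2
      have p3 := rv_pos side g3
      have c31 : Real.cos ((tn : ℝ) / 20 * (Real.log (rv side N3) - Real.log (rv side N1))) = C13 := by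
        rw [hC13, ← Real.cos_neg]
        congr 1
        ring
      rcases kind with _ | kind
      · -- kind 1
        have e : fval side k1 k2 k3 N1 N2 N3 ⟨0 + 1, tn, gg⟩ =
            idv (im (e6 side N1 N2 N3) (ia (im (sq side N3) (dd side tn N1 N2))
              (ia (im (sq side N2) (dd side tn N1 N3)) (im (sq side N1) (dd side tn N2 N3))))) c132 := by
          show idv (Bool.rec (Int.ofNat 0) _ (band k1 (band k2 k3))) c132 = _
          rw [hb]
        rw [e]
        have hF : 3 * fR k1 k2 k3 ⟨0 + 1, tn, gg⟩ (rv side N1) (rv side N2) (rv side N3) =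
            X * (Real.sqrt (rv side N3) * C12 + Real.sqrt (rv side N2) * C13 +
              Real.sqrt (rv side N1) * C23) := by
          unfold fR
          simp only [hk1, hk2, hk3, Bool.and_self, if_true, zero_add, one_ne_zero, if_false]
          have htt : (⟨1, tn, gg⟩ : Fn).t = (tn : ℝ) / 20 := rfl
          rw [htt, fxt_sixth _ p1 p2 p3, c31]
          rw [← hX, ← hC12, ← hC23]
          ring
        refine idv_final (ε := 310 / 2 ^ 34) ?_ le_rfl
        rw [hF]
        have s1 := sq_spec side g1 H1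
        have s2 := sq_spec side g2 H2
        have s3 := sq_spec side g3 H3
        have t1 := sqrt_rv_le side g1 H1
        have t2 := sqrt_rv_le side g2 H2
        have t3 := sqrt_rv_le side g3 H3
        have m3 := mul_err s3 d12 t3 (Real.abs_cos_le_one _)
        have m2 := mul_err s2 d13 t2 (Real.abs_cos_le_one _)
        have m1 := mul_err s1 d23 t1 (Real.abs_cos_le_one _)
        have m := add_err (add_err m3 m2) m1
        have hB : |Real.sqrt (rv side N3) * C12 + Real.sqrt (rv side N2) * C13 +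
            Real.sqrt (rv side N1) * C23| ≤ 6 := by
          have q1 : |Real.sqrt (rv side N3) * C12| ≤ 2 := by
            rw [abs_mul]
            have := mul_le_mul t3 (Real.abs_cos_le_one ((tn : ℝ) / 20 *
              (Real.log (rv side N1) - Real.log (rv side N2)))) (abs_nonneg _) (by norm_num)
            linarith
          have q2 : |Real.sqrt (rv side N2) * C13| ≤ 2 := by
            rw [abs_mul]
            have := mul_le_mul t2 (Real.abs_cos_le_one ((tn : ℝ) / 20 *
              (Real.log (rv side N1) - Real.log (rv side N3)))) (abs_nonneg _) (by norm_num)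
            linarith
          have q3 : |Real.sqrt (rv side N1) * C23| ≤ 2 := by
            rw [abs_mul]
            have := mul_le_mul t1 (Real.abs_cos_le_one ((tn : ℝ) / 20 *
              (Real.log (rv side N2) - Real.log (rv side N3)))) (abs_nonneg _) (by norm_num)
            linarith
          refine (abs_add_le _ _).trans ?_
          have := abs_add_le (Real.sqrt (rv side N3) * C12) (Real.sqrt (rv side N2) * C13)
          linarith
        have mm := mul_err E m EB hB
        have e2 : ((im (e6 side N1 N2 N3) (ia (im (sq side N3) (dd side tn N1 N2))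
              (ia (im (sq side N2) (dd side tn N1 N3)) (im (sq side N1) (dd side tn N2 N3)))) : ℤ) : ℝ)
              / 2 ^ 176 = (e6 side N1 N2 N3 : ℝ) / 2 ^ 44 *
              ((sq side N3 : ℝ) / 2 ^ 44 * ((dd side tn N1 N2 : ℝ) / 2 ^ 88) +
              (sq side N2 : ℝ) / 2 ^ 44 * ((dd side tn N1 N3 : ℝ) / 2 ^ 88) +
              (sq side N1 : ℝ) / 2 ^ 44 * ((dd side tn N2 N3 : ℝ) / 2 ^ 88)) := by
          rw [im_eq, ia_eq, ia_eq, im_eq, im_eq, im_eq]
          push_cast
          ring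
        rw [e2]
        refine mm.trans ?_
        norm_num
      · -- kind ≥ 2
        have e : fval side k1 k2 k3 N1 N2 N3 ⟨kind + 1 + 1, tn, gg⟩ =
            idv (im (im (e6 side N1 N2 N3) (e6 side N1 N2 N3))
              (ia (dd side tn N1 N2) (ia (dd side tn N1 N3) (dd side tn N2 N3)))) c132 := by
          show idv (Bool.rec (Int.ofNat 0) _ (band k1 (band k2 k3))) c132 = _
          rw [hb]
        rw [e]
        have hXX : Real.exp ((Real.log (rv side N1) + Real.log (rv side N2) +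
            Real.log (rv side N3)) / 3) = X * X := by
          rw [hX, ← Real.exp_add]
          congr 1
          ring
        have hF : 3 * fR k1 k2 k3 ⟨kind + 1 + 1, tn, gg⟩ (rv side N1) (rv side N2) (rv side N3) =
            X * X * (C12 + C13 + C23) := by
          unfold fR
          have hne0 : kind + 1 + 1 ≠ 0 := by omega
          have hne1 : kind + 1 + 1 ≠ 1 := by omega
          simp only [hk1, hk2, hk3, Bool.and_self, if_true, hne0, hne1, if_false]
          have htt : (⟨kind + 1 + 1, tn, gg⟩ : Fn).t = (tn : ℝ) / 20 := rfl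
          rw [htt, fxt_third _ p1 p2 p3, c31, hXX, ← hC12, ← hC23]
          ring
        refine idv_final (ε := 310 / 2 ^ 34) ?_ le_rfl
        rw [hF]
        have hXXB : |X * X| ≤ 4 := by
          rw [abs_mul]
          have := mul_le_mul EB EB (abs_nonneg _) (by norm_num)
          linarith
        have mE := mul_err E E EB EB
        have m := add_err (add_err d12 d13) d23
        have hB : |C12 + C13 + C23| ≤ 3 := by
          have q1 : |C12| ≤ 1 := Real.abs_cos_le_one _
          have q2 : |C13| ≤ 1 := Real.abs_cos_le_one _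
          have q3 : |C23| ≤ 1 := Real.abs_cos_le_one _
          refine (abs_add_le _ _).trans ?_
          have := abs_add_le C12 C13
          linarith
        have mm := mul_err mE m hXXB hB
        have e2 : ((im (im (e6 side N1 N2 N3) (e6 side N1 N2 N3))
              (ia (dd side tn N1 N2) (ia (dd side tn N1 N3) (dd side tn N2 N3))) : ℤ) : ℝ)
              / 2 ^ 176 = (e6 side N1 N2 N3 : ℝ) / 2 ^ 44 * ((e6 side N1 N2 N3 : ℝ) / 2 ^ 44) *
              ((dd side tn N1 N2 : ℝ) / 2 ^ 88 + (dd side tn N1 N3 : ℝ) / 2 ^ 88 +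
              (dd side tn N2 N3 : ℝ) / 2 ^ 88) := by
          rw [im_eq, im_eq, ia_eq, ia_eq]
          push_cast
          ring
        rw [e2]
        refine mm.trans ?_
        norm_num

/-! ### upper bounds -/

lemma le_ntn (x : ℤ) : (x : ℝ) ≤ (ntn x : ℝ) := by
  cases x with
  | ofNat m => exact le_of_eq (by simp [ntn])
  | negSucc m =>
    have : ntn (Int.negSucc m) = 0 := rfl
    rw [this]
    have : ((Int.negSucc m : ℤ) : ℝ) ≤ 0 := by exact_mod_cast (Int.negSucc_lt_zero m).le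
    simpa using this

theorem sqU_spec {side : Bool} {N : ℕ} (h : 8192 ≤ N) (H : N ≤ 2 ^ 50) :
    Real.sqrt (N / den side) ≤ (sqU side N : ℝ) / 2 ^ 44 := by
  have h1 := (abs_le.1 (sq_spec side h H)).1
  have h2 := le_ntn (sq side N)
  change Real.sqrt (rv side N) ≤ _
  have e : (sqU side N : ℝ) = (ntn (sq side N) : ℝ) + 8192 := by
    unfold sqU
    rw [show Nat.add (ntn (sq side N)) 8192 = ntn (sq side N) + 8192 from rfl]
    push_cast
    rfl
  rw [e, add_div]
  have h3 := div_le_div_of_nonneg_right h2 (by positivity : (0 : ℝ) ≤ 2 ^ 44)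
  have h4 : (4 : ℝ) / 2 ^ 34 ≤ 8192 / 2 ^ 44 := by norm_num
  linarith

theorem e6U_spec {side : Bool} {N1 N2 N3 : ℕ} (h1 : 8192 ≤ N1) (H1 : N1 ≤ 2 ^ 50)
    (h2 : 8192 ≤ N2) (H2 : N2 ≤ 2 ^ 50) (h3 : 8192 ≤ N3) (H3 : N3 ≤ 2 ^ 50) :
    Real.exp ((Real.log (N1 / den side) + Real.log (N2 / den side) +
      Real.log (N3 / den side)) / 6) ≤ (e6U side N1 N2 N3 : ℝ) / 2 ^ 44 := by
  have a1 := (abs_le.1 (e6_spec side h1 H1 h2 H2 h3 H3)).1
  have a2 := le_ntn (e6 side N1 N2 N3)
  change Real.exp ((Real.log (rv side N1) + Real.log (rv side N2) +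
      Real.log (rv side N3)) / 6) ≤ _
  have e : (e6U side N1 N2 N3 : ℝ) = (ntn (e6 side N1 N2 N3) : ℝ) + 8192 := by
    unfold e6U
    rw [show Nat.add (ntn (e6 side N1 N2 N3)) 8192 = ntn (e6 side N1 N2 N3) + 8192 from rfl]
    push_cast
    rfl
  rw [e]
  have a3 := div_le_div_of_nonneg_right a2 (by positivity : (0 : ℝ) ≤ 2 ^ 44)
  have a4 : (4 : ℝ) / 2 ^ 34 ≤ 8192 / 2 ^ 44 := by norm_num
  have a5 : ((ntn (e6 side N1 N2 N3) : ℝ) + 8192) / 2 ^ 44 =
      (ntn (e6 side N1 N2 N3) : ℝ) / 2 ^ 44 + 8192 / 2 ^ 44 := add_div _ _ _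
  linarith

end Crest.Agent.R163.Win
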