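import Crest.Agent.R163.WinFunM
import Crest.Agent.R163.WinVal
import Crest.Agent.R163.WinPolM
import Crest.Agent.R163.WinTree

/-!
Row 163, window engine: soundness of the test of one cell.
-/

set_option autoImplicit false

namespace Crest.Agent.R163.Win

open Set Crest.Agent.R163.Bern

/-! ### small facts -/

lemma bor_eq {a b : Bool} : bor a b = true ↔ a = true ∨ b = true := by
  cases a <;> cases b <;> simp [bor]

lemma band_iff {a b : Bool} : band a b = true ↔ a = true ∧ b = true := by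
  cases a <;> cases b <;> simp [band]

lemma st_eq' {α : Type} (f : Nat → α) (n : Nat) : st f n = f n := by cases n <;> rfl

lemma wb_eq {α : Type} (f : Bool → α) (b : Bool) : wb f b = f b := by cases b <;> rfl

lemma fvals_cons (side k1 k2 k3 : Bool) (N1 N2 N3 : Nat) (tl : List Int) (f : Fn) (fs : List Fn) :
    fvals side k1 k2 k3 N1 N2 N3 tl (f :: fs) =
      fval side k1 k2 k3 N1 N2 N3 f :: fvals side k1 k2 k3 N1 N2 N3 tl fs := rfl

lemma fers_cons (k1 k2 k3 : Bool) (U1 U2 U3 E u1x u1y u2 u3 : Nat) (tl : List Nat) (f : Fn)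
    (fs : List Fn) : fers k1 k2 k3 U1 U2 U3 E u1x u1y u2 u3 tl (f :: fs) =
      fer k1 k2 k3 U1 U2 U3 E u1x u1y u2 u3 f :: fers k1 k2 k3 U1 U2 U3 E u1x u1y u2 u3 tl fs := rfl

lemma bndI_iff {V : List Int} : bndI V = true ↔ ∀ v ∈ V, v.natAbs ≤ 2 ^ 120 := by
  induction V with
  | nil => simp [bndI]
  | cons v V ih =>
    have e : bndI (v :: V) = band (Int.rec
      (fun m => Nat.ble m 1329227995784915872903807060280344576)
      (fun m => Nat.ble (Nat.succ m) 1329227995784915872903807060280344576) v) (bndI V) := rfl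
    rw [e, band_iff, ih]
    have h : (Int.rec (motive := fun _ => Bool)
      (fun m => Nat.ble m 1329227995784915872903807060280344576)
      (fun m => Nat.ble (Nat.succ m) 1329227995784915872903807060280344576) v = true) ↔
        v.natAbs ≤ 2 ^ 120 := by
      cases v with
      | ofNat m =>
        show Nat.ble m 1329227995784915872903807060280344576 = true ↔ _
        rw [Nat.ble_eq]
        norm_num
      | negSucc m =>
        show Nat.ble (Nat.succ m) 1329227995784915872903807060280344576 = true ↔ _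
        rw [Nat.ble_eq, Int.natAbs_negSucc]
        norm_num
    rw [h]
    simp

lemma bndN_iff {V : List Nat} : bndN V = true ↔ ∀ v ∈ V, v ≤ 2 ^ 120 := by
  induction V with
  | nil => simp [bndN]
  | cons v V ih =>
    have e : bndN (v :: V) = band (Nat.ble v 1329227995784915872903807060280344576) (bndN V) := rfl
    rw [e, band_iff, ih, Nat.ble_eq]
    norm_num

/-- cast of a list -/
def castL (l : List Nat) : List Int := l.map Int.ofNat

lemma ndot_eq (A E : List Nat) :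
    ((ndot A E : Nat) : Int) = dotI (castL A) (castL E) := by
  induction A generalizing E with
  | nil => rfl
  | cons a A ih =>
    cases E with
    | nil => rfl
    | cons b E =>
      show ((a * b + ndot A E : Nat) : Int) = (a : Int) * b + dotI (castL A) (castL E)
      rw [← ih]
      push_cast
      ring

/-! ### linear combinations of models -/

/-- evaluation of a list of functions -/
def evalL (gs : List (ℝ → ℝ → ℝ)) (x y : ℝ) : List ℝ := gs.map fun g => g x y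

variable {x0 x1 y0 y1 : ℝ}

theorem MdlL.dot {gs : List (ℝ → ℝ → ℝ)} {a b c d : List Int} {e : List Nat}
    (h : MdlL x0 x1 y0 y1 gs a b c d e) (w : List Int) :
    Mdl x0 x1 y0 y1 (fun x y => dotR w (evalL gs x y)) ((dotI w a : Int) / 2 ^ 44)
      ((dotI w b : Int) / 2 ^ 44) ((dotI w c : Int) / 2 ^ 44) ((dotI w d : Int) / 2 ^ 44)
      ((dotI (absL w) (castL e) : Int) / 2 ^ 44) := by
  induction w generalizing gs a b c d e with
  | nil =>
    intro x _ y _ _ _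
    have : bl x0 x1 y0 y1 x y ((0 : Int) / 2 ^ 44) ((0 : Int) / 2 ^ 44) ((0 : Int) / 2 ^ 44)
        ((0 : Int) / 2 ^ 44) = 0 := by unfold bl lin1; simp
    show |(0 : ℝ) - bl x0 x1 y0 y1 x y ((0 : Int) / 2 ^ 44) ((0 : Int) / 2 ^ 44)
      ((0 : Int) / 2 ^ 44) ((0 : Int) / 2 ^ 44)| ≤ ((0 : Int) : ℝ) / 2 ^ 44
    rw [this]
    simp
  | cons w0 w ih =>
    match gs, a, b, c, d, e, h with
    | [], [], [], [], [], [], _ =>
      intro x _ y _ _ _
      have : bl x0 x1 y0 y1 x y ((0 : Int) / 2 ^ 44) ((0 : Int) / 2 ^ 44) ((0 : Int) / 2 ^ 44)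
          ((0 : Int) / 2 ^ 44) = 0 := by unfold bl lin1; simp
      show |(0 : ℝ) - bl x0 x1 y0 y1 x y ((0 : Int) / 2 ^ 44) ((0 : Int) / 2 ^ 44)
        ((0 : Int) / 2 ^ 44) ((0 : Int) / 2 ^ 44)| ≤ ((0 : Int) : ℝ) / 2 ^ 44
      rw [this]
      simp
    | g :: gs, a0 :: a, b0 :: b, c0 :: c, d0 :: d, e0 :: e, h =>
      have h1 := (h.1.const_mul (w0 : ℝ)).add (ih h.2)
      have ee : ∀ (v0 : Int) (v : List Int), ((dotI (w0 :: w) (v0 :: v) : Int) : ℝ) / 2 ^ 44 =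
          (w0 : ℝ) * ((v0 : ℝ) / 2 ^ 44) + ((dotI w v : Int) : ℝ) / 2 ^ 44 := by
        intro v0 v
        have : dotI (w0 :: w) (v0 :: v) = w0 * v0 + dotI w v := rfl
        rw [this]
        push_cast
        ring
      rw [ee, ee, ee, ee]
      have e2 : ((dotI (absL (w0 :: w)) (castL (e0 :: e)) : Int) : ℝ) / 2 ^ 44 =
          |(w0 : ℝ)| * ((e0 : ℝ) / 2 ^ 44) +
            ((dotI (absL w) (castL e) : Int) : ℝ) / 2 ^ 44 := by
        have : dotI (absL (w0 :: w)) (castL (e0 :: e)) =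
          ((w0.natAbs : Nat) : Int) * (e0 : Int) + dotI (absL w) (castL e) := rfl
        rw [this]
        push_cast
        ring
      rw [e2]
      exact h1

/-! ### functionals as a list -/

/-- list of functions of the engine -/
noncomputable def gsL (side : Bool) (fs : List Fn) (ps : List Po) : List (ℝ → ℝ → ℝ) :=
  (fun _ _ => 1) :: ((fs.map fun f => fun x y =>
    fxt f.x f.t (aff (A1 side) x y) (aff (A2 side) x y) (aff (A3 side) x y)) ++
    ps.map fun p => fun x y => p.R (s3 (3 - x - y) x y) (c3 (3 - x - y) x y))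

theorem fun_mdlL {side k1 k2 k3 : Bool} {U1 U2 U3 E u1x u1y u2 u3 : Nat} {X0 X1 Y0 Y1 : Nat}
    (hx01 : x0 < x1) (hy01 : y0 < y1)
    (h1 : CF (A1 side) x0 x1 y0 y1 k1 U1 u1x u1y) (h2 : CF (A2 side) x0 x1 y0 y1 k2 U2 u2 0)
    (h3 : CF (A3 side) x0 x1 y0 y1 k3 U3 0 u3)
    (hE : ∀ x ∈ Icc x0 x1, ∀ y ∈ Icc y0 y1, aff (A1 side) x y ^ (1 / 6 : ℝ) *
      aff (A2 side) x y ^ (1 / 6 : ℝ) * aff (A3 side) x y ^ (1 / 6 : ℝ) ≤ (E : ℝ) / 2 ^ 44)
    (hv : ∀ f : Fn, f.tn ≤ 30 → ∀ X ∈ [X0, X1], ∀ Y ∈ [Y0, Y1], ∀ x y : ℝ,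
      x = (if X = X0 then x0 else x1) → y = (if Y = Y0 then y0 else y1) →
      |(fval side k1 k2 k3 (n1 side X Y) (n2 side X) (n2 side Y) f : ℝ) / 2 ^ 44 -
        fR k1 k2 k3 f (aff (A1 side) x y) (aff (A2 side) x y) (aff (A3 side) x y)| ≤ 1 / 2 ^ 26)
    (hX : X0 ≠ X1) (hY : Y0 ≠ Y1)
    {tg : List (ℝ → ℝ → ℝ)} {ta tb tc td : List Int} {te : List Nat}
    (ht : MdlL x0 x1 y0 y1 tg ta tb tc td te) {fs : List Fn} (hf : ∀ f ∈ fs, gOK f) :
    MdlL x0 x1 y0 y1 ((fs.map fun f => fun x y =>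
      fxt f.x f.t (aff (A1 side) x y) (aff (A2 side) x y) (aff (A3 side) x y)) ++ tg)
      (fvals side k1 k2 k3 (n1 side X0 Y0) (n2 side X0) (n2 side Y0) ta fs)
      (fvals side k1 k2 k3 (n1 side X0 Y1) (n2 side X0) (n2 side Y1) tb fs)
      (fvals side k1 k2 k3 (n1 side X1 Y0) (n2 side X1) (n2 side Y0) tc fs)
      (fvals side k1 k2 k3 (n1 side X1 Y1) (n2 side X1) (n2 side Y1) td fs)
      (fers k1 k2 k3 U1 U2 U3 E u1x u1y u2 u3 te fs) := by
  induction fs with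
  | nil => exact ht
  | cons f fs ih =>
    have hf0 := hf f (by simp)
    have ih' := ih fun g hg => hf g (by simp [hg])
    have m := fun_mdl hf0 hx01 hy01 h1 h2 h3 hE
    have v := hv f hf0.1
    have e00 := v X0 (by simp) Y0 (by simp) x0 y0 (by simp) (by simp)
    have e01 := v X0 (by simp) Y1 (by simp) x0 y1 (by simp) (by simp [hY.symm])
    have e10 := v X1 (by simp) Y0 (by simp) x1 y0 (by simp [hX.symm]) (by simp)
    have e11 := v X1 (by simp) Y1 (by simp) x1 y1 (by simp [hX.symm]) (by simp [hY.symm])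
    have m' := Mdl.perturb hx01 hy01 m e00 e01 e10 e11
    refine ⟨m'.mono (le_of_le_of_eq ?_ rfl), ih'⟩
    have : (1 : ℝ) / 2 ^ 26 = 262144 / 2 ^ 44 := by norm_num
    rw [this, ← add_div, div_le_div_iff_of_pos_right (by positivity)]
    linarith

/-! ### the corner tests -/

lemma corner_spec {side k1 k2 k3 : Bool} {fs : List Fn} {ps : List Po} {P : List Int} {H : Nat}
    {HE : Int} {X Y : Nat} (h : corner side k1 k2 k3 fs ps P H HE X Y = true) :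
    (∀ v ∈ vV side k1 k2 k3 fs ps X Y, v.natAbs ≤ 2 ^ 120) ∧
      ∃ T : Nat, (T : Int) = dotI P (vV side k1 k2 k3 fs ps X Y) + HE ∧ Nat.land T H = H := by
  unfold corner at h
  rw [band_iff] at h
  refine ⟨bndI_iff.mp h.1, ?_⟩
  have h2 := h.2
  rw [fdot_eq, ia_eq] at h2
  rcases hz : dotI P (vV side k1 k2 k3 fs ps X Y) + HE with n | n
  · rw [hz] at h2
    exact ⟨n, rfl, Nat.eq_of_beq_eq_true h2⟩
  · rw [hz] at h2
    exact absurd h2 (by simp)

lemma vV_eq (side k1 k2 k3 : Bool) (fs : List Fn) (ps : List Po) (X Y : Nat) :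
    vV side k1 k2 k3 fs ps X Y = Int.ofNat 17592186044416 ::
      fvals side k1 k2 k3 (n1 side X Y) (n2 side X) (n2 side Y) (pvals (sn X Y) (cn X Y) ps) fs := by
  unfold vV
  simp only [st_eq']

lemma vE_eq (side k1 k2 k3 : Bool) (fs : List Fn) (ps : List Po)
    (l1 h1 l2 h2 l3 h3 X0 X1 Y0 Y1 : Nat) :
    vE side k1 k2 k3 fs ps l1 h1 l2 h2 l3 h3 X0 X1 Y0 Y1 =
      0 :: fers k1 k2 k3 (sqU side h1) (sqU side h2) (sqU side h3) (e6U side h1 h2 h3)
        (us (Nat.sub X1 X0) l1) (us (Nat.sub Y1 Y0) l1) (us (Nat.sub X1 X0) l2)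
        (us (Nat.sub Y1 Y0) l3) (ePol ps X0 X1 Y0 Y1) fs := by
  unfold vE
  simp only [st_eq']

/-- data conditions: packed rows -/
structure Packed (n : Nat) (ws : List (List Int)) (P : List Int) (A : List Nat) (H : Nat) : Prop where
  len : ∀ w ∈ ws, w.length = n
  size : ∀ w ∈ ws, (w.map Int.natAbs).sum ≤ 2 ^ 100
  hP : packc n ws = P
  hA : packc n (ws.map absL) = castL A
  hH : packN (ws.map fun _ => 2 ^ 255) = H

/-- the corner tests and the models give the inequalities on the cell -/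
theorem corners_good {side pos k1 k2 k3 : Bool} {s0 : ℚ} {fs : List Fn} {ps : List Po}
    {n : Nat} {ws : List (List Int)} {P : List Int} {A : List Nat} {H : Nat}
    (pk : Packed n ws P A H) {X0 X1 Y0 Y1 : Nat} {E : List Nat}
    (hX : X0 < X1) (hY : Y0 < Y1)
    (hb : ∀ w ∈ ws, ∀ x y : ℝ, dotR w (evalL (gsL side fs ps) x y) =
      dotR w (basis side pos (3 - x - y) x y))
    (hm : MdlL ((X0 : ℝ) / 2 ^ 48) ((X1 : ℝ) / 2 ^ 48) ((Y0 : ℝ) / 2 ^ 48) ((Y1 : ℝ) / 2 ^ 48)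
      (gsL side fs ps) (vV side k1 k2 k3 fs ps X0 Y0) (vV side k1 k2 k3 fs ps X0 Y1)
      (vV side k1 k2 k3 fs ps X1 Y0) (vV side k1 k2 k3 fs ps X1 Y1) E)
    (h : corners side k1 k2 k3 fs ps P A H E X0 X1 Y0 Y1 = true) :
    Good side pos s0 ws X0 X1 Y0 Y1 := by
  unfold corners at h
  rw [band_iff] at h
  obtain ⟨hE, h⟩ := h
  simp only [band_iff] at h
  obtain ⟨t00, t01, t10, t11⟩ := h
  have hE' : ∀ v ∈ castL E, v.natAbs ≤ 2 ^ 120 := by
    intro v hv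
    unfold castL at hv
    rw [List.mem_map] at hv
    obtain ⟨a, ha, rfl⟩ := hv
    exact bndN_iff.mp hE a ha
  have test : ∀ X Y : Nat, corner side k1 k2 k3 fs ps P H (subN H (ndot A E)) X Y = true →
      ∀ w ∈ ws, dotI (absL w) (castL E) ≤ dotI w (vV side k1 k2 k3 fs ps X Y) := by
    intro X Y ht
    obtain ⟨hV, T, hT, hl⟩ := corner_spec ht
    rw [← pk.hH] at hl hT
    refine packed_test pk.len pk.size hV hE' (T := T) ?_ hl
    rw [hT, subN_eq, ndot_eq, ← pk.hA, pk.hP]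
    ring
  intro w hw x y a1 a2 a3 a4 a5 a6 a7 a8
  have hX' : (X0 : ℝ) / 2 ^ 48 < (X1 : ℝ) / 2 ^ 48 :=
    div_lt_div_of_pos_right (by exact_mod_cast hX) (by positivity)
  have hY' : (Y0 : ℝ) / 2 ^ 48 < (Y1 : ℝ) / 2 ^ 48 :=
    div_lt_div_of_pos_right (by exact_mod_cast hY) (by positivity)
  have m := hm.dot w
  have c : ∀ X Y : Nat, corner side k1 k2 k3 fs ps P H (subN H (ndot A E)) X Y = true →
      ((dotI (absL w) (castL E) : Int) : ℝ) / 2 ^ 44 ≤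
        ((dotI w (vV side k1 k2 k3 fs ps X Y) : Int) : ℝ) / 2 ^ 44 := by
    intro X Y ht
    have := test X Y ht w hw
    exact div_le_div_of_nonneg_right (by exact_mod_cast this) (by positivity)
  have key := Mdl.nonneg hX' hY' m (c _ _ t00) (c _ _ t01) (c _ _ t10) (c _ _ t11) x ⟨a1, a2⟩ y
    ⟨a3, a4⟩ (by linarith) a5
  rw [← hb w hw]
  exact key

/-- all models of a cell -/
theorem all_mdlL {side k1 k2 k3 : Bool} {fs : List Fn} {ps : List Po}
    {X0 X1 Y0 Y1 l1 h1 l2 h2 l3 h3 : Nat} (hX : X0 < X1) (hY : Y0 < Y1)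
    (hf : ∀ f ∈ fs, gOK f)
    (hj : ∀ p ∈ ps, p.j = 0 ∨ (p.j = 1 ∧ X1 ≤ 281474976710656 ∧ Y1 ≤ 281474976710656))
    (c1 : CF (A1 side) ((X0 : ℝ) / 2 ^ 48) ((X1 : ℝ) / 2 ^ 48) ((Y0 : ℝ) / 2 ^ 48)
      ((Y1 : ℝ) / 2 ^ 48) k1 (sqU side h1) (us (Nat.sub X1 X0) l1) (us (Nat.sub Y1 Y0) l1))
    (c2 : CF (A2 side) ((X0 : ℝ) / 2 ^ 48) ((X1 : ℝ) / 2 ^ 48) ((Y0 : ℝ) / 2 ^ 48)
      ((Y1 : ℝ) / 2 ^ 48) k2 (sqU side h2) (us (Nat.sub X1 X0) l2) 0)
    (c3 : CF (A3 side) ((X0 : ℝ) / 2 ^ 48) ((X1 : ℝ) / 2 ^ 48) ((Y0 : ℝ) / 2 ^ 48)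
      ((Y1 : ℝ) / 2 ^ 48) k3 (sqU side h3) 0 (us (Nat.sub Y1 Y0) l3))
    (hE : ∀ x ∈ Icc ((X0 : ℝ) / 2 ^ 48) ((X1 : ℝ) / 2 ^ 48),
      ∀ y ∈ Icc ((Y0 : ℝ) / 2 ^ 48) ((Y1 : ℝ) / 2 ^ 48), aff (A1 side) x y ^ (1 / 6 : ℝ) *
      aff (A2 side) x y ^ (1 / 6 : ℝ) * aff (A3 side) x y ^ (1 / 6 : ℝ) ≤
        (e6U side h1 h2 h3 : ℝ) / 2 ^ 44)
    (hv : ∀ f : Fn, f.tn ≤ 30 → ∀ X Y : Nat, (X = X0 ∨ X = X1) → (Y = Y0 ∨ Y = Y1) →
      |(fval side k1 k2 k3 (n1 side X Y) (n2 side X) (n2 side Y) f : ℝ) / 2 ^ 44 -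
        fR k1 k2 k3 f (aff (A1 side) ((X : ℝ) / 2 ^ 48) ((Y : ℝ) / 2 ^ 48))
          (aff (A2 side) ((X : ℝ) / 2 ^ 48) ((Y : ℝ) / 2 ^ 48))
          (aff (A3 side) ((X : ℝ) / 2 ^ 48) ((Y : ℝ) / 2 ^ 48))| ≤ 1 / 2 ^ 26) :
    MdlL ((X0 : ℝ) / 2 ^ 48) ((X1 : ℝ) / 2 ^ 48) ((Y0 : ℝ) / 2 ^ 48) ((Y1 : ℝ) / 2 ^ 48)
      (gsL side fs ps) (vV side k1 k2 k3 fs ps X0 Y0) (vV side k1 k2 k3 fs ps X0 Y1)
      (vV side k1 k2 k3 fs ps X1 Y0) (vV side k1 k2 k3 fs ps X1 Y1)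
      (vE side k1 k2 k3 fs ps l1 h1 l2 h2 l3 h3 X0 X1 Y0 Y1) := by
  have hX' : (X0 : ℝ) / 2 ^ 48 < (X1 : ℝ) / 2 ^ 48 :=
    div_lt_div_of_pos_right (by exact_mod_cast hX) (by positivity)
  have hY' : (Y0 : ℝ) / 2 ^ 48 < (Y1 : ℝ) / 2 ^ 48 :=
    div_lt_div_of_pos_right (by exact_mod_cast hY) (by positivity)
  rw [vV_eq, vV_eq, vV_eq, vV_eq, vE_eq]
  refine ⟨?_, ?_⟩
  · intro x hx y hy _ _
    have e : (((Int.ofNat 17592186044416 : Int) : ℝ)) / 2 ^ 44 = 1 := by norm_num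
    rw [e]
    have : bl ((X0 : ℝ) / 2 ^ 48) ((X1 : ℝ) / 2 ^ 48) ((Y0 : ℝ) / 2 ^ 48) ((Y1 : ℝ) / 2 ^ 48) x y
        1 1 1 1 = 1 := by
      unfold bl
      rw [lin1_const hY', lin1_const hX']
    rw [this]
    simp
  · refine fun_mdlL hX' hY' c1 c2 c3 hE ?_ hX.ne hY.ne (pol_mdlL hj hX hY) hf
    intro f hft X hXm Y hYm x y ex ey
    have hXc : X = X0 ∨ X = X1 := by simpa using hXm
    have hYc : Y = Y0 ∨ Y = Y1 := by simpa using hYm
    have ex' : x = (X : ℝ) / 2 ^ 48 := by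
      rw [ex]
      rcases hXc with rfl | rfl
      · simp
      · rw [if_neg hX.ne']
    have ey' : y = (Y : ℝ) / 2 ^ 48 := by
      rw [ey]
      rcases hYc with rfl | rfl
      · simp
      · rw [if_neg hY.ne']
    rw [ex', ey']
    exact hv f hft X Y hXc hYc

end Crest.Agent.R163.Win
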