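import Crest.Agent.R163.WinAsm0

/-!
Row 163, window engine: soundness of the full test of a cell and of the tree test.
-/

set_option autoImplicit false

namespace Crest.Agent.R163.Win

open Set Crest.Agent.R163.Bern

/-- what `WinCF` provides -/
def CellFacts : Prop := ∀ (side : Bool) (X0 X1 Y0 Y1 : Nat), X0 < X1 → Y0 < Y1 →
    X1 ≤ 422212465065984 → Y1 ≤ 281474976710656 →
    dom (lo1 side X0 X1 Y0 Y1) (hi1 side X0 X1 Y0 Y1) = true →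
    dom (lo2 side X0 X1) (hi2 side X0 X1) = true →
    dom (lo2 side Y0 Y1) (hi2 side Y0 Y1) = true →
    CF (A1 side) ((X0 : ℝ) / 2 ^ 48) ((X1 : ℝ) / 2 ^ 48) ((Y0 : ℝ) / 2 ^ 48) ((Y1 : ℝ) / 2 ^ 48)
      (Nat.ble 1 (lo1 side X0 X1 Y0 Y1)) (sqU side (hi1 side X0 X1 Y0 Y1))
      (us (Nat.sub X1 X0) (lo1 side X0 X1 Y0 Y1)) (us (Nat.sub Y1 Y0) (lo1 side X0 X1 Y0 Y1)) ∧
    CF (A2 side) ((X0 : ℝ) / 2 ^ 48) ((X1 : ℝ) / 2 ^ 48) ((Y0 : ℝ) / 2 ^ 48) ((Y1 : ℝ) / 2 ^ 48)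
      (Nat.ble 1 (lo2 side X0 X1)) (sqU side (hi2 side X0 X1))
      (us (Nat.sub X1 X0) (lo2 side X0 X1)) 0 ∧
    CF (A3 side) ((X0 : ℝ) / 2 ^ 48) ((X1 : ℝ) / 2 ^ 48) ((Y0 : ℝ) / 2 ^ 48) ((Y1 : ℝ) / 2 ^ 48)
      (Nat.ble 1 (lo2 side Y0 Y1)) (sqU side (hi2 side Y0 Y1)) 0
      (us (Nat.sub Y1 Y0) (lo2 side Y0 Y1)) ∧
    (∀ x ∈ Icc ((X0 : ℝ) / 2 ^ 48) ((X1 : ℝ) / 2 ^ 48),
      ∀ y ∈ Icc ((Y0 : ℝ) / 2 ^ 48) ((Y1 : ℝ) / 2 ^ 48), aff (A1 side) x y ^ (1 / 6 : ℝ) *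
      aff (A2 side) x y ^ (1 / 6 : ℝ) * aff (A3 side) x y ^ (1 / 6 : ℝ) ≤
        (e6U side (hi1 side X0 X1 Y0 Y1) (hi2 side X0 X1) (hi2 side Y0 Y1) : ℝ) / 2 ^ 44) ∧
    (∀ f : Fn, f.tn ≤ 30 → ∀ X Y : Nat, (X = X0 ∨ X = X1) → (Y = Y0 ∨ Y = Y1) →
      |(fval side (Nat.ble 1 (lo1 side X0 X1 Y0 Y1)) (Nat.ble 1 (lo2 side X0 X1))
        (Nat.ble 1 (lo2 side Y0 Y1)) (n1 side X Y) (n2 side X) (n2 side Y) f : ℝ) / 2 ^ 44 -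
        fR (Nat.ble 1 (lo1 side X0 X1 Y0 Y1)) (Nat.ble 1 (lo2 side X0 X1))
          (Nat.ble 1 (lo2 side Y0 Y1)) f (aff (A1 side) ((X : ℝ) / 2 ^ 48) ((Y : ℝ) / 2 ^ 48))
          (aff (A2 side) ((X : ℝ) / 2 ^ 48) ((Y : ℝ) / 2 ^ 48))
          (aff (A3 side) ((X : ℝ) / 2 ^ 48) ((Y : ℝ) / 2 ^ 48))| ≤ 1 / 2 ^ 26)

theorem full_good (CFs : CellFacts) {side pos : Bool} {s0 : ℚ} {fs : List Fn} {ps : List Po}
    {n XB : Nat} {ws : List (List Int)} {P : List Int} {A : List Nat} {H : Nat}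
    (pk : Packed n ws P A H) (hf : ∀ f ∈ fs, gOK f)
    (hj : ∀ p ∈ ps, p.j = 0 ∨ (p.j = 1 ∧ XB ≤ 281474976710656)) (hXB : XB ≤ 422212465065984)
    (hb : ∀ x y : ℝ, evalL (gsL side fs ps) x y = basis side pos (3 - x - y) x y)
    (X0 X1 Y0 Y1 : Nat) (hX : X0 < X1) (hY : Y0 < Y1) (hX1 : X1 ≤ XB) (hY1 : Y1 ≤ 281474976710656)
    (h : full side fs ps P A H X0 X1 Y0 Y1 = true) : Good side pos s0 ws X0 X1 Y0 Y1 := by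
  unfold full at h
  simp only [st_eq', wb_eq, band_iff] at h
  obtain ⟨d1, d2, d3, h⟩ := h
  obtain ⟨c1, c2, c3, hE, hv⟩ := CFs side X0 X1 Y0 Y1 hX hY (hX1.trans hXB) hY1 d1 d2 d3
  refine corners_good pk hX hY (fun w _ x y => by rw [hb]) (all_mdlL hX hY hf ?_ c1 c2 c3 hE hv) h
  intro p hp
  rcases hj p hp with h | ⟨h, h'⟩
  · exact Or.inl h
  · exact Or.inr ⟨h, hX1.trans h', hY1⟩

theorem tree_good (CFs : CellFacts) {side pos : Bool} {s0 : ℚ} {fs : List Fn} {ps : List Po}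
    {n S XB : Nat} {ws : List (List Int)} {P : List Int} {A : List Nat} {H : Nat}
    (pk : Packed n ws P A H) (hS : (S : ℝ) ≤ 3 * 2 ^ 96 * s0) (hf : ∀ f ∈ fs, gOK f)
    (hj : ∀ p ∈ ps, p.j = 0 ∨ (p.j = 1 ∧ XB ≤ 281474976710656)) (hXB : XB ≤ 422212465065984)
    (hb : ∀ x y : ℝ, evalL (gsL side fs ps) x y = basis side pos (3 - x - y) x y)
    {t : Tr} {X0 X1 Y0 Y1 : Nat} (h : chk side S XB fs ps P A H t X0 X1 Y0 Y1 = true) :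
    Good side pos s0 ws X0 X1 Y0 Y1 :=
  chk_good (leaf_good hS (full_good CFs pk hf hj hXB hb)) t X0 X1 Y0 Y1 h

end Crest.Agent.R163.Win
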