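import Crest.Agent.R163.WinFinal
import Crest.Agent.R163.CenRowsB
import Crest.Agent.R163.CenRowsM1
import Crest.Agent.R163.CenRowsM7
import Crest.Agent.R163.CenRowsM11

/-!
Row 163: S0244 from the outer region of the window engine alone.
-/

set_option autoImplicit false

namespace Crest.Agent.R163

open Crest.ProbabilityR.Broadcast Win

/-- outer region for some centre radius, for a list of rows -/
def OutRows (side pos : Bool) (zmin c : ℚ) (ws : List (List Int)) : Prop :=
  ∃ s ≤ c, ∀ w ∈ ws, OutOK side pos zmin s w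

/-- THE OUTER REGION OF THE ENGINE: all that remains for S0244 -/
structure Outer : Prop where
  B : ∀ pos, OutRows false pos 0 (9 / 100) ((wPois ++ wR7 ++ wR11).map fun D => D.rowB pos)
  M1 : ∀ pos, OutRows true pos 0 (43 / 100)
    (wPois.map (fun D => D.rowM pos) ++ pinRows 183 560 pos)
  M7 : ∀ pos, OutRows true pos (61 / 250) (9 / 25) (grpM7 pos)
  M11 : ∀ pos, OutRows true pos (3969 / 10000) (1 / 4) (grpM11 pos)

lemma OutRows.full {side pos : Bool} {zmin c : ℚ} {ws : List (List Int)}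
    (h : OutRows side pos zmin c ws) (hz : zmin < 4 / 5) (hc : ∀ w ∈ ws, CenOK side pos c w) :
    ∀ w ∈ ws, Full side pos zmin w := by
  obtain ⟨s, hs, h1⟩ := h
  exact fun w hw => full_of hz (h1 w hw) (Cen.cenOK_mono (hc w hw) hs)

theorem Outer.engine (O : Outer) : Engine where
  B pos := (O.B pos).full (by norm_num) fun w hw => by
    rw [List.mem_map] at hw
    obtain ⟨D, hD, rfl⟩ := hw
    refine Cen.cenB pos _ (List.mem_map_of_mem ?_)
    simp only [List.mem_append] at hD ⊢
    tauto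
  M1 pos := (O.M1 pos).full (by norm_num) fun w hw => by
    refine Cen.cenM1 pos _ ?_
    rw [List.mem_append, List.mem_map] at hw
    rcases hw with ⟨D, hD, rfl⟩ | hw
    · exact List.mem_append_left _ (List.mem_map_of_mem (f := fun D : RawWin => D.rowM pos)
        (List.mem_append_left _ hD))
    · exact List.mem_append_right _ hw
  M7 pos := (O.M7 pos).full (by norm_num) (Cen.cenM7 pos)
  M11 pos := (O.M11 pos).full (by norm_num) (Cen.cenM11 pos)

/-- the requirements in terms of the full groups of `WinRows` -/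
theorem Outer.of_groups {sB s1 s7 s11 : ℚ} (hB : sB ≤ 9 / 100) (h1 : s1 ≤ 43 / 100)
    (h7 : s7 ≤ 9 / 25) (h11 : s11 ≤ 1 / 4)
    (B : ∀ pos, ∀ w ∈ grpB pos, OutOK false pos 0 sB w)
    (M1 : ∀ pos, ∀ w ∈ grpM1 pos, OutOK true pos 0 s1 w)
    (M7 : ∀ pos, ∀ w ∈ grpM7 pos, OutOK true pos (61 / 250) s7 w)
    (M11 : ∀ pos, ∀ w ∈ grpM11 pos, OutOK true pos (3969 / 10000) s11 w) : Outer where
  B pos := ⟨sB, hB, fun w hw => by
    rw [List.mem_map] at hw
    obtain ⟨D, hD, rfl⟩ := hw
    refine B pos _ (List.mem_map_of_mem ?_)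
    simp only [List.mem_append] at hD ⊢
    tauto⟩
  M1 pos := ⟨s1, h1, fun w hw => by
    refine M1 pos _ ?_
    rw [List.mem_append, List.mem_map] at hw
    rcases hw with ⟨D, hD, rfl⟩ | hw
    · exact List.mem_append_left _ (List.mem_map_of_mem (f := fun D : RawWin => D.rowM pos)
        (List.mem_append_left _ hD))
    · exact List.mem_append_right _ hw⟩
  M7 pos := ⟨s7, h7, M7 pos⟩
  M11 pos := ⟨s11, h11, M11 pos⟩

/-- **S0244 from the outer region.** -/
theorem Outer.main (O : Outer) :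
    (∀ b : ℕ, 2 ≤ b → ∀ lam : ℝ, -(1 / 2 : ℝ) ≤ lam → lam ≤ 1 → (b : ℝ) * lam ^ 2 ≤ 1 →
      Filter.Tendsto (advantage 3 b lam) Filter.atTop (nhds 0)) ∧
    (∀ d : ℝ, 1 < d → ∀ lam : ℝ, -(1 / 2 : ℝ) ≤ lam → lam ≤ 1 → d * lam ^ 2 ≤ 1 →
      Filter.Tendsto (gwAdvantage 3 lam d) Filter.atTop (nhds 0)) :=
  O.engine.main

end Crest.Agent.R163
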