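import Crest.Agent.R163.WinAsm
import Crest.Agent.R163.WinMain

/-!
Row 163: the outer region of the window engine.
-/

set_option autoImplicit false

namespace Crest.Agent.R163

open Win

theorem outer (CFs : CellFacts) : Outer where
  B pos := ⟨9 / 100, le_rfl, by
    cases pos
    · exact outBm CFs
    · exact outBp CFs⟩
  M1 pos := ⟨43 / 100, le_rfl, by
    cases pos
    · exact outM1m CFs
    · exact outM1p CFs⟩
  M7 pos := ⟨9 / 25, le_rfl, by
    cases pos
    · exact outM7m CFs
    · exact outM7p CFs⟩
  M11 pos := ⟨1 / 4, le_rfl, by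
    cases pos
    · exact outM11m CFs
    · exact outM11p CFs⟩

end Crest.Agent.R163
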