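import Crest.Agent.R163.Bern4

/-!
Row 163, window engine: testing many integer linear inequalities at once by packing the
coefficients into the digits of large integers.
-/

set_option autoImplicit false

namespace Crest.Agent.R163.Win

open Crest.Agent.R163.Bern

/-- field width -/
abbrev BW : Nat := 2 ^ 256

/-- half of the field width -/
abbrev HW : Nat := 2 ^ 255

/-- packing of integers -/
def packD : List Int → Int
  | [] => 0
  | d :: ds => d + 2 ^ 256 * packD ds

/-- packing of natural numbers -/
def packN : List Nat → Nat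
  | [] => 0
  | d :: ds => d + 2 ^ 256 * packN ds

/-- packing of coefficient vectors of length `n` -/
def packc (n : Nat) : List (List Int) → List Int
  | [] => List.replicate n 0
  | w :: ws => List.zipWith (fun a b => a + 2 ^ 256 * b) w (packc n ws)

lemma length_packc {n : Nat} {ws : List (List Int)} (h : ∀ w ∈ ws, w.length = n) :
    (packc n ws).length = n := by
  induction ws with
  | nil => simp [packc]
  | cons w ws ih =>
    have h1 := h w (by simp)
    have h2 := ih fun v hv => h v (by simp [hv])
    simp [packc, h1, h2]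

lemma dotI_zip (w p V : List Int) (h : w.length = p.length) :
    dotI (List.zipWith (fun a b => a + 2 ^ 256 * b) w p) V = dotI w V + 2 ^ 256 * dotI p V := by
  induction w generalizing p V with
  | nil =>
    have : p = [] := List.length_eq_zero_iff.mp (by simpa using h.symm)
    subst this
    show (0 : Int) = 0 + 2 ^ 256 * 0
    simp
  | cons a w ih =>
    cases p with
    | nil => simp at h
    | cons b p =>
      cases V with
      | nil => show (0 : Int) = 0 + 2 ^ 256 * 0; simp
      | cons v V =>
        have h' : w.length = p.length := by simpa using h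
        show (a + 2 ^ 256 * b) * v + dotI (List.zipWith (fun a b => a + 2 ^ 256 * b) w p) V =
          (a * v + dotI w V) + 2 ^ 256 * (b * v + dotI p V)
        rw [ih p V h']
        ring

lemma dotI_replicate (n : Nat) (V : List Int) : dotI (List.replicate n 0) V = 0 := by
  induction n generalizing V with
  | zero => rfl
  | succ n ih =>
    cases V with
    | nil => rfl
    | cons v V =>
      show (0 : Int) * v + dotI (List.replicate n 0) V = 0
      rw [ih]; ring

lemma dotI_packc {n : Nat} {ws : List (List Int)} (h : ∀ w ∈ ws, w.length = n) (V : List Int) :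
    dotI (packc n ws) V = packD (ws.map fun w => dotI w V) := by
  induction ws with
  | nil => exact dotI_replicate n V
  | cons w ws ih =>
    have h1 := h w (by simp)
    have h2 := fun v (hv : v ∈ ws) => h v (by simp [hv])
    show dotI (List.zipWith (fun a b => a + 2 ^ 256 * b) w (packc n ws)) V =
      dotI w V + 2 ^ 256 * packD (ws.map fun w => dotI w V)
    rw [dotI_zip w _ V (by rw [h1, length_packc h2]), ih h2]

lemma packD_add {α : Type*} (l : List α) (f g : α → Int) :
    packD (l.map f) + packD (l.map g) = packD (l.map fun a => f a + g a) := by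
  induction l with
  | nil => rfl
  | cons a l ih =>
    show (f a + 2 ^ 256 * packD (l.map f)) + (g a + 2 ^ 256 * packD (l.map g)) =
      (f a + g a) + 2 ^ 256 * packD (l.map fun a => f a + g a)
    rw [← ih]; ring

lemma packD_sub {α : Type*} (l : List α) (f g : α → Int) :
    packD (l.map f) - packD (l.map g) = packD (l.map fun a => f a - g a) := by
  induction l with
  | nil => rfl
  | cons a l ih =>
    show (f a + 2 ^ 256 * packD (l.map f)) - (g a + 2 ^ 256 * packD (l.map g)) =
      (f a - g a) + 2 ^ 256 * packD (l.map fun a => f a - g a)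
    rw [← ih]; ring

lemma packD_natCast {α : Type*} (l : List α) (f : α → Nat) :
    packD (l.map fun a => (f a : Int)) = (packN (l.map f) : Int) := by
  induction l with
  | nil => rfl
  | cons a l ih =>
    show (f a : Int) + 2 ^ 256 * packD (l.map fun a => (f a : Int)) =
      ((f a + 2 ^ 256 * packN (l.map f) : Nat) : Int)
    rw [ih]; push_cast; ring

/-- the bit test -/
theorem land_test {α : Type*} (l : List α) (t : α → Nat) (ht : ∀ a ∈ l, t a < 2 ^ 256)
    (h : Nat.land (packN (l.map t)) (packN (l.map fun _ => 2 ^ 255)) =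
      packN (l.map fun _ => 2 ^ 255)) : ∀ a ∈ l, 2 ^ 255 ≤ t a := by
  induction l with
  | nil => simp
  | cons a l ih =>
    have h1 := ht a (by simp)
    have h2 := fun b (hb : b ∈ l) => ht b (by simp [hb])
    set T := packN (l.map t) with hT
    set H := packN (l.map fun _ => 2 ^ 255) with hH
    have e1 : packN ((a :: l).map t) = t a + 2 ^ 256 * T := rfl
    have e2 : packN ((a :: l).map fun _ => 2 ^ 255) = 2 ^ 255 + 2 ^ 256 * H := rfl
    rw [e1, e2] at h
    have hh : (t a + 2 ^ 256 * T) &&& (2 ^ 255 + 2 ^ 256 * H) = 2 ^ 255 + 2 ^ 256 * H := h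
    have m1 : (t a + 2 ^ 256 * T) % 2 ^ 256 = t a := by
      rw [Nat.add_mul_mod_self_left]; exact Nat.mod_eq_of_lt h1
    have m2 : (2 ^ 255 + 2 ^ 256 * H) % 2 ^ 256 = 2 ^ 255 := by
      rw [Nat.add_mul_mod_self_left]; exact Nat.mod_eq_of_lt (by norm_num)
    have d1 : (t a + 2 ^ 256 * T) / 2 ^ 256 = T := by
      rw [Nat.add_mul_div_left _ _ (by positivity), Nat.div_eq_of_lt h1, zero_add]
    have d2 : (2 ^ 255 + 2 ^ 256 * H) / 2 ^ 256 = H := by
      rw [Nat.add_mul_div_left _ _ (by positivity), Nat.div_eq_of_lt (by norm_num), zero_add]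
    have k1 : ((t a + 2 ^ 256 * T) &&& (2 ^ 255 + 2 ^ 256 * H)) % 2 ^ 256 =
      (2 ^ 255 + 2 ^ 256 * H) % 2 ^ 256 := by rw [hh]
    rw [Nat.and_mod_two_pow, m1, m2] at k1
    have k2 : ((t a + 2 ^ 256 * T) &&& (2 ^ 255 + 2 ^ 256 * H)) / 2 ^ 256 =
      (2 ^ 255 + 2 ^ 256 * H) / 2 ^ 256 := by rw [hh]
    rw [Nat.and_div_two_pow, d1, d2] at k2
    intro b hb
    rcases List.mem_cons.mp hb with rfl | hb
    · rw [← k1]; exact Nat.and_le_left
    · exact ih h2 k2 b hb

/-- absolute values -/
def absL (w : List Int) : List Int := w.map fun a => ((a.natAbs : Nat) : Int)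

lemma abs_dotI_le (w V : List Int) (M : Nat) (hV : ∀ v ∈ V, v.natAbs ≤ M) :
    |dotI w V| ≤ (w.map Int.natAbs).sum * M := by
  induction w generalizing V with
  | nil => show |(0 : Int)| ≤ _; simp
  | cons a w ih =>
    cases V with
    | nil =>
      show |(0 : Int)| ≤ _
      rw [abs_zero]
      positivity
    | cons v V =>
      show |a * v + dotI w V| ≤ _
      have h1 := ih V fun u hu => hV u (by simp [hu])
      have h2 := hV v (by simp)
      have h3 : |a * v| ≤ (a.natAbs : Int) * M := by
        rw [abs_mul, Int.abs_eq_natAbs, Int.abs_eq_natAbs v]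
        exact mul_le_mul_of_nonneg_left (by exact_mod_cast h2) (by positivity)
      have h4 := abs_add_le (a * v) (dotI w V)
      rw [List.map_cons, List.sum_cons, Nat.cast_add, add_mul]
      linarith

/-- the packed test at one corner: `P, A` packed coefficients and packed absolute values,
`V` corner values, `E` error bounds -/
theorem packed_test {n : Nat} {ws : List (List Int)} (hn : ∀ w ∈ ws, w.length = n)
    (hw : ∀ w ∈ ws, (w.map Int.natAbs).sum ≤ 2 ^ 100) {V E : List Int}
    (hV : ∀ v ∈ V, v.natAbs ≤ 2 ^ 120) (hE : ∀ v ∈ E, v.natAbs ≤ 2 ^ 120) {T : Nat}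
    (hT : (T : Int) = dotI (packc n ws) V - dotI (packc n (ws.map absL)) E +
      packN (ws.map fun _ => 2 ^ 255))
    (h : Nat.land T (packN (ws.map fun _ => 2 ^ 255)) = packN (ws.map fun _ => 2 ^ 255)) :
    ∀ w ∈ ws, dotI (absL w) E ≤ dotI w V := by
  have hn' : ∀ w ∈ ws.map absL, w.length = n := by
    intro w hw
    rw [List.mem_map] at hw
    obtain ⟨w', hw', rfl⟩ := hw
    unfold absL
    rw [List.length_map]
    exact hn w' hw'
  have hb : ∀ w ∈ ws, |dotI w V| ≤ 2 ^ 220 ∧ |dotI (absL w) E| ≤ 2 ^ 220 := by
    intro w hw'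
    have h1 := abs_dotI_le w V (2 ^ 120) hV
    have h2 := abs_dotI_le (absL w) E (2 ^ 120) hE
    have h3 : ((absL w).map Int.natAbs).sum = (w.map Int.natAbs).sum := by
      unfold absL
      rw [List.map_map]
      congr 1
    rw [h3] at h2
    have h4 : (((w.map Int.natAbs).sum : Nat) : Int) * ((2 ^ 120 : Nat) : Int) ≤ 2 ^ 220 := by
      have : (w.map Int.natAbs).sum * 2 ^ 120 ≤ 2 ^ 220 := by
        calc (w.map Int.natAbs).sum * 2 ^ 120 ≤ 2 ^ 100 * 2 ^ 120 :=
              Nat.mul_le_mul_right _ (hw w hw')
          _ = 2 ^ 220 := by norm_num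
      exact_mod_cast this
    exact ⟨h1.trans h4, h2.trans h4⟩
  have hpos : ∀ w ∈ ws, 0 ≤ dotI w V - dotI (absL w) E + 2 ^ 255 := by
    intro w hw'
    obtain ⟨h1, h2⟩ := hb w hw'
    have h3 := (abs_le.mp h1).1
    have h4 := (abs_le.mp h2).2
    have : (2 : Int) ^ 220 + 2 ^ 220 ≤ 2 ^ 255 := by norm_num
    linarith
  have hlt : ∀ w ∈ ws, dotI w V - dotI (absL w) E + 2 ^ 255 < 2 ^ 256 := by
    intro w hw'
    obtain ⟨h1, h2⟩ := hb w hw'
    have h3 := (abs_le.mp h1).2
    have h4 := (abs_le.mp h2).1
    have : (2 : Int) ^ 220 + 2 ^ 220 + 2 ^ 255 < 2 ^ 256 := by norm_num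
    linarith
  have e1 : (T : Int) = packD (ws.map fun w => dotI w V - dotI (absL w) E + 2 ^ 255) := by
    rw [hT, dotI_packc hn, dotI_packc hn', List.map_map]
    have e : ((packN (ws.map fun _ => 2 ^ 255) : Nat) : Int) =
        packD (ws.map fun _ => (2 ^ 255 : Int)) := by
      rw [← packD_natCast]
      congr 1
    rw [e]
    have e' : (dotI · E) ∘ absL = fun w => dotI (absL w) E := rfl
    rw [show (ws.map ((fun w => dotI w E) ∘ absL)) = ws.map fun w => dotI (absL w) E from rfl,
      packD_sub, packD_add]
  have e2 : T = packN (ws.map fun w => (dotI w V - dotI (absL w) E + 2 ^ 255).toNat) := by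
    have : packD (ws.map fun w => dotI w V - dotI (absL w) E + 2 ^ 255) =
        packD (ws.map fun w => (((dotI w V - dotI (absL w) E + 2 ^ 255).toNat : Nat) : Int)) := by
      congr 1
      refine List.map_congr_left fun w hw' => ?_
      rw [Int.toNat_of_nonneg (hpos w hw')]
    rw [this, packD_natCast] at e1
    exact_mod_cast e1
  rw [e2] at h
  have key := land_test ws (fun w => (dotI w V - dotI (absL w) E + 2 ^ 255).toNat)
    (fun w hw' => by
      have h1 := hlt w hw'
      have h2 := hpos w hw'
      zify
      rw [Int.toNat_of_nonneg h2]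
      exact h1) h
  intro w hw'
  have h1 := key w hw'
  have h2 := hpos w hw'
  zify at h1
  rw [Int.toNat_of_nonneg h2] at h1
  linarith

end Crest.Agent.R163.Win
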