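import Crest.Agent.R163.WinCell
import Crest.Agent.R163.WinSpec
import Crest.Agent.R163.WinForm
import Crest.Agent.R163.WinPoly

/-!
Row 163, window engine: the real functions approximated by `WinCell`, and lists of models.
-/

set_option autoImplicit false

namespace Crest.Agent.R163.Win

open Set Crest.Agent.R163.Bern

/-- denominator of the numerators -/
def den (side : Bool) : ℝ := if side then 2 ^ 49 else 2 ^ 48

/-- pair term -/
noncomputable def prR (t a b : ℝ) : ℝ :=
  Real.sqrt a * Real.sqrt b * Real.cos (t * (Real.log a - Real.log b))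

/-- parameter of a functional -/
noncomputable def Fn.t (f : Fn) : ℝ := f.tn / 20

/-- the functional with the dropped terms -/
noncomputable def fR (k1 k2 k3 : Bool) (f : Fn) (a b c : ℝ) : ℝ :=
  if f.kind = 0 then
    ((if k1 && k2 then prR f.t a b else 0) + (if k1 && k3 then prR f.t a c else 0) +
      (if k2 && k3 then prR f.t b c else 0)) / 3
  else if k1 && (k2 && k3) then
    (if f.kind = 1 then fxt (1 / 6) f.t a b c else fxt (1 / 3) f.t a b c)
  else 0

/-- the exponent `x` of a functional -/
noncomputable def Fn.x (f : Fn) : ℝ := if f.kind = 0 then 1 / 2 else if f.kind = 1 then 1 / 6 else 1 / 3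

/-- the polynomial -/
noncomputable def Po.R (p : Po) (s c : ℝ) : ℝ := s ^ p.i * c ^ p.j / 2 ^ p.h

/-- `g i` is modelled with corner values `a, b, c, d` and error `e` (scale `2^44`) -/
def MdlL (x0 x1 y0 y1 : ℝ) : List (ℝ → ℝ → ℝ) → List Int → List Int → List Int → List Int →
    List Nat → Prop
  | [], [], [], [], [], [] => True
  | g :: gs, a :: as, b :: bs, c :: cs, d :: ds, e :: es =>
    Mdl x0 x1 y0 y1 g (a / 2 ^ 44) (b / 2 ^ 44) (c / 2 ^ 44) (d / 2 ^ 44) (e / 2 ^ 44) ∧
      MdlL x0 x1 y0 y1 gs as bs cs ds es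
  | _, _, _, _, _, _ => False

end Crest.Agent.R163.Win
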