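import Crest.Agent.R163.WinDec

/-!
Row 163 (S0244 antiferro): kernel-checkable scalar conditions for rational window data.
-/

set_option autoImplicit false

namespace Crest.Agent.R163

/-! ### rational bounds of `exp (-c)` -/

/-- truncated exponential series -/
def expTay (y : ℚ) : ℕ → ℚ
  | 0 => 0
  | n + 1 => expTay y n + y ^ n / (n.factorial : ℚ)

lemma expTay_eq (y : ℚ) (n : ℕ) :
    (expTay y n : ℝ) = ∑ m ∈ Finset.range n, (y : ℝ) ^ m / (m.factorial : ℝ) := by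
  induction n with
  | zero => simp [expTay]
  | succ n ih => rw [expTay, Finset.sum_range_succ]; push_cast; rw [ih]

/-- error term with ten terms -/
def expErr (y : ℚ) : ℚ := |y| ^ 10 * (11 / (Nat.factorial 10 * 10))

lemma exp_near {y : ℚ} (hy : |y| ≤ 1) :
    (expTay y 10 - expErr y : ℝ) ≤ Real.exp y ∧ Real.exp y ≤ (expTay y 10 + expErr y : ℝ) := by
  have h := Real.exp_bound (x := (y : ℝ)) (by exact_mod_cast hy) (n := 10) (by norm_num)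
  rw [← expTay_eq] at h
  have e : ((expErr y : ℚ) : ℝ) = |(y : ℝ)| ^ 10 * ((Nat.succ 10 : ℕ) / ((Nat.factorial 10 : ℕ) * (10 : ℕ))) := by
    unfold expErr
    push_cast
    norm_num
  rw [← e] at h
  have := abs_le.1 h
  constructor <;> linarith [this.1, this.2]

/-- rounding down to a multiple of `2 ^ (-50)` -/
def rdn (q : ℚ) : ℚ := (⌊q * 1125899906842624⌋ : ℤ) / 1125899906842624
/-- rounding up to a multiple of `2 ^ (-50)` -/
def rup (q : ℚ) : ℚ := (⌈q * 1125899906842624⌉ : ℤ) / 1125899906842624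

lemma rdn_le (q : ℚ) : rdn q ≤ q := by
  unfold rdn
  rw [div_le_iff₀ (by norm_num)]
  exact Int.floor_le _

lemma le_rup (q : ℚ) : q ≤ rup q := by
  unfold rup
  rw [le_div_iff₀ (by norm_num)]
  exact Int.le_ceil _

/-- lower bound of `exp (-c)`, `0 ≤ c ≤ 16` -/
def eLo (c : ℚ) : ℚ :=
  let t := max 0 (rdn (expTay (-c / 16) 10 - expErr (-c / 16)))
  let t := max 0 (rdn (t * t))
  let t := max 0 (rdn (t * t))
  let t := max 0 (rdn (t * t))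
  max 0 (rdn (t * t))

/-- upper bound of `exp (-c)`, `0 ≤ c ≤ 16` -/
def eHi (c : ℚ) : ℚ :=
  let t := rup (expTay (-c / 16) 10 + expErr (-c / 16))
  let t := rup (t * t)
  let t := rup (t * t)
  let t := rup (t * t)
  rup (t * t)

lemma sq_lo {t : ℚ} {x : ℝ} (h0 : 0 ≤ t) (h : (t : ℝ) ≤ x) :
    0 ≤ max 0 (rdn (t * t)) ∧ ((max 0 (rdn (t * t)) : ℚ) : ℝ) ≤ x * x := by
  refine ⟨le_max_left _ _, ?_⟩
  have h0' : (0 : ℝ) ≤ t := by exact_mod_cast h0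
  have h1 : (t : ℝ) * t ≤ x * x := mul_le_mul h h h0' (h0'.trans h)
  have h2 : ((rdn (t * t) : ℚ) : ℝ) ≤ t * t := by exact_mod_cast rdn_le (t * t)
  push_cast
  exact max_le (mul_self_nonneg x) (h2.trans h1)

lemma sq_hi {t : ℚ} {x : ℝ} (h0 : 0 ≤ x) (h : x ≤ (t : ℝ)) :
    x * x ≤ ((rup (t * t) : ℚ) : ℝ) := by
  have h1 : x * x ≤ (t : ℝ) * t := mul_le_mul h h h0 (h0.trans h)
  have h2 : (t : ℝ) * t ≤ ((rup (t * t) : ℚ) : ℝ) := by exact_mod_cast le_rup (t * t)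
  exact h1.trans h2

lemma exp_sixteen (c : ℝ) : Real.exp (-c) = (let x := Real.exp (-c / 16)
    let y := x * x
    let z := y * y
    let w := z * z
    w * w) := by
  simp only [← Real.exp_add]
  congr 1
  ring

theorem eLo_le {c : ℚ} (h0 : 0 ≤ c) (h1 : c ≤ 16) : (eLo c : ℝ) ≤ Real.exp (-c) := by
  have hy : |(-c / 16 : ℚ)| ≤ 1 := by
    rw [abs_le]; constructor <;> linarith
  have hb := (exp_near hy).1
  rw [exp_sixteen]
  unfold eLo
  simp only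
  have s0 : ((max 0 (rdn (expTay (-c / 16) 10 - expErr (-c / 16))) : ℚ) : ℝ) ≤
      Real.exp (-c / 16) := by
    have e : ((rdn (expTay (-c / 16) 10 - expErr (-c / 16)) : ℚ) : ℝ) ≤
        (expTay (-c / 16) 10 - expErr (-c / 16) : ℝ) := by
      exact_mod_cast rdn_le (expTay (-c / 16) 10 - expErr (-c / 16))
    push_cast at hb ⊢
    exact max_le (Real.exp_pos _).le (e.trans hb)
  have s1 := sq_lo (le_max_left _ _) s0
  have s2 := sq_lo s1.1 s1.2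
  have s3 := sq_lo s2.1 s2.2
  exact (sq_lo s3.1 s3.2).2

theorem le_eHi {c : ℚ} (h0 : 0 ≤ c) (h1 : c ≤ 16) : Real.exp (-c) ≤ (eHi c : ℝ) := by
  have hy : |(-c / 16 : ℚ)| ≤ 1 := by
    rw [abs_le]; constructor <;> linarith
  have hb := (exp_near hy).2
  rw [exp_sixteen]
  unfold eHi
  simp only
  have s0 : Real.exp (-c / 16) ≤ ((rup (expTay (-c / 16) 10 + expErr (-c / 16)) : ℚ) : ℝ) := by
    have e : (expTay (-c / 16) 10 + expErr (-c / 16) : ℝ) ≤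
        ((rup (expTay (-c / 16) 10 + expErr (-c / 16)) : ℚ) : ℝ) := by
      exact_mod_cast le_rup (expTay (-c / 16) 10 + expErr (-c / 16))
    push_cast at hb
    exact hb.trans e
  have p0 : 0 ≤ Real.exp (-(c : ℝ) / 16) := (Real.exp_pos _).le
  have s1 := sq_hi p0 s0
  have s2 := sq_hi (mul_self_nonneg _) s1
  have s3 := sq_hi (mul_self_nonneg _) s2
  exact sq_hi (mul_self_nonneg _) s3

/-! ### rational window data -/

/-- rational window data, `cc` = tangent points -/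
structure QWin (k : ℕ) where
  /-- weights of the positive terms -/
  μ : Fin k → ℚ
  /-- slopes of the tangents -/
  τ : Fin k → ℚ
  /-- constants of the tangents -/
  t0 : Fin k → ℚ
  /-- tangent points -/
  cc : Fin k → ℚ
  /-- weight of the negative term -/
  m : ℚ
  /-- constant of the chord -/
  a0 : ℚ
  /-- slope of the chord -/
  σ : ℚ
  /-- multiplier of `u0 ≤ u` -/
  l1 : ℚ
  /-- multiplier of `u ≤ u1` -/
  l2 : ℚ
  /-- multiplier of `x0 ≤ X` -/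
  ξ : ℚ
  /-- lower end of the window -/
  u0 : ℚ
  /-- upper end of the window -/
  u1 : ℚ
  /-- slack -/
  lam : ℚ
  /-- polynomial for `0 ≤ c` -/
  P : List (ℕ × ℕ × ℚ)
  /-- polynomial (in `s`, `-c`) for `c < 0` -/
  Q : List (ℕ × ℕ × ℚ)

/-- cast of a rational polynomial -/
def castPol (P : List (ℕ × ℕ × ℚ)) : List (ℕ × ℕ × ℝ) := P.map fun e => (e.1, e.2.1, (e.2.2 : ℝ))

/-- the real window -/
def QWin.toDec {k : ℕ} (D : QWin k) : DecWin k where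
  μ j := D.μ j
  τ j := D.τ j
  t0 j := D.t0 j
  m := D.m
  a0 := D.a0
  σ := D.σ
  l1 := D.l1
  l2 := D.l2
  ξ := D.ξ
  u0 := D.u0
  u1 := D.u1
  lam := D.lam
  P := castPol D.P
  Q := castPol D.Q

/-- nonnegative coefficients, no constant term -/
def polChk (P : List (ℕ × ℕ × ℚ)) : Bool :=
  P.all fun e => decide (0 ≤ e.2.2) && decide (e.1 + e.2.1 ≠ 0)

lemma polChk_ok {P : List (ℕ × ℕ × ℚ)} (h : polChk P = true) : PolOK (castPol P) := by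
  intro e he
  unfold castPol at he
  rw [List.mem_map] at he
  obtain ⟨e', he', rfl⟩ := he
  unfold polChk at h
  rw [List.all_eq_true] at h
  have h1 := h e' he'
  rw [Bool.and_eq_true, decide_eq_true_eq, decide_eq_true_eq] at h1
  refine ⟨?_, h1.2⟩
  show (0 : ℝ) ≤ (e'.2.2 : ℝ)
  exact_mod_cast h1.1

/-- signs and the constant -/
def QWin.base {k : ℕ} (D : QWin k) (Dmax x0 : ℚ) : Bool :=
  decide (∀ j, 0 ≤ D.μ j) && decide (0 ≤ D.m) && decide (0 ≤ D.l1) && decide (0 ≤ D.l2) &&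
  decide (0 ≤ D.ξ) && decide (0 ≤ D.lam) && polChk D.P && polChk D.Q &&
  decide ((Dmax + 4) * D.lam < D.l1 * D.u0 - D.l2 * D.u1 + 4 * D.ξ * x0 -
    (List.ofFn fun j => D.μ j * D.t0 j).sum + D.m * D.a0)

/-- the scalar test for Poisson trees -/
def QWin.chkP {k : ℕ} (D : QWin k) (Dmax x0 : ℚ) : Bool :=
  D.base Dmax x0 &&
  decide (∀ j, 0 ≤ D.cc j ∧ D.cc j ≤ 16 ∧ eHi (D.cc j) ≤ D.τ j ∧
    1 - (1 + D.cc j) * eLo (D.cc j) ≤ D.t0 j) &&
  decide (0 ≤ D.u0) && decide (D.u0 ≤ 16) && decide (0 ≤ D.u1) && decide (D.u1 ≤ 16) &&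
  decide (D.a0 + D.σ * D.u0 ≤ 1 - eHi D.u0) && decide (D.a0 + D.σ * D.u1 ≤ 1 - eHi D.u1)

/-- the scalar test for regular trees -/
def QWin.chkR {k : ℕ} (D : QWin k) (b : ℕ) (Dmax x0 : ℚ) : Bool :=
  D.base Dmax x0 &&
  decide (∀ j, D.cc j ≤ b ∧ (1 - D.cc j / b) ^ (b - 1) ≤ D.τ j ∧
    1 - (1 - D.cc j / b) ^ b - (1 - D.cc j / b) ^ (b - 1) * D.cc j ≤ D.t0 j) &&
  decide (D.u1 ≤ b) &&
  decide (D.a0 + D.σ * D.u0 ≤ 1 - (1 - D.u0 / b) ^ b) &&
  decide (D.a0 + D.σ * D.u1 ≤ 1 - (1 - D.u1 / b) ^ b)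

lemma QWin.K_ok {k : ℕ} {D : QWin k} {Dmax x0 : ℚ}
    (h : (Dmax + 4) * D.lam < D.l1 * D.u0 - D.l2 * D.u1 + 4 * D.ξ * x0 -
      (List.ofFn fun j => D.μ j * D.t0 j).sum + D.m * D.a0) :
    ((Dmax : ℝ) + 4) * D.toDec.lam < D.toDec.l1 * D.toDec.u0 - D.toDec.l2 * D.toDec.u1 +
      4 * D.toDec.ξ * x0 - ∑ j, D.toDec.μ j * D.toDec.t0 j + D.toDec.m * D.toDec.a0 := by
  rw [List.sum_ofFn] at h
  have h1 := (Rat.cast_lt (K := ℝ)).2 h
  push_cast at h1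
  exact h1

theorem QWin.scalP {k : ℕ} {D : QWin k} {Dmax x0 : ℚ} (h : D.chkP Dmax x0 = true) :
    D.toDec.Scal Up (Set.Ici 0) Dmax x0 := by
  unfold QWin.chkP QWin.base at h
  simp only [Bool.and_eq_true, decide_eq_true_eq] at h
  obtain ⟨⟨⟨⟨⟨⟨⟨⟨⟨⟨⟨⟨⟨⟨⟨h1, h2⟩, h3⟩, h4⟩, h5⟩, h6⟩, h7⟩, h8⟩, h9⟩, h10⟩, h11⟩, h12⟩, h13⟩, h14⟩, h15⟩,
    h16⟩ := h
  constructor
  · intro j; show (0 : ℝ) ≤ D.μ j; exact_mod_cast h1 j
  · show (0 : ℝ) ≤ D.m; exact_mod_cast h2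
  · show (0 : ℝ) ≤ D.l1; exact_mod_cast h3
  · show (0 : ℝ) ≤ D.l2; exact_mod_cast h4
  · show (0 : ℝ) ≤ D.ξ; exact_mod_cast h5
  · show (0 : ℝ) ≤ D.lam; exact_mod_cast h6
  · intro j B hB
    have hj := h10 j
    have c0 : (0 : ℝ) ≤ D.cc j := by exact_mod_cast hj.1
    have t := Up_tangent_of c0 (eLo_le hj.1 hj.2.1) (le_eHi hj.1 hj.2.1) (B := B) hB
    have t1 : (eHi (D.cc j) : ℝ) ≤ D.τ j := by exact_mod_cast hj.2.2.1
    have t2 : 1 - (1 + (D.cc j : ℝ)) * eLo (D.cc j) ≤ D.t0 j := by exact_mod_cast hj.2.2.2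
    have t3 := mul_le_mul_of_nonneg_right t1 (show (0 : ℝ) ≤ B from hB)
    show Up B ≤ (D.t0 j : ℝ) + D.τ j * B
    linarith
  · intro B h0 h1
    show (D.a0 : ℝ) + D.σ * B ≤ Up B
    refine Up_chord_of (u0 := D.u0) (u1 := D.u1) ?_ ?_ h0 h1
    · have a := le_eHi h11 h12
      have b : (D.a0 : ℝ) + D.σ * D.u0 ≤ 1 - eHi D.u0 := by exact_mod_cast h15
      unfold Up; linarith
    · have a := le_eHi h13 h14
      have b : (D.a0 : ℝ) + D.σ * D.u1 ≤ 1 - eHi D.u1 := by exact_mod_cast h16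
      unfold Up; linarith
  · exact polChk_ok h7
  · exact polChk_ok h8
  · exact QWin.K_ok h9

theorem QWin.scalR {k : ℕ} {D : QWin k} {b : ℕ} (hb : b ≠ 0) {Dmax x0 : ℚ}
    (h : D.chkR b Dmax x0 = true) : D.toDec.Scal (Ub b) (Set.Icc 0 b) Dmax x0 := by
  unfold QWin.chkR QWin.base at h
  simp only [Bool.and_eq_true, decide_eq_true_eq] at h
  obtain ⟨⟨⟨⟨⟨⟨⟨⟨⟨⟨⟨⟨h1, h2⟩, h3⟩, h4⟩, h5⟩, h6⟩, h7⟩, h8⟩, h9⟩, h10⟩, h11⟩, h12⟩, h13⟩ := h
  constructor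
  · intro j; show (0 : ℝ) ≤ D.μ j; exact_mod_cast h1 j
  · show (0 : ℝ) ≤ D.m; exact_mod_cast h2
  · show (0 : ℝ) ≤ D.l1; exact_mod_cast h3
  · show (0 : ℝ) ≤ D.l2; exact_mod_cast h4
  · show (0 : ℝ) ≤ D.ξ; exact_mod_cast h5
  · show (0 : ℝ) ≤ D.lam; exact_mod_cast h6
  · intro j B hB
    have hj := h10 j
    have c0 : (D.cc j : ℝ) ≤ b := by exact_mod_cast hj.1
    have t := Ub_tangent hb c0 hB.2
    have t1 : (1 - (D.cc j : ℝ) / b) ^ (b - 1) ≤ D.τ j := by exact_mod_cast hj.2.1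
    have t2 : 1 - (1 - (D.cc j : ℝ) / b) ^ b - (1 - (D.cc j : ℝ) / b) ^ (b - 1) * D.cc j ≤
        D.t0 j := by exact_mod_cast hj.2.2
    have t3 := mul_le_mul_of_nonneg_right t1 hB.1
    show Ub b B ≤ (D.t0 j : ℝ) + D.τ j * B
    unfold Ub at t ⊢
    linarith
  · intro B h0 h1
    show (D.a0 : ℝ) + D.σ * B ≤ Ub b B
    refine Ub_chord_of hb (u0 := D.u0) (u1 := D.u1) ?_ ?_ (by exact_mod_cast h11) h0 h1
    · unfold Ub; exact_mod_cast h12
    · unfold Ub; exact_mod_cast h13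
  · exact polChk_ok h7
  · exact polChk_ok h8
  · exact QWin.K_ok h9

/-! ### lists of windows -/

/-- the windows cover `[A, B]` -/
def covChk {k : ℕ} : List (QWin k) → ℚ → ℚ → Bool
  | [], A, B => decide (B < A)
  | D :: l, A, B => decide (D.u0 ≤ A) && (decide (B ≤ D.u1) || covChk l D.u1 B)

lemma covChk_ok {k : ℕ} {l : List (QWin k)} {A B : ℚ} (h : covChk l A B = true) {v : ℝ}
    (h0 : (A : ℝ) ≤ v) (h1 : v ≤ B) : ∃ D ∈ l, (D.u0 : ℝ) ≤ v ∧ v ≤ D.u1 := by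
  induction l generalizing A with
  | nil =>
    unfold covChk at h
    rw [decide_eq_true_eq] at h
    have : (B : ℝ) < A := by exact_mod_cast h
    linarith
  | cons D l ih =>
    unfold covChk at h
    rw [Bool.and_eq_true, Bool.or_eq_true, decide_eq_true_eq, decide_eq_true_eq] at h
    obtain ⟨h2, h3⟩ := h
    have h2' : (D.u0 : ℝ) ≤ A := by exact_mod_cast h2
    rcases le_or_gt v D.u1 with hv | hv
    · exact ⟨D, List.mem_cons_self, h2'.trans h0, hv⟩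
    · rcases h3 with h3 | h3
      · have : (B : ℝ) ≤ D.u1 := by exact_mod_cast h3
        linarith
      · obtain ⟨D', hD', h4⟩ := ih h3 hv.le
        exact ⟨D', List.mem_cons_of_mem _ hD', h4⟩

/-- Poisson trees, from a list of rational windows -/
theorem exists_lt_gw_list {k : ℕ} {xa ta : Fin k → ℝ}
    (hx : ∀ j, 0 < xa j ∧ xa j ≤ 1 / 2) {xr tr : ℝ} (hxr : 0 < xr ∧ xr ≤ 1 / 2)
    (l : List (QWin k)) {Dmax x0 c p : ℚ} {d ρ0 : ℝ} (h0 : 0 < ρ0) (hρ1 : ρ0 ≤ 1)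
    (hd : 4 ≤ d * ρ0 ^ 2) (hdD : d ≤ Dmax)
    (hc : 0 ≤ c) (hp : 0 ≤ p) (hR : PinBd (fxt xr tr) ρ0 c p)
    (hchk : (l.all fun D => D.chkP Dmax x0) = true) (hcov : covChk l (4 * c * x0) (8 * p) = true)
    (hpt : ∀ D ∈ l, D.toDec.Pt (fun j => fxt (xa j) (ta j)) (fxt xr tr) ρ0) :
    ∃ n, J chi (gw 3 (-(1 / Real.sqrt d)) d n) < x0 := by
  refine exists_lt_gw_dec hx hxr (xa := xa) (ta := ta) (xr := xr) (tr := tr) (Dmax := Dmax)
    (x0 := x0) (c := c) (p := p) h0 hρ1 hd hdD (by exact_mod_cast hc) (by exact_mod_cast hp)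
    hR fun v hv0 hv1 => ?_
  obtain ⟨D, hD, h1, h2⟩ := covChk_ok hcov (v := v) (by push_cast; exact hv0)
    (by push_cast; exact hv1)
  rw [List.all_eq_true] at hchk
  exact ⟨D.toDec, QWin.scalP (hchk D hD), hpt D hD, h1, h2⟩

/-- regular trees, from a list of rational windows -/
theorem exists_lt_reg_list {k : ℕ} {xa ta : Fin k → ℝ}
    (hx : ∀ j, 0 < xa j ∧ xa j ≤ 1 / 2) {xr tr : ℝ} (hxr : 0 < xr ∧ xr ≤ 1 / 2)
    (l : List (QWin k)) {b : ℕ} {Dmax x0 c p : ℚ} {ρ0 : ℝ} (h0 : 0 < ρ0) (hρ1 : ρ0 ≤ 1)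
    (hb : 4 ≤ (b : ℝ) * ρ0 ^ 2) (hbD : (b : ℚ) ≤ Dmax)
    (hc : 0 ≤ c) (hp : 0 ≤ p) (hR : PinBd (fxt xr tr) ρ0 c p)
    (hpos : ∀ j, ∀ x y z : ℝ, 0 < x → 0 < y → 0 < z → x + y + z = 3 →
      0 ≤ fxt (xa j) (ta j) (1 - ρ0 * (x - 1) / 2) (1 - ρ0 * (y - 1) / 2)
        (1 - ρ0 * (z - 1) / 2))
    (hchk : (l.all fun D => D.chkR b Dmax x0) = true)
    (hcov : covChk l (4 * c * x0) (8 * p) = true)
    (hpt : ∀ D ∈ l, D.toDec.Pt (fun j => fxt (xa j) (ta j)) (fxt xr tr) ρ0) :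
    ∃ n, J chi (reg 3 b (-(1 / Real.sqrt b)) n) < x0 := by
  have hb0 : b ≠ 0 := by
    rintro rfl
    norm_num at hb
  refine exists_lt_reg_dec hx hxr (xa := xa) (ta := ta) (xr := xr) (tr := tr) (Dmax := Dmax)
    (x0 := x0) (c := c) (p := p) h0 hρ1 hb (by exact_mod_cast hbD) (by exact_mod_cast hc)
    (by exact_mod_cast hp) hR hpos fun v hv0 hv1 => ?_
  obtain ⟨D, hD, h1, h2⟩ := covChk_ok hcov (v := v) (by push_cast; exact hv0)
    (by push_cast; exact hv1)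
  rw [List.all_eq_true] at hchk
  exact ⟨D.toDec, QWin.scalR hb0 (hchk D hD), hpt D hD, h1, h2⟩

/-! ### example: the kernel evaluates the tests -/

example : eLo (3 / 2) ≤ 22313017 / 100000000 ∧ 22313015 / 100000000 ≤ eLo (3 / 2) ∧
    eHi (3 / 2) ≤ 22313017 / 100000000 := by decide +kernel

end Crest.Agent.R163
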