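import Crest.Agent.R163.WinInterp
import Crest.Agent.R163.Cxt

/-!
Row 163, window engine, part 2: interpolation models of the terms of `C(x,t)`, bounds near the
edges of the triangle, symmetry reduction and closure.
-/

set_option autoImplicit false

namespace Crest.Agent.R163.Win

open Set

/-- interpolation model of a product of complex powers of affine functions -/
theorem mono_mdl {ι : Type*} [Fintype ι] {z : ι → ℂ} {c a b : ι → ℝ} {x0 x1 y0 y1 P γ : ℝ}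
    {ux uy : ι → ℝ} (hx01 : x0 < x1) (hy01 : y0 < y1)
    (hpos : ∀ x ∈ Icc x0 x1, ∀ y ∈ Icc y0 y1, ∀ i, 0 < c i + a i * x + b i * y)
    (hux : ∀ x ∈ Icc x0 x1, ∀ y ∈ Icc y0 y1, ∀ i,
      |a i| * (x1 - x0) ≤ ux i * (c i + a i * x + b i * y))
    (huy : ∀ x ∈ Icc x0 x1, ∀ y ∈ Icc y0 y1, ∀ i,
      |b i| * (y1 - y0) ≤ uy i * (c i + a i * x + b i * y))
    (hP : ∀ x ∈ Icc x0 x1, ∀ y ∈ Icc y0 y1,
      Real.exp (∑ i, (z i).re * Real.log (c i + a i * x + b i * y)) ≤ P)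
    (hγ : ∀ i, ‖z i‖ ≤ γ) :
    Mdl x0 x1 y0 y1
      (fun x y => (Complex.exp (∑ i, z i * (Real.log (c i + a i * x + b i * y) : ℂ))).re)
      (Complex.exp (∑ i, z i * (Real.log (c i + a i * x0 + b i * y0) : ℂ))).re
      (Complex.exp (∑ i, z i * (Real.log (c i + a i * x0 + b i * y1) : ℂ))).re
      (Complex.exp (∑ i, z i * (Real.log (c i + a i * x1 + b i * y0) : ℂ))).re
      (Complex.exp (∑ i, z i * (Real.log (c i + a i * x1 + b i * y1) : ℂ))).re
      (P * (γ ^ 2 * ((∑ i, ux i) ^ 2 + (∑ i, uy i) ^ 2) +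
        γ * (∑ i, ux i ^ 2 + ∑ i, uy i ^ 2)) / 8) := by
  have ex : ∀ x y : ℝ, Complex.exp (∑ i, z i * (Real.log (c i + a i * x + b i * y) : ℂ)) =
      cm z (fun i => c i + b i * y) a x := by
    intro x y
    unfold cm
    congr 1
    refine Finset.sum_congr rfl fun i _ => ?_
    rw [show c i + a i * x + b i * y = c i + b i * y + x * a i by ring]
  have ey : ∀ x y : ℝ, Complex.exp (∑ i, z i * (Real.log (c i + a i * x + b i * y) : ℂ)) =
      cm z (fun i => c i + a i * x) b y := by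
    intro x y
    unfold cm
    congr 1
    refine Finset.sum_congr rfl fun i _ => ?_
    rw [show c i + a i * x + b i * y = c i + a i * x + y * b i by ring]
  have h1 := interp2 (g := fun x y =>
      (Complex.exp (∑ i, z i * (Real.log (c i + a i * x + b i * y) : ℂ))).re)
    (Mx := P * (γ ^ 2 * (∑ i, ux i) ^ 2 + γ * ∑ i, ux i ^ 2) / 8)
    (My := P * (γ ^ 2 * (∑ i, uy i) ^ 2 + γ * ∑ i, uy i ^ 2) / 8) hx01 hy01 ?_ ?_
  · refine h1.mono (le_of_eq ?_)
    ring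
  · intro y hy x hx
    simp only [ex]
    refine mono_interp hx01 (fun s hs i => ?_) (fun s hs i => ?_) (fun s hs => ?_) hγ hx
    · have := hpos s hs y hy i
      linarith
    · have := hux s hs y hy i
      rwa [show c i + b i * y + s * a i = c i + a i * s + b i * y by ring]
    · rw [norm_cm]
      have := hP s hs y hy
      refine le_trans (le_of_eq ?_) this
      congr 1
      refine Finset.sum_congr rfl fun i _ => ?_
      rw [show c i + b i * y + s * a i = c i + a i * s + b i * y by ring]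
  · intro x hx y hy
    simp only [ey]
    refine mono_interp hy01 (fun s hs i => ?_) (fun s hs i => ?_) (fun s hs => ?_) hγ hy
    · have := hpos x hx s hs i
      linarith
    · have := huy x hx s hs i
      rwa [show c i + a i * x + s * b i = c i + a i * x + b i * s by ring]
    · rw [norm_cm]
      have := hP x hx s hs
      refine le_trans (le_of_eq ?_) this
      congr 1
      refine Finset.sum_congr rfl fun i _ => ?_
      rw [show c i + a i * x + s * b i = c i + a i * x + b i * s by ring]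

/-- the exponential form of one term of `C(x,t)` -/
lemma exp_ctm (xx t : ℝ) {C A B : ℝ} (hC : 0 < C) (hA : 0 < A) (hB : 0 < B) :
    (Complex.exp (∑ i, exc xx t i * (Real.log (![C, A, B] i) : ℂ))).re = ctm xx t C A B := by
  rw [Fin.sum_univ_three]
  simp only [exc, Matrix.cons_val_zero, Matrix.cons_val_one, Matrix.cons_val]
  have e : ((1 - 2 * xx : ℝ) : ℂ) * (Real.log C : ℂ) +
      ((xx : ℂ) + t * Complex.I) * (Real.log A : ℂ) +
      ((xx : ℂ) - t * Complex.I) * (Real.log B : ℂ) =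
      (((1 - 2 * xx) * Real.log C + (xx * Real.log A + xx * Real.log B) : ℝ) : ℂ) +
      ((t * (Real.log A - Real.log B) : ℝ) : ℂ) * Complex.I := by
    push_cast
    ring
  rw [e, Complex.exp_add, ← Complex.ofReal_exp, Complex.re_ofReal_mul,
    Complex.exp_ofReal_mul_I_re, Real.exp_add, Real.exp_add]
  unfold ctm
  rw [Real.rpow_def_of_pos hC, Real.rpow_def_of_pos hA, Real.rpow_def_of_pos hB]
  rw [mul_comm (1 - 2 * xx) (Real.log C), mul_comm xx (Real.log A), mul_comm xx (Real.log B)]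

lemma norm_sq_eq (z : ℂ) : ‖z‖ ^ 2 = z.re ^ 2 + z.im ^ 2 := by
  rw [← Complex.normSq_eq_norm_sq, Complex.normSq_apply]
  ring

lemma norm_exc_le {xx t γ : ℝ} (hγ0 : 0 ≤ γ) (h1 : |1 - 2 * xx| ≤ γ)
    (h2 : xx ^ 2 + t ^ 2 ≤ γ ^ 2) (i : Fin 3) : ‖exc xx t i‖ ≤ γ := by
  fin_cases i
  · simp only [exc, Fin.zero_eta, Matrix.cons_val_zero, Complex.norm_real, Real.norm_eq_abs]
    exact h1
  · simp only [exc, Fin.mk_one, Matrix.cons_val_one, Matrix.cons_val_zero]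
    refine abs_le_of_sq_le_sq' ?_ hγ0 |>.2
    rw [norm_sq_eq]
    simpa using h2
  · simp only [exc, Fin.reduceFinMk, Matrix.cons_val]
    refine abs_le_of_sq_le_sq' ?_ hγ0 |>.2
    rw [norm_sq_eq]
    simpa using h2

/-- model of one term of `C(x,t)` on a cell away from the edges -/
theorem tri_mdl {xx t γ x0 x1 y0 y1 P c0 c1 c2 a0 a1 a2 b0 b1 b2 uCx uCy uAx uAy uBx uBy : ℝ}
    (hx01 : x0 < x1) (hy01 : y0 < y1)
    (hC : ∀ x ∈ Icc x0 x1, ∀ y ∈ Icc y0 y1, 0 < c0 + c1 * x + c2 * y ∧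
      |c1| * (x1 - x0) ≤ uCx * (c0 + c1 * x + c2 * y) ∧
      |c2| * (y1 - y0) ≤ uCy * (c0 + c1 * x + c2 * y))
    (hA : ∀ x ∈ Icc x0 x1, ∀ y ∈ Icc y0 y1, 0 < a0 + a1 * x + a2 * y ∧
      |a1| * (x1 - x0) ≤ uAx * (a0 + a1 * x + a2 * y) ∧
      |a2| * (y1 - y0) ≤ uAy * (a0 + a1 * x + a2 * y))
    (hB : ∀ x ∈ Icc x0 x1, ∀ y ∈ Icc y0 y1, 0 < b0 + b1 * x + b2 * y ∧
      |b1| * (x1 - x0) ≤ uBx * (b0 + b1 * x + b2 * y) ∧
      |b2| * (y1 - y0) ≤ uBy * (b0 + b1 * x + b2 * y))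
    (hP : ∀ x ∈ Icc x0 x1, ∀ y ∈ Icc y0 y1, (c0 + c1 * x + c2 * y) ^ (1 - 2 * xx) *
      ((a0 + a1 * x + a2 * y) ^ xx * (b0 + b1 * x + b2 * y) ^ xx) ≤ P)
    (hγ0 : 0 ≤ γ) (hγ1 : |1 - 2 * xx| ≤ γ) (hγ2 : xx ^ 2 + t ^ 2 ≤ γ ^ 2) :
    Mdl x0 x1 y0 y1
      (fun x y => ctm xx t (c0 + c1 * x + c2 * y) (a0 + a1 * x + a2 * y) (b0 + b1 * x + b2 * y))
      (ctm xx t (c0 + c1 * x0 + c2 * y0) (a0 + a1 * x0 + a2 * y0) (b0 + b1 * x0 + b2 * y0))
      (ctm xx t (c0 + c1 * x0 + c2 * y1) (a0 + a1 * x0 + a2 * y1) (b0 + b1 * x0 + b2 * y1))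
      (ctm xx t (c0 + c1 * x1 + c2 * y0) (a0 + a1 * x1 + a2 * y0) (b0 + b1 * x1 + b2 * y0))
      (ctm xx t (c0 + c1 * x1 + c2 * y1) (a0 + a1 * x1 + a2 * y1) (b0 + b1 * x1 + b2 * y1))
      (P * (γ ^ 2 * ((uCx + uAx + uBx) ^ 2 + (uCy + uAy + uBy) ^ 2) +
        γ * ((uCx ^ 2 + uAx ^ 2 + uBx ^ 2) + (uCy ^ 2 + uAy ^ 2 + uBy ^ 2))) / 8) := by
  have hlin : ∀ x y : ℝ, ∀ i : Fin 3,
      ![c0, a0, b0] i + ![c1, a1, b1] i * x + ![c2, a2, b2] i * y =
      ![c0 + c1 * x + c2 * y, a0 + a1 * x + a2 * y, b0 + b1 * x + b2 * y] i := by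
    intro x y i
    fin_cases i <;> rfl
  have key := mono_mdl (z := exc xx t) (c := ![c0, a0, b0]) (a := ![c1, a1, b1])
    (b := ![c2, a2, b2]) (P := P) (γ := γ) (ux := ![uCx, uAx, uBx]) (uy := ![uCy, uAy, uBy])
    hx01 hy01 (fun x hx y hy i => by
      rw [hlin]
      fin_cases i
      · exact (hC x hx y hy).1
      · exact (hA x hx y hy).1
      · exact (hB x hx y hy).1)
    (fun x hx y hy i => by
      rw [hlin]
      fin_cases i
      · exact (hC x hx y hy).2.1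
      · exact (hA x hx y hy).2.1
      · exact (hB x hx y hy).2.1)
    (fun x hx y hy i => by
      rw [hlin]
      fin_cases i
      · exact (hC x hx y hy).2.2
      · exact (hA x hx y hy).2.2
      · exact (hB x hx y hy).2.2)
    (fun x hx y hy => by
      simp only [hlin]
      rw [Fin.sum_univ_three, exc_re, exc_re, exc_re]
      simp only [Matrix.cons_val_zero, Matrix.cons_val_one, Matrix.cons_val]
      have h1 := (hC x hx y hy).1
      have h2 := (hA x hx y hy).1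
      have h3 := (hB x hx y hy).1
      refine le_trans (le_of_eq ?_) (hP x hx y hy)
      rw [Real.rpow_def_of_pos h1, Real.rpow_def_of_pos h2, Real.rpow_def_of_pos h3,
        ← Real.exp_add, ← Real.exp_add]
      congr 1
      ring)
    (norm_exc_le hγ0 hγ1 hγ2)
  have hx0m := left_mem_Icc.mpr hx01.le
  have hx1m := right_mem_Icc.mpr hx01.le
  have hy0m := left_mem_Icc.mpr hy01.le
  have hy1m := right_mem_Icc.mpr hy01.le
  simp only [hlin] at key
  rw [exp_ctm xx t (hC _ hx0m _ hy0m).1 (hA _ hx0m _ hy0m).1 (hB _ hx0m _ hy0m).1,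
    exp_ctm xx t (hC _ hx0m _ hy1m).1 (hA _ hx0m _ hy1m).1 (hB _ hx0m _ hy1m).1,
    exp_ctm xx t (hC _ hx1m _ hy0m).1 (hA _ hx1m _ hy0m).1 (hB _ hx1m _ hy0m).1,
    exp_ctm xx t (hC _ hx1m _ hy1m).1 (hA _ hx1m _ hy1m).1 (hB _ hx1m _ hy1m).1] at key
  have key2 : Mdl x0 x1 y0 y1
      (fun x y => ctm xx t (c0 + c1 * x + c2 * y) (a0 + a1 * x + a2 * y) (b0 + b1 * x + b2 * y))
      _ _ _ _ _ := key.congr fun x hx y hy _ _ =>
        (exp_ctm xx t (hC x hx y hy).1 (hA x hx y hy).1 (hB x hx y hy).1).symm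
  refine key2.mono (le_of_eq ?_)
  simp only [Fin.sum_univ_three, Matrix.cons_val_zero, Matrix.cons_val_one, Matrix.cons_val]

/-! ### special values of `x` -/

lemma ctm_half (t c a b : ℝ) :
    ctm (1 / 2) t c a b = Real.sqrt a * Real.sqrt b * Real.cos (t * (Real.log a - Real.log b)) := by
  unfold ctm
  rw [Real.sqrt_eq_rpow, Real.sqrt_eq_rpow]
  have : (1 : ℝ) - 2 * (1 / 2) = 0 := by norm_num
  rw [this, Real.rpow_zero, one_mul]

lemma ctm_sixth (t : ℝ) {c a b : ℝ} (hc : 0 < c) (ha : 0 < a) (hb : 0 < b) :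
    ctm (1 / 6) t c a b = Real.exp ((Real.log a + Real.log b + Real.log c) / 6) * Real.sqrt c *
      Real.cos (t * (Real.log a - Real.log b)) := by
  unfold ctm
  rw [Real.sqrt_eq_rpow, Real.rpow_def_of_pos hc, Real.rpow_def_of_pos ha, Real.rpow_def_of_pos hb,
    Real.rpow_def_of_pos hc, ← Real.exp_add, ← Real.exp_add, ← Real.exp_add]
  congr 2
  ring

lemma ctm_third (t : ℝ) {c a b : ℝ} (hc : 0 < c) (ha : 0 < a) (hb : 0 < b) :
    ctm (1 / 3) t c a b = Real.exp ((Real.log a + Real.log b + Real.log c) / 3) *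
      Real.cos (t * (Real.log a - Real.log b)) := by
  unfold ctm
  rw [Real.rpow_def_of_pos hc, Real.rpow_def_of_pos ha, Real.rpow_def_of_pos hb,
    ← Real.exp_add, ← Real.exp_add]
  congr 2
  ring

/-- bound of a term by monotonicity -/
lemma abs_ctm_le_of_le {xx : ℝ} (h0 : 0 ≤ xx) (h1 : xx ≤ 1 / 2) (t : ℝ) {c a b c' a' b' : ℝ}
    (hc : 0 ≤ c) (ha : 0 ≤ a) (hb : 0 ≤ b) (hc' : c ≤ c') (ha' : a ≤ a') (hb' : b ≤ b') :
    |ctm xx t c a b| ≤ c' ^ (1 - 2 * xx) * (a' ^ xx * b' ^ xx) := by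
  unfold ctm
  rw [abs_mul]
  have h2 : 0 ≤ c ^ (1 - 2 * xx) * (a ^ xx * b ^ xx) := by positivity
  rw [abs_of_nonneg h2]
  refine (mul_le_of_le_one_right h2 (Real.abs_cos_le_one _)).trans ?_
  have h3 : c ^ (1 - 2 * xx) ≤ c' ^ (1 - 2 * xx) := Real.rpow_le_rpow hc hc' (by linarith)
  have h4 : a ^ xx ≤ a' ^ xx := Real.rpow_le_rpow ha ha' h0
  have h5 : b ^ xx ≤ b' ^ xx := Real.rpow_le_rpow hb hb' h0
  have h6 : 0 ≤ c' := hc.trans hc'
  have h7 : 0 ≤ a' := ha.trans ha'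
  have h8 : 0 ≤ b' := hb.trans hb'
  gcongr

/-- model of a pair term `√A √B cos (t (log A - log B))` on a cell away from the edges -/
theorem pair_mdl {t γ x0 x1 y0 y1 P a0 a1 a2 b0 b1 b2 uAx uAy uBx uBy : ℝ}
    (hx01 : x0 < x1) (hy01 : y0 < y1)
    (hA : ∀ x ∈ Icc x0 x1, ∀ y ∈ Icc y0 y1, 0 < a0 + a1 * x + a2 * y ∧
      |a1| * (x1 - x0) ≤ uAx * (a0 + a1 * x + a2 * y) ∧
      |a2| * (y1 - y0) ≤ uAy * (a0 + a1 * x + a2 * y))
    (hB : ∀ x ∈ Icc x0 x1, ∀ y ∈ Icc y0 y1, 0 < b0 + b1 * x + b2 * y ∧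
      |b1| * (x1 - x0) ≤ uBx * (b0 + b1 * x + b2 * y) ∧
      |b2| * (y1 - y0) ≤ uBy * (b0 + b1 * x + b2 * y))
    (hP : ∀ x ∈ Icc x0 x1, ∀ y ∈ Icc y0 y1,
      Real.sqrt (a0 + a1 * x + a2 * y) * Real.sqrt (b0 + b1 * x + b2 * y) ≤ P)
    (hγ0 : 0 ≤ γ) (hγ2 : 1 / 4 + t ^ 2 ≤ γ ^ 2) :
    Mdl x0 x1 y0 y1
      (fun x y => Real.sqrt (a0 + a1 * x + a2 * y) * Real.sqrt (b0 + b1 * x + b2 * y) *
        Real.cos (t * (Real.log (a0 + a1 * x + a2 * y) - Real.log (b0 + b1 * x + b2 * y))))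
      (Real.sqrt (a0 + a1 * x0 + a2 * y0) * Real.sqrt (b0 + b1 * x0 + b2 * y0) *
        Real.cos (t * (Real.log (a0 + a1 * x0 + a2 * y0) - Real.log (b0 + b1 * x0 + b2 * y0))))
      (Real.sqrt (a0 + a1 * x0 + a2 * y1) * Real.sqrt (b0 + b1 * x0 + b2 * y1) *
        Real.cos (t * (Real.log (a0 + a1 * x0 + a2 * y1) - Real.log (b0 + b1 * x0 + b2 * y1))))
      (Real.sqrt (a0 + a1 * x1 + a2 * y0) * Real.sqrt (b0 + b1 * x1 + b2 * y0) *
        Real.cos (t * (Real.log (a0 + a1 * x1 + a2 * y0) - Real.log (b0 + b1 * x1 + b2 * y0))))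
      (Real.sqrt (a0 + a1 * x1 + a2 * y1) * Real.sqrt (b0 + b1 * x1 + b2 * y1) *
        Real.cos (t * (Real.log (a0 + a1 * x1 + a2 * y1) - Real.log (b0 + b1 * x1 + b2 * y1))))
      (P * (γ ^ 2 * ((uAx + uBx) ^ 2 + (uAy + uBy) ^ 2) +
        γ * (uAx ^ 2 + uBx ^ 2 + uAy ^ 2 + uBy ^ 2)) / 8) := by
  have key := tri_mdl (xx := 1 / 2) (t := t) (γ := γ) (P := P) (c0 := 1) (c1 := 0) (c2 := 0)
    (uCx := 0) (uCy := 0) hx01 hy01 (fun x _ y _ => by norm_num) hA hB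
    (fun x hx y hy => by
      have h := hP x hx y hy
      rw [Real.sqrt_eq_rpow, Real.sqrt_eq_rpow] at h
      have e : (1 : ℝ) - 2 * (1 / 2) = 0 := by norm_num
      rw [e, Real.rpow_zero, one_mul]
      exact h) hγ0 (by
        have e : (1 : ℝ) - 2 * (1 / 2) = 0 := by norm_num
        rw [e, abs_zero]; exact hγ0) (by linarith)
  simp only [ctm_half] at key
  refine key.mono (le_of_eq ?_)
  ring

/-! ### symmetry and closure -/

lemma ctm_swap (x t a b c : ℝ) : ctm x t a b c = ctm x t a c b := by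
  unfold ctm
  have : Real.cos (t * (Real.log b - Real.log c)) = Real.cos (t * (Real.log c - Real.log b)) := by
    rw [← Real.cos_neg]
    congr 1
    ring
  rw [this, mul_comm (b ^ x)]

/-- symmetric function of three variables -/
def sym3 (F : ℝ → ℝ → ℝ → ℝ) : Prop := ∀ a b c, F a b c = F b a c ∧ F a b c = F a c b

/-- every nonnegative triple can be sorted -/
lemma sym3.forall {F : ℝ → ℝ → ℝ → ℝ} (hF : sym3 F) {p : ℝ → ℝ → ℝ → Prop}
    (hp : ∀ a b c, p a b c → p b a c) (hp' : ∀ a b c, p a b c → p a c b)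
    (H : ∀ a b c, c ≤ b → b ≤ a → p a b c → 0 ≤ F a b c) :
    ∀ a b c, p a b c → 0 ≤ F a b c := by
  intro a b c h
  rcases le_total b a with h1 | h1 <;> rcases le_total c b with h2 | h2 <;>
    rcases le_total c a with h3 | h3
  · exact H a b c h2 h1 h
  · exact H a b c h2 h1 h
  · rw [(hF a b c).2]; exact H a c b h2 h3 (hp' _ _ _ h)
  · -- c ≥ a ≥ b
    rw [(hF a b c).2, (hF a c b).1]
    exact H c a b h1 h3 (hp _ _ _ (hp' _ _ _ h))
  · -- b ≥ a ≥ c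
    rw [(hF a b c).1]
    exact H b a c h3 h1 (hp _ _ _ h)
  · -- b ≥ c ≥ a
    rw [(hF a b c).1, (hF b a c).2]
    exact H b c a h3 h2 (hp' _ _ _ (hp _ _ _ h))
  · -- a ≤ b ≤ c and c ≤ a : all equal
    rw [(hF a b c).1, (hF b a c).2, (hF b c a).1]
    exact H c b a h1 h2 (hp _ _ _ (hp' _ _ _ (hp _ _ _ h)))
  · rw [(hF a b c).1, (hF b a c).2, (hF b c a).1]
    exact H c b a h1 h2 (hp _ _ _ (hp' _ _ _ (hp _ _ _ h)))

/-- closure: an inequality on the open simplex extends to the closed one -/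
lemma nonneg_closure {F : (Fin 3 → ℝ) → ℝ} (hF : ContinuousOn F {v | ∀ i, 0 ≤ v i})
    (H : ∀ v : Fin 3 → ℝ, (∀ i, 0 < v i) → avg v = 1 → 0 ≤ F v) :
    ∀ v : Fin 3 → ℝ, (∀ i, 0 ≤ v i) → avg v = 1 → 0 ≤ F v := by
  intro v hv hv1
  -- the points `(1 - ε) v + ε`
  set w : ℝ → Fin 3 → ℝ := fun ε i => (1 - ε) * v i + ε with hw
  have hwc : Continuous w := by
    rw [hw]
    fun_prop
  have hw0 : w 0 = v := by funext i; simp [hw]
  have hmem : ∀ ε ∈ Set.Ioo (0 : ℝ) 1, 0 ≤ F (w ε) := by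
    intro ε hε
    refine H _ (fun i => ?_) ?_
    · have h1 := mul_nonneg (by linarith [hε.2] : (0 : ℝ) ≤ 1 - ε) (hv i)
      simp only [hw]
      linarith [hε.1]
    · have h2 : v 0 + v 1 + v 2 = 3 := by
        have h3 := hv1
        unfold avg at h3
        rw [Fin.sum_univ_three] at h3
        push_cast at h3
        linarith
      unfold avg
      rw [Fin.sum_univ_three]
      simp only [hw]
      push_cast
      have : v 2 = 3 - v 0 - v 1 := by linarith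
      rw [this]
      ring
  have hcont : Filter.Tendsto (fun ε => F (w ε)) (nhdsWithin 0 (Set.Ioo 0 1)) (nhds (F v)) := by
    have h1 : ContinuousWithinAt F {v | ∀ i, 0 ≤ v i} v := hF v hv
    have h2 : Filter.Tendsto w (nhdsWithin 0 (Set.Ioo 0 1))
        (nhdsWithin v {v | ∀ i, 0 ≤ v i}) := by
      refine tendsto_nhdsWithin_iff.2 ⟨?_, ?_⟩
      · have := hwc.tendsto 0
        rw [hw0] at this
        exact this.mono_left nhdsWithin_le_nhds
      · filter_upwards [self_mem_nhdsWithin] with ε hε i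
        have h1 := mul_nonneg (by linarith [hε.2] : (0 : ℝ) ≤ 1 - ε) (hv i)
        simp only [hw]
        linarith [hε.1]
    exact h1.tendsto.comp h2
  have hne : (nhdsWithin (0 : ℝ) (Set.Ioo 0 1)).NeBot := by
    apply mem_closure_iff_nhdsWithin_neBot.1
    rw [closure_Ioo (by norm_num)]
    exact ⟨le_rfl, by norm_num⟩
  refine ge_of_tendsto hcont ?_
  filter_upwards [self_mem_nhdsWithin] with ε hε
  exact hmem ε hε

/-- symmetric and continuous inequalities need only be checked for `v₀ ≥ v₁ ≥ v₂ > 0` -/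
theorem nonneg_of_sorted {F : (Fin 3 → ℝ) → ℝ} (hF : ContinuousOn F {v | ∀ i, 0 ≤ v i})
    (hs : ∀ (σ : Equiv.Perm (Fin 3)) (v : Fin 3 → ℝ), (∀ i, 0 ≤ v i) →
      F (fun i => v (σ i)) = F v)
    (H : ∀ a b c : ℝ, 0 < c → c ≤ b → b ≤ a → a + b + c = 3 → 0 ≤ F ![a, b, c]) :
    ∀ v : Fin 3 → ℝ, (∀ i, 0 ≤ v i) → avg v = 1 → 0 ≤ F v := by
  refine nonneg_closure hF fun v hv hv1 => ?_
  have h2 : v 0 + v 1 + v 2 = 3 := by
    unfold avg at hv1
    rw [Fin.sum_univ_three] at hv1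
    push_cast at hv1
    linarith
  have hvec : ∀ v : Fin 3 → ℝ, ![v 0, v 1, v 2] = v := fun v => by
    funext i
    fin_cases i <;> rfl
  have key : ∀ (σ : Equiv.Perm (Fin 3)), v (σ 2) ≤ v (σ 1) → v (σ 1) ≤ v (σ 0) →
      v (σ 0) + v (σ 1) + v (σ 2) = 3 → 0 ≤ F v := by
    intro σ h3 h4 h5
    have h6 := H (v (σ 0)) (v (σ 1)) (v (σ 2)) (hv _) h3 h4 h5
    have h7 := hvec (fun i => v (σ i))
    rw [h7, hs σ v fun i => (hv i).le] at h6
    exact h6
  rcases le_total (v 1) (v 0) with h10 | h10 <;> rcases le_total (v 2) (v 1) with h21 | h21 <;>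
    rcases le_total (v 2) (v 0) with h20 | h20
  · exact key (Equiv.refl _) h21 h10 h2
  · exact key (Equiv.refl _) h21 h10 h2
  · refine key (Equiv.swap 1 2) ?_ ?_ ?_ <;>
      simp only [Equiv.swap_apply_left, Equiv.swap_apply_right,
        Equiv.swap_apply_of_ne_of_ne (show (0 : Fin 3) ≠ 1 by decide) (show (0 : Fin 3) ≠ 2 by decide)]
    · exact h21
    · exact h20
    · linarith
  · -- v2 ≥ v0 ≥ v1
    refine key (rot3 2) ?_ ?_ ?_ <;>
      simp only [show rot3 2 0 = 2 by decide, show rot3 2 1 = 0 by decide,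
        show rot3 2 2 = 1 by decide]
    · exact h10
    · exact h20
    · linarith
  · -- v1 ≥ v0 ≥ v2
    refine key (Equiv.swap 0 1) ?_ ?_ ?_ <;>
      simp only [Equiv.swap_apply_left, Equiv.swap_apply_right,
        Equiv.swap_apply_of_ne_of_ne (show (2 : Fin 3) ≠ 0 by decide) (show (2 : Fin 3) ≠ 1 by decide)]
    · exact h20
    · exact h10
    · linarith
  · -- v1 ≥ v2 ≥ v0
    refine key (rot3 1) ?_ ?_ ?_ <;>
      simp only [show rot3 1 0 = 1 by decide, show rot3 1 1 = 2 by decide,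
        show rot3 1 2 = 0 by decide]
    · exact h20
    · exact h21
    · linarith
  · refine key (Equiv.swap 0 2) ?_ ?_ ?_ <;>
      simp only [Equiv.swap_apply_left, Equiv.swap_apply_right,
        Equiv.swap_apply_of_ne_of_ne (show (1 : Fin 3) ≠ 0 by decide) (show (1 : Fin 3) ≠ 2 by decide)]
    · exact h10
    · exact h21
    · linarith
  · refine key (Equiv.swap 0 2) ?_ ?_ ?_ <;>
      simp only [Equiv.swap_apply_left, Equiv.swap_apply_right,
        Equiv.swap_apply_of_ne_of_ne (show (1 : Fin 3) ≠ 0 by decide) (show (1 : Fin 3) ≠ 2 by decide)]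
    · exact h10
    · exact h21
    · linarith

/-- `C(x,t)` is symmetric -/
lemma Cxt_perm {x : ℝ} (h0 : 0 < x) (t : ℝ) (σ : Equiv.Perm (Fin 3)) {v : Fin 3 → ℝ}
    (hv : ∀ i, 0 ≤ v i) : Cxt x t (fun i => v (σ i)) = Cxt x t v := by
  rw [Cxt_eq h0 t hv, Cxt_eq h0 t fun i => hv _]
  have h : ∀ σ : Equiv.Perm (Fin 3), (σ 0 = 0 ∧ σ 1 = 1 ∧ σ 2 = 2) ∨
      (σ 0 = 0 ∧ σ 1 = 2 ∧ σ 2 = 1) ∨ (σ 0 = 1 ∧ σ 1 = 0 ∧ σ 2 = 2) ∨
      (σ 0 = 1 ∧ σ 1 = 2 ∧ σ 2 = 0) ∨ (σ 0 = 2 ∧ σ 1 = 0 ∧ σ 2 = 1) ∨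
      (σ 0 = 2 ∧ σ 1 = 1 ∧ σ 2 = 0) := by decide
  rcases h σ with ⟨a, b, c⟩ | ⟨a, b, c⟩ | ⟨a, b, c⟩ | ⟨a, b, c⟩ | ⟨a, b, c⟩ | ⟨a, b, c⟩ <;>
    simp only [a, b, c]
  · rw [ctm_swap x t (v 0) (v 2) (v 1), ctm_swap x t (v 2) (v 1) (v 0),
      ctm_swap x t (v 1) (v 0) (v 2)]
    ring
  · rw [ctm_swap x t (v 1) (v 0) (v 2), ctm_swap x t (v 0) (v 2) (v 1),
      ctm_swap x t (v 2) (v 1) (v 0)]
    ring
  · ring
  · ring
  · rw [ctm_swap x t (v 2) (v 1) (v 0), ctm_swap x t (v 1) (v 0) (v 2),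
      ctm_swap x t (v 0) (v 2) (v 1)]
    ring

end Crest.Agent.R163.Win
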