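import Crest.Agent.R163.Conv

/-!
Row 163: window certificates in limit form. Along the (decreasing) iterates every continuous
homogeneous functional converges; the limit values of multiplicative functionals satisfy the exact
fixed point relations, and a pointwise inequality then excludes the value of the pinned
functionals.
-/

set_option autoImplicit false

universe u

namespace Crest.Agent.R163

open Crest.ProbabilityR.Broadcast

variable {q : ℕ}

lemma LMul.abs_J_le_one [NeZero q] {h : (Fin q → ℝ) → ℝ} (hh : LMul.{u} h) {Ω : Type u}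
    {L : Ω → Fin q → ℝ} (hL : IsChan L) : |J h L| ≤ 1 := by
  obtain ⟨K, hK, hb⟩ := hh.bdd
  by_contra hcon
  push Not at hcon
  obtain ⟨n, hn⟩ := pow_unbounded_of_one_lt K hcon
  have h1 : |J h (pw L n)| ≤ K := by
    have hc := hL.pw n
    have e1 : |J h (pw L n)| ≤ ∑' o, |h (pw L n o)| := by
      have := norm_tsum_le_tsum_norm (hc.summable hh.bdd).norm
      simpa [Real.norm_eq_abs, J] using this
    have e2 : ∑' o, |h (pw L n o)| ≤ J (fun v => K * avg v) (pw L n) :=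
      Summable.tsum_le_tsum (fun o => hb _ (hc.nonneg o)) (hc.summable_abs hh.bdd)
        (hc.summable (bdd_avg.const_mul K))
    rw [J_const_mul, hc.J_avg, mul_one] at e2
    exact e1.trans e2
  rw [hh.J_pw hL n, abs_pow] at h1
  linarith

/-- certificate at the value `u` of the pinned parameters -/
def Cert {ι κ γ : Type} [Fintype ι] [Fintype κ] [Fintype γ] [NeZero q] (U : ℝ → ℝ)
    (θ lam x0 B0 : ℝ) (h : ι → (Fin q → ℝ) → ℝ) (g : κ → (Fin q → ℝ) → ℝ)
    (w : γ → (Fin q → ℝ) → ℝ) (u : κ → ℝ) : Prop :=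
  ∃ (μ τ t0 : ι → ℝ) (l ν : κ → ℝ) (ρ : γ → ℝ) (ξ K0 : ℝ),
    (∀ j, 0 ≤ μ j) ∧ (∀ j, ∀ B ∈ Set.Icc 0 B0, U B ≤ t0 j + τ j * B) ∧ (∀ a, 0 ≤ ρ a) ∧ 0 ≤ ξ ∧
    (∀ f : Fin q → ℝ, (∀ i, 0 ≤ f i) → avg f = 1 →
      ∑ j, μ j * (τ j * (θ * (1 - h j (W lam f)))) + ∑ k, l k * (θ * (1 - g k (W lam f))) +
        ξ * chi f + K0 ≤
      ∑ j, μ j * (1 - h j f) + ∑ k, ν k * (1 - g k f) -
        ∑ a, ρ a * ((1 - w a f) - U (θ * (1 - w a (W lam f))))) ∧
    ∑ j, μ j * t0 j + ∑ k, ν k * U (u k) < ∑ k, l k * u k + ξ * x0 + K0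

lemma Hom.J_W {φ : (Fin q → ℝ) → ℝ} (_h : Hom φ) {Ω : Type*} (L : Ω → Fin q → ℝ) (lam : ℝ) :
    J φ (fun o => W lam (L o)) = J (fun v => φ (W lam v)) L := rfl

lemma Bdd.comp_W [NeZero q] {φ : (Fin q → ℝ) → ℝ} (h : Bdd φ) {lam : ℝ} (hl : Adm q lam) :
    Bdd (fun v => φ (W lam v)) := by
  obtain ⟨K, hK, hb⟩ := h
  refine ⟨K, hK, fun v hv => ?_⟩
  have := hb (W lam v) (W_nonneg hl hv)
  rwa [avg_W] at this

lemma Hom.comp_W [NeZero q] {φ : (Fin q → ℝ) → ℝ} (h : Hom φ) {lam : ℝ} (hl : Adm q lam) :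
    Hom (fun v => φ (W lam v)) := by
  intro c v hc hv
  change φ (W lam (fun i => c * v i)) = c * φ (W lam v)
  have e : W lam (fun i => c * v i) = fun i => c * W lam v i := by
    have : avg (fun i => c * v i) = c * avg v := by
      unfold avg
      rw [← Finset.mul_sum, mul_div_assoc]
    funext i
    unfold W
    rw [this]
    ring
  rw [e]
  exact h c _ hc (W_nonneg hl hv)

/-- a vector is zero or a positive multiple of a normalized one -/
lemma exists_norm' [NeZero q] {v : Fin q → ℝ} (hv : ∀ i, 0 ≤ v i) :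
    (∀ i, v i = 0) ∨ ∃ (A : ℝ) (f : Fin q → ℝ), 0 < A ∧ (∀ i, 0 ≤ f i) ∧ avg f = 1 ∧
      avg v = A ∧ v = fun i => A * f i := by
  rcases (avg_nonneg hv).eq_or_lt with hA | hA
  · left
    intro i
    rw [eq_zero_of_avg hv hA.symm]
  · right
    refine ⟨avg v, fun i => (avg v)⁻¹ * v i, hA, fun i => mul_nonneg (inv_nonneg.2 hA.le) (hv i),
      ?_, rfl, ?_⟩
    · have : avg (fun i => (avg v)⁻¹ * v i) = (avg v)⁻¹ * avg v := by
        conv_lhs => unfold avg
        conv_rhs => rw [show avg v = (∑ i, v i) / (q : ℝ) from rfl]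
        rw [← Finset.mul_sum, mul_div_assoc]
      rw [this, inv_mul_cancel₀ hA.ne']
    · funext i
      field_simp

section core

variable {ι κ γ : Type} [Fintype ι] [Fintype κ] [Fintype γ]

/-- integrated form of a pointwise inequality -/
lemma integrate_cert [NeZero q] {Ω : Type} {L : Ω → Fin q → ℝ} (hL : IsChan L)
    {θ lam ξ K0 Y : ℝ} (hl : Adm q lam) {U : ℝ → ℝ}
    {h : ι → (Fin q → ℝ) → ℝ} {g : κ → (Fin q → ℝ) → ℝ} {w : γ → (Fin q → ℝ) → ℝ}
    (hh : ∀ j, LMul.{0} (h j)) (hg : ∀ k, LMul.{0} (g k)) (hw : ∀ a, LMul.{0} (w a))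
    (hY : ∀ a, ∀ f : Fin q → ℝ, (∀ i, 0 ≤ f i) → avg f = 1 → θ * (1 - w a (W lam f)) ≤ Y)
    {μ τ : ι → ℝ} {l ν : κ → ℝ} {ρ : γ → ℝ} (hρ : ∀ a, 0 ≤ ρ a) {B s : γ → ℝ}
    (hs : ∀ a, ∀ y ≤ Y, U y ≤ U (B a) + s a * (y - B a))
    (H : ∀ f : Fin q → ℝ, (∀ i, 0 ≤ f i) → avg f = 1 →
      ∑ j, μ j * (τ j * (θ * (1 - h j (W lam f)))) + ∑ k, l k * (θ * (1 - g k (W lam f))) +
        ξ * chi f + K0 ≤
      ∑ j, μ j * (1 - h j f) + ∑ k, ν k * (1 - g k f) -
        ∑ a, ρ a * ((1 - w a f) - U (θ * (1 - w a (W lam f))))) :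
    ∑ j, μ j * (τ j * (θ * (1 - J (h j) (fun o => W lam (L o))))) +
        ∑ k, l k * (θ * (1 - J (g k) (fun o => W lam (L o)))) + ξ * J chi L + K0 ≤
      ∑ j, μ j * (1 - J (h j) L) + ∑ k, ν k * (1 - J (g k) L) -
        ∑ a, ρ a * ((1 - J (w a) L) -
          (U (B a) + s a * (θ * (1 - J (w a) (fun o => W lam (L o))) - B a))) := by
  -- homogeneous pointwise inequality
  have key : ∀ o, ∑ j, μ j * (τ j * (θ * (avg (L o) - h j (W lam (L o))))) +
        ∑ k, l k * (θ * (avg (L o) - g k (W lam (L o)))) + ξ * chi (L o) + K0 * avg (L o) ≤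
      ∑ j, μ j * (avg (L o) - h j (L o)) + ∑ k, ν k * (avg (L o) - g k (L o)) -
        ∑ a, ρ a * ((avg (L o) - w a (L o)) - (U (B a) * avg (L o) +
          s a * (θ * (avg (L o) - w a (W lam (L o))) - B a * avg (L o)))) := by
    intro o
    rcases exists_norm' (hL.nonneg o) with hz | ⟨A, f, hA, hf, hf1, hAv, hLf⟩
    · have hz' : L o = fun _ => (0 : ℝ) := by funext i; exact hz i
      have a0 : avg (L o) = 0 := by rw [hz']; simp [avg]
      have c0 : chi (L o) = 0 := by simp [chi, a0]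
      have w0 : W lam (L o) = fun _ => (0 : ℝ) := by
        funext i; unfold W; rw [a0, hz i]; ring
      have hz0 : ∀ φ : (Fin q → ℝ) → ℝ, Hom φ → φ (fun _ => 0) = 0 := fun φ hφ => by
        have := hφ 0 (fun _ => 0) le_rfl fun _ => le_rfl
        simpa using this
      rw [a0, c0, w0, hz']
      simp [fun j => hz0 _ (hh j).hom, fun j => hz0 _ (hg j).hom, fun j => hz0 _ (hw j).hom]
    · have h2 := H f hf hf1
      have e1 : chi (L o) = A * chi f := by
        rw [hLf]; exact hom_chi A f hA.le hf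
      have hWf : ∀ i, 0 ≤ W lam f i := W_nonneg hl hf
      have e3 : W lam (L o) = fun i => A * W lam f i := by
        rw [hLf]
        have : avg (fun i => A * f i) = A * avg f := by
          unfold avg
          rw [← Finset.mul_sum, mul_div_assoc]
        funext i
        unfold W
        rw [this]
        ring
      have eh : ∀ j, h j (L o) = A * h j f := fun j => by
        rw [hLf]; exact (hh j).hom A f hA.le hf
      have ehW : ∀ j, h j (W lam (L o)) = A * h j (W lam f) := fun j => by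
        rw [e3]; exact (hh j).hom A _ hA.le hWf
      have eg : ∀ j, g j (L o) = A * g j f := fun j => by
        rw [hLf]; exact (hg j).hom A f hA.le hf
      have egW : ∀ j, g j (W lam (L o)) = A * g j (W lam f) := fun j => by
        rw [e3]; exact (hg j).hom A _ hA.le hWf
      have ew : ∀ j, w j (L o) = A * w j f := fun j => by
        rw [hLf]; exact (hw j).hom A f hA.le hf
      have ewW : ∀ j, w j (W lam (L o)) = A * w j (W lam f) := fun j => by
        rw [e3]; exact (hw j).hom A _ hA.le hWf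
      have h3 : ∑ j, μ j * (τ j * (θ * (1 - h j (W lam f)))) +
          ∑ k, l k * (θ * (1 - g k (W lam f))) + ξ * chi f + K0 ≤
          ∑ j, μ j * (1 - h j f) + ∑ k, ν k * (1 - g k f) -
            ∑ a, ρ a * ((1 - w a f) - (U (B a) + s a * (θ * (1 - w a (W lam f)) - B a))) := by
        refine h2.trans (sub_le_sub_left (Finset.sum_le_sum fun a _ => ?_) _)
        have h4 := hs a _ (hY a f hf hf1)
        exact mul_le_mul_of_nonneg_left (by linarith) (hρ a)
      have h5 := mul_le_mul_of_nonneg_left h3 hA.le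
      simp only [eh, ehW, eg, egW, ew, ewW, e1, hAv]
      have s1 : ∑ j, μ j * (τ j * (θ * (A - A * h j (W lam f)))) =
          A * ∑ j, μ j * (τ j * (θ * (1 - h j (W lam f)))) := by
        rw [Finset.mul_sum]; exact Finset.sum_congr rfl fun j _ => by ring
      have s2 : ∑ k, l k * (θ * (A - A * g k (W lam f))) =
          A * ∑ k, l k * (θ * (1 - g k (W lam f))) := by
        rw [Finset.mul_sum]; exact Finset.sum_congr rfl fun j _ => by ring
      have s3 : ∑ j, μ j * (A - A * h j f) = A * ∑ j, μ j * (1 - h j f) := by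
        rw [Finset.mul_sum]; exact Finset.sum_congr rfl fun j _ => by ring
      have s4 : ∑ k, ν k * (A - A * g k f) = A * ∑ k, ν k * (1 - g k f) := by
        rw [Finset.mul_sum]; exact Finset.sum_congr rfl fun j _ => by ring
      have s5 : ∑ a, ρ a * ((A - A * w a f) - (U (B a) * A +
          s a * (θ * (A - A * w a (W lam f)) - B a * A))) =
          A * ∑ a, ρ a * ((1 - w a f) - (U (B a) + s a * (θ * (1 - w a (W lam f)) - B a))) := by
        rw [Finset.mul_sum]; exact Finset.sum_congr rfl fun j _ => by ring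
      rw [s1, s2, s3, s4, s5]
      calc _ = A * (∑ j, μ j * (τ j * (θ * (1 - h j (W lam f)))) +
          ∑ k, l k * (θ * (1 - g k (W lam f))) + ξ * chi f + K0) := by ring
        _ ≤ _ := h5
        _ = _ := by ring
  -- integrate
  have hLW := hL.edge hl
  have hav := hL.avg_hasSum
  have S1 : HasSum (fun o => ∑ j, μ j * (τ j * (θ * (avg (L o) - h j (W lam (L o))))) +
        ∑ k, l k * (θ * (avg (L o) - g k (W lam (L o)))) + ξ * chi (L o) + K0 * avg (L o))
      (∑ j, μ j * (τ j * (θ * (1 - J (h j) (fun o => W lam (L o))))) +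
        ∑ k, l k * (θ * (1 - J (g k) (fun o => W lam (L o)))) + ξ * J chi L + K0 * 1) := by
    refine (((hasSum_sum fun j _ => ?_).add (hasSum_sum fun k _ => ?_)).add ?_).add
      (hav.mul_left K0)
    · exact (((hav.sub (hLW.summable (hh j).bdd).hasSum).mul_left θ).mul_left _).mul_left _
    · exact ((hav.sub (hLW.summable (hg k).bdd).hasSum).mul_left θ).mul_left _
    · exact (hL.summable bdd_chi).hasSum.mul_left ξ
  have S2 : HasSum (fun o => ∑ j, μ j * (avg (L o) - h j (L o)) +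
        ∑ k, ν k * (avg (L o) - g k (L o)) -
        ∑ a, ρ a * ((avg (L o) - w a (L o)) - (U (B a) * avg (L o) +
          s a * (θ * (avg (L o) - w a (W lam (L o))) - B a * avg (L o)))))
      (∑ j, μ j * (1 - J (h j) L) + ∑ k, ν k * (1 - J (g k) L) -
        ∑ a, ρ a * ((1 - J (w a) L) -
          (U (B a) * 1 + s a * (θ * (1 - J (w a) (fun o => W lam (L o))) - B a * 1)))) := by
    refine ((hasSum_sum fun j _ => ?_).add (hasSum_sum fun k _ => ?_)).sub
      (hasSum_sum fun a _ => ?_)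
    · exact (hav.sub (hL.summable (hh j).bdd).hasSum).mul_left _
    · exact (hav.sub (hL.summable (hg k).bdd).hasSum).mul_left _
    · refine ((hav.sub (hL.summable (hw a).bdd).hasSum).sub ((hav.mul_left _).add ?_)).mul_left _
      exact (((hav.sub (hLW.summable (hw a).bdd).hasSum).mul_left θ).sub (hav.mul_left _)).mul_left _
  have S3 := hasSum_le key S1 S2
  simp only [mul_one] at S3
  exact S3

/-- the window theorem, abstract form -/
theorem windows_core [NeZero q] {Ω : ℕ → Type} {P : ∀ n, Ω n → Fin q → ℝ}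
    (hP : ∀ n, IsChan (P n)) (hdec : ∀ n, CxLe (P (n + 1)) (P n)) {lam θ x0 B0 Y : ℝ}
    (hl : Adm q lam) (hθ : 0 ≤ θ) {U : ℝ → ℝ} (hU : Continuous U)
    (hrec : ∀ φ : (Fin q → ℝ) → ℝ, LMul.{0} φ → ∀ n,
      1 - J φ (P (n + 1)) = U (θ * (1 - J φ (fun o => W lam (P n o)))))
    (hsup : ∀ B ≤ Y, ∃ s, ∀ y ≤ Y, U y ≤ U B + s * (y - B))
    {h : ι → (Fin q → ℝ) → ℝ} {g : κ → (Fin q → ℝ) → ℝ} {w : γ → (Fin q → ℝ) → ℝ}
    (hh : ∀ j, LMul.{0} (h j)) (hg : ∀ k, LMul.{0} (g k)) (hw : ∀ a, LMul.{0} (w a))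
    (ch : ∀ j, ContinuousOn (h j) {v | ∀ i, 0 ≤ v i})
    (cg : ∀ j, ContinuousOn (g j) {v | ∀ i, 0 ≤ v i})
    (cw : ∀ j, ContinuousOn (w j) {v | ∀ i, 0 ≤ v i})
    (hB0 : ∀ j n, θ * (1 - J (h j) (fun o => W lam (P n o))) ≤ B0)
    (hY : ∀ a, ∀ f : Fin q → ℝ, (∀ i, 0 ≤ f i) → avg f = 1 → θ * (1 - w a (W lam f)) ≤ Y)
    (hwY : ∀ a n, θ * (1 - J (w a) (fun o => W lam (P n o))) ≤ Y)
    (H : ∀ u : κ → ℝ, (∀ k, 0 ≤ u k) → (∀ k, u k ≤ 2 * θ) → Cert U θ lam x0 B0 h g w u) :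
    ∃ n, J chi (P n) < x0 := by
  by_contra hcon
  push Not at hcon
  -- limits
  have lim : ∀ φ : (Fin q → ℝ) → ℝ, Hom φ → ContinuousOn φ {v | ∀ i, 0 ≤ v i} →
      ∃ a, Filter.Tendsto (fun n => J φ (P n)) Filter.atTop (nhds a) := fun φ h1 h2 =>
    tendsto_J h1 h2 hP hdec
  have limW : ∀ φ : (Fin q → ℝ) → ℝ, Hom φ → ContinuousOn φ {v | ∀ i, 0 ≤ v i} →
      ∃ a, Filter.Tendsto (fun n => J φ (fun o => W lam (P n o))) Filter.atTop (nhds a) :=
    fun φ h1 h2 => lim (fun v => φ (W lam v)) (h1.comp_W hl) (continuousOn_comp_W h2 hl)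
  choose α hα using fun j => lim (h j) (hh j).hom (ch j)
  choose β hβ using fun j => limW (h j) (hh j).hom (ch j)
  choose αg hαg using fun j => lim (g j) (hg j).hom (cg j)
  choose βg hβg using fun j => limW (g j) (hg j).hom (cg j)
  choose αw hαw using fun j => lim (w j) (hw j).hom (cw j)
  choose βw hβw using fun j => limW (w j) (hw j).hom (cw j)
  obtain ⟨x, hx⟩ := ch_chi.tendsto hP hdec
  have hx0 : x0 ≤ x := ge_of_tendsto' hx hcon
  -- fixed point relations
  have fix : ∀ φ : (Fin q → ℝ) → ℝ, LMul.{0} φ → ∀ a b : ℝ,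
      Filter.Tendsto (fun n => J φ (P n)) Filter.atTop (nhds a) →
      Filter.Tendsto (fun n => J φ (fun o => W lam (P n o))) Filter.atTop (nhds b) →
      1 - a = U (θ * (1 - b)) := by
    intro φ hφ a b ha hb
    have h1 : Filter.Tendsto (fun n => 1 - J φ (P (n + 1))) Filter.atTop (nhds (1 - a)) :=
      ((ha.comp (Filter.tendsto_add_atTop_nat 1)).const_sub 1)
    have h2 : Filter.Tendsto (fun n => U (θ * (1 - J φ (fun o => W lam (P n o)))))
        Filter.atTop (nhds (U (θ * (1 - b)))) :=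
      (hU.tendsto _).comp ((hb.const_sub 1).const_mul θ)
    have h3 : (fun n => 1 - J φ (P (n + 1))) =
        fun n => U (θ * (1 - J φ (fun o => W lam (P n o)))) := by
      funext n; exact hrec φ hφ n
    rw [h3] at h1
    exact tendsto_nhds_unique h1 h2
  have range : ∀ φ : (Fin q → ℝ) → ℝ, LMul.{0} φ → ∀ b : ℝ,
      Filter.Tendsto (fun n => J φ (fun o => W lam (P n o))) Filter.atTop (nhds b) →
      -1 ≤ b ∧ b ≤ 1 := by
    intro φ hφ b hb
    refine ⟨ge_of_tendsto' hb fun n => ?_, le_of_tendsto' hb fun n => ?_⟩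
    · exact (abs_le.1 (hφ.abs_J_le_one ((hP n).edge hl))).1
    · exact (abs_le.1 (hφ.abs_J_le_one ((hP n).edge hl))).2
  set u : κ → ℝ := fun k => θ * (1 - βg k) with hu
  obtain ⟨μ, τ, t0, l, ν, ρ, ξ, K0, hμ, hτ, hρ, hξ, Hpt, HK⟩ := H u
    (fun k => mul_nonneg hθ (by linarith [(range _ (hg k) _ (hβg k)).2]))
    (fun k => by
      have := (range _ (hg k) _ (hβg k)).1
      have h1 : θ * (1 - βg k) ≤ θ * 2 := mul_le_mul_of_nonneg_left (by linarith) hθ
      simp only [hu]; linarith)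
  -- supporting lines
  have hBw : ∀ a, θ * (1 - βw a) ≤ Y := fun a =>
    le_of_tendsto' ((hβw a).const_sub 1 |>.const_mul θ) fun n => hwY a n
  choose s hs using fun a => hsup (θ * (1 - βw a)) (hBw a)
  have int : ∀ n, _ := fun n => integrate_cert (hP n) hl hh hg hw hY hρ (B := fun a =>
    θ * (1 - βw a)) hs Hpt
  have L1 : Filter.Tendsto (fun n =>
      ∑ j, μ j * (τ j * (θ * (1 - J (h j) (fun o => W lam (P n o))))) +
        ∑ k, l k * (θ * (1 - J (g k) (fun o => W lam (P n o)))) + ξ * J chi (P n) + K0)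
      Filter.atTop (nhds (∑ j, μ j * (τ j * (θ * (1 - β j))) +
        ∑ k, l k * (θ * (1 - βg k)) + ξ * x + K0)) := by
    refine (((tendsto_finsetSum _ fun j _ => ?_).add (tendsto_finsetSum _ fun k _ => ?_)).add
      (hx.const_mul ξ)).add_const K0
    · exact (((hβ j).const_sub 1).const_mul θ).const_mul _ |>.const_mul _
    · exact (((hβg k).const_sub 1).const_mul θ).const_mul _
  have L2 : Filter.Tendsto (fun n =>
      ∑ j, μ j * (1 - J (h j) (P n)) + ∑ k, ν k * (1 - J (g k) (P n)) -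
        ∑ a, ρ a * ((1 - J (w a) (P n)) -
          (U (θ * (1 - βw a)) + s a * (θ * (1 - J (w a) (fun o => W lam (P n o))) -
            θ * (1 - βw a)))))
      Filter.atTop (nhds (∑ j, μ j * (1 - α j) + ∑ k, ν k * (1 - αg k) -
        ∑ a, ρ a * ((1 - αw a) - (U (θ * (1 - βw a)) + s a * (θ * (1 - βw a) -
            θ * (1 - βw a)))))) := by
    refine ((tendsto_finsetSum _ fun j _ => ?_).add (tendsto_finsetSum _ fun k _ => ?_)).sub
      (tendsto_finsetSum _ fun a _ => ?_)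
    · exact ((hα j).const_sub 1).const_mul _
    · exact ((hαg k).const_sub 1).const_mul _
    · refine (((hαw a).const_sub 1).sub (Filter.Tendsto.const_add _ ?_)).const_mul _
      exact (((hβw a).const_sub 1).const_mul θ |>.sub_const _).const_mul _
  have fin := le_of_tendsto_of_tendsto' L1 L2 int
  have e1 : ∀ j, 1 - α j ≤ t0 j + τ j * (θ * (1 - β j)) := fun j => by
    rw [fix _ (hh j) _ _ (hα j) (hβ j)]
    refine hτ j _ ⟨mul_nonneg hθ (by linarith [(range _ (hh j) _ (hβ j)).2]), ?_⟩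
    exact le_of_tendsto' ((hβ j).const_sub 1 |>.const_mul θ) fun n => hB0 j n
  have e2 : ∀ k, 1 - αg k = U (u k) := fun k => fix _ (hg k) _ _ (hαg k) (hβg k)
  have e3 : ∀ a, 1 - αw a = U (θ * (1 - βw a)) := fun a => fix _ (hw a) _ _ (hαw a) (hβw a)
  have f1 : ∑ j, μ j * (1 - α j) ≤ ∑ j, μ j * t0 j + ∑ j, μ j * (τ j * (θ * (1 - β j))) := by
    rw [← Finset.sum_add_distrib]
    refine Finset.sum_le_sum fun j _ => ?_
    have := mul_le_mul_of_nonneg_left (e1 j) (hμ j)
    linarith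
  have f2 : ∑ k, ν k * (1 - αg k) = ∑ k, ν k * U (u k) :=
    Finset.sum_congr rfl fun k _ => by rw [e2]
  have f3 : ∑ a, ρ a * ((1 - αw a) - (U (θ * (1 - βw a)) + s a * (θ * (1 - βw a) -
            θ * (1 - βw a)))) = 0 :=
    Finset.sum_eq_zero fun a _ => by rw [e3]; ring
  have f4 : ∑ k, l k * (θ * (1 - βg k)) = ∑ k, l k * u k := rfl
  have f5 := mul_le_mul_of_nonneg_left hx0 hξ
  rw [f2, f3, f4] at fin
  linarith

end core

/-! ### Poisson trees -/

/-- `1 - exp (-B)` -/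
noncomputable def Up (B : ℝ) : ℝ := 1 - Real.exp (-B)

lemma continuous_Up : Continuous Up := by unfold Up; fun_prop

lemma Up_tangent (c B : ℝ) : Up B ≤ Up c + Real.exp (-c) * (B - c) := by
  unfold Up
  have h1 := Real.add_one_le_exp (c - B)
  have h2 : Real.exp (-B) = Real.exp (-c) * Real.exp (c - B) := by
    rw [← Real.exp_add]; congr 1; ring
  have h3 := mul_le_mul_of_nonneg_left h1 (Real.exp_pos (-c)).le
  rw [h2]
  linarith

/-- the window theorem for Poisson trees -/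
theorem exists_lt_gw_windows [NeZero q] {ι κ γ : Type} [Fintype ι] [Fintype κ] [Fintype γ]
    {lam d x0 : ℝ} (hl : Adm q lam) (hd : 0 ≤ d)
    {h : ι → (Fin q → ℝ) → ℝ} {g : κ → (Fin q → ℝ) → ℝ} {w : γ → (Fin q → ℝ) → ℝ}
    (hh : ∀ j, LMul.{0} (h j)) (hg : ∀ k, LMul.{0} (g k)) (hw : ∀ a, LMul.{0} (w a))
    (ch : ∀ j, ContinuousOn (h j) {v | ∀ i, 0 ≤ v i})
    (cg : ∀ j, ContinuousOn (g j) {v | ∀ i, 0 ≤ v i})
    (cw : ∀ j, ContinuousOn (w j) {v | ∀ i, 0 ≤ v i})
    (H : ∀ u : κ → ℝ, (∀ k, 0 ≤ u k) → (∀ k, u k ≤ 2 * d) → Cert Up d lam x0 (2 * d) h g w u) :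
    ∃ n, J chi (gw q lam d n) < x0 := by
  -- a common bound for the Jensen family
  choose K hK hb using fun a => (hw a).bdd
  set Y : ℝ := 2 * d + d * ∑ a, K a with hY
  have hsum : ∀ a, K a ≤ ∑ a, K a := fun a =>
    Finset.single_le_sum (f := K) (fun a _ => hK a) (Finset.mem_univ a)
  have hS : 0 ≤ ∑ a, K a := Finset.sum_nonneg fun a _ => hK a
  have hJr : ∀ φ : (Fin q → ℝ) → ℝ, LMul.{0} φ → ∀ n,
      d * (1 - J φ (fun o => W lam (gw q lam d n o))) ≤ 2 * d := fun φ hφ n => by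
    have := (abs_le.1 (hφ.abs_J_le_one ((gw_isChan hl hd n).edge hl))).1
    have h1 := mul_le_mul_of_nonneg_left (show 1 - J φ (fun o => W lam (gw q lam d n o)) ≤ 2 by
      linarith) hd
    linarith
  refine windows_core (fun n => gw_isChan hl hd n) (fun n => cxLe_gw_succ hl hd n) hl hd
    continuous_Up (fun φ hφ n => ?_) (fun B _ => ⟨Real.exp (-B), fun y _ => Up_tangent B y⟩)
    (Y := Y) hh hg hw ch cg cw (fun j n => hJr _ (hh j) n) (fun a f hf hf1 => ?_)
    (fun a n => (hJr _ (hw a) n).trans ?_) H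
  · rw [hφ.J_gw_succ hl hd]
    unfold Up
    congr 2
    ring
  · have h1 := (abs_le.1 (hb a (W lam f) (W_nonneg hl hf))).1
    rw [avg_W, hf1, mul_one] at h1
    have h2 : d * (1 - w a (W lam f)) ≤ d * (1 + ∑ a, K a) :=
      mul_le_mul_of_nonneg_left (by linarith [hsum a]) hd
    rw [hY]
    linarith
  · rw [hY]
    have := mul_nonneg hd hS
    linarith

/-! ### regular trees -/

/-- `1 - (1 - B / b) ^ b` -/
noncomputable def Ub (b : ℕ) (B : ℝ) : ℝ := 1 - (1 - B / b) ^ b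

lemma continuous_Ub (b : ℕ) : Continuous (Ub b) := by unfold Ub; fun_prop

lemma Ub_tangent {b : ℕ} (hb : b ≠ 0) {c B : ℝ} (hc : c ≤ b) (hB : B ≤ b) :
    Ub b B ≤ Ub b c + (1 - c / b) ^ (b - 1) * (B - c) := by
  have hb' : (0 : ℝ) < b := by exact_mod_cast Nat.pos_of_ne_zero hb
  have hx : 0 ≤ 1 - B / b := by
    rw [sub_nonneg, div_le_one hb']; exact hB
  have hy : 0 ≤ 1 - c / b := by
    rw [sub_nonneg, div_le_one hb']; exact hc
  have key : ∀ x y : ℝ, 0 ≤ x → 0 ≤ y → y ^ b + b * y ^ (b - 1) * (x - y) ≤ x ^ b := by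
    intro x y hx hy
    have hcv := (convexOn_pow (𝕜 := ℝ) b)
    rcases hy.eq_or_lt with h0 | h0
    · rw [← h0]
      rcases Nat.lt_or_ge 1 b with h1 | h1
      · have : b - 1 ≠ 0 := by omega
        rw [zero_pow hb, zero_pow this]
        have := pow_nonneg hx b
        linarith
      · have : b = 1 := by omega
        subst this
        simp
    · -- Bernoulli
      have hz : -2 ≤ x / y - 1 := by
        have := div_nonneg hx h0.le
        linarith
      have h3 := one_add_mul_le_pow hz b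
      have h4 : (1 + (x / y - 1)) ^ b = x ^ b / y ^ b := by
        rw [show 1 + (x / y - 1) = x / y by ring, div_pow]
      rw [h4] at h3
      have h5 : 0 < y ^ b := pow_pos h0 b
      have h6 : y ^ b = y * y ^ (b - 1) := by
        rw [← pow_succ']
        congr 1
        omega
      have h7 := mul_le_mul_of_nonneg_left h3 h5.le
      have h8 : y ^ b * (x ^ b / y ^ b) = x ^ b := by field_simp
      rw [h8] at h7
      have h9 : y ^ b * (1 + b * (x / y - 1)) = y ^ b + b * y ^ (b - 1) * (x - y) := by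
        rw [h6]; field_simp
      linarith
  have h := key _ _ hx hy
  unfold Ub
  have e : (b : ℝ) * (1 - c / b) ^ (b - 1) * ((1 - B / b) - (1 - c / b)) =
      -((1 - c / b) ^ (b - 1) * (B - c)) := by
    field_simp
    ring
  rw [e] at h
  linarith

/-- the window theorem for regular trees; all functionals are nonnegative after an edge -/
theorem exists_lt_reg_windows [NeZero q] {ι κ γ : Type} [Fintype ι] [Fintype κ] [Fintype γ]
    {lam x0 : ℝ} {b : ℕ} (hb : b ≠ 0) (hl : Adm q lam)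
    {h : ι → (Fin q → ℝ) → ℝ} {g : κ → (Fin q → ℝ) → ℝ} {w : γ → (Fin q → ℝ) → ℝ}
    (hh : ∀ j, LMul.{0} (h j)) (hg : ∀ k, LMul.{0} (g k)) (hw : ∀ a, LMul.{0} (w a))
    (ch : ∀ j, ContinuousOn (h j) {v | ∀ i, 0 ≤ v i})
    (cg : ∀ j, ContinuousOn (g j) {v | ∀ i, 0 ≤ v i})
    (cw : ∀ j, ContinuousOn (w j) {v | ∀ i, 0 ≤ v i})
    (ph : ∀ j, ∀ f : Fin q → ℝ, (∀ i, 0 ≤ f i) → 0 ≤ h j (W lam f))
    (pw : ∀ j, ∀ f : Fin q → ℝ, (∀ i, 0 ≤ f i) → 0 ≤ w j (W lam f))
    (H : ∀ u : κ → ℝ, (∀ k, 0 ≤ u k) → (∀ k, u k ≤ 2 * b) → Cert (Ub b) b lam x0 b h g w u) :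
    ∃ n, J chi (reg q b lam n) < x0 := by
  have hb' : (0 : ℝ) < b := by exact_mod_cast Nat.pos_of_ne_zero hb
  have hJ : ∀ φ : (Fin q → ℝ) → ℝ, (∀ f : Fin q → ℝ, (∀ i, 0 ≤ f i) → 0 ≤ φ (W lam f)) → ∀ n,
      (b : ℝ) * (1 - J φ (fun o => W lam (reg q b lam n o))) ≤ b := fun φ hφ n => by
    have h1 : 0 ≤ J φ (fun o => W lam (reg q b lam n o)) :=
      tsum_nonneg fun o => hφ _ ((reg_isChan b hl n).nonneg o)
    have h2 := mul_nonneg hb'.le h1
    linarith
  refine windows_core (fun n => reg_isChan b hl n) (fun n => cxLe_reg_succ b hl n) hl hb'.le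
    (continuous_Ub b) (fun φ hφ n => ?_)
    (fun B hB => ⟨(1 - B / b) ^ (b - 1), fun y hy => Ub_tangent hb hB hy⟩)
    (Y := b) hh hg hw ch cg cw (fun j n => hJ _ (ph j) n) (fun a f hf hf1 => ?_)
    (fun a n => hJ _ (pw a) n) H
  · rw [hφ.J_reg_succ b hl]
    unfold Ub
    rw [mul_div_cancel_left₀ _ hb'.ne', sub_sub_cancel]
  · have h2 := mul_nonneg hb'.le (pw a f hf)
    linarith

end Crest.Agent.R163
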