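import Crest.Agent.R163.Window

/-!
Row 163: the window theorem for regular trees with an even branching number, without positivity
of the functionals on the message side.
-/

set_option autoImplicit false

namespace Crest.Agent.R163

open Crest.ProbabilityR.Broadcast

variable {q : ℕ}

/-- tangent of an even power, everywhere -/
lemma even_pow_tangent {b : ℕ} (hb : Even b) (x y : ℝ) :
    y ^ b + b * y ^ (b - 1) * (x - y) ≤ x ^ b := by
  rcases Nat.eq_zero_or_pos b with h0 | h0
  · subst h0; simp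
  have key : ∀ x y : ℝ, 0 < y → y ^ b + b * y ^ (b - 1) * (x - y) ≤ x ^ b := by
    intro x y hy
    have h5 : 0 < y ^ b := pow_pos hy b
    have h6 : y ^ b = y * y ^ (b - 1) := by
      rw [← pow_succ']
      congr 1
      omega
    have h9 : y ^ b * (1 + b * (x / y - 1)) = y ^ b + b * y ^ (b - 1) * (x - y) := by
      rw [h6]; field_simp
    have h8 : y ^ b * (x / y) ^ b = x ^ b := by
      rw [div_pow]; field_simp
    have h3 : 1 + (b : ℝ) * (x / y - 1) ≤ (x / y) ^ b := by
      rcases le_total (-2) (x / y - 1) with h | h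
      · have := one_add_mul_le_pow h b
        rwa [show 1 + (x / y - 1) = x / y by ring] at this
      · have h1 : (1 : ℝ) ≤ b := by exact_mod_cast h0
        have h2 : (b : ℝ) * (x / y - 1) ≤ b * (-2) := mul_le_mul_of_nonneg_left h (by linarith)
        have h4 : 0 ≤ (x / y) ^ b := hb.pow_nonneg _
        linarith
    have h7 := mul_le_mul_of_nonneg_left h3 h5.le
    rw [h9, h8] at h7
    exact h7
  rcases lt_trichotomy y 0 with hy | hy | hy
  · have h := key (-x) (-y) (by linarith)
    rw [hb.neg_pow, hb.neg_pow] at h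
    have hodd : Odd (b - 1) := Nat.Even.sub_odd (by omega) hb odd_one
    rw [hodd.neg_pow] at h
    linarith
  · subst hy
    rcases Nat.lt_or_ge 1 b with h1 | h1
    · have : b - 1 ≠ 0 := by omega
      rw [zero_pow (by omega), zero_pow this]
      have := hb.pow_nonneg x
      linarith
    · have : b = 1 := by omega
      subst this
      exact absurd hb (by decide)
  · exact key x y hy

lemma Ub_tangent_even {b : ℕ} (h0 : b ≠ 0) (hb : Even b) (c B : ℝ) :
    Ub b B ≤ Ub b c + (1 - c / b) ^ (b - 1) * (B - c) := by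
  have hb' : (0 : ℝ) < b := by exact_mod_cast Nat.pos_of_ne_zero h0
  have h := even_pow_tangent hb (1 - B / b) (1 - c / b)
  unfold Ub
  have e : (b : ℝ) * (1 - c / b) ^ (b - 1) * ((1 - B / b) - (1 - c / b)) =
      -((1 - c / b) ^ (b - 1) * (B - c)) := by
    field_simp
    ring
  rw [e] at h
  linarith

/-- the window theorem for regular trees with `b` even; no positivity needed -/
theorem exists_lt_reg_windows_even [NeZero q] {ι κ γ : Type} [Fintype ι] [Fintype κ] [Fintype γ]
    {lam x0 : ℝ} {b : ℕ} (h0 : b ≠ 0) (hb : Even b) (hl : Adm q lam)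
    {h : ι → (Fin q → ℝ) → ℝ} {g : κ → (Fin q → ℝ) → ℝ} {w : γ → (Fin q → ℝ) → ℝ}
    (hh : ∀ j, LMul.{0} (h j)) (hg : ∀ k, LMul.{0} (g k)) (hw : ∀ a, LMul.{0} (w a))
    (ch : ∀ j, ContinuousOn (h j) {v | ∀ i, 0 ≤ v i})
    (cg : ∀ j, ContinuousOn (g j) {v | ∀ i, 0 ≤ v i})
    (cw : ∀ j, ContinuousOn (w j) {v | ∀ i, 0 ≤ v i})
    (H : ∀ u : κ → ℝ, (∀ k, 0 ≤ u k) → (∀ k, u k ≤ 2 * b) →
      Cert (Ub b) b lam x0 (2 * b) h g w u) :
    ∃ n, J chi (reg q b lam n) < x0 := by
  have hb' : (0 : ℝ) < b := by exact_mod_cast Nat.pos_of_ne_zero h0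
  choose K hK hbd using fun a => (hw a).bdd
  set Y : ℝ := 2 * b + b * ∑ a, K a with hY
  have hsum : ∀ a, K a ≤ ∑ a, K a := fun a =>
    Finset.single_le_sum (f := K) (fun a _ => hK a) (Finset.mem_univ a)
  have hS : 0 ≤ ∑ a, K a := Finset.sum_nonneg fun a _ => hK a
  have hJr : ∀ φ : (Fin q → ℝ) → ℝ, LMul.{0} φ → ∀ n,
      (b : ℝ) * (1 - J φ (fun o => W lam (reg q b lam n o))) ≤ 2 * b := fun φ hφ n => by
    have := (abs_le.1 (hφ.abs_J_le_one ((reg_isChan b hl n).edge hl))).1
    have h1 := mul_le_mul_of_nonneg_left (show 1 - J φ (fun o => W lam (reg q b lam n o)) ≤ 2 by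
      linarith) hb'.le
    linarith
  refine windows_core (fun n => reg_isChan b hl n) (fun n => cxLe_reg_succ b hl n) hl hb'.le
    (continuous_Ub b) (fun φ hφ n => ?_)
    (fun B _ => ⟨(1 - B / b) ^ (b - 1), fun y _ => Ub_tangent_even h0 hb B y⟩)
    (Y := Y) hh hg hw ch cg cw (fun j n => hJr _ (hh j) n) (fun a f hf hf1 => ?_)
    (fun a n => (hJr _ (hw a) n).trans ?_) H
  · rw [hφ.J_reg_succ b hl]
    unfold Ub
    rw [mul_div_cancel_left₀ _ hb'.ne', sub_sub_cancel]
  · have h1 := (abs_le.1 (hbd a (W lam f) (W_nonneg hl hf))).1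
    rw [avg_W, hf1, mul_one] at h1
    have h2 : (b : ℝ) * (1 - w a (W lam f)) ≤ b * (1 + ∑ a, K a) :=
      mul_le_mul_of_nonneg_left (by linarith [hsum a]) hb'.le
    rw [hY]
    linarith
  · rw [hY]
    have := mul_nonneg hb'.le hS
    linarith

end Crest.Agent.R163
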